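import Vale.Agent.P136.MathlibUsed

set_option linter.all false

section

section

open MeasureTheory
open scoped ContDiff

namespace Vale.Agent.P136

/-- Three dimensional Euclidean space. -/
abbrev E3 := EuclideanSpace ℝ (Fin 3)

/-- The `i`-th coordinate direction. -/
noncomputable def bv (i : Fin 3) : E3 := EuclideanSpace.single i 1

/-- Partial derivative in the `i`-th coordinate direction. -/
noncomputable def pd {F : Type*} [NormedAddCommGroup F] [NormedSpace ℝ F]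
    (i : Fin 3) (f : E3 → F) (x : E3) : F := fderiv ℝ f x (bv i)

section pd

variable {F : Type*} [NormedAddCommGroup F] [NormedSpace ℝ F]

lemma pd_contDiff_infty {f : E3 → F} (hf : ContDiff ℝ ∞ f) (i : Fin 3) :
    ContDiff ℝ ∞ (pd i f) := by
  have h : ContDiff ℝ ∞ (fderiv ℝ f) := hf.fderiv_right (by norm_cast)
  exact h.clm_apply contDiff_const

lemma pd_hasCompactSupport {f : E3 → F} (hf : HasCompactSupport f) (i : Fin 3) :
    HasCompactSupport (pd i f) := hf.fderiv_apply (𝕜 := ℝ) (bv i)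

lemma pd_continuous {f : E3 → F} (hf : ContDiff ℝ 1 f) (i : Fin 3) :
    Continuous (pd i f) := by
  have h : Continuous (fderiv ℝ f) := hf.continuous_fderiv (by norm_num)
  exact h.clm_apply continuous_const

lemma pd_comm {f : E3 → F} (hf : ContDiff ℝ 2 f) (i j : Fin 3) :
    pd i (pd j f) = pd j (pd i f) := by
  funext x
  have hd : DifferentiableAt ℝ (fderiv ℝ f) x :=
    ((hf.fderiv_right (m := 1) (by norm_num)).differentiable (by norm_num)) x
  have h1 : ∀ k l : Fin 3, pd k (pd l f) x = fderiv ℝ (fderiv ℝ f) x (bv k) (bv l) := by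
    intro k l
    unfold pd
    rw [fderiv_clm_apply hd (differentiableAt_const _)]
    simp
  rw [h1, h1]
  have := (hf.contDiffAt (x := x)).isSymmSndFDerivAt (by simp)
  exact this _ _

end pd

end Vale.Agent.P136
end
end

section

section

open MeasureTheory Filter Topology
open scoped ContDiff

namespace Vale.Agent.P136

/-- A bounded connected open subset of `ℝ³` whose boundary is smooth: near each boundary
point it is the set where a smooth function with nonzero differential is negative. -/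
structure SmoothDomain (Ω : Set E3) : Prop where
  isOpen : IsOpen Ω
  isBounded : Bornology.IsBounded Ω
  isConnected : IsConnected Ω
  smooth_boundary : ∀ x ∈ frontier Ω, ∃ (U : Set E3) (ρ : E3 → ℝ), IsOpen U ∧ x ∈ U ∧
    ContDiff ℝ ∞ ρ ∧ fderiv ℝ ρ x ≠ 0 ∧ Ω ∩ U = {y ∈ U | ρ y < 0}

/-- Scalar test functions with compact support inside `Ω`. -/
def IsTest (Ω : Set E3) (φ : E3 → ℝ) : Prop :=
  ContDiff ℝ ∞ φ ∧ HasCompactSupport φ ∧ tsupport φ ⊆ Ω

/-- An element of the Sobolev space `H¹(Ω; ℝ³)`: a square integrable field `val` together with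
its square integrable weak derivatives, `der i j` being the weak derivative `∂ᵢ uⱼ`. -/
structure H1 (Ω : Set E3) where
  val : Fin 3 → E3 → ℝ
  der : Fin 3 → Fin 3 → E3 → ℝ
  val_mem : ∀ j, MemLp (val j) 2 (volume.restrict Ω)
  der_mem : ∀ i j, MemLp (der i j) 2 (volume.restrict Ω)
  weak : ∀ i j, ∀ φ : E3 → ℝ, IsTest Ω φ →
    ∫ x in Ω, val j x * pd i φ x = - ∫ x in Ω, der i j x * φ x

/-- Two elements of `H¹(Ω; ℝ³)` have the same boundary value: their difference lies in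
`H¹₀(Ω; ℝ³)`, the closure of the smooth fields with compact support in `Ω`. -/
def SameTrace {Ω : Set E3} (u f : H1 Ω) : Prop :=
  ∃ φ : ℕ → Fin 3 → E3 → ℝ, (∀ n j, IsTest Ω (φ n j)) ∧
    (∀ j, Tendsto (fun n => ∫ x in Ω, (u.val j x - f.val j x - φ n j x) ^ 2) atTop (𝓝 0)) ∧
    (∀ i j, Tendsto (fun n => ∫ x in Ω, (u.der i j x - f.der i j x - pd i (φ n j) x) ^ 2)
      atTop (𝓝 0))

/-- The elastic bilinear form `∫_Ω λ (div u)(div v) + 2 μ e(u) : e(v)`, as a function of the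
gradients `G i j = ∂ᵢ uⱼ` and `H i j = ∂ᵢ vⱼ`. -/
noncomputable def form (Ω : Set E3) (lam mu : E3 → ℝ) (G H : Fin 3 → Fin 3 → E3 → ℝ) : ℝ :=
  ∫ x in Ω, (lam x * ((∑ i, G i i x) * ∑ i, H i i x) +
    2 * mu x * ∑ i, ∑ j, ((G i j x + G j i x) / 2) * ((H i j x + H j i x) / 2))

/-- `u` is a weak solution of the Lame system `div (λ (div u) I + 2 μ e(u)) = 0` in `Ω`. -/
def WeakSol {Ω : Set E3} (lam mu : E3 → ℝ) (u : H1 Ω) : Prop :=
  ∀ φ : Fin 3 → E3 → ℝ, (∀ j, IsTest Ω (φ j)) →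
    form Ω lam mu u.der (fun i j => pd i (φ j)) = 0

/-- The displacement-to-traction map: `DN Ω lam mu f g r` says that `⟨Λ f, g⟩ = r`, where the
boundary values are those of `f, g ∈ H¹(Ω; ℝ³)`. -/
def DN (Ω : Set E3) (lam mu : E3 → ℝ) (f g : H1 Ω) (r : ℝ) : Prop :=
  ∃ u : H1 Ω, SameTrace u f ∧ WeakSol lam mu u ∧ r = form Ω lam mu u.der g.der

/-- Equality of the two displacement-to-traction maps. -/
def SameDN (Ω : Set E3) (lam₁ mu₁ lam₂ mu₂ : E3 → ℝ) : Prop :=
  ∀ (f g : H1 Ω) (r : ℝ), DN Ω lam₁ mu₁ f g r ↔ DN Ω lam₂ mu₂ f g r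

/-- Admissible pairs of Lame moduli: smooth, with `μ > 0` and `3 λ + 2 μ > 0` on the closure. -/
structure Admissible (Ω : Set E3) (lam mu : E3 → ℝ) : Prop where
  lam_smooth : ContDiff ℝ ∞ lam
  mu_smooth : ContDiff ℝ ∞ mu
  mu_pos : ∀ x ∈ closure Ω, 0 < mu x
  bulk_pos : ∀ x ∈ closure Ω, 0 < 3 * lam x + 2 * mu x

end Vale.Agent.P136
end
end

section

section

open MeasureTheory
open scoped ContDiff InnerProductSpace

namespace Vale.Agent.P136

/-- Directional derivative. -/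
noncomputable def dd {F : Type*} [NormedAddCommGroup F] [NormedSpace ℝ F]
    (e : E3) (f : E3 → F) (x : E3) : F := fderiv ℝ f x e

/-- The Laplacian as a sum of second partial derivatives. -/
noncomputable def lap {F : Type*} [NormedAddCommGroup F] [NormedSpace ℝ F]
    (f : E3 → F) (x : E3) : F := ∑ i : Fin 3, pd i (pd i f) x

lemma pd_eq_dd {F : Type*} [NormedAddCommGroup F] [NormedSpace ℝ F]
    (i : Fin 3) (f : E3 → F) : pd i f = dd (bv i) f := rfl

lemma inner_bv (e : E3) (i : Fin 3) : ⟪e, bv i⟫_ℝ = e i := by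
  unfold bv
  rw [EuclideanSpace.inner_single_right]
  simp

lemma dd_eq_sum {F : Type*} [NormedAddCommGroup F] [NormedSpace ℝ F]
    (e : E3) (f : E3 → F) (x : E3) : dd e f x = ∑ i, e i • pd i f x := by
  unfold dd pd
  have h : e = ∑ i, e i • bv i := by
    ext j
    unfold bv
    simp [Finset.sum_apply, Pi.single_apply]
  conv_lhs => rw [h]
  rw [map_sum]
  simp only [map_smul]

lemma dd_contDiff_infty {F : Type*} [NormedAddCommGroup F] [NormedSpace ℝ F]
    {f : E3 → F} (hf : ContDiff ℝ ∞ f) (e : E3) :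
    ContDiff ℝ ∞ (dd e f) := by
  have h : ContDiff ℝ ∞ (fderiv ℝ f) := hf.fderiv_right (by norm_cast)
  exact h.clm_apply contDiff_const

lemma dd_hasCompactSupport {F : Type*} [NormedAddCommGroup F] [NormedSpace ℝ F]
    {f : E3 → F} (hf : HasCompactSupport f) (e : E3) :
    HasCompactSupport (dd e f) := hf.fderiv_apply (𝕜 := ℝ) e

lemma dd_comm {F : Type*} [NormedAddCommGroup F] [NormedSpace ℝ F]
    {f : E3 → F} (hf : ContDiff ℝ 2 f) (e e' : E3) :
    dd e (dd e' f) = dd e' (dd e f) := by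
  funext x
  have hd : DifferentiableAt ℝ (fderiv ℝ f) x :=
    ((hf.fderiv_right (m := 1) (by norm_num)).differentiable (by norm_num)) x
  have h1 : ∀ k l : E3, dd k (dd l f) x = fderiv ℝ (fderiv ℝ f) x k l := by
    intro k l
    unfold dd
    rw [fderiv_clm_apply hd (differentiableAt_const _)]
    simp
  rw [h1, h1]
  have := (hf.contDiffAt (x := x)).isSymmSndFDerivAt (by simp)
  exact this _ _

lemma dd_mul {f g : E3 → ℝ} {x : E3} (hf : DifferentiableAt ℝ f x)
    (hg : DifferentiableAt ℝ g x) (e : E3) :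
    dd e (fun y => f y * g y) x = dd e f x * g x + f x * dd e g x := by
  unfold dd
  rw [fderiv_fun_mul hf hg]
  simp
  ring

lemma pd_mul {f g : E3 → ℝ} {x : E3} (hf : DifferentiableAt ℝ f x)
    (hg : DifferentiableAt ℝ g x) (i : Fin 3) :
    pd i (fun y => f y * g y) x = pd i f x * g x + f x * pd i g x :=
  dd_mul hf hg (bv i)

lemma cs_sq {f : E3 → ℝ} (hf : HasCompactSupport f) :
    HasCompactSupport (fun x => (f x) ^ 2) := by
  refine hf.mono ?_
  intro x hx
  rw [Function.mem_support] at hx ⊢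
  intro h
  apply hx
  simp [h]

lemma ibp_dd {f g : E3 → ℝ} (hf : ContDiff ℝ 1 f) (hg : ContDiff ℝ 1 g)
    (hc : HasCompactSupport g) (e : E3) :
    ∫ x, f x * dd e g x = - ∫ x, dd e f x * g x := by
  have hf' : Continuous (fun x => fderiv ℝ f x e) :=
    (hf.continuous_fderiv (by norm_num)).clm_apply continuous_const
  have hg' : Continuous (fun x => fderiv ℝ g x e) :=
    (hg.continuous_fderiv (by norm_num)).clm_apply continuous_const
  have hcg' : HasCompactSupport (fun x => fderiv ℝ g x e) := hc.fderiv_apply (𝕜 := ℝ) e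
  apply integral_mul_fderiv_eq_neg_fderiv_mul_of_integrable
  · exact (hf'.mul hg.continuous).integrable_of_hasCompactSupport hc.mul_left
  · exact (hf.continuous.mul hg').integrable_of_hasCompactSupport hcg'.mul_left
  · exact (hf.continuous.mul hg.continuous).integrable_of_hasCompactSupport hc.mul_left
  · intro x _
    exact (hf.differentiable (by norm_num)) x
  · intro x _
    exact (hg.differentiable (by norm_num)) x

lemma ibp {f g : E3 → ℝ} (hf : ContDiff ℝ 1 f) (hg : ContDiff ℝ 1 g)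
    (hc : HasCompactSupport g) (i : Fin 3) :
    ∫ x, f x * pd i g x = - ∫ x, pd i f x * g x :=
  ibp_dd hf hg hc (bv i)

lemma ibp_sq {a h : E3 → ℝ} (ha : ContDiff ℝ ∞ a) (hh : ContDiff ℝ ∞ h)
    (hc : HasCompactSupport h) (e : E3) :
    ∫ x, a x * (h x * dd e h x) = - (1 / 2) * ∫ x, dd e a x * (h x) ^ 2 := by
  have h1 : ContDiff ℝ ∞ (fun x => a x * h x) := ha.mul hh
  have key := ibp_dd (h1.of_le (by norm_cast)) (hh.of_le (by norm_cast)) hc e
  have e1 : ∀ x, dd e (fun y => a y * h y) x * h x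
      = dd e a x * (h x) ^ 2 + a x * (h x * dd e h x) := by
    intro x
    rw [dd_mul ((ha.differentiable (by simp)) x) ((hh.differentiable (by simp)) x)]
    ring
  simp_rw [e1] at key
  have i1 : Integrable (fun x => dd e a x * (h x) ^ 2) :=
    (((dd_contDiff_infty ha e).continuous).mul
      ((hh.continuous).pow 2)).integrable_of_hasCompactSupport
      (HasCompactSupport.mul_left (cs_sq hc))
  have i2 : Integrable (fun x => a x * (h x * dd e h x)) :=
    (ha.continuous.mul (hh.continuous.mul (dd_contDiff_infty hh e).continuous)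
      ).integrable_of_hasCompactSupport (HasCompactSupport.mul_left hc.mul_right)
  rw [integral_add i1 i2] at key
  have e2 : ∫ x, a x * h x * dd e h x = ∫ x, a x * (h x * dd e h x) := by
    congr 1; funext x; ring
  rw [e2] at key
  linarith

lemma int_cc {f : E3 → ℝ} (hf : Continuous f) (hc : HasCompactSupport f) : Integrable f :=
  hf.integrable_of_hasCompactSupport hc

/-- The affine function `q(x) = τ + s ⟪e, x⟫`. -/
noncomputable def qf (e : E3) (τ s : ℝ) (x : E3) : ℝ := τ + s * ⟪e, x⟫_ℝ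

/-- The convexified phase. -/
noncomputable def phase (e : E3) (τ s : ℝ) (x : E3) : ℝ := τ * ⟪e, x⟫_ℝ + s * ⟪e, x⟫_ℝ ^ 2 / 2

lemma inner_contDiff (e : E3) : ContDiff ℝ ∞ (fun x : E3 => ⟪e, x⟫_ℝ) :=
  contDiff_const.inner ℝ contDiff_id

lemma qf_contDiff (e : E3) (τ s : ℝ) : ContDiff ℝ ∞ (qf e τ s) :=
  contDiff_const.add (contDiff_const.mul (inner_contDiff e))

lemma phase_contDiff (e : E3) (τ s : ℝ) : ContDiff ℝ ∞ (phase e τ s) :=
  (contDiff_const.mul (inner_contDiff e)).add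
    ((contDiff_const.mul ((inner_contDiff e).pow 2)).div_const 2)

lemma hasFDerivAt_inner (e x : E3) :
    HasFDerivAt (fun y : E3 => ⟪e, y⟫_ℝ) (innerSL ℝ e) x :=
  (innerSL ℝ e).hasFDerivAt (x := x)

lemma dd_qf (e : E3) (τ s : ℝ) (v x : E3) : dd v (qf e τ s) x = s * ⟪e, v⟫_ℝ := by
  unfold dd
  have h : HasFDerivAt (qf e τ s) (s • innerSL ℝ e) x :=
    ((hasFDerivAt_inner e x).const_mul s).const_add τ
  rw [h.fderiv]
  simp

lemma dd_phase (e : E3) (τ s : ℝ) (v x : E3) :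
    dd v (phase e τ s) x = qf e τ s x * ⟪e, v⟫_ℝ := by
  have h1 := hasFDerivAt_inner e x
  have h3 := (h1.const_mul τ).add (((h1.pow 2).const_mul s).mul_const (1/2 : ℝ))
  have h4 : phase e τ s = ((fun y => τ * ⟪e, y⟫_ℝ) + fun y => s * ⟪e, y⟫_ℝ ^ 2 * (1 / 2)) := by
    funext y
    simp only [phase, Pi.add_apply]
    ring
  unfold dd
  rw [h4, h3.fderiv]
  simp [qf]
  ring

/-- `|∇w|²` -/
noncomputable def gradSq (w : E3 → ℝ) (x : E3) : ℝ := ∑ i : Fin 3, (pd i w x) ^ 2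

lemma gradSq_continuous {w : E3 → ℝ} (hw : ContDiff ℝ ∞ w) : Continuous (gradSq w) := by
  unfold gradSq
  exact continuous_finsetSum _ fun i _ => ((pd_contDiff_infty hw i).continuous).pow 2

lemma lap_contDiff {w : E3 → ℝ} (hw : ContDiff ℝ ∞ w) : ContDiff ℝ ∞ (lap w) := by
  unfold lap
  exact ContDiff.sum fun i _ => pd_contDiff_infty (pd_contDiff_infty hw i) i

lemma gradSq_hasCompactSupport {w : E3 → ℝ} (hc : HasCompactSupport w) :
    HasCompactSupport (gradSq w) := by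
  have : HasCompactSupport (fun x => fderiv ℝ w x) := hc.fderiv (𝕜 := ℝ)
  refine this.mono ?_
  intro x hx
  rw [Function.mem_support] at hx ⊢
  intro h
  apply hx
  simp [gradSq, pd, h]

lemma int_w_lap {w : E3 → ℝ} (hw : ContDiff ℝ ∞ w) (hc : HasCompactSupport w) :
    ∫ x, w x * lap w x = - ∫ x, gradSq w x := by
  have h1 : ∀ i : Fin 3, ∫ x, w x * pd i (pd i w) x = - ∫ x, (pd i w x) ^ 2 := by
    intro i
    have := ibp (f := w) (g := pd i w) (hw.of_le (by norm_cast))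
      ((pd_contDiff_infty hw i).of_le (by norm_cast)) (pd_hasCompactSupport hc i) i
    rw [this]
    congr 1
    congr 1
    funext x
    ring
  have e1 : ∀ x, w x * lap w x = ∑ i : Fin 3, w x * pd i (pd i w) x := by
    intro x; simp [lap, Finset.mul_sum]
  simp_rw [e1]
  rw [integral_finsetSum]
  · rw [Finset.sum_congr rfl fun i _ => h1 i]
    unfold gradSq
    rw [integral_finsetSum]
    · simp
    · intro i _
      exact int_cc (((pd_contDiff_infty hw i).continuous).pow 2)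
        (cs_sq (pd_hasCompactSupport hc i))
  · intro i _
    exact int_cc (hw.continuous.mul (pd_contDiff_infty (pd_contDiff_infty hw i) i).continuous)
      (HasCompactSupport.mul_left (pd_hasCompactSupport (pd_hasCompactSupport hc i) i))

lemma sum_e_pd (e : E3) (w : E3 → ℝ) (x : E3) : ∑ i, e i * pd i w x = dd e w x := by
  rw [dd_eq_sum]; simp

lemma int_q_lap {w : E3 → ℝ} (hw : ContDiff ℝ ∞ w) (hc : HasCompactSupport w) (e : E3)
    (he : ‖e‖ = 1) (τ s : ℝ) :
    ∫ x, qf e τ s x * (lap w x * dd e w x)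
      = - s * (∫ x, (dd e w x) ^ 2) + (s / 2) * ∫ x, gradSq w x := by
  have hq := qf_contDiff e τ s
  have hde := dd_contDiff_infty hw e
  have key : ∀ j : Fin 3, ∫ x, (qf e τ s x * dd e w x) * pd j (pd j w) x
      = - s * (∫ x, e j * (dd e w x * pd j w x)) + (s / 2) * ∫ x, (pd j w x) ^ 2 := by
    intro j
    have hpj := pd_contDiff_infty hw j
    have h1 : ContDiff ℝ ∞ (fun x => qf e τ s x * dd e w x) := hq.mul hde
    have h2 := ibp (f := fun x => qf e τ s x * dd e w x) (g := pd j w)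
      (h1.of_le (by norm_cast)) (hpj.of_le (by norm_cast)) (pd_hasCompactSupport hc j) j
    rw [h2]
    have e1 : ∀ x, pd j (fun y => qf e τ s y * dd e w y) x * pd j w x
        = s * (e j * (dd e w x * pd j w x)) + qf e τ s x * (pd j w x * dd e (pd j w) x) := by
      intro x
      rw [pd_mul ((hq.differentiable (by simp)) x) ((hde.differentiable (by simp)) x)]
      have : pd j (dd e w) x = dd e (pd j w) x := by
        rw [pd_eq_dd, pd_eq_dd, dd_comm (hw.of_le (by norm_cast))]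
      rw [this, pd_eq_dd, dd_qf, inner_bv]
      ring
    simp_rw [e1]
    have i1 : Integrable (fun x => s * (e j * (dd e w x * pd j w x))) :=
      int_cc (continuous_const.mul (continuous_const.mul (hde.continuous.mul hpj.continuous)))
        (HasCompactSupport.mul_left (HasCompactSupport.mul_left
          (HasCompactSupport.mul_left (pd_hasCompactSupport hc j))))
    have i2 : Integrable (fun x => qf e τ s x * (pd j w x * dd e (pd j w) x)) :=
      int_cc (hq.continuous.mul (hpj.continuous.mul (dd_contDiff_infty hpj e).continuous))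
        (HasCompactSupport.mul_left (HasCompactSupport.mul_right (pd_hasCompactSupport hc j)))
    rw [integral_add i1 i2, integral_const_mul, ibp_sq hq hpj (pd_hasCompactSupport hc j) e]
    have e2 : ∀ x, dd e (qf e τ s) x * (pd j w x) ^ 2 = s * (pd j w x) ^ 2 := by
      intro x
      rw [dd_qf, real_inner_self_eq_norm_sq, he]
      ring
    simp_rw [e2]
    simp only [integral_const_mul]
    ring
  have e3 : ∀ x, qf e τ s x * (lap w x * dd e w x)
      = ∑ j : Fin 3, (qf e τ s x * dd e w x) * pd j (pd j w) x := by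
    intro x
    simp only [lap, Finset.sum_mul, Finset.mul_sum]
    apply Finset.sum_congr rfl
    intro j _
    ring
  simp_rw [e3]
  rw [integral_finsetSum]
  · rw [Finset.sum_congr rfl fun j _ => key j]
    rw [Finset.sum_add_distrib, ← Finset.mul_sum, ← Finset.mul_sum]
    rw [← integral_finsetSum, ← integral_finsetSum]
    · congr 1
      congr 1
      congr 1
      funext x
      rw [← sum_e_pd e w x, pow_two, Finset.sum_mul]
      apply Finset.sum_congr rfl
      intro j _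
      rw [sum_e_pd]
      ring
    · intro i _
      exact int_cc (((pd_contDiff_infty hw i).continuous).pow 2)
        (cs_sq (pd_hasCompactSupport hc i))
    · intro i _
      exact int_cc (continuous_const.mul (hde.continuous.mul (pd_contDiff_infty hw i).continuous))
        (HasCompactSupport.mul_left (HasCompactSupport.mul_left (pd_hasCompactSupport hc i)))
  · intro i _
    exact int_cc ((hq.continuous.mul hde.continuous).mul
      (pd_contDiff_infty (pd_contDiff_infty hw i) i).continuous)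
      (HasCompactSupport.mul_left (pd_hasCompactSupport (pd_hasCompactSupport hc i) i))

lemma int_q3 {w : E3 → ℝ} (hw : ContDiff ℝ ∞ w) (hc : HasCompactSupport w) (e : E3)
    (he : ‖e‖ = 1) (τ s : ℝ) :
    ∫ x, (qf e τ s x) ^ 3 * (w x * dd e w x)
      = - (3 * s / 2) * ∫ x, (qf e τ s x) ^ 2 * (w x) ^ 2 := by
  have hq := qf_contDiff e τ s
  rw [ibp_sq (hq.pow 3) hw hc e]
  have e2 : ∀ x, dd e (fun y => (qf e τ s y) ^ 3) x * (w x) ^ 2
      = (3 * s) * ((qf e τ s x) ^ 2 * (w x) ^ 2) := by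
    intro x
    have h1 : dd e (fun y => (qf e τ s y) ^ 3) x = 3 * (qf e τ s x) ^ 2 * dd e (qf e τ s) x := by
      unfold dd
      rw [fderiv_fun_pow 3 ((hq.differentiable (by simp)) x)]
      simp
    rw [h1, dd_qf, real_inner_self_eq_norm_sq, he]
    ring
  have e3 : ∀ x, dd e ((qf e τ s) ^ 3) x * (w x) ^ 2
      = (3 * s) * ((qf e τ s x) ^ 2 * (w x) ^ 2) := e2
  simp_rw [e2]
  simp only [integral_const_mul]
  ring

/-- The symmetric part. -/
noncomputable def Sop (e : E3) (τ s : ℝ) (w : E3 → ℝ) (x : E3) : ℝ :=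
  lap w x + (qf e τ s x) ^ 2 * w x

/-- The antisymmetric part. -/
noncomputable def Aop (e : E3) (τ s : ℝ) (w : E3 → ℝ) (x : E3) : ℝ :=
  - 2 * qf e τ s x * dd e w x - s * w x

lemma lap_hasCompactSupport {w : E3 → ℝ} (hc : HasCompactSupport w) :
    HasCompactSupport (lap w) := by
  have h : lap w = fun x => pd 0 (pd 0 w) x + pd 1 (pd 1 w) x + pd 2 (pd 2 w) x := by
    funext x; simp [lap, Fin.sum_univ_three]
  rw [h]
  exact ((pd_hasCompactSupport (pd_hasCompactSupport hc 0) 0).add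
    (pd_hasCompactSupport (pd_hasCompactSupport hc 1) 1)).add
    (pd_hasCompactSupport (pd_hasCompactSupport hc 2) 2)

lemma Sop_continuous {w : E3 → ℝ} (hw : ContDiff ℝ ∞ w) (e : E3) (τ s : ℝ) :
    Continuous (Sop e τ s w) :=
  (lap_contDiff hw).continuous.add (((qf_contDiff e τ s).continuous.pow 2).mul hw.continuous)

lemma Sop_cs {w : E3 → ℝ} (hc : HasCompactSupport w) (e : E3) (τ s : ℝ) :
    HasCompactSupport (Sop e τ s w) :=
  (lap_hasCompactSupport hc).add (HasCompactSupport.mul_left hc)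

lemma Aop_continuous {w : E3 → ℝ} (hw : ContDiff ℝ ∞ w) (e : E3) (τ s : ℝ) :
    Continuous (Aop e τ s w) :=
  ((continuous_const.mul (qf_contDiff e τ s).continuous).mul
    (dd_contDiff_infty hw e).continuous).sub (continuous_const.mul hw.continuous)

lemma Aop_cs {w : E3 → ℝ} (hc : HasCompactSupport w) (e : E3) (τ s : ℝ) :
    HasCompactSupport (Aop e τ s w) := by
  have h : Aop e τ s w = fun x => (- 2 * qf e τ s x) * dd e w x + (- s) * w x := by
    funext x; simp only [Aop]; ring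
  rw [h]
  exact HasCompactSupport.add (HasCompactSupport.mul_left (dd_hasCompactSupport hc e))
    (HasCompactSupport.mul_left hc)

lemma carleman_identity {w : E3 → ℝ} (hw : ContDiff ℝ ∞ w) (hc : HasCompactSupport w) (e : E3)
    (he : ‖e‖ = 1) (τ s : ℝ) :
    ∫ x, (Sop e τ s w x + Aop e τ s w x) ^ 2
      = (∫ x, (Sop e τ s w x) ^ 2) + (∫ x, (Aop e τ s w x) ^ 2)
        + 4 * s * (∫ x, (dd e w x) ^ 2) + 4 * s * ∫ x, (qf e τ s x) ^ 2 * (w x) ^ 2 := by
  have hq := (qf_contDiff e τ s).continuous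
  have hde := (dd_contDiff_infty hw e).continuous
  have hl := (lap_contDiff hw).continuous
  have hcl := lap_hasCompactSupport hc
  have hwc := hw.continuous
  have i1 : Integrable (fun x => (Sop e τ s w x) ^ 2) :=
    int_cc ((Sop_continuous hw e τ s).pow 2) (cs_sq (Sop_cs hc e τ s))
  have i2 : Integrable (fun x => (Aop e τ s w x) ^ 2) :=
    int_cc ((Aop_continuous hw e τ s).pow 2) (cs_sq (Aop_cs hc e τ s))
  have j1 : Integrable (fun x => qf e τ s x * (lap w x * dd e w x)) :=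
    int_cc (hq.mul (hl.mul hde))
      (HasCompactSupport.mul_left (HasCompactSupport.mul_right hcl))
  have j2 : Integrable (fun x => (qf e τ s x) ^ 3 * (w x * dd e w x)) :=
    int_cc ((hq.pow 3).mul (hwc.mul hde))
      (HasCompactSupport.mul_left (HasCompactSupport.mul_right hc))
  have j3 : Integrable (fun x => w x * lap w x) :=
    int_cc (hwc.mul hl) (HasCompactSupport.mul_right hc)
  have j4 : Integrable (fun x => (qf e τ s x) ^ 2 * (w x) ^ 2) :=
    int_cc ((hq.pow 2).mul (hwc.pow 2)) (HasCompactSupport.mul_left (cs_sq hc))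
  have e1 : ∀ x, (Sop e τ s w x + Aop e τ s w x) ^ 2
      = (Sop e τ s w x) ^ 2 + (Aop e τ s w x) ^ 2
        + ((-4) * (qf e τ s x * (lap w x * dd e w x))
        + (-4) * ((qf e τ s x) ^ 3 * (w x * dd e w x))
        + (-2 * s) * (w x * lap w x)
        + (-2 * s) * ((qf e τ s x) ^ 2 * (w x) ^ 2)) := by
    intro x
    simp only [Sop, Aop]
    ring
  have k1 : Integrable (fun x => (Sop e τ s w x) ^ 2 + (Aop e τ s w x) ^ 2) := i1.add i2
  have l1 : Integrable (fun x => (-4 : ℝ) * (qf e τ s x * (lap w x * dd e w x))) :=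
    j1.const_mul _
  have l2 : Integrable (fun x => (-4 : ℝ) * ((qf e τ s x) ^ 3 * (w x * dd e w x))) :=
    j2.const_mul _
  have l3 : Integrable (fun x => (-2 * s) * (w x * lap w x)) := j3.const_mul _
  have l4 : Integrable (fun x => (-2 * s) * ((qf e τ s x) ^ 2 * (w x) ^ 2)) := j4.const_mul _
  have m1 : Integrable (fun x => (-4 : ℝ) * (qf e τ s x * (lap w x * dd e w x))
    + (-4) * ((qf e τ s x) ^ 3 * (w x * dd e w x))) := l1.add l2
  have m2 : Integrable (fun x => (-4 : ℝ) * (qf e τ s x * (lap w x * dd e w x))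
    + (-4) * ((qf e τ s x) ^ 3 * (w x * dd e w x)) + (-2 * s) * (w x * lap w x)) := m1.add l3
  have m3 : Integrable (fun x => (-4 : ℝ) * (qf e τ s x * (lap w x * dd e w x))
    + (-4) * ((qf e τ s x) ^ 3 * (w x * dd e w x)) + (-2 * s) * (w x * lap w x)
    + (-2 * s) * ((qf e τ s x) ^ 2 * (w x) ^ 2)) := m2.add l4
  simp_rw [e1]
  rw [integral_add k1 m3, integral_add i1 i2, integral_add m2 l4, integral_add m1 l3,
    integral_add l1 l2,
    integral_const_mul, integral_const_mul, integral_const_mul, integral_const_mul,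
    int_q_lap hw hc e he, int_q3 hw hc e he, int_w_lap hw hc]
  ring

lemma carleman_w {w : E3 → ℝ} (hw : ContDiff ℝ ∞ w) (hc : HasCompactSupport w) (e : E3)
    (he : ‖e‖ = 1) {τ s : ℝ} (hs : 0 < s) (hτ : s ≤ τ ^ 2)
    (hq : ∀ x, w x ≠ 0 → τ ^ 2 ≤ 4 * (qf e τ s x) ^ 2) :
    τ ^ 2 * (∫ x, (w x) ^ 2) ≤ (1 / s) * (∫ x, (Sop e τ s w x + Aop e τ s w x) ^ 2) ∧
    (∫ x, (qf e τ s x) ^ 2 * (w x) ^ 2)
      ≤ (1 / (4 * s)) * (∫ x, (Sop e τ s w x + Aop e τ s w x) ^ 2) ∧
    (∫ x, gradSq w x) ≤ (5 / (4 * s)) * (∫ x, (Sop e τ s w x + Aop e τ s w x) ^ 2) := by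
  have hid := carleman_identity hw hc e he τ s
  set X := ∫ x, (Sop e τ s w x + Aop e τ s w x) ^ 2 with hX
  have hqc := (qf_contDiff e τ s).continuous
  have hwc := hw.continuous
  have n1 : 0 ≤ ∫ x, (Sop e τ s w x) ^ 2 := integral_nonneg fun x => sq_nonneg _
  have n2 : 0 ≤ ∫ x, (Aop e τ s w x) ^ 2 := integral_nonneg fun x => sq_nonneg _
  have n3 : 0 ≤ ∫ x, (dd e w x) ^ 2 := integral_nonneg fun x => sq_nonneg _
  have n4 : 0 ≤ ∫ x, (qf e τ s x) ^ 2 * (w x) ^ 2 := integral_nonneg fun x => by positivity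
  have h1 : (∫ x, (Sop e τ s w x) ^ 2) ≤ X := by
    have : 0 ≤ 4 * s * (∫ x, (dd e w x) ^ 2) := by (clear * - hs; positivity)
    have : 0 ≤ 4 * s * ∫ x, (qf e τ s x) ^ 2 * (w x) ^ 2 := by (clear * - hs; positivity)
    linarith
  have h2 : 4 * s * (∫ x, (qf e τ s x) ^ 2 * (w x) ^ 2) ≤ X := by
    have : 0 ≤ 4 * s * (∫ x, (dd e w x) ^ 2) := by (clear * - hs; positivity)
    linarith
  have h3 : (∫ x, (qf e τ s x) ^ 2 * (w x) ^ 2) ≤ (1 / (4 * s)) * X := by
    rw [one_div, ← div_eq_inv_mul, le_div_iff₀ (by positivity)]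
    linarith
  have j4 : Integrable (fun x => (qf e τ s x) ^ 2 * (w x) ^ 2) :=
    int_cc ((hqc.pow 2).mul (hwc.pow 2)) (HasCompactSupport.mul_left (cs_sq hc))
  have j5 : Integrable (fun x => (w x) ^ 2) := int_cc (hwc.pow 2) (cs_sq hc)
  have h4 : τ ^ 2 * (∫ x, (w x) ^ 2) ≤ 4 * ∫ x, (qf e τ s x) ^ 2 * (w x) ^ 2 := by
    rw [← integral_const_mul, ← integral_const_mul]
    apply integral_mono (j5.const_mul _) (j4.const_mul _)
    intro x
    simp only
    by_cases hx : w x = 0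
    · simp [hx]
    · have := hq x hx
      linarith only [mul_nonneg (sub_nonneg.2 this) (sq_nonneg (w x))]
  have h5 : τ ^ 2 * (∫ x, (w x) ^ 2) ≤ (1 / s) * X := by
    have : (1 / s) * X = 4 * ((1 / (4 * s)) * X) := by field_simp
    rw [this]
    linarith only [h4, h3]
  refine ⟨h5, h3, ?_⟩
  have h6 : ∫ x, gradSq w x
      = (∫ x, (qf e τ s x) ^ 2 * (w x) ^ 2) - ∫ x, w x * Sop e τ s w x := by
    have j6 : Integrable (fun x => w x * Sop e τ s w x) :=
      int_cc (hwc.mul (Sop_continuous hw e τ s)) (HasCompactSupport.mul_right hc)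
    rw [← integral_sub j4 j6]
    have := int_w_lap hw hc
    have h7 : ∫ x, gradSq w x = - ∫ x, w x * lap w x := by linarith
    rw [h7, ← integral_neg]
    congr 1
    funext x
    simp only [Sop]
    ring
  have h8 : - (∫ x, w x * Sop e τ s w x)
      ≤ (s / 2) * (∫ x, (w x) ^ 2) + (1 / (2 * s)) * (∫ x, (Sop e τ s w x) ^ 2) := by
    have j7 : Integrable (fun x => (Sop e τ s w x) ^ 2) :=
      int_cc ((Sop_continuous hw e τ s).pow 2) (cs_sq (Sop_cs hc e τ s))
    have j6 : Integrable (fun x => w x * Sop e τ s w x) :=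
      int_cc (hwc.mul (Sop_continuous hw e τ s)) (HasCompactSupport.mul_right hc)
    rw [← integral_neg, ← integral_const_mul, ← integral_const_mul,
      ← integral_add (j5.const_mul _) (j7.const_mul _)]
    apply integral_mono j6.neg ((j5.const_mul _).add (j7.const_mul _))
    intro x
    simp only [Pi.neg_apply, Pi.add_apply]
    have : (s / 2) * (w x) ^ 2 + (1 / (2 * s)) * (Sop e τ s w x) ^ 2 + w x * Sop e τ s w x
        = (1 / (2 * s)) * (s * w x + Sop e τ s w x) ^ 2 := by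
      field_simp
      ring
    have h9 : 0 ≤ (1 / (2 * s)) * (s * w x + Sop e τ s w x) ^ 2 := by (clear * - hs; positivity)
    linarith only [h9, this]
  have hw2 : 0 ≤ ∫ x, (w x) ^ 2 := integral_nonneg fun x => sq_nonneg _
  have h10 : (s / 2) * (∫ x, (w x) ^ 2) ≤ (1 / (2 * s)) * X := by
    have : s * (∫ x, (w x) ^ 2) ≤ (1 / s) * X := le_trans (by gcongr) h5
    have e : (1 / (2 * s)) * X = ((1 / s) * X) / 2 := by field_simp
    rw [e]
    linarith only [this]
  have h11 : (1 / (2 * s)) * (∫ x, (Sop e τ s w x) ^ 2) ≤ (1 / (2 * s)) * X := by gcongr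
  rw [h6]
  have e5 : (5 / (4 * s)) * X = (1 / (4 * s)) * X + (1 / (2 * s)) * X + (1 / (2 * s)) * X := by
    field_simp
    ring
  rw [e5]
  linarith only [h11, h10, h8, h3]

/-- conjugated function `exp(phase) f`. -/
noncomputable def conj (e : E3) (τ s : ℝ) (f : E3 → ℝ) (x : E3) : ℝ :=
  Real.exp (phase e τ s x) * f x

lemma conj_contDiff {f : E3 → ℝ} (hf : ContDiff ℝ ∞ f) (e : E3) (τ s : ℝ) :
    ContDiff ℝ ∞ (conj e τ s f) :=
  (Real.contDiff_exp.comp (phase_contDiff e τ s)).mul hf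

lemma conj_cs {f : E3 → ℝ} (hc : HasCompactSupport f) (e : E3) (τ s : ℝ) :
    HasCompactSupport (conj e τ s f) := HasCompactSupport.mul_left hc

lemma dd_exp_phase (e : E3) (τ s : ℝ) (v x : E3) :
    dd v (fun y => Real.exp (phase e τ s y)) x
      = Real.exp (phase e τ s x) * (qf e τ s x * ⟪e, v⟫_ℝ) := by
  have h : HasFDerivAt (phase e τ s) (fderiv ℝ (phase e τ s) x) x :=
    (((phase_contDiff e τ s).differentiable (by simp)) x).hasFDerivAt
  have h2 := h.exp
  unfold dd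
  rw [h2.fderiv]
  have := dd_phase e τ s v x
  unfold dd at this
  simp [this]

lemma dd_conj {f : E3 → ℝ} (hf : ContDiff ℝ ∞ f) (e : E3) (τ s : ℝ) (v x : E3) :
    dd v (conj e τ s f) x
      = Real.exp (phase e τ s x) * (dd v f x + qf e τ s x * ⟪e, v⟫_ℝ * f x) := by
  have h1 : DifferentiableAt ℝ (fun y => Real.exp (phase e τ s y)) x :=
    ((Real.contDiff_exp.comp (phase_contDiff e τ s)).differentiable (by simp)) x
  unfold conj
  rw [dd_mul h1 ((hf.differentiable (by simp)) x), dd_exp_phase]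
  ring

lemma pd_conj {f : E3 → ℝ} (hf : ContDiff ℝ ∞ f) (e : E3) (τ s : ℝ) (i : Fin 3) (x : E3) :
    pd i (conj e τ s f) x
      = conj e τ s (fun y => pd i f y + e i * (qf e τ s y * f y)) x := by
  rw [pd_eq_dd, dd_conj hf, inner_bv]
  unfold conj
  rw [pd_eq_dd]
  ring

lemma lap_conj {f : E3 → ℝ} (hf : ContDiff ℝ ∞ f) (e : E3) (he : ‖e‖ = 1) (τ s : ℝ) (x : E3) :
    lap (conj e τ s f) x
      = Real.exp (phase e τ s x) *
        (lap f x + 2 * qf e τ s x * dd e f x + (s + (qf e τ s x) ^ 2) * f x) := by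
  have hq := qf_contDiff e τ s
  have h1 : ∀ i : Fin 3, pd i (pd i (conj e τ s f)) x
      = Real.exp (phase e τ s x) * (pd i (pd i f) x + e i * (2 * qf e τ s x * pd i f x)
        + (e i) ^ 2 * ((s + (qf e τ s x) ^ 2) * f x)) := by
    intro i
    have e0 : pd i (conj e τ s f) = conj e τ s (fun y => pd i f y + e i * (qf e τ s y * f y)) := by
      funext y; exact pd_conj hf e τ s i y
    have hg : ContDiff ℝ ∞ (fun y => pd i f y + e i * (qf e τ s y * f y)) :=
      (pd_contDiff_infty hf i).add (contDiff_const.mul (hq.mul hf))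
    rw [e0, pd_conj hg]
    unfold conj
    have e1 : pd i (fun y => pd i f y + e i * (qf e τ s y * f y)) x
        = pd i (pd i f) x + e i * (s * e i * f x + qf e τ s x * pd i f x) := by
      have d1 : DifferentiableAt ℝ (pd i f) x :=
        ((pd_contDiff_infty hf i).differentiable (by simp)) x
      have d2 : DifferentiableAt ℝ (fun y => qf e τ s y * f y) x :=
        ((hq.mul hf).differentiable (by simp)) x
      have e2 : pd i (fun y => qf e τ s y * f y) x = s * e i * f x + qf e τ s x * pd i f x := by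
        rw [pd_mul ((hq.differentiable (by simp)) x) ((hf.differentiable (by simp)) x),
          pd_eq_dd, dd_qf, inner_bv, pd_eq_dd]
      rw [← e2]
      have e5 := fderiv_fun_add d1 (d2.const_mul (e i))
      have e6 := fderiv_const_mul d2 (e i)
      rw [e6] at e5
      calc pd i (fun y => pd i f y + e i * (qf e τ s y * f y)) x
          = fderiv ℝ (fun y => pd i f y + e i * (qf e τ s y * f y)) x (bv i) := rfl
        _ = pd i (pd i f) x + e i * pd i (fun y => qf e τ s y * f y) x := by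
            rw [e5]; rfl
    simp only
    rw [e1]
    ring
  unfold lap
  rw [Finset.sum_congr rfl fun i _ => h1 i, ← Finset.mul_sum, Finset.sum_add_distrib,
    Finset.sum_add_distrib, ← Finset.sum_mul]
  have e3 : ∑ i, (e i) ^ 2 = 1 := by
    have := EuclideanSpace.real_norm_sq_eq e
    rw [he] at this
    rw [← this]; norm_num
  have e4 : ∑ i, e i * (2 * qf e τ s x * pd i f x) = 2 * qf e τ s x * dd e f x := by
    rw [← sum_e_pd, Finset.mul_sum]
    apply Finset.sum_congr rfl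
    intro i _
    ring
  rw [e3, e4]
  ring

lemma conj_SA {f : E3 → ℝ} (hf : ContDiff ℝ ∞ f) (e : E3) (he : ‖e‖ = 1) (τ s : ℝ) (x : E3) :
    Sop e τ s (conj e τ s f) x + Aop e τ s (conj e τ s f) x
      = Real.exp (phase e τ s x) * lap f x := by
  unfold Sop Aop
  rw [lap_conj hf e he, dd_conj hf, real_inner_self_eq_norm_sq, he]
  unfold conj
  ring

/-- **Carleman inequality** with convexified linear weight for test functions. -/
theorem carleman_smooth {f : E3 → ℝ} (hf : ContDiff ℝ ∞ f) (hc : HasCompactSupport f) (e : E3)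
    (he : ‖e‖ = 1) {τ s R : ℝ} (hs : 0 < s) (hτ0 : 0 ≤ τ) (hτ : s ≤ τ ^ 2)
    (hR : 2 * s * R ≤ τ) (hsupp : ∀ x, f x ≠ 0 → |⟪e, x⟫_ℝ| ≤ R) :
    τ ^ 2 * (∫ x, Real.exp (2 * phase e τ s x) * (f x) ^ 2)
      + (∫ x, Real.exp (2 * phase e τ s x) * gradSq f x)
      ≤ (4 / s) * ∫ x, Real.exp (2 * phase e τ s x) * (lap f x) ^ 2 := by
  set w := conj e τ s f with hw
  have hwc : ContDiff ℝ ∞ w := conj_contDiff hf e τ s
  have hwcs : HasCompactSupport w := conj_cs hc e τ s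
  have hq : ∀ x, w x ≠ 0 → τ ^ 2 ≤ 4 * (qf e τ s x) ^ 2 := by
    intro x hx
    have hfx : f x ≠ 0 := by
      intro h
      apply hx
      simp [hw, conj, h]
    have h1 := hsupp x hfx
    have h2 : - R ≤ ⟪e, x⟫_ℝ := (abs_le.mp h1).1
    have h3 : τ / 2 ≤ qf e τ s x := by
      unfold qf
      linarith only [mul_nonneg (le_of_lt (sub_pos.2 hs)) (sub_nonneg.2 h2), hR]
    linarith only [mul_nonneg (sub_nonneg.2 h3) (sub_nonneg.2 h3), mul_nonneg (sub_nonneg.2 hτ0) (sub_nonneg.2 h3)]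
  obtain ⟨a1, a2, a3⟩ := carleman_w hwc hwcs e he hs hτ hq
  have hX : (∫ x, (Sop e τ s w x + Aop e τ s w x) ^ 2)
      = ∫ x, Real.exp (2 * phase e τ s x) * (lap f x) ^ 2 := by
    congr 1
    funext x
    rw [hw, conj_SA hf e he, mul_pow, ← Real.exp_nat_mul]
    norm_num
  rw [hX] at a1 a2 a3
  set X := ∫ x, Real.exp (2 * phase e τ s x) * (lap f x) ^ 2 with hXdef
  have b1 : (∫ x, (w x) ^ 2) = ∫ x, Real.exp (2 * phase e τ s x) * (f x) ^ 2 := by
    congr 1
    funext x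
    rw [hw]
    unfold conj
    rw [mul_pow, ← Real.exp_nat_mul]
    norm_num
  have hqc := (qf_contDiff e τ s).continuous
  have hec : Continuous (fun x => Real.exp (2 * phase e τ s x)) :=
    Real.continuous_exp.comp (continuous_const.mul (phase_contDiff e τ s).continuous)
  have b2 : (∫ x, Real.exp (2 * phase e τ s x) * gradSq f x)
      ≤ 2 * (∫ x, gradSq w x) + 2 * ∫ x, (qf e τ s x) ^ 2 * (w x) ^ 2 := by
    have j1 : Integrable (gradSq w) :=
      int_cc (gradSq_continuous hwc) (gradSq_hasCompactSupport hwcs)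
    have j2 : Integrable (fun x => (qf e τ s x) ^ 2 * (w x) ^ 2) :=
      int_cc ((hqc.pow 2).mul (hwc.continuous.pow 2)) (HasCompactSupport.mul_left (cs_sq hwcs))
    have j3 : Integrable (fun x => Real.exp (2 * phase e τ s x) * gradSq f x) :=
      int_cc (hec.mul (gradSq_continuous hf))
        (HasCompactSupport.mul_left (gradSq_hasCompactSupport hc))
    rw [← integral_const_mul, ← integral_const_mul,
      ← integral_add (j1.const_mul _) (j2.const_mul _)]
    apply integral_mono j3 ((j1.const_mul _).add (j2.const_mul _))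
    intro x
    simp only [Pi.add_apply]
    have e1 : ∀ i : Fin 3, Real.exp (phase e τ s x) * pd i f x
        = pd i w x - e i * (qf e τ s x * w x) := by
      intro i
      rw [hw, pd_conj hf]
      unfold conj
      ring
    have e2 : Real.exp (2 * phase e τ s x) * gradSq f x
        = ∑ i : Fin 3, (Real.exp (phase e τ s x) * pd i f x) ^ 2 := by
      unfold gradSq
      rw [Finset.mul_sum]
      apply Finset.sum_congr rfl
      intro i _
      rw [mul_pow, ← Real.exp_nat_mul]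
      norm_num
    have e3 : ∑ i, (e i) ^ 2 = 1 := by
      have := EuclideanSpace.real_norm_sq_eq e
      rw [he] at this
      rw [← this]; norm_num
    rw [e2]
    calc ∑ i : Fin 3, (Real.exp (phase e τ s x) * pd i f x) ^ 2
        ≤ ∑ i : Fin 3, (2 * (pd i w x) ^ 2 + 2 * ((e i) ^ 2 * (qf e τ s x * w x) ^ 2)) := by
          apply Finset.sum_le_sum
          intro i _
          rw [e1 i]
          linarith only [sq_nonneg (pd i w x + e i * (qf e τ s x * w x))]
      _ = 2 * gradSq w x + 2 * ((qf e τ s x) ^ 2 * (w x) ^ 2) := by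
          rw [Finset.sum_add_distrib, ← Finset.mul_sum, ← Finset.mul_sum, ← Finset.sum_mul, e3]
          unfold gradSq
          ring
  rw [← b1]
  have e6 : (4 / s) * X = (1 / s) * X + (2 * ((5 / (4 * s)) * X) + 2 * ((1 / (4 * s)) * X)) := by
    field_simp
    ring
  rw [e6]
  linarith

end Vale.Agent.P136
end
end

section

section

open MeasureTheory Filter Topology
open scoped ContDiff InnerProductSpace ENNReal Convolution

namespace Vale.Agent.P136

/-- A sequence of bump functions shrinking to the origin. -/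
noncomputable def bump (n : ℕ) : ContDiffBump (0 : E3) where
  rIn := 1 / (2 * ((n : ℝ) + 1))
  rOut := 1 / ((n : ℝ) + 1)
  rIn_pos := by positivity
  rIn_lt_rOut := by
    have : (0 : ℝ) < (n : ℝ) + 1 := by positivity
    rw [div_lt_div_iff₀ (by positivity) this]
    linarith

/-- The normalized kernel. -/
noncomputable def ker (n : ℕ) : E3 → ℝ := (bump n).normed volume

/-- Mollification. -/
noncomputable def moll (n : ℕ) (f : E3 → ℝ) (x : E3) : ℝ := ∫ y, ker n (x - y) * f y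

lemma ker_contDiff (n : ℕ) : ContDiff ℝ ∞ (ker n) := (bump n).contDiff_normed

lemma ker_cs (n : ℕ) : HasCompactSupport (ker n) := (bump n).hasCompactSupport_normed

lemma ker_nonneg (n : ℕ) (x : E3) : 0 ≤ ker n x := (bump n).nonneg_normed x

lemma ker_int (n : ℕ) : ∫ x, ker n x = 1 := (bump n).integral_normed

lemma ker_zero {n : ℕ} {x : E3} (hx : 1 / ((n : ℝ) + 1) < ‖x‖) : ker n x = 0 := by
  have h := (bump n).tsupport_normed_eq (μ := volume)
  by_contra hne
  have h2 : x ∈ tsupport ((bump n).normed volume) := subset_tsupport _ hne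
  rw [h, Metric.mem_closedBall, dist_zero_right] at h2
  have : (bump n).rOut = 1 / ((n : ℝ) + 1) := rfl
  linarith

lemma moll_eq_conv (n : ℕ) (f : E3 → ℝ) :
    moll n f = (ker n) ⋆[ContinuousLinearMap.lsmul ℝ ℝ, volume] f := by
  funext x
  rw [convolution_eq_swap]
  simp [moll]

lemma moll_contDiff (n : ℕ) {f : E3 → ℝ} (hf : LocallyIntegrable f) :
    ContDiff ℝ ∞ (moll n f) := by
  rw [moll_eq_conv]
  exact (ker_cs n).contDiff_convolution_left _ (ker_contDiff n) hf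

lemma moll_zero {n : ℕ} {f : E3 → ℝ} {R : ℝ} (hf : ∀ᵐ y : E3, R < ‖y‖ → f y = 0) {x : E3}
    (hx : R + 1 / ((n : ℝ) + 1) < ‖x‖) : moll n f x = 0 := by
  unfold moll
  apply integral_eq_zero_of_ae
  filter_upwards [hf] with y hy
  by_cases h : R < ‖y‖
  · simp [hy h]
  · have : 1 / ((n : ℝ) + 1) < ‖x - y‖ := by
      have := norm_sub_norm_le x y
      linarith only [this, h, hx]
    simp [ker_zero this]

lemma moll_cs {n : ℕ} {f : E3 → ℝ} {R : ℝ} (hf : ∀ᵐ y : E3, R < ‖y‖ → f y = 0) :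
    HasCompactSupport (moll n f) := by
  apply HasCompactSupport.intro (isCompact_closedBall (0 : E3) (R + 1 / ((n : ℝ) + 1)))
  intro x hx
  rw [Metric.mem_closedBall, dist_zero_right, not_le] at hx
  exact moll_zero hf hx

/-- `g` is the weak `i`-th partial derivative of `f`. -/
def WD (i : Fin 3) (f g : E3 → ℝ) : Prop :=
  ∀ φ : E3 → ℝ, ContDiff ℝ ∞ φ → HasCompactSupport φ →
    ∫ x, f x * pd i φ x = - ∫ x, g x * φ x

lemma ker_sub_contDiff (n : ℕ) (x : E3) : ContDiff ℝ ∞ (fun y => ker n (x - y)) :=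
  (ker_contDiff n).comp (contDiff_const.sub contDiff_id)

lemma ker_sub_cs (n : ℕ) (x : E3) : HasCompactSupport (fun y => ker n (x - y)) := by
  apply HasCompactSupport.intro (isCompact_closedBall x (1 / ((n : ℝ) + 1)))
  intro y hy
  rw [Metric.mem_closedBall, dist_eq_norm, not_le, norm_sub_rev] at hy
  exact ker_zero hy

lemma moll_eq_conv' (n : ℕ) (f : E3 → ℝ) :
    moll n f = f ⋆[ContinuousLinearMap.mul ℝ ℝ, volume] (ker n) := by
  funext x
  rw [convolution_def]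
  simp only [moll, ContinuousLinearMap.mul_apply']
  congr 1
  funext t
  ring

lemma moll_pd (n : ℕ) {i : Fin 3} {f g : E3 → ℝ} (hf : LocallyIntegrable f)
    (h : WD i f g) (x : E3) : pd i (moll n f) x = moll n g x := by
  have h1 := (ker_cs n).hasFDerivAt_convolution_right (ContinuousLinearMap.mul ℝ ℝ) hf
    ((ker_contDiff n).of_le (by norm_cast)) x (μ := volume)
  rw [← moll_eq_conv'] at h1
  unfold pd
  rw [h1.fderiv, convolution_precompR_apply _ hf ((ker_cs n).fderiv ℝ)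
    (((ker_contDiff n).of_le (by norm_cast) : ContDiff ℝ 1 (ker n)).continuous_fderiv (by norm_num)),
    convolution_def]
  have h2 := h (fun y => ker n (x - y)) (ker_sub_contDiff n x) (ker_sub_cs n x)
  have h3 : ∀ y, pd i (fun y => ker n (x - y)) y = - fderiv ℝ (ker n) (x - y) (bv i) := by
    intro y
    have hd : HasFDerivAt (ker n) (fderiv ℝ (ker n) (x - y)) (x - y) :=
      (((ker_contDiff n).differentiable (by simp)) (x - y)).hasFDerivAt
    have hs : HasFDerivAt (fun y : E3 => x - y) (-ContinuousLinearMap.id ℝ E3) y :=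
      (hasFDerivAt_id y).const_sub x
    have := hd.comp y hs
    unfold pd
    have e : (fun y => ker n (x - y)) = ker n ∘ (fun y => x - y) := rfl
    rw [e, this.fderiv]
    simp
  simp_rw [h3] at h2
  simp only [mul_neg, integral_neg, neg_inj] at h2
  simp only [ContinuousLinearMap.mul_apply']
  rw [h2]
  unfold moll
  congr 1
  funext y
  ring

lemma cs_lintegral {a b : E3 → ℝ≥0∞} (ha : AEMeasurable a) (hb : AEMeasurable b) :
    (∫⁻ y, a y * b y) ^ 2 ≤ (∫⁻ y, a y) * (∫⁻ y, a y * (b y) ^ 2) := by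
  have h := ENNReal.lintegral_mul_le_Lp_mul_Lq (volume : Measure E3)
    (Real.HolderConjugate.two_two) (f := fun y => (a y) ^ (1/2 : ℝ))
    (g := fun y => (a y) ^ (1/2 : ℝ) * b y) (ha.pow_const _) ((ha.pow_const _).mul hb)
  have e1 : ∀ y, (a y) ^ (1/2 : ℝ) * ((a y) ^ (1/2 : ℝ) * b y) = a y * b y := by
    intro y
    rw [← mul_assoc, ← ENNReal.rpow_add_of_nonneg _ _ (by norm_num) (by norm_num)]
    norm_num
  have e2 : ∀ y, ((a y) ^ (1/2 : ℝ)) ^ (2 : ℝ) = a y := by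
    intro y
    rw [← ENNReal.rpow_mul]
    norm_num
  have e3 : ∀ y, ((a y) ^ (1/2 : ℝ) * b y) ^ (2 : ℝ) = a y * (b y) ^ 2 := by
    intro y
    rw [ENNReal.mul_rpow_of_nonneg _ _ (by norm_num), e2]
    norm_num
  simp only [Pi.mul_apply, e1, e2, e3] at h
  calc (∫⁻ y, a y * b y) ^ 2
      ≤ ((∫⁻ y, a y) ^ (1 / 2 : ℝ) * (∫⁻ y, a y * (b y) ^ 2) ^ (1 / 2 : ℝ)) ^ 2 := by
        gcongr
    _ = (∫⁻ y, a y) * (∫⁻ y, a y * (b y) ^ 2) := by
        rw [mul_pow, ← ENNReal.rpow_natCast, ← ENNReal.rpow_natCast, ← ENNReal.rpow_mul,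
          ← ENNReal.rpow_mul]
        norm_num

lemma ker_lint (n : ℕ) : ∫⁻ x, ‖ker n x‖ₑ = 1 := by
  have h1 : Integrable (ker n) := (ker_contDiff n).continuous.integrable_of_hasCompactSupport
    (ker_cs n)
  have h2 := ofReal_integral_norm_eq_lintegral_enorm h1
  rw [← h2]
  simp_rw [Real.norm_of_nonneg (ker_nonneg n _)]
  rw [ker_int]
  simp

lemma ker_enorm_meas (n : ℕ) : Measurable (fun p : E3 × E3 => ‖ker n (p.1 - p.2)‖ₑ) :=
  (((ker_contDiff n).continuous.comp (continuous_fst.sub continuous_snd)).enorm).measurable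

lemma moll_lint_le (n : ℕ) {f : E3 → ℝ} (hf : AEStronglyMeasurable f volume) :
    ∫⁻ x, ‖moll n f x‖ₑ ^ 2 ≤ ∫⁻ x, ‖f x‖ₑ ^ 2 := by
  have h1 : ∀ x, ‖moll n f x‖ₑ ^ 2 ≤ ∫⁻ y, ‖ker n (x - y)‖ₑ * ‖f y‖ₑ ^ 2 := by
    intro x
    have hm : Measurable (fun y => ‖ker n (x - y)‖ₑ) :=
      (((ker_contDiff n).continuous.comp (continuous_const.sub continuous_id)).enorm).measurable
    calc ‖moll n f x‖ₑ ^ 2 ≤ (∫⁻ y, ‖ker n (x - y)‖ₑ * ‖f y‖ₑ) ^ 2 := by
          gcongr
          refine (enorm_integral_le_lintegral_enorm _).trans ?_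
          simp only [enorm_mul, le_refl]
      _ ≤ (∫⁻ y, ‖ker n (x - y)‖ₑ) * (∫⁻ y, ‖ker n (x - y)‖ₑ * ‖f y‖ₑ ^ 2) :=
          cs_lintegral hm.aemeasurable hf.enorm
      _ = ∫⁻ y, ‖ker n (x - y)‖ₑ * ‖f y‖ₑ ^ 2 := by
          have : ∫⁻ y, ‖ker n (x - y)‖ₑ = 1 := by
            rw [lintegral_sub_left_eq_self (fun y => ‖ker n y‖ₑ) x]
            exact ker_lint n
          rw [this, one_mul]
  calc ∫⁻ x, ‖moll n f x‖ₑ ^ 2 ≤ ∫⁻ x, ∫⁻ y, ‖ker n (x - y)‖ₑ * ‖f y‖ₑ ^ 2 :=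
        lintegral_mono h1
    _ = ∫⁻ y, ∫⁻ x, ‖ker n (x - y)‖ₑ * ‖f y‖ₑ ^ 2 := by
        apply lintegral_lintegral_swap
        apply AEMeasurable.mul (ker_enorm_meas n).aemeasurable
        exact (hf.enorm.pow_const 2).comp_snd
    _ = ∫⁻ y, ‖f y‖ₑ ^ 2 := by
        congr 1
        funext y
        have hm : Measurable (fun x => ‖ker n (x - y)‖ₑ) :=
          (((ker_contDiff n).continuous.comp (continuous_id.sub continuous_const)).enorm).measurable
        rw [lintegral_mul_const _ hm,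
          lintegral_sub_right_eq_self (fun x => ‖ker n x‖ₑ) y, ker_lint, one_mul]

lemma moll_memLp (n : ℕ) {f : E3 → ℝ} (hf : MemLp f 2) : MemLp (moll n f) 2 := by
  have hl : LocallyIntegrable f := hf.locallyIntegrable (by norm_num)
  refine ⟨(moll_contDiff n hl).continuous.aestronglyMeasurable, ?_⟩
  have h := moll_lint_le n hf.1
  rw [eLpNorm_lt_top_iff_lintegral_rpow_enorm_lt_top (by norm_num) (by norm_num)]
  have h2 := hf.2
  rw [eLpNorm_lt_top_iff_lintegral_rpow_enorm_lt_top (by norm_num) (by norm_num)] at h2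
  simp only [ENNReal.toReal_ofNat] at h2 ⊢
  norm_num at h2 ⊢
  exact lt_of_le_of_lt h h2

lemma moll_eLpNorm_le (n : ℕ) {f : E3 → ℝ} (hf : AEStronglyMeasurable f volume) :
    eLpNorm (moll n f) 2 volume ≤ eLpNorm f 2 volume := by
  rw [eLpNorm_eq_lintegral_rpow_enorm_toReal (by norm_num) (by norm_num),
    eLpNorm_eq_lintegral_rpow_enorm_toReal (by norm_num) (by norm_num)]
  have h := moll_lint_le n hf
  apply ENNReal.rpow_le_rpow _ (by norm_num)
  simpa using h

lemma ker_mul_integrable (n : ℕ) {f : E3 → ℝ} (hf : LocallyIntegrable f) (x : E3) :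
    Integrable (fun y => ker n (x - y) * f y) := by
  have := hf.integrable_smul_left_of_hasCompactSupport (ker_sub_contDiff n x).continuous
    (ker_sub_cs n x)
  simpa using this

lemma moll_sub (n : ℕ) {f g : E3 → ℝ} (hf : LocallyIntegrable f) (hg : LocallyIntegrable g)
    (x : E3) : moll n (fun y => f y - g y) x = moll n f x - moll n g x := by
  unfold moll
  rw [← integral_sub (ker_mul_integrable n hf x) (ker_mul_integrable n hg x)]
  congr 1
  funext y
  ring

lemma ker_sub_int (n : ℕ) (x : E3) : ∫ y, ker n (x - y) = 1 := by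
  have h := integral_sub_left_eq_self (ker n) (volume : Measure E3) x
  rw [h]
  exact ker_int n

lemma moll_dist_le (n : ℕ) {g : E3 → ℝ} (hg : Continuous g) {δ η : ℝ} (hδ : 1 / ((n : ℝ) + 1) < δ)
    (hη : ∀ x y, dist x y < δ → |g x - g y| ≤ η) (x : E3) : |moll n g x - g x| ≤ η := by
  have hl : LocallyIntegrable g := hg.locallyIntegrable
  have e1 : moll n g x - g x = ∫ y, ker n (x - y) * (g y - g x) := by
    have : g x = ∫ y, ker n (x - y) * g x := by
      rw [integral_mul_const, ker_sub_int, one_mul]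
    conv_lhs => rw [this]
    unfold moll
    rw [← integral_sub (ker_mul_integrable n hl x)]
    · congr 1
      funext y
      ring
    · exact ((ker_sub_contDiff n x).continuous.integrable_of_hasCompactSupport
        (ker_sub_cs n x)).mul_const _
  rw [e1]
  have hi : Integrable (fun y => ker n (x - y)) :=
    (ker_sub_contDiff n x).continuous.integrable_of_hasCompactSupport (ker_sub_cs n x)
  calc |∫ y, ker n (x - y) * (g y - g x)| ≤ ∫ y, ker n (x - y) * η := by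
        rw [← Real.norm_eq_abs]
        refine norm_integral_le_of_norm_le (hi.mul_const η) ?_
        refine Eventually.of_forall fun y => ?_
        rw [Real.norm_eq_abs, abs_mul, abs_of_nonneg (ker_nonneg n _)]
        by_cases h : dist y x < δ
        · exact mul_le_mul_of_nonneg_left (hη y x h) (ker_nonneg n _)
        · have : ker n (x - y) = 0 := by
            apply ker_zero
            rw [dist_eq_norm, norm_sub_rev] at h
            linarith [not_lt.mp h]
          simp [this]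
    _ = η := by rw [integral_mul_const, ker_sub_int, one_mul]

lemma moll_tendsto_of_test {g : E3 → ℝ} (hg : Continuous g) (hc : HasCompactSupport g) :
    Tendsto (fun n => eLpNorm (fun x => moll n g x - g x) 2 volume) atTop (𝓝 0) := by
  obtain ⟨R, hR⟩ : ∃ R : ℝ, ∀ x, R < ‖x‖ → g x = 0 := by
    obtain ⟨R, hR⟩ := hc.isCompact.isBounded.subset_closedBall (0 : E3)
    refine ⟨R, fun x hx => ?_⟩
    by_contra hne
    have := hR (subset_tsupport g hne)
    rw [Metric.mem_closedBall, dist_zero_right] at this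
    linarith
  have huc : UniformContinuous g := hc.uniformContinuous_of_continuous hg
  set V := volume (Metric.closedBall (0 : E3) (R + 1)) with hV
  have hVt : V ≠ ⊤ := (isCompact_closedBall (0 : E3) (R + 1)).measure_lt_top.ne
  rw [ENNReal.tendsto_nhds_zero]
  intro ε hε
  obtain ⟨η, hη, hηε⟩ : ∃ η : ℝ, 0 < η ∧ ENNReal.ofReal η * V ^ (1 / 2 : ℝ) ≤ ε := by
    have hc : V ^ (1 / 2 : ℝ) ≠ ⊤ := ENNReal.rpow_ne_top_of_nonneg (by norm_num) hVt
    set c := (V ^ (1 / 2 : ℝ)).toReal with hcdef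
    have hc0 : 0 ≤ c := ENNReal.toReal_nonneg
    have hm : min ε 1 ≠ ⊤ := ne_top_of_le_ne_top ENNReal.one_ne_top (min_le_right _ _)
    have hm0 : 0 < (min ε 1).toReal := ENNReal.toReal_pos (lt_min hε one_pos).ne' hm
    refine ⟨(min ε 1).toReal / (c + 1), by positivity, ?_⟩
    rw [← ENNReal.ofReal_toReal hc, ← hcdef, ← ENNReal.ofReal_mul (by positivity)]
    calc ENNReal.ofReal ((min ε 1).toReal / (c + 1) * c) ≤ ENNReal.ofReal ((min ε 1).toReal) := by
          apply ENNReal.ofReal_le_ofReal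
          rw [div_mul_eq_mul_div, div_le_iff₀ (by positivity)]
          linarith only [hm0]
      _ = min ε 1 := ENNReal.ofReal_toReal hm
      _ ≤ ε := min_le_left _ _
  obtain ⟨δ, hδ, hδ2⟩ := Metric.uniformContinuous_iff.mp huc η hη
  have h1 : ∀ᶠ n : ℕ in atTop, 1 / ((n : ℝ) + 1) < δ :=
    tendsto_one_div_add_atTop_nhds_zero_nat.eventually_lt_const hδ
  filter_upwards [h1] with n hn
  have h2 : ∀ x, |moll n g x - g x| ≤ η := by
    apply moll_dist_le n hg hn
    intro x y hxy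
    exact (hδ2 hxy).le
  have h3 : ∀ x, x ∉ Metric.closedBall (0 : E3) (R + 1) → moll n g x - g x = 0 := by
    intro x hx
    rw [Metric.mem_closedBall, dist_zero_right, not_le] at hx
    have h4 : 1 / ((n : ℝ) + 1) ≤ 1 := by
      rw [div_le_one (by (clear * -; positivity))]
      have : (0:ℝ) ≤ n := by positivity
      linarith
    rw [moll_zero (R := R) (Eventually.of_forall hR) (by linarith), hR x (by linarith)]
    simp
  have h5 := eLpNorm_sub_le_of_dist_bdd (volume : Measure E3) (p := 2) (by norm_num)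
    (Metric.isClosed_closedBall (x := (0 : E3)) (ε := R + 1)).measurableSet hη.le
    (f := fun x => moll n g x - g x) (g := fun _ => 0)
    (fun x => by simpa [Real.dist_eq] using h2 x)
    (fun x hx => by by_contra hne; exact hx (h3 x hne))
    (fun x hx => by simp at hx)
  calc eLpNorm (fun x => moll n g x - g x) 2 volume
      = eLpNorm ((fun x => moll n g x - g x) - fun _ => 0) 2 volume := by
        congr 1; funext x; simp
    _ ≤ ENNReal.ofReal η * V ^ (1 / 2 : ℝ) := by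
        simpa only [ENNReal.toReal_ofNat] using h5
    _ ≤ ε := hηε

/-- Mollifications converge in `L²`. -/
theorem moll_tendsto {f : E3 → ℝ} (hf : MemLp f 2) :
    Tendsto (fun n => eLpNorm (fun x => moll n f x - f x) 2 volume) atTop (𝓝 0) := by
  rw [ENNReal.tendsto_nhds_zero]
  intro ε hε
  by_cases hεt : ε = ⊤
  · simp [hεt]
  have hε3 : 0 < (ε / 3).toReal := ENNReal.toReal_pos
    (ENNReal.div_pos hε.ne' (by norm_num)).ne' (ENNReal.div_ne_top hεt (by norm_num))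
  obtain ⟨g, hgc, hgs, hg⟩ := hf.exist_eLpNorm_sub_le (by norm_num) (by norm_num) hε3
  rw [ENNReal.ofReal_toReal (ENNReal.div_ne_top hεt (by norm_num))] at hg
  have h1 := moll_tendsto_of_test hgs.continuous hgc
  rw [ENNReal.tendsto_nhds_zero] at h1
  have hgm : MemLp g 2 := hgs.continuous.memLp_of_hasCompactSupport hgc
  filter_upwards [h1 (ε / 3) (ENNReal.div_pos hε.ne' (by norm_num))] with n hn
  have hlf := hf.locallyIntegrable (by norm_num)
  have hlg := hgm.locallyIntegrable (by norm_num)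
  have e : (fun x => moll n f x - f x)
      = (fun x => moll n (fun y => f y - g y) x) + (fun x => moll n g x - g x)
        - (fun x => f x - g x) := by
    funext x
    simp only [Pi.add_apply, Pi.sub_apply]
    rw [moll_sub n hlf hlg]
    ring
  have hm1 : AEStronglyMeasurable (fun x => moll n (fun y => f y - g y) x) volume :=
    (moll_contDiff n (hlf.sub hlg)).continuous.aestronglyMeasurable
  have hm2 : AEStronglyMeasurable (fun x => moll n g x - g x) volume :=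
    ((moll_contDiff n hlg).continuous.sub hgs.continuous).aestronglyMeasurable
  have hm3 : AEStronglyMeasurable (fun x => f x - g x) volume := (hf.sub hgm).1
  rw [e]
  calc eLpNorm ((fun x => moll n (fun y => f y - g y) x) + (fun x => moll n g x - g x)
        - (fun x => f x - g x)) 2 volume
      ≤ eLpNorm ((fun x => moll n (fun y => f y - g y) x) + (fun x => moll n g x - g x)) 2 volume
        + eLpNorm (fun x => f x - g x) 2 volume := eLpNorm_sub_le (hm1.add hm2) hm3 (by norm_num)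
    _ ≤ (eLpNorm (fun x => moll n (fun y => f y - g y) x) 2 volume
        + eLpNorm (fun x => moll n g x - g x) 2 volume)
        + eLpNorm (fun x => f x - g x) 2 volume := by
          gcongr
          exact eLpNorm_add_le hm1 hm2 (by norm_num)
    _ ≤ (ε / 3 + ε / 3) + ε / 3 := by
          gcongr
          · exact (moll_eLpNorm_le n hm3).trans hg
          · exact hg
    _ = ε := ENNReal.add_thirds ε

end Vale.Agent.P136
end
end

section

section

open MeasureTheory Filter Topology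
open scoped ContDiff InnerProductSpace

namespace Vale.Agent.P136

/-- `ζ · ∇ f`. -/
noncomputable def Dz (ζ : Fin 3 → ℂ) (f : E3 → ℂ) (x : E3) : ℂ := ∑ i, ζ i * pd i f x

/-- `ζ · x`. -/
noncomputable def zx (ζ : Fin 3 → ℂ) (x : E3) : ℂ := ∑ i, ζ i * (x i : ℂ)

/-- bilinear dot product. -/
def dot (ζ ξ : Fin 3 → ℂ) : ℂ := ∑ i, ζ i * ξ i

/-- complexification of a real function -/
noncomputable def cc (f : E3 → ℝ) (x : E3) : ℂ := (f x : ℂ)

/-- twice the Wirtinger derivative in the first variable. -/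
noncomputable def dbar {P : Type*} [NormedAddCommGroup P] [NormedSpace ℝ P]
    (f : ℂ × P → ℂ) (q : ℂ × P) : ℂ :=
  fderiv ℝ f q (1, 0) + Complex.I * fderiv ℝ f q (Complex.I, 0)

/-- a second order system with principal part the Laplacian. -/
noncomputable def sysP {n : ℕ} (A : Fin 3 → Fin n → Fin n → E3 → ℝ)
    (B : Fin n → Fin n → E3 → ℝ) (Ψ : Fin n → E3 → ℝ) (a : Fin n) (x : E3) : ℝ :=
  lap (Ψ a) x + ∑ j, ∑ b, A j a b x * pd j (Ψ b) x + ∑ b, B a b x * Ψ b x

/-- S1: the d-bar equation with parameters. -/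
def S1_statement : Prop :=
  ∀ (P : Type) [NormedAddCommGroup P] [NormedSpace ℝ P] [FiniteDimensional ℝ P] (n : ℕ)
    (N : Fin n → Fin n → ℂ × P → ℂ) (F : Fin n → ℂ × P → ℂ) (e : Fin n → P → ℂ) (R : ℝ),
    (∀ a b, ContDiff ℝ ∞ (N a b)) → (∀ a, ContDiff ℝ ∞ (F a)) → (∀ a, ContDiff ℝ ∞ (e a)) →
    ∃ U : Fin n → ℂ × P → ℂ, (∀ a, ContDiff ℝ ∞ (U a)) ∧
      ∀ (z : ℂ) (p : P), ‖z‖ < R → ‖p‖ < R → ∀ a,
        dbar (U a) (z, p) = ∑ b, N a b (z, p) * U b (z, p) + F a (z, p) ∧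
        U a (0, p) = e a p

/-- the standard parametrization of the null cone -/
noncomputable def zs (s : ℂ) : Fin 3 → ℂ := ![1 - s ^ 2, Complex.I * (1 + s ^ 2), 2 * s]
noncomputable def zs' (s : ℂ) : Fin 3 → ℂ := ![-2 * s, 2 * Complex.I * s, 2]
/-- the other chart -/
noncomputable def zh (s : ℂ) : Fin 3 → ℂ := ![s ^ 2 - 1, Complex.I * (s ^ 2 + 1), 2 * s]
noncomputable def zh' (s : ℂ) : Fin 3 → ℂ := ![2 * s, 2 * Complex.I * s, 2]

/-- S1E: the equation `ζ·∇ U = N U + F` on a ball of `ℝ³`, `ζ` null, prescribed value at `x₀`. -/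
def S1E_statement : Prop :=
  ∀ (ζ : Fin 3 → ℂ), dot ζ ζ = 0 → ζ ≠ 0 → ∀ (n : ℕ)
    (N : Fin n → Fin n → E3 → ℂ) (F : Fin n → E3 → ℂ) (x₀ : E3) (e : Fin n → ℂ) (R : ℝ),
    (∀ a b, ContDiff ℝ ∞ (N a b)) → (∀ a, ContDiff ℝ ∞ (F a)) →
    ∃ U : Fin n → E3 → ℂ, (∀ a, ContDiff ℝ ∞ (U a)) ∧
      (∀ x : E3, ‖x‖ < R → ∀ a, Dz ζ (U a) x = ∑ b, N a b x * U b x + F a x) ∧
      ∀ a, U a x₀ = e a

/-- S1Es: the same with the parameter `s` (for both charts `zz = zs` and `zz = zh`). -/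
def S1Es_statement : Prop :=
  ∀ (zz : ℂ → Fin 3 → ℂ), (zz = zs ∨ zz = zh) → ∀ (n : ℕ)
    (N : Fin n → Fin n → E3 × ℂ → ℂ) (F : Fin n → E3 × ℂ → ℂ) (R : ℝ),
    (∀ a b, ContDiff ℝ ∞ (N a b)) → (∀ a, ContDiff ℝ ∞ (F a)) →
    ∃ U : Fin n → E3 × ℂ → ℂ, (∀ a, ContDiff ℝ ∞ (U a)) ∧
      ∀ (x : E3) (s : ℂ), ‖x‖ < R → ‖s‖ < R → ∀ a,
        Dz (zz s) (fun y => U a (y, s)) x = ∑ b, N a b (x, s) * U b (x, s) + F a (x, s)

/-- AS: approximate solutions of `sysP A B Ψ = F` with exponential weights. -/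
def AS_statement : Prop :=
  ∀ (n : ℕ) (A : Fin 3 → Fin n → Fin n → E3 → ℝ) (B : Fin n → Fin n → E3 → ℝ) (R : ℝ),
    0 < R → (∀ j a b, ContDiff ℝ ∞ (A j a b)) → (∀ a b, ContDiff ℝ ∞ (B a b)) →
    ∃ C τ₀ : ℝ, 0 < C ∧ 0 < τ₀ ∧ ∀ (α : E3) (F : Fin n → E3 → ℝ) (Q : ℝ), τ₀ ≤ ‖α‖ →
      (∀ a, MemLp (F a) 2 (volume : Measure E3)) →
      (∑ a, ∫ x in Metric.ball (0 : E3) (2 * R), Real.exp (-2 * ⟪α, x⟫_ℝ) * (F a x) ^ 2 ≤ Q) →
      ∃ Ψ : ℕ → Fin n → E3 → ℝ, (∀ k a, ContDiff ℝ ∞ (Ψ k a)) ∧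
        (∀ a, Tendsto (fun k => ∫ x in Metric.ball (0 : E3) R,
          (sysP A B (Ψ k) a x - F a x) ^ 2) atTop (𝓝 0)) ∧
        (∀ k a, ‖α‖ ^ 2 * ∫ x in Metric.ball (0 : E3) R,
          Real.exp (-2 * ⟪α, x⟫_ℝ) * (Ψ k a x) ^ 2 ≤ C * Q) ∧
        (∀ k a i, ∫ x in Metric.ball (0 : E3) R,
          Real.exp (-2 * ⟪α, x⟫_ℝ) * (pd i (Ψ k a) x) ^ 2 ≤ C * Q) ∧
        (∀ k a i j, ∫ x in Metric.ball (0 : E3) R,
          Real.exp (-2 * ⟪α, x⟫_ℝ) * (pd i (pd j (Ψ k a)) x) ^ 2 ≤ C * ‖α‖ ^ 2 * Q) ∧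
        (∀ a, Tendsto (fun p : ℕ × ℕ => ∫ x in Metric.ball (0 : E3) R,
          (Ψ p.1 a x - Ψ p.2 a x) ^ 2) atTop (𝓝 0)) ∧
        (∀ a i, Tendsto (fun p : ℕ × ℕ => ∫ x in Metric.ball (0 : E3) R,
          (pd i (Ψ p.1 a) x - pd i (Ψ p.2 a) x) ^ 2) atTop (𝓝 0)) ∧
        (∀ a i j, Tendsto (fun p : ℕ × ℕ => ∫ x in Metric.ball (0 : E3) R,
          (pd i (pd j (Ψ p.1 a)) x - pd i (pd j (Ψ p.2 a)) x) ^ 2) atTop (𝓝 0))

/-- BD1: boundary determination to first order. -/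
def BD1_statement : Prop :=
  ∀ (Ω : Set E3) (lam₁ mu₁ lam₂ mu₂ : E3 → ℝ), SmoothDomain Ω →
    Admissible Ω lam₁ mu₁ → Admissible Ω lam₂ mu₂ → SameDN Ω lam₁ mu₁ lam₂ mu₂ →
    ∀ x ∈ frontier Ω, mu₁ x = mu₂ x ∧ lam₁ x = lam₂ x ∧
      fderiv ℝ mu₁ x = fderiv ℝ mu₂ x ∧ fderiv ℝ lam₁ x = fderiv ℝ lam₂ x

/-- ZERO: weak derivative of a function vanishing on the boundary, extended by zero. -/
def ZERO_statement : Prop :=
  ∀ (Ω : Set E3) (f : E3 → ℂ), IsOpen Ω → Bornology.IsBounded Ω → ContDiff ℝ 1 f →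
    (∀ x ∈ frontier Ω, f x = 0) → ∀ (i : Fin 3) (φ : E3 → ℂ), ContDiff ℝ ∞ φ →
    ∫ x in Ω, f x * pd i φ x = - ∫ x in Ω, pd i f x * φ x


/-- adjoint system -/
noncomputable def adjP {n : ℕ} (A : Fin 3 → Fin n → Fin n → E3 → ℝ)
    (B : Fin n → Fin n → E3 → ℝ) (φ : Fin n → E3 → ℝ) (a : Fin n) (x : E3) : ℝ :=
  lap (φ a) x - ∑ j, ∑ b, pd j (fun y => A j b a y * φ b y) x + ∑ b, B b a x * φ b x

/-- ASweak: weak solution with weights (Carleman estimate + duality). -/
def ASweak_statement : Prop :=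
  ∀ (n : ℕ) (A : Fin 3 → Fin n → Fin n → E3 → ℝ) (B : Fin n → Fin n → E3 → ℝ) (R : ℝ),
    0 < R → (∀ j a b, ContDiff ℝ ∞ (A j a b)) → (∀ a b, ContDiff ℝ ∞ (B a b)) →
    ∃ C τ₀ : ℝ, 0 < C ∧ 0 < τ₀ ∧ ∀ (α : E3) (F : Fin n → E3 → ℝ) (Q : ℝ), τ₀ ≤ ‖α‖ →
      (∀ a, MemLp (F a) 2 (volume : Measure E3)) →
      (∑ a, ∫ x in Metric.ball (0 : E3) (2 * R), Real.exp (-2 * ⟪α, x⟫_ℝ) * (F a x) ^ 2 ≤ Q) →
      ∃ Ψ : Fin n → E3 → ℝ, (∀ a, MemLp (Ψ a) 2 (volume : Measure E3)) ∧
        (∀ a x, x ∉ Metric.ball (0 : E3) (2 * R) → Ψ a x = 0) ∧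
        (‖α‖ ^ 2 * ∑ a, ∫ x, Real.exp (-2 * ⟪α, x⟫_ℝ) * (Ψ a x) ^ 2 ≤ C * Q) ∧
        ∀ φ : Fin n → E3 → ℝ, (∀ a, IsTest (Metric.ball (0 : E3) (2 * R)) (φ a)) →
          ∑ a, ∫ x, Ψ a x * adjP A B φ a x = ∑ a, ∫ x, F a x * φ a x

/-- ASreg: from a weak solution in `L²` to smooth approximations (mollification, Friedrichs
commutators, interior estimates). -/
def ASreg_statement : Prop :=
  ∀ (n : ℕ) (A : Fin 3 → Fin n → Fin n → E3 → ℝ) (B : Fin n → Fin n → E3 → ℝ) (R : ℝ),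
    0 < R → (∀ j a b, ContDiff ℝ ∞ (A j a b)) → (∀ a b, ContDiff ℝ ∞ (B a b)) →
    ∃ C : ℝ, 0 < C ∧ ∀ (α : E3) (F Ψ : Fin n → E3 → ℝ) (Q Q₀ : ℝ), 1 ≤ ‖α‖ →
      (∀ a, MemLp (F a) 2 (volume : Measure E3)) →
      (∑ a, ∫ x in Metric.ball (0 : E3) (2 * R), Real.exp (-2 * ⟪α, x⟫_ℝ) * (F a x) ^ 2 ≤ Q) →
      (∀ a, MemLp (Ψ a) 2 (volume : Measure E3)) →
      (∑ a, ∫ x in Metric.ball (0 : E3) (2 * R), Real.exp (-2 * ⟪α, x⟫_ℝ) * (Ψ a x) ^ 2 ≤ Q₀) →
      (∀ φ : Fin n → E3 → ℝ, (∀ a, IsTest (Metric.ball (0 : E3) (2 * R)) (φ a)) →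
          ∑ a, ∫ x, Ψ a x * adjP A B φ a x = ∑ a, ∫ x, F a x * φ a x) →
      ∃ Φ : ℕ → Fin n → E3 → ℝ, (∀ k a, ContDiff ℝ ∞ (Φ k a)) ∧
        (∀ a, Tendsto (fun k => ∫ x in Metric.ball (0 : E3) R,
          (sysP A B (Φ k) a x - F a x) ^ 2) atTop (𝓝 0)) ∧
        (∀ a, Tendsto (fun k => ∫ x in Metric.ball (0 : E3) R,
          (Φ k a x - Ψ a x) ^ 2) atTop (𝓝 0)) ∧
        (∀ k a, ∫ x in Metric.ball (0 : E3) R,
          Real.exp (-2 * ⟪α, x⟫_ℝ) * (Φ k a x) ^ 2 ≤ C * Q₀) ∧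
        (∀ k a i, ∫ x in Metric.ball (0 : E3) R,
          Real.exp (-2 * ⟪α, x⟫_ℝ) * (pd i (Φ k a) x) ^ 2 ≤ C * (‖α‖ ^ 2 * Q₀ + Q)) ∧
        (∀ k a i j, ∫ x in Metric.ball (0 : E3) R,
          Real.exp (-2 * ⟪α, x⟫_ℝ) * (pd i (pd j (Φ k a)) x) ^ 2
            ≤ C * ‖α‖ ^ 2 * (‖α‖ ^ 2 * Q₀ + Q)) ∧
        (∀ a i, Tendsto (fun p : ℕ × ℕ => ∫ x in Metric.ball (0 : E3) R,
          (pd i (Φ p.1 a) x - pd i (Φ p.2 a) x) ^ 2) atTop (𝓝 0)) ∧
        (∀ a i j, Tendsto (fun p : ℕ × ℕ => ∫ x in Metric.ball (0 : E3) R,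
          (pd i (pd j (Φ p.1 a)) x - pd i (pd j (Φ p.2 a)) x) ^ 2) atTop (𝓝 0))

/-- the amplitude system (S) on the ball of radius `R`. -/
def Ssol (ζ ζ' : Fin 3 → ℂ) (mu a : E3 → ℝ) (R : ℝ) (h G z : E3 → ℂ) : Prop :=
  ∀ x : E3, ‖x‖ < R → Dz ζ h x = 0 ∧
    Dz ζ G x = - (z x / a x) - h x * Dz ζ' (cc fun y => √(mu y)) x ∧
    Dz ζ z x = Dz ζ (Dz ζ (cc fun y => (mu y)⁻¹)) x * G x +
      √(mu x) * h x * Dz ζ (Dz ζ' (cc fun y => (mu y)⁻¹)) x

/-- TLS: leading order transfer from medium 1 to medium 2, `X` being the (compactly supported)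
difference, in weak form. -/
def TLS (Ω : Set E3) (mu₁ a₁ mu₂ a₂ : E3 → ℝ) : Prop :=
  ∀ (ζ ζ' : Fin 3 → ℂ) (R : ℝ), dot ζ ζ = 0 → dot ζ ζ' = 0 → dot ζ' ζ' ≠ 0 →
    closure Ω ⊆ Metric.ball 0 (R / 8) → ∀ h G z : E3 → ℂ, ContDiff ℝ ∞ h → ContDiff ℝ ∞ G →
    ContDiff ℝ ∞ z → Ssol ζ ζ' mu₁ a₁ R h G z →
    ∃ XG Xz : E3 → ℂ, MemLp XG 2 (volume : Measure E3) ∧ MemLp Xz 2 (volume : Measure E3) ∧
      (∀ x, x ∉ Ω → XG x = 0) ∧ (∀ x, x ∉ Ω → Xz x = 0) ∧
      (∀ ψ : E3 → ℂ, ContDiff ℝ ∞ ψ → (∫ x, XG x * Dz ζ ψ x) =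
        (∫ x, Xz x / a₂ x * ψ x) +
        (∫ x in Ω, (z x / a₂ x - z x / a₁ x + h x * Dz ζ' (cc fun y => √(mu₂ y)) x
          - h x * Dz ζ' (cc fun y => √(mu₁ y)) x) * ψ x)) ∧
      (∀ ψ : E3 → ℂ, ContDiff ℝ ∞ ψ → (∫ x, Xz x * Dz ζ ψ x) =
        - (∫ x, Dz ζ (Dz ζ (cc fun y => (mu₂ y)⁻¹)) x * XG x * ψ x) -
        (∫ x in Ω, ((Dz ζ (Dz ζ (cc fun y => (mu₂ y)⁻¹)) x
            - Dz ζ (Dz ζ (cc fun y => (mu₁ y)⁻¹)) x) * G x
          + h x * (√(mu₂ x) * Dz ζ (Dz ζ' (cc fun y => (mu₂ y)⁻¹)) x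
            - √(mu₁ x) * Dz ζ (Dz ζ' (cc fun y => (mu₁ y)⁻¹)) x)) * ψ x))

/-- CP1: the amplitude transfer for all null directions forces equality of the coefficients. -/
def CP1_statement : Prop :=
  ∀ (Ω : Set E3) (mu₁ a₁ mu₂ a₂ : E3 → ℝ), IsOpen Ω → Bornology.IsBounded Ω →
    ContDiff ℝ ∞ mu₁ → ContDiff ℝ ∞ a₁ → ContDiff ℝ ∞ mu₂ → ContDiff ℝ ∞ a₂ →
    (∀ x, 0 < mu₁ x) → (∀ x, 0 < a₁ x) → (∀ x, 0 < mu₂ x) → (∀ x, 0 < a₂ x) →
    (∀ x, 2 < a₁ x * mu₁ x) → (∀ x, 2 < a₂ x * mu₂ x) →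
    (∀ x ∈ frontier Ω, mu₁ x = mu₂ x ∧ fderiv ℝ mu₁ x = fderiv ℝ mu₂ x ∧
      a₁ x = a₂ x ∧ fderiv ℝ a₁ x = fderiv ℝ a₂ x) →
    TLS Ω mu₁ a₁ mu₂ a₂ → ∀ x ∈ Ω, mu₁ x = mu₂ x ∧ a₁ x = a₂ x

/-- UNIQ: uniqueness of compactly supported weak solutions of a d-bar system. -/
def UNIQ_statement : Prop :=
  ∀ (ζ : Fin 3 → ℂ), dot ζ ζ = 0 → ζ ≠ 0 → ∀ (n : ℕ) (N : Fin n → Fin n → E3 → ℂ)
    (Ω : Set E3) (X : Fin n → E3 → ℂ), Bornology.IsBounded Ω → MeasurableSet Ω →
    (∀ a b, ContDiff ℝ ∞ (N a b)) → (∀ a, MemLp (X a) 2 (volume : Measure E3)) →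
    (∀ a x, x ∉ Ω → X a x = 0) →
    (∀ a, ∀ ψ : E3 → ℂ, ContDiff ℝ ∞ ψ →
      (∫ x, X a x * Dz ζ ψ x) + (∑ b, ∫ x, N a b x * X b x * ψ x) = 0) →
    ∀ a, X a =ᵐ[volume] 0


/-- complex test functions -/
def CTest (Ω : Set E3) (φ : E3 → ℂ) : Prop :=
  ContDiff ℝ ∞ φ ∧ HasCompactSupport φ ∧ tsupport φ ⊆ Ω

/-- weak derivative on an open set, complex valued: `g = ∂ᵢ f` in `Ω`. -/
def WDc (Ω : Set E3) (i : Fin 3) (f g : E3 → ℂ) : Prop :=
  ∀ φ : E3 → ℂ, CTest Ω φ → ∫ x in Ω, f x * pd i φ x = - ∫ x in Ω, g x * φ x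

/-- complex (bilinear) elastic form in terms of gradients `G i j = ∂ᵢ uⱼ`. -/
noncomputable def cform (Ω : Set E3) (lam mu : E3 → ℝ) (G H : Fin 3 → Fin 3 → E3 → ℂ) : ℂ :=
  ∫ x in Ω, ((lam x : ℂ) * ((∑ i, G i i x) * ∑ i, H i i x) +
    2 * (mu x : ℂ) * ∑ i, ∑ j, ((G i j x + G j i x) / 2) * ((H i j x + H j i x) / 2))

/-- complex `H¹(Ω)` fields: values `u`, gradient `du i j = ∂ᵢ uⱼ`. -/
structure CH1 (Ω : Set E3) (u : Fin 3 → E3 → ℂ) (du : Fin 3 → Fin 3 → E3 → ℂ) : Prop where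
  val_mem : ∀ j, MemLp (u j) 2 (volume.restrict Ω)
  der_mem : ∀ i j, MemLp (du i j) 2 (volume.restrict Ω)
  weak : ∀ i j, WDc Ω i (u j) (du i j)

/-- complex weak solutions of the Lame system in `Ω`. -/
def CSol (Ω : Set E3) (lam mu : E3 → ℝ) (du : Fin 3 → Fin 3 → E3 → ℂ) : Prop :=
  ∀ φ : Fin 3 → E3 → ℂ, (∀ j, CTest Ω (φ j)) →
    cform Ω lam mu du (fun i j => pd i (φ j)) = 0

/-- complex scalar `H¹₀(Ω)`, functions on `ℝ³` vanishing outside `Ω`: value `v`,
gradient `dv`. -/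
structure CH10 (Ω : Set E3) (v : E3 → ℂ) (dv : Fin 3 → E3 → ℂ) : Prop where
  val_mem : MemLp v 2 (volume : Measure E3)
  der_mem : ∀ i, MemLp (dv i) 2 (volume : Measure E3)
  val_zero : ∀ x, x ∉ Ω → v x = 0
  der_zero : ∀ i x, x ∉ Ω → dv i x = 0
  approx : ∃ φ : ℕ → E3 → ℂ, (∀ n, CTest Ω (φ n)) ∧
    Tendsto (fun n => ∫ x, ‖v x - φ n x‖ ^ 2) atTop (𝓝 0) ∧
    ∀ i, Tendsto (fun n => ∫ x, ‖dv i x - pd i (φ n) x‖ ^ 2) atTop (𝓝 0)

/-- TR: the transfer of solutions. -/
def TR_statement : Prop :=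
  ∀ (Ω : Set E3) (lam₁ mu₁ lam₂ mu₂ : E3 → ℝ), IsOpen Ω → Bornology.IsBounded Ω →
    Admissible Ω lam₁ mu₁ → Admissible Ω lam₂ mu₂ → SameDN Ω lam₁ mu₁ lam₂ mu₂ →
    ∀ (u : Fin 3 → E3 → ℂ) (du : Fin 3 → Fin 3 → E3 → ℂ), CH1 Ω u du →
      CSol Ω lam₁ mu₁ du → ∃ (v : Fin 3 → E3 → ℂ) (dv : Fin 3 → Fin 3 → E3 → ℂ),
        (∀ j, CH10 Ω (v j) (fun i => dv i j)) ∧
        ∀ g : Fin 3 → E3 → ℂ, (∀ j, ContDiff ℝ ∞ (g j)) →
          cform Ω lam₂ mu₂ (fun i j x => du i j x + dv i j x) (fun i j => pd i (g j)) =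
          cform Ω lam₁ mu₁ du (fun i j => pd i (g j))

/-- transport equations (T1), (T2) for the amplitude `(U, d)`, with `ζ · U = 0`, on a ball. -/
def Transport (ζ : Fin 3 → ℂ) (lam mu : E3 → ℝ) (R : ℝ) (U : Fin 3 → E3 → ℂ) (d : E3 → ℂ) :
    Prop :=
  ∀ x : E3, ‖x‖ < R → (∑ j, ζ j * U j x = 0) ∧
    (∀ j, 2 * (mu x : ℂ) * Dz ζ (U j) x + ((lam x + mu x : ℝ) : ℂ) * ζ j * d x +
      ζ j * ∑ i, U i x * pd i (cc mu) x + U j x * Dz ζ (cc mu) x = 0) ∧
    Dz ζ (fun y => (((lam y + 2 * mu y) / mu y : ℝ) : ℂ) * d y) x =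
      (mu x : ℂ) * ∑ j, Dz ζ (pd j (cc fun y => (mu y)⁻¹)) x * U j x

/-- CGO1: exact complex geometrical optics solutions with prescribed leading amplitude. -/
def CGO1_statement : Prop :=
  ∀ (lam mu : E3 → ℝ), ContDiff ℝ ∞ lam → ContDiff ℝ ∞ mu → (∀ x, 0 < mu x) →
    (∀ x, 0 < lam x + mu x) → ∀ (R : ℝ), 0 < R → ∀ ζ : Fin 3 → ℂ, dot ζ ζ = 0 → ζ ≠ 0 →
    ∀ (U : Fin 3 → E3 → ℂ) (d : E3 → ℂ), (∀ j, ContDiff ℝ ∞ (U j)) → ContDiff ℝ ∞ d →
    Transport ζ lam mu (4 * R) U d →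
    ∃ C T : ℝ, ∀ t : ℝ, T ≤ t → ∃ (u : Fin 3 → E3 → ℂ) (du : Fin 3 → Fin 3 → E3 → ℂ)
      (p : E3 → ℂ) (dp : Fin 3 → E3 → ℂ),
      CH1 (Metric.ball 0 R) u du ∧ CSol (Metric.ball 0 R) lam mu du ∧
      MemLp p 2 (volume.restrict (Metric.ball (0 : E3) R)) ∧
      (∀ i, MemLp (dp i) 2 (volume.restrict (Metric.ball (0 : E3) R))) ∧
      (∀ i, WDc (Metric.ball 0 R) i p (dp i)) ∧
      (∀ᵐ x ∂(volume.restrict (Metric.ball (0 : E3) R)), p x = ∑ i, du i i x) ∧
      (∀ j, ∫ x in Metric.ball (0 : E3) R,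
        ‖Complex.exp (-(t * zx ζ x)) * u j x - U j x‖ ^ 2 ≤ C / t ^ 2) ∧
      (∀ i j, ∫ x in Metric.ball (0 : E3) R,
        ‖Complex.exp (-(t * zx ζ x)) * du i j x - t * ζ i * U j x‖ ^ 2 ≤ C) ∧
      (∫ x in Metric.ball (0 : E3) R,
        ‖Complex.exp (-(t * zx ζ x)) * p x - d x‖ ^ 2 ≤ C / t ^ 2) ∧
      (∀ i, ∫ x in Metric.ball (0 : E3) R,
        ‖Complex.exp (-(t * zx ζ x)) * dp i x - t * ζ i * d x‖ ^ 2 ≤ C)

/-- TL: the conclusion needed from the elasticity side. -/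
def TL_statement : Prop :=
  ∀ (Ω : Set E3) (lam₁ mu₁ lam₂ mu₂ : E3 → ℝ), IsOpen Ω → Bornology.IsBounded Ω →
    Admissible Ω lam₁ mu₁ → Admissible Ω lam₂ mu₂ →
    (∀ x, 0 < mu₁ x) → (∀ x, 0 < lam₁ x + mu₁ x) →
    (∀ x, 0 < mu₂ x) → (∀ x, 0 < lam₂ x + mu₂ x) →
    SameDN Ω lam₁ mu₁ lam₂ mu₂ →
    (∀ x ∈ frontier Ω, mu₁ x = mu₂ x ∧ lam₁ x = lam₂ x ∧
      fderiv ℝ mu₁ x = fderiv ℝ mu₂ x ∧ fderiv ℝ lam₁ x = fderiv ℝ lam₂ x) →
    TLS Ω mu₁ (fun x => 2 * (lam₁ x + 2 * mu₁ x) / (mu₁ x * (lam₁ x + mu₁ x)))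
      mu₂ (fun x => 2 * (lam₂ x + 2 * mu₂ x) / (mu₂ x * (lam₂ x + mu₂ x)))

/-- N0: normalization of the coefficients outside a neighbourhood of the closure. -/
def N0_statement : Prop :=
  ∀ (Ω : Set E3) (lam mu : E3 → ℝ), IsOpen Ω → Bornology.IsBounded Ω → Admissible Ω lam mu →
    ∃ (lam' mu' : E3 → ℝ) (V : Set E3), IsOpen V ∧ closure Ω ⊆ V ∧ ContDiff ℝ ∞ lam' ∧
      ContDiff ℝ ∞ mu' ∧ (∀ x, 0 < mu' x) ∧ (∀ x, 0 < lam' x + mu' x) ∧
      (∀ x ∈ V, lam' x = lam x ∧ mu' x = mu x)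

end Vale.Agent.P136
end
end

section

section

/-! Singular solutions for boundary determination: a smooth function `KK` on `ℝ³` which equals
`|w|` for `|w| ≥ 1`, its derivatives and their homogeneity outside the unit ball. -/

open MeasureTheory Filter Topology
open scoped ContDiff InnerProductSpace

namespace Vale.Agent.P136.BD

/-- A smooth function on `ℝ` equal to `√s` for `s ≥ 1`. -/
noncomputable def phiK (s : ℝ) : ℝ := Real.smoothTransition (2 * s - 1) * s ^ (1 / 2 : ℝ)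

lemma phiK_contDiff : ContDiff ℝ ∞ phiK := by
  rw [contDiff_iff_contDiffAt]
  intro s
  by_cases hs : s < 1 / 2
  · have : phiK =ᶠ[𝓝 s] fun _ => (0 : ℝ) := by
      filter_upwards [Iio_mem_nhds hs] with t ht
      have ht' : t < 1 / 2 := ht
      simp only [phiK]
      rw [Real.smoothTransition.zero_of_nonpos (by linarith), zero_mul]
    exact contDiffAt_const.congr_of_eventuallyEq this
  · have hs0 : s ≠ 0 := by
      intro h; apply hs; rw [h]; norm_num
    unfold phiK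
    apply ContDiffAt.mul
    · have h1 : ContDiff ℝ ∞ Real.smoothTransition := Real.smoothTransition.contDiff
      have h2 : ContDiff ℝ ∞ (fun s : ℝ => 2 * s - 1) := by fun_prop
      exact (h1.comp h2).contDiffAt
    · exact Real.contDiffAt_rpow_const_of_ne hs0

lemma phiK_eq {s : ℝ} (hs : 1 ≤ s) : phiK s = s ^ (1 / 2 : ℝ) := by
  unfold phiK
  rw [Real.smoothTransition.one_of_one_le (by linarith), one_mul]

/-- Smooth function on `ℝ³` equal to `|w|` outside the unit ball. -/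
noncomputable def KK (w : E3) : ℝ := phiK (‖w‖ ^ 2)

lemma KK_contDiff : ContDiff ℝ ∞ KK := phiK_contDiff.comp (contDiff_norm_sq ℝ)

lemma KK_eq {w : E3} (hw : 1 ≤ ‖w‖) : KK w = ‖w‖ := by
  unfold KK
  rw [phiK_eq (by (by_contra nlg; linarith [mul_nonneg (sub_nonneg.2 hw) (sub_nonneg.2 hw), mul_nonneg (le_of_lt (sub_pos.2 (not_le.1 nlg))) (sub_nonneg.2 hw), mul_pos (sub_pos.2 (not_le.1 nlg)) (sub_pos.2 (not_le.1 nlg)), mul_nonneg (sq_nonneg (‖w‖ : ℝ)) (sub_nonneg.2 hw), mul_nonneg (sq_nonneg (‖w‖ : ℝ)) (le_of_lt (sub_pos.2 (not_le.1 nlg)))]))]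
  rw [← Real.rpow_natCast, ← Real.rpow_mul (norm_nonneg _)]
  norm_num

/-- smooth function, homogeneous of degree `-d` outside the unit ball. -/
structure HomOut (d : ℤ) (f : E3 → ℝ) : Prop where
  smooth : ContDiff ℝ ∞ f
  hom : ∀ s : ℝ, 1 ≤ s → ∀ w : E3, 1 < ‖w‖ → f (s • w) = s ^ (-d) * f w

lemma nhds_out {w : E3} (hw : 1 < ‖w‖) : {v : E3 | 1 < ‖v‖} ∈ 𝓝 w :=
  (isOpen_lt continuous_const continuous_norm).mem_nhds hw

lemma pd_smul_comp {f : E3 → ℝ} (hf : ContDiff ℝ ∞ f) (s : ℝ) (i : Fin 3) (w : E3) :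
    pd i (fun v => f (s • v)) w = s * pd i f (s • w) := by
  have h1 : HasFDerivAt f (fderiv ℝ f (s • w)) (s • w) :=
    ((hf.differentiable (by simp)) (s • w)).hasFDerivAt
  have h2 : HasFDerivAt (fun v : E3 => s • v) (s • ContinuousLinearMap.id ℝ E3) w :=
    (hasFDerivAt_id w).const_smul s
  have h3 := h1.comp w h2
  unfold pd
  have h4 : fderiv ℝ (fun v => f (s • v)) w = _ := h3.fderiv
  rw [h4]
  simp

lemma pd_congr {F : Type*} [NormedAddCommGroup F] [NormedSpace ℝ F] {f g : E3 → F} {w : E3}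
    (h : f =ᶠ[𝓝 w] g) (i : Fin 3) : pd i f w = pd i g w := by
  unfold pd
  rw [h.fderiv_eq]

lemma pd_const_mul {f : E3 → ℝ} {w : E3} (hf : DifferentiableAt ℝ f w) (c : ℝ) (i : Fin 3) :
    pd i (fun v => c * f v) w = c * pd i f w := by
  unfold pd
  rw [fderiv_const_mul hf]
  simp

lemma HomOut.pd {d : ℤ} {f : E3 → ℝ} (hf : HomOut d f) (i : Fin 3) : HomOut (d + 1) (pd i f) := by
  refine ⟨pd_contDiff_infty hf.smooth i, ?_⟩
  intro s hs w hw
  have hs0 : s ≠ 0 := by positivity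
  have h1 : (fun v => f (s • v)) =ᶠ[𝓝 w] fun v => s ^ (-d) * f v := by
    filter_upwards [nhds_out hw] with v hv
    exact hf.hom s hs v hv
  have h2 := pd_congr h1 i
  rw [pd_smul_comp hf.smooth, pd_const_mul ((hf.smooth.differentiable (by simp)) w)] at h2
  have h3 : Vale.Agent.P136.pd i f (s • w) = s⁻¹ * (s ^ (-d) * Vale.Agent.P136.pd i f w) := by
    rw [← h2]; field_simp
  rw [h3, neg_add, zpow_add₀ hs0]
  simp only [zpow_neg, zpow_one]
  ring

lemma HomOut.const_mul {d : ℤ} {f : E3 → ℝ} (hf : HomOut d f) (c : ℝ) :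
    HomOut d (fun w => c * f w) := by
  refine ⟨contDiff_const.mul hf.smooth, ?_⟩
  intro s hs w hw
  rw [hf.hom s hs w hw]; ring

lemma HomOut.sum {d : ℤ} {ι : Type*} (S : Finset ι) {f : ι → E3 → ℝ}
    (hf : ∀ i ∈ S, HomOut d (f i)) :
    HomOut d (fun w => ∑ i ∈ S, f i w) := by
  refine ⟨ContDiff.sum fun i hi => (hf i hi).smooth, ?_⟩
  intro s hs w hw
  rw [Finset.mul_sum]
  exact Finset.sum_congr rfl fun i hi => (hf i hi).hom s hs w hw

/-- decay of functions homogeneous outside the unit ball -/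
lemma HomOut.bound {d : ℕ} {f : E3 → ℝ} (hf : HomOut d f) :
    ∃ C : ℝ, 0 < C ∧ ∀ w, |f w| ≤ C * ((1 + ‖w‖) ^ d)⁻¹ := by
  have hc : ContinuousOn (fun w => |f w|) (Metric.closedBall (0 : E3) 2) :=
    (hf.smooth.continuous.abs).continuousOn
  obtain ⟨M, hM⟩ := (isCompact_closedBall (0 : E3) 2).bddAbove_image hc
  have hM' : ∀ w : E3, ‖w‖ ≤ 2 → |f w| ≤ M := by
    intro w hw
    exact hM ⟨w, by simpa using hw, rfl⟩
  have hM0 : 0 ≤ M := le_trans (abs_nonneg _) (hM' 0 (by simp))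
  refine ⟨(M + 1) * 4 ^ d, by positivity, ?_⟩
  intro w
  have h1w : 0 < 1 + ‖w‖ := by positivity
  rcases le_or_gt ‖w‖ 2 with hw | hw
  · calc |f w| ≤ M := hM' w hw
      _ ≤ (M + 1) * 1 := by linarith
      _ ≤ (M + 1) * (4 ^ d * ((1 + ‖w‖) ^ d)⁻¹) := by
          apply mul_le_mul_of_nonneg_left _ (by linarith)
          rw [← div_eq_mul_inv, le_div_iff₀ (by positivity), one_mul]
          apply pow_le_pow_left₀ h1w.le
          linarith
      _ = _ := by ring
  · set s : ℝ := ‖w‖ / 2 with hs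
    have hs1 : 1 ≤ s := by rw [hs]; linarith
    have hs0 : s ≠ 0 := by positivity
    have e1 : s • (s⁻¹ • w) = w := by rw [smul_smul, mul_inv_cancel₀ hs0, one_smul]
    have hn : ‖s⁻¹ • w‖ = 2 := by
      rw [norm_smul, norm_inv, Real.norm_of_nonneg (by positivity), hs]
      field_simp
    have h2 := hf.hom s hs1 (s⁻¹ • w) (by rw [hn]; norm_num)
    rw [e1] at h2
    rw [h2, abs_mul]
    have h3 : |f (s⁻¹ • w)| ≤ M := hM' _ hn.le
    have h4 : |s ^ (-(d : ℤ))| = (s ^ d)⁻¹ := by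
      rw [zpow_neg, zpow_natCast, abs_of_nonneg (by positivity)]
    rw [h4]
    have h5 : (1 + ‖w‖) ^ d ≤ 4 ^ d * s ^ d := by
      rw [← mul_pow]
      apply pow_le_pow_left₀ h1w.le
      rw [hs]; linarith only [hw]
    have h6 : (s ^ d)⁻¹ ≤ 4 ^ d * ((1 + ‖w‖) ^ d)⁻¹ := by
      rw [inv_le_iff_one_le_mul₀ (by positivity), mul_comm, ← mul_assoc, ← div_eq_mul_inv,
        le_div_iff₀ (by positivity), one_mul]
      rw [mul_comm]; exact h5
    calc (s ^ d)⁻¹ * |f (s⁻¹ • w)| ≤ (4 ^ d * ((1 + ‖w‖) ^ d)⁻¹) * (M + 1) := by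
          apply mul_le_mul h6 (by linarith only [h3]) (abs_nonneg _) (by positivity)
      _ = _ := by ring

lemma KK_homOut : HomOut (-1) KK := by
  refine ⟨KK_contDiff, ?_⟩
  intro s hs w hw
  have h1 : 1 ≤ ‖s • w‖ := by
    rw [norm_smul, Real.norm_of_nonneg (by linarith)]
    linarith [mul_nonneg (sub_nonneg.2 hs) (le_of_lt (sub_pos.2 hw)), hw, hs]
  rw [KK_eq h1, KK_eq hw.le, norm_smul, Real.norm_of_nonneg (by linarith)]
  simp

/-- derivative of a radial function -/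
lemma pd_radial {ψ : ℝ → ℝ} {ψ' : ℝ} {w : E3} (h : HasDerivAt ψ ψ' (‖w‖ ^ 2)) (i : Fin 3) :
    pd i (fun v : E3 => ψ (‖v‖ ^ 2)) w = 2 * ψ' * w i := by
  have h1 : HasFDerivAt (fun v : E3 => ‖v‖ ^ 2) (2 • innerSL ℝ w) w :=
    (hasStrictFDerivAt_norm_sq w).hasFDerivAt
  have h2 := h.comp_hasFDerivAt w h1
  unfold pd
  have h3 : fderiv ℝ (fun v : E3 => ψ (‖v‖ ^ 2)) w = _ := h2.fderiv
  rw [h3]
  simp [inner_bv]
  ring

lemma pd_coord (i j : Fin 3) (w : E3) : pd i (fun v : E3 => v j) w = if i = j then 1 else 0 := by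
  have h1 : HasFDerivAt (fun v : E3 => v j) (EuclideanSpace.proj j : E3 →L[ℝ] ℝ) w :=
    (EuclideanSpace.proj j : E3 →L[ℝ] ℝ).hasFDerivAt
  unfold pd
  rw [h1.fderiv]
  simp [bv, eq_comm]

/-- second derivative of a radial function outside the unit ball -/
lemma pd_pd_radial {f : E3 → ℝ} {ψ ψ' ψ'' : ℝ → ℝ} (hf : ∀ w : E3, 1 < ‖w‖ → f w = ψ (‖w‖ ^ 2))
    (h1 : ∀ s > 1, HasDerivAt ψ (ψ' s) s) (h2 : ∀ s > 1, HasDerivAt ψ' (ψ'' s) s)
    {w : E3} (hw : 1 < ‖w‖) (i j : Fin 3) :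
    pd i (pd j f) w = 4 * ψ'' (‖w‖ ^ 2) * w i * w j + 2 * ψ' (‖w‖ ^ 2) * (if i = j then 1 else 0) := by
  have hsq : ∀ v : E3, 1 < ‖v‖ → 1 < ‖v‖ ^ 2 := fun v hv => by (by_contra nlg; linarith [mul_pos (sub_pos.2 hv) (sub_pos.2 hv), mul_nonneg (sub_nonneg.2 (not_lt.1 nlg)) (le_of_lt (sub_pos.2 hv)), mul_nonneg (sub_nonneg.2 (not_lt.1 nlg)) (sub_nonneg.2 (not_lt.1 nlg)), mul_nonneg (sq_nonneg (‖v‖ : ℝ)) (le_of_lt (sub_pos.2 hv)), mul_nonneg (sq_nonneg (‖v‖ : ℝ)) (sub_nonneg.2 (not_lt.1 nlg))])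
  have e1 : ∀ v : E3, 1 < ‖v‖ → pd j f v = 2 * ψ' (‖v‖ ^ 2) * v j := by
    intro v hv
    have : f =ᶠ[𝓝 v] fun u => ψ (‖u‖ ^ 2) := by
      filter_upwards [nhds_out hv] with u hu
      exact hf u hu
    rw [pd_congr this]
    exact pd_radial (h1 _ (hsq v hv)) j
  have e2 : pd j f =ᶠ[𝓝 w] fun v => (2 * ψ' (‖v‖ ^ 2)) * v j := by
    filter_upwards [nhds_out hw] with v hv
    exact e1 v hv
  rw [pd_congr e2]
  have h3 : HasDerivAt (fun s => 2 * ψ' s) (2 * ψ'' (‖w‖ ^ 2)) (‖w‖ ^ 2) :=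
    (h2 _ (hsq w hw)).const_mul 2
  have d1 : DifferentiableAt ℝ (fun v : E3 => 2 * ψ' (‖v‖ ^ 2)) w := by
    have h4 : HasFDerivAt (fun v : E3 => ‖v‖ ^ 2) (2 • innerSL ℝ w) w :=
      (hasStrictFDerivAt_norm_sq w).hasFDerivAt
    exact (h3.comp_hasFDerivAt w h4).differentiableAt
  have d2 : DifferentiableAt ℝ (fun v : E3 => v j) w :=
    (EuclideanSpace.proj j : E3 →L[ℝ] ℝ).differentiableAt
  rw [pd_mul d1 d2, pd_coord]
  have := pd_radial (ψ := fun s => 2 * ψ' s) h3 i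
  rw [this]
  ring

lemma norm_sq_eq_sum (w : E3) : ‖w‖ ^ 2 = ∑ i, (w i) ^ 2 := by
  rw [EuclideanSpace.norm_sq_eq]
  simp [Real.norm_eq_abs, sq_abs]

lemma lap_radial {f : E3 → ℝ} {ψ ψ' ψ'' : ℝ → ℝ} (hf : ∀ w : E3, 1 < ‖w‖ → f w = ψ (‖w‖ ^ 2))
    (h1 : ∀ s > 1, HasDerivAt ψ (ψ' s) s) (h2 : ∀ s > 1, HasDerivAt ψ' (ψ'' s) s)
    {w : E3} (hw : 1 < ‖w‖) :
    lap f w = 4 * ψ'' (‖w‖ ^ 2) * ‖w‖ ^ 2 + 6 * ψ' (‖w‖ ^ 2) := by
  unfold lap
  rw [Finset.sum_congr rfl fun i _ => pd_pd_radial hf h1 h2 hw i i]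
  rw [norm_sq_eq_sum]
  simp only [Fin.sum_univ_three]
  simp
  ring

lemma hasDerivAt_rpow' {s : ℝ} (hs : s > 1) (c p q d : ℝ) (hq : q = p - 1) (hd : d = c * p) :
    HasDerivAt (fun s : ℝ => c * s ^ p) (d * s ^ q) s := by
  have := (Real.hasDerivAt_rpow_const (x := s) (p := p) (Or.inl (by linarith))).const_mul c
  rw [hd, hq, mul_assoc]
  exact this

lemma lap_KK {w : E3} (hw : 1 < ‖w‖) : lap KK w = 2 * (‖w‖ ^ 2) ^ (-(1 / 2) : ℝ) := by
  have h0 : ∀ v : E3, 1 < ‖v‖ → KK v = 1 * (‖v‖ ^ 2) ^ (1 / 2 : ℝ) := by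
    intro v hv
    unfold KK
    rw [one_mul]
    exact phiK_eq (by nlinarith)
  have h1 : ∀ s > (1 : ℝ), HasDerivAt (fun s : ℝ => 1 * s ^ (1 / 2 : ℝ))
      ((fun s : ℝ => (1 / 2 : ℝ) * s ^ (-(1 / 2) : ℝ)) s) s := fun s hs =>
    hasDerivAt_rpow' hs _ _ _ _ (by norm_num) (by norm_num)
  have h2 : ∀ s > (1 : ℝ), HasDerivAt (fun s : ℝ => (1 / 2 : ℝ) * s ^ (-(1 / 2) : ℝ))
      ((fun s : ℝ => (-(1 / 4) : ℝ) * s ^ (-(3 / 2) : ℝ)) s) s := fun s hs =>
    hasDerivAt_rpow' hs _ _ _ _ (by norm_num) (by norm_num)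
  have := lap_radial (ψ := fun s : ℝ => 1 * s ^ (1 / 2 : ℝ)) h0 h1 h2 hw
  rw [this]
  have hs : 0 < ‖w‖ ^ 2 := by (by_contra nlg; linarith only [nlg, mul_pos (sub_pos.2 hw) (sub_pos.2 hw), mul_nonneg (mul_self_nonneg (1 : ℝ)) (le_of_lt (sub_pos.2 hw)), mul_nonneg (mul_self_nonneg (1 : ℝ)) (sub_nonneg.2 (not_lt.1 nlg))])
  have e : (‖w‖ ^ 2) ^ (-(3 / 2) : ℝ) * ‖w‖ ^ 2 = (‖w‖ ^ 2) ^ (-(1 / 2) : ℝ) := by
    conv_lhs => rw [← Real.rpow_one (‖w‖ ^ 2), ← Real.rpow_mul hs.le, ← Real.rpow_add hs]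
    norm_num
  linear_combination (-1 : ℝ) * e

lemma pd_pd_lap_KK {w : E3} (hw : 1 < ‖w‖) (i j : Fin 3) :
    pd i (pd j (lap KK)) w = 6 * (‖w‖ ^ 2) ^ (-(5 / 2) : ℝ) * w i * w j
      - 2 * (‖w‖ ^ 2) ^ (-(3 / 2) : ℝ) * (if i = j then 1 else 0) := by
  have h1 : ∀ s > (1 : ℝ), HasDerivAt (fun s : ℝ => 2 * s ^ (-(1 / 2) : ℝ))
      ((fun s : ℝ => (-1 : ℝ) * s ^ (-(3 / 2) : ℝ)) s) s := fun s hs =>
    hasDerivAt_rpow' hs _ _ _ _ (by norm_num) (by norm_num)
  have h2 : ∀ s > (1 : ℝ), HasDerivAt (fun s : ℝ => (-1 : ℝ) * s ^ (-(3 / 2) : ℝ))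
      ((fun s : ℝ => (3 / 2 : ℝ) * s ^ (-(5 / 2) : ℝ)) s) s := fun s hs =>
    hasDerivAt_rpow' hs _ _ _ _ (by norm_num) (by norm_num)
  have := pd_pd_radial (f := lap KK) (ψ := fun s => 2 * s ^ (-(1 / 2) : ℝ))
    (fun w hw => lap_KK hw) h1 h2 hw i j
  rw [this]
  ring

lemma lap_lap_KK {w : E3} (hw : 1 < ‖w‖) : lap (lap KK) w = 0 := by
  have h0 : lap (lap KK) w = ∑ i : Fin 3, pd i (pd i (lap KK)) w := rfl
  rw [h0, Finset.sum_congr rfl fun i _ => (pd_pd_lap_KK hw i i)]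
  simp only [Fin.sum_univ_three]
  have hs : 0 < ‖w‖ ^ 2 := by linarith only [mul_pos (sub_pos.2 hw) (sub_pos.2 hw), hw]
  have e : (‖w‖ ^ 2) ^ (-(5 / 2) : ℝ) * ‖w‖ ^ 2 = (‖w‖ ^ 2) ^ (-(3 / 2) : ℝ) := by
    conv_lhs => rw [← Real.rpow_one (‖w‖ ^ 2), ← Real.rpow_mul hs.le, ← Real.rpow_add hs]
    norm_num
  have e2 := norm_sq_eq_sum w
  rw [Fin.sum_univ_three] at e2
  rw [← e]
  simp only [if_true]
  generalize (‖w‖ ^ 2) ^ (-(5 / 2) : ℝ) = A
  rw [e2]
  ring

end Vale.Agent.P136.BD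
end
end

section

section

/-! Energy comparison for boundary determination. -/

open MeasureTheory Filter Topology
open scoped ContDiff InnerProductSpace

namespace Vale.Agent.P136.BD

/-- pointwise elastic form -/
noncomputable def fq (l m : ℝ) (A B : Fin 3 → Fin 3 → ℝ) : ℝ :=
  l * ((∑ i, A i i) * ∑ i, B i i) +
    2 * m * ∑ i, ∑ j, ((A i j + A j i) / 2) * ((B i j + B j i) / 2)

/-- squared norm of the symmetric part -/
noncomputable def eq2 (A : Fin 3 → Fin 3 → ℝ) : ℝ := ∑ i, ∑ j, ((A i j + A j i) / 2) ^ 2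

/-- stress -/
noncomputable def strs (l m : ℝ) (A : Fin 3 → Fin 3 → ℝ) (i j : Fin 3) : ℝ :=
  l * (∑ k, A k k) * (if i = j then 1 else 0) + m * (A i j + A j i)

lemma fq_eq_strs (l m : ℝ) (A B : Fin 3 → Fin 3 → ℝ) :
    fq l m A B = ∑ i, ∑ j, strs l m A i j * B i j := by
  simp only [fq, strs, Fin.sum_univ_three]
  simp
  ring

lemma fq_symm (l m : ℝ) (A B : Fin 3 → Fin 3 → ℝ) : fq l m A B = fq l m B A := by
  simp only [fq, Fin.sum_univ_three]
  ring

lemma fq_sub_right (l m : ℝ) (A B D : Fin 3 → Fin 3 → ℝ) :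
    fq l m A (fun i j => B i j - D i j) = fq l m A B - fq l m A D := by
  simp only [fq, Fin.sum_univ_three]
  ring

lemma fq_coef_sub (l m l' m' : ℝ) (A B : Fin 3 → Fin 3 → ℝ) :
    fq (l - l') (m - m') A B = fq l m A B - fq l' m' A B := by
  simp only [fq, Fin.sum_univ_three]
  ring

lemma eq2_nonneg (A : Fin 3 → Fin 3 → ℝ) : 0 ≤ eq2 A :=
  Finset.sum_nonneg fun _ _ => Finset.sum_nonneg fun _ _ => sq_nonneg _

lemma tr_sq_le (A : Fin 3 → Fin 3 → ℝ) : (∑ i, A i i) ^ 2 ≤ 3 * eq2 A := by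
  simp only [eq2, Fin.sum_univ_three]
  linarith only [sq_nonneg (A 1 2 + A 2 1), sq_nonneg (A 0 2 + A 2 0), sq_nonneg (A 0 1 + A 1 0), sq_nonneg (A 1 1 - A 2 2), sq_nonneg (A 0 0 - A 2 2), sq_nonneg (A 0 0 - A 1 1)]

lemma fq_self (l m : ℝ) (A : Fin 3 → Fin 3 → ℝ) :
    fq l m A A = l * (∑ i, A i i) ^ 2 + 2 * m * eq2 A := by
  simp only [fq, eq2, Fin.sum_univ_three]
  ring

lemma fq_coercive {l m c : ℝ} (h1 : c ≤ 2 * m) (h2 : c ≤ 3 * l + 2 * m)
    (A : Fin 3 → Fin 3 → ℝ) : c * eq2 A ≤ fq l m A A := by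
  rw [fq_self]
  have h3 := tr_sq_le A
  have h4 := eq2_nonneg A
  rcases le_or_gt 0 l with hl | hl
  · linarith only [mul_nonneg (sub_nonneg.2 h1) (sub_nonneg.2 h4), mul_nonneg (sq_nonneg (∑ i, A i i : ℝ)) (sub_nonneg.2 hl)]
  · linarith only [mul_nonneg (sub_nonneg.2 h3) (le_of_lt (sub_pos.2 hl)), mul_nonneg (sub_nonneg.2 h2) (sub_nonneg.2 h4)]

lemma fq_bound (l m k : ℝ) (hl : |l| ≤ k) (hm : |m| ≤ k) (A B : Fin 3 → Fin 3 → ℝ) (η : ℝ)
    (hη : 0 < η) : |fq l m A B| ≤ 5 * k ^ 2 / (2 * η) * eq2 A + 5 * η / 2 * eq2 B := by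
  have hk : 0 ≤ k := (abs_nonneg _).trans hl
  have hA := eq2_nonneg A
  have hB := eq2_nonneg B
  have h1 : |(∑ i, A i i) * ∑ i, B i i| * k ≤ 3 * (k ^ 2 / (2 * η) * eq2 A + η / 2 * eq2 B) := by
    have hy : |(∑ i, A i i) * ∑ i, B i i| * k ≤
        k ^ 2 / (2 * η) * (∑ i, A i i) ^ 2 + η / 2 * (∑ i, B i i) ^ 2 := by
      rw [abs_mul, ← sq_abs (∑ i, A i i), ← sq_abs (∑ i, B i i)]
      set a := |∑ i, A i i|
      set b := |∑ i, B i i|
      have : k ^ 2 / (2 * η) * a ^ 2 + η / 2 * b ^ 2 - a * b * k = (k * a - η * b) ^ 2 / (2 * η) := by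
        field_simp
        ring
      have h2 : 0 ≤ (k * a - η * b) ^ 2 / (2 * η) := by positivity
      linarith
    have e1 := tr_sq_le A
    have e2 := tr_sq_le B
    have e3 : k ^ 2 / (2 * η) * (∑ i, A i i) ^ 2 ≤ k ^ 2 / (2 * η) * (3 * eq2 A) :=
      mul_le_mul_of_nonneg_left e1 (by positivity)
    have e4 : η / 2 * (∑ i, B i i) ^ 2 ≤ η / 2 * (3 * eq2 B) :=
      mul_le_mul_of_nonneg_left e2 (by positivity)
    linarith only [e4, e3, hy]
  have h2 : |∑ i, ∑ j, ((A i j + A j i) / 2) * ((B i j + B j i) / 2)| * k ≤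
      k ^ 2 / (2 * η) * eq2 A + η / 2 * eq2 B := by
    have : ∀ i j : Fin 3, |((A i j + A j i) / 2) * ((B i j + B j i) / 2)| * k ≤
        k ^ 2 / (2 * η) * ((A i j + A j i) / 2) ^ 2 + η / 2 * ((B i j + B j i) / 2) ^ 2 := by
      intro i j
      rw [abs_mul, ← sq_abs ((A i j + A j i) / 2), ← sq_abs ((B i j + B j i) / 2)]
      set a := |(A i j + A j i) / 2|
      set b := |(B i j + B j i) / 2|
      have : k ^ 2 / (2 * η) * a ^ 2 + η / 2 * b ^ 2 - a * b * k = (k * a - η * b) ^ 2 / (2 * η) := by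
        field_simp
        ring
      have h2 : 0 ≤ (k * a - η * b) ^ 2 / (2 * η) := by positivity
      linarith
    calc |∑ i, ∑ j, ((A i j + A j i) / 2) * ((B i j + B j i) / 2)| * k
        ≤ (∑ i, ∑ j, |((A i j + A j i) / 2) * ((B i j + B j i) / 2)|) * k := by
          apply mul_le_mul_of_nonneg_right _ hk
          refine (Finset.abs_sum_le_sum_abs _ _).trans ?_
          exact Finset.sum_le_sum fun i _ => Finset.abs_sum_le_sum_abs _ _
      _ = ∑ i, ∑ j, |((A i j + A j i) / 2) * ((B i j + B j i) / 2)| * k := by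
          rw [Finset.sum_mul]; exact Finset.sum_congr rfl fun i _ => Finset.sum_mul _ _ _
      _ ≤ ∑ i, ∑ j, (k ^ 2 / (2 * η) * ((A i j + A j i) / 2) ^ 2 +
            η / 2 * ((B i j + B j i) / 2) ^ 2) :=
          Finset.sum_le_sum fun i _ => Finset.sum_le_sum fun j _ => this i j
      _ = k ^ 2 / (2 * η) * eq2 A + η / 2 * eq2 B := by
          simp only [eq2, Fin.sum_univ_three]; ring
  unfold fq
  calc |l * ((∑ i, A i i) * ∑ i, B i i) +
        2 * m * ∑ i, ∑ j, ((A i j + A j i) / 2) * ((B i j + B j i) / 2)|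
      ≤ |(∑ i, A i i) * ∑ i, B i i| * k +
        2 * (|∑ i, ∑ j, ((A i j + A j i) / 2) * ((B i j + B j i) / 2)| * k) := by
        refine (abs_add_le _ _).trans ?_
        rw [abs_mul l, abs_mul (2 * m), abs_mul 2 m, abs_two]
        have e1 : |l| * |(∑ i, A i i) * ∑ i, B i i| ≤ |(∑ i, A i i) * ∑ i, B i i| * k := by
          rw [mul_comm]; exact mul_le_mul_of_nonneg_left hl (abs_nonneg _)
        have e2 : 2 * |m| * |∑ i, ∑ j, ((A i j + A j i) / 2) * ((B i j + B j i) / 2)| ≤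
            2 * (|∑ i, ∑ j, ((A i j + A j i) / 2) * ((B i j + B j i) / 2)| * k) := by
          rw [mul_assoc, mul_comm |m|]
          have := mul_le_mul_of_nonneg_left hm
            (abs_nonneg (∑ i, ∑ j, ((A i j + A j i) / 2) * ((B i j + B j i) / 2)))
          linarith only [this]
        linarith only [e2, e1]
    _ ≤ 5 * k ^ 2 / (2 * η) * eq2 A + 5 * η / 2 * eq2 B := by
        have e : 5 * k ^ 2 / (2 * η) * eq2 A + 5 * η / 2 * eq2 B =
          3 * (k ^ 2 / (2 * η) * eq2 A + η / 2 * eq2 B) +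
            2 * (k ^ 2 / (2 * η) * eq2 A + η / 2 * eq2 B) := by ring
        rw [e]
        linarith only [h2, h1]

/-- Cauchy-Schwarz -/
lemma cs_int' {μ : Measure E3} {f g : E3 → ℝ} (hf : MemLp f 2 μ) (hg : MemLp g 2 μ) :
    (∫ x, f x * g x ∂μ) ^ 2 ≤ (∫ x, (f x) ^ 2 ∂μ) * (∫ x, (g x) ^ 2 ∂μ) := by
  have hfi : Integrable (fun x => (f x) ^ 2) μ := by
    have := hf.integrable_norm_pow (by norm_num)
    simpa [Real.norm_eq_abs, sq_abs] using this
  have hgi : Integrable (fun x => (g x) ^ 2) μ := by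
    have := hg.integrable_norm_pow (by norm_num)
    simpa [Real.norm_eq_abs, sq_abs] using this
  have hfg : Integrable (fun x => f x * g x) μ := hf.integrable_mul hg
  have h1 : ∀ t : ℝ, 0 ≤ (∫ x, (f x) ^ 2 ∂μ) * (t * t) + (2 * ∫ x, f x * g x ∂μ) * t +
      (∫ x, (g x) ^ 2 ∂μ) := by
    intro t
    have e : (∫ x, (f x) ^ 2 ∂μ) * (t * t) + (2 * ∫ x, f x * g x ∂μ) * t + (∫ x, (g x) ^ 2 ∂μ)
        = ∫ x, (t * f x + g x) ^ 2 ∂μ := by
      have e1 : ∀ x, (t * f x + g x) ^ 2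
          = (t * t) * (f x) ^ 2 + (2 * t) * (f x * g x) + (g x) ^ 2 := by
        intro x; ring
      simp_rw [e1]
      have e2 : ∫ x, (t * t * (f x) ^ 2 + 2 * t * (f x * g x) + (g x) ^ 2) ∂μ =
          (∫ x, (t * t * (f x) ^ 2 + 2 * t * (f x * g x)) ∂μ) + ∫ x, (g x) ^ 2 ∂μ :=
        integral_add ((hfi.const_mul (t * t)).add (hfg.const_mul (2 * t))) hgi
      have e3 : ∫ x, (t * t * (f x) ^ 2 + 2 * t * (f x * g x)) ∂μ =
          (∫ x, t * t * (f x) ^ 2 ∂μ) + ∫ x, 2 * t * (f x * g x) ∂μ :=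
        integral_add (hfi.const_mul (t * t)) (hfg.const_mul (2 * t))
      rw [e2, e3, integral_const_mul, integral_const_mul]
      ring
    rw [e]
    exact integral_nonneg fun _ => sq_nonneg _
  have h2 := discrim_le_zero h1
  unfold discrim at h2
  linarith only [h2]

lemma tendsto_zero_of_sq {μ : Measure E3} {a : E3 → ℝ} {d : ℕ → E3 → ℝ} (ha : MemLp a 2 μ)
    (hd : ∀ n, MemLp (d n) 2 μ) (h : Tendsto (fun n => ∫ x, (d n x) ^ 2 ∂μ) atTop (𝓝 0)) :
    Tendsto (fun n => ∫ x, a x * d n x ∂μ) atTop (𝓝 0) := by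
  have h1 : Tendsto (fun n => (∫ x, a x * d n x ∂μ) ^ 2) atTop (𝓝 0) := by
    apply squeeze_zero (fun n => sq_nonneg _) (fun n => cs_int' ha (hd n))
    have := h.const_mul (∫ x, (a x) ^ 2 ∂μ)
    simpa using this
  have h2 := h1.sqrt
  simp only [Real.sqrt_sq_eq_abs, Real.sqrt_zero] at h2
  exact (tendsto_zero_iff_abs_tendsto_zero _).mpr h2

/-- square integrable gradients -/
def MemG (Ω : Set E3) (G : Fin 3 → Fin 3 → E3 → ℝ) : Prop :=
  ∀ i j, MemLp (G i j) 2 (volume.restrict Ω)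

lemma MemG.sub {Ω : Set E3} {G H : Fin 3 → Fin 3 → E3 → ℝ} (hG : MemG Ω G) (hH : MemG Ω H) :
    MemG Ω (fun i j x => G i j x - H i j x) := fun i j => (hG i j).sub (hH i j)

lemma form_eq (Ω : Set E3) (lam mu : E3 → ℝ) (G H : Fin 3 → Fin 3 → E3 → ℝ) :
    form Ω lam mu G H =
      ∫ x in Ω, fq (lam x) (mu x) (fun i j => G i j x) (fun i j => H i j x) := rfl

lemma coef_bdd {Ω : Set E3} (hb : Bornology.IsBounded Ω) {f : E3 → ℝ} (hf : Continuous f) :
    ∃ M : ℝ, 0 ≤ M ∧ ∀ x ∈ closure Ω, |f x| ≤ M := by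
  have hc : IsCompact (closure Ω) := hb.isCompact_closure
  obtain ⟨M, hM⟩ := hc.bddAbove_image (hf.abs.continuousOn)
  refine ⟨max M 0, le_max_right _ _, fun x hx => ?_⟩
  exact (hM ⟨x, hx, rfl⟩).trans (le_max_left _ _)

lemma memLp_coef {Ω : Set E3} (hm : MeasurableSet Ω) (hb : Bornology.IsBounded Ω) {f g : E3 → ℝ}
    (hf : Continuous f) (hg : MemLp g 2 (volume.restrict Ω)) :
    MemLp (fun x => f x * g x) 2 (volume.restrict Ω) := by
  obtain ⟨M, hM0, hM⟩ := coef_bdd hb hf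
  refine hg.of_le_mul (c := M) (hf.aestronglyMeasurable.mul hg.1) ?_
  filter_upwards [ae_restrict_mem hm] with x hx
  rw [norm_mul, Real.norm_eq_abs]
  exact mul_le_mul_of_nonneg_right (hM x (subset_closure hx)) (norm_nonneg _)

lemma memLp_strs {Ω : Set E3} (hm : MeasurableSet Ω) (hb : Bornology.IsBounded Ω)
    {lam mu : E3 → ℝ} (hl : Continuous lam) (hmu : Continuous mu)
    {G : Fin 3 → Fin 3 → E3 → ℝ} (hG : MemG Ω G) (i j : Fin 3) :
    MemLp (fun x => strs (lam x) (mu x) (fun i j => G i j x) i j) 2 (volume.restrict Ω) := by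
  have h1 : MemLp (fun x => ∑ k, G k k x) 2 (volume.restrict Ω) :=
    memLp_finsetSum _ fun k _ => hG k k
  have h2 : MemLp (fun x => G i j x + G j i x) 2 (volume.restrict Ω) := (hG i j).add (hG j i)
  have h3 := (memLp_coef hm hb hl h1).mul_const (if i = j then (1 : ℝ) else 0)
  have h4 := memLp_coef hm hb hmu h2
  exact h3.add h4

lemma form_int {Ω : Set E3} (hm : MeasurableSet Ω) (hb : Bornology.IsBounded Ω)
    {lam mu : E3 → ℝ} (hl : Continuous lam) (hmu : Continuous mu)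
    {G H : Fin 3 → Fin 3 → E3 → ℝ} (hG : MemG Ω G) (hH : MemG Ω H) :
    Integrable (fun x => fq (lam x) (mu x) (fun i j => G i j x) (fun i j => H i j x))
      (volume.restrict Ω) := by
  simp_rw [fq_eq_strs]
  refine integrable_finsetSum _ fun i _ => integrable_finsetSum _ fun j _ => ?_
  exact (memLp_strs hm hb hl hmu hG i j).integrable_mul (hH i j)

lemma form_symm (Ω : Set E3) (lam mu : E3 → ℝ) (G H : Fin 3 → Fin 3 → E3 → ℝ) :
    form Ω lam mu G H = form Ω lam mu H G := by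
  rw [form_eq, form_eq]
  congr 1
  funext x
  exact fq_symm _ _ _ _

lemma form_sub_right {Ω : Set E3} (hm : MeasurableSet Ω) (hb : Bornology.IsBounded Ω)
    {lam mu : E3 → ℝ} (hl : Continuous lam) (hmu : Continuous mu)
    {G H K : Fin 3 → Fin 3 → E3 → ℝ} (hG : MemG Ω G) (hH : MemG Ω H) (hK : MemG Ω K) :
    form Ω lam mu G (fun i j x => H i j x - K i j x) = form Ω lam mu G H - form Ω lam mu G K := by
  rw [form_eq, form_eq, form_eq, ← integral_sub (form_int hm hb hl hmu hG hH)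
    (form_int hm hb hl hmu hG hK)]
  congr 1
  funext x
  exact fq_sub_right _ _ _ _ _

lemma form_sub_left {Ω : Set E3} (hm : MeasurableSet Ω) (hb : Bornology.IsBounded Ω)
    {lam mu : E3 → ℝ} (hl : Continuous lam) (hmu : Continuous mu)
    {G H K : Fin 3 → Fin 3 → E3 → ℝ} (hG : MemG Ω G) (hH : MemG Ω H) (hK : MemG Ω K) :
    form Ω lam mu (fun i j x => H i j x - K i j x) G = form Ω lam mu H G - form Ω lam mu K G := by
  rw [form_symm, form_sub_right hm hb hl hmu hG hH hK, form_symm Ω lam mu G H,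
    form_symm Ω lam mu G K]

lemma form_coef_sub {Ω : Set E3} (hm : MeasurableSet Ω) (hb : Bornology.IsBounded Ω)
    {lam mu lam' mu' : E3 → ℝ} (hl : Continuous lam) (hmu : Continuous mu)
    (hl' : Continuous lam') (hmu' : Continuous mu')
    {G H : Fin 3 → Fin 3 → E3 → ℝ} (hG : MemG Ω G) (hH : MemG Ω H) :
    form Ω (fun x => lam x - lam' x) (fun x => mu x - mu' x) G H =
      form Ω lam mu G H - form Ω lam' mu' G H := by
  rw [form_eq, form_eq, form_eq, ← integral_sub (form_int hm hb hl hmu hG hH)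
    (form_int hm hb hl' hmu' hG hH)]
  congr 1
  funext x
  exact fq_coef_sub _ _ _ _ _ _

lemma form_tendsto {Ω : Set E3} (hm : MeasurableSet Ω) (hb : Bornology.IsBounded Ω)
    {lam mu : E3 → ℝ} (hl : Continuous lam) (hmu : Continuous mu)
    {G H : Fin 3 → Fin 3 → E3 → ℝ} {D : ℕ → Fin 3 → Fin 3 → E3 → ℝ} (hG : MemG Ω G)
    (hH : MemG Ω H) (hD : ∀ n, MemG Ω (D n))
    (h : ∀ i j, Tendsto (fun n => ∫ x in Ω, (H i j x - D n i j x) ^ 2) atTop (𝓝 0)) :
    Tendsto (fun n => form Ω lam mu G (D n)) atTop (𝓝 (form Ω lam mu G H)) := by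
  have h1 : Tendsto (fun n => form Ω lam mu G (fun i j x => H i j x - D n i j x)) atTop (𝓝 0) := by
    have e : ∀ n, form Ω lam mu G (fun i j x => H i j x - D n i j x) =
        ∑ i, ∑ j, ∫ x in Ω, strs (lam x) (mu x) (fun i j => G i j x) i j *
          (H i j x - D n i j x) := by
      intro n
      rw [form_eq]
      simp_rw [fq_eq_strs]
      have hi : ∀ i j, Integrable (fun x => strs (lam x) (mu x) (fun i j => G i j x) i j *
          (H i j x - D n i j x)) (volume.restrict Ω) := fun i j =>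
        (memLp_strs hm hb hl hmu hG i j).integrable_mul ((hH i j).sub (hD n i j))
      rw [integral_finsetSum _ fun i _ => integrable_finsetSum _ fun j _ => hi i j]
      refine Finset.sum_congr rfl fun i _ => ?_
      rw [integral_finsetSum _ fun j _ => hi i j]
    simp_rw [e]
    rw [show (0 : ℝ) = ∑ i : Fin 3, ∑ j : Fin 3, 0 from by simp]
    refine tendsto_finsetSum _ fun i _ => tendsto_finsetSum _ fun j _ => ?_
    exact tendsto_zero_of_sq (memLp_strs hm hb hl hmu hG i j)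
      (fun n => (hH i j).sub (hD n i j)) (h i j)
  have h2 : ∀ n, form Ω lam mu G (D n) =
      form Ω lam mu G H - form Ω lam mu G (fun i j x => H i j x - D n i j x) := by
    intro n
    rw [form_sub_right hm hb hl hmu hG hH (hD n)]
    ring
  simp_rw [h2]
  have := (tendsto_const_nhds (x := form Ω lam mu G H)).sub h1
  simpa using this

/-- smooth functions restricted to a bounded set -/
lemma memLp_cont {Ω : Set E3} (hb : Bornology.IsBounded Ω) {f : E3 → ℝ} (hf : Continuous f) :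
    MemLp f 2 (volume.restrict Ω) := by
  have h1 : MemLp f 2 (volume.restrict (closure Ω)) := by
    obtain ⟨M, hM0, hM⟩ := coef_bdd hb hf
    have : IsFiniteMeasure (volume.restrict (closure Ω)) :=
      ⟨by simpa using hb.isCompact_closure.measure_lt_top⟩
    refine MemLp.of_bound hf.aestronglyMeasurable M ?_
    filter_upwards [ae_restrict_mem isClosed_closure.measurableSet] with x hx
    exact hM x hx
  exact h1.mono_measure (Measure.restrict_mono subset_closure le_rfl)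

lemma int_test_mul {Ω : Set E3} {f φ : E3 → ℝ} (hφ : tsupport φ ⊆ Ω) :
    ∫ x in Ω, f x * φ x = ∫ x, f x * φ x := by
  apply setIntegral_eq_integral_of_forall_compl_eq_zero
  intro x hx
  have : φ x = 0 := by
    by_contra h
    exact hx (hφ (subset_tsupport _ h))
  rw [this, mul_zero]

lemma tsupport_pd {φ : E3 → ℝ} (i : Fin 3) : tsupport (pd i φ) ⊆ tsupport φ := by
  have h1 : Function.support (pd i φ) ⊆ Function.support (fderiv ℝ φ) := by
    intro x hx
    rw [Function.mem_support] at hx ⊢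
    intro h
    apply hx
    unfold pd
    rw [h]
    simp
  exact (closure_mono h1).trans (closure_minimal (support_fderiv_subset ℝ) isClosed_closure)

lemma isTest_pd {Ω : Set E3} {φ : E3 → ℝ} (h : IsTest Ω φ) (i : Fin 3) : IsTest Ω (pd i φ) :=
  ⟨pd_contDiff_infty h.1 i, pd_hasCompactSupport h.2.1 i, (tsupport_pd i).trans h.2.2⟩

/-- smooth fields as elements of `H¹`. -/
noncomputable def smoothH1 {Ω : Set E3} (hb : Bornology.IsBounded Ω) (u : Fin 3 → E3 → ℝ)
    (hu : ∀ j, ContDiff ℝ ∞ (u j)) : H1 Ω where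
  val := u
  der := fun i j => pd i (u j)
  val_mem := fun j => memLp_cont hb (hu j).continuous
  der_mem := fun i j => memLp_cont hb (pd_contDiff_infty (hu j) i).continuous
  weak := by
    intro i j φ hφ
    rw [int_test_mul (isTest_pd hφ i).2.2, int_test_mul hφ.2.2]
    exact ibp ((hu j).of_le (by norm_cast)) (hφ.1.of_le (by norm_cast)) hφ.2.1 i

lemma coer_const {Ω : Set E3} (hb : Bornology.IsBounded Ω) {lam mu : E3 → ℝ}
    (h : Admissible Ω lam mu) :
    ∃ c : ℝ, 0 < c ∧ ∀ x ∈ closure Ω, c ≤ 2 * mu x ∧ c ≤ 3 * lam x + 2 * mu x := by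
  have hc : IsCompact (closure Ω) := hb.isCompact_closure
  have hl := h.lam_smooth.continuous
  have hm := h.mu_smooth.continuous
  rcases (closure Ω).eq_empty_or_nonempty with he | hne
  · exact ⟨1, one_pos, fun x hx => by rw [he] at hx; exact absurd hx (Set.notMem_empty x)⟩
  · obtain ⟨x1, hx1, h1⟩ := hc.exists_isMinOn hne (f := fun x => 2 * mu x)
      (by fun_prop)
    obtain ⟨x2, hx2, h2⟩ := hc.exists_isMinOn hne (f := fun x => 3 * lam x + 2 * mu x)
      (by fun_prop)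
    refine ⟨min (2 * mu x1) (3 * lam x2 + 2 * mu x2), lt_min ?_ (h.bulk_pos x2 hx2), ?_⟩
    · have := h.mu_pos x1 hx1
      linarith
    · intro x hx
      exact ⟨(min_le_left _ _).trans (h1 hx), (min_le_right _ _).trans (h2 hx)⟩

/-- orthogonality: a bilinear form vanishing on test fields vanishes on differences of fields
with the same trace -/
lemma form_trace {Ω : Set E3} (hm : MeasurableSet Ω) (hb : Bornology.IsBounded Ω)
    {lam mu : E3 → ℝ} (hl : Continuous lam) (hmu : Continuous mu)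
    {G : Fin 3 → Fin 3 → E3 → ℝ} (hG : MemG Ω G)
    (h0 : ∀ φ : Fin 3 → E3 → ℝ, (∀ j, IsTest Ω (φ j)) →
      form Ω lam mu G (fun i j => pd i (φ j)) = 0) {v w : H1 Ω} (hvw : SameTrace v w) :
    form Ω lam mu G v.der = form Ω lam mu G w.der := by
  obtain ⟨φ, hφ, -, hlim⟩ := hvw
  have hD : MemG Ω (fun i j x => v.der i j x - w.der i j x) :=
    MemG.sub v.der_mem w.der_mem
  have h1 := form_tendsto hm hb hl hmu (D := fun n i j => pd i (φ n j)) hG hD
    (fun n i j => memLp_cont hb (pd_contDiff_infty (hφ n j).1 i).continuous) hlim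
  simp_rw [h0 _ (hφ _)] at h1
  have h2 := tendsto_nhds_unique tendsto_const_nhds h1
  rw [form_sub_right hm hb hl hmu hG v.der_mem w.der_mem] at h2
  linarith

lemma form_nonneg {Ω : Set E3} (hm : MeasurableSet Ω) (hb : Bornology.IsBounded Ω)
    {lam mu : E3 → ℝ} (h : Admissible Ω lam mu) (G : Fin 3 → Fin 3 → E3 → ℝ) :
    0 ≤ form Ω lam mu G G := by
  obtain ⟨c, hc, hc2⟩ := coer_const hb h
  rw [form_eq]
  apply setIntegral_nonneg hm
  intro x hx
  obtain ⟨h1, h2⟩ := hc2 x (subset_closure hx)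
  have h3 := fq_coercive h1 h2 (fun i j => G i j x)
  have h4 := eq2_nonneg (fun i j => G i j x)
  linarith only [mul_nonneg (le_of_lt (sub_pos.2 hc)) (sub_nonneg.2 h4), h3]

lemma eq2_int {Ω : Set E3} {G : Fin 3 → Fin 3 → E3 → ℝ} (hG : MemG Ω G) :
    Integrable (fun x => eq2 (fun i j => G i j x)) (volume.restrict Ω) := by
  unfold eq2
  refine integrable_finsetSum _ fun i _ => integrable_finsetSum _ fun j _ => ?_
  have h1 : MemLp (fun x => (G i j x + G j i x) * (1 / 2)) 2 (volume.restrict Ω) :=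
    ((hG i j).add (hG j i)).mul_const (1 / 2)
  have h2 := h1.integrable_norm_pow (by norm_num)
  have e : (fun x => ((G i j x + G j i x) / 2) ^ 2) =
      fun x => ‖(G i j x + G j i x) * (1 / 2)‖ ^ 2 := by
    funext x
    rw [Real.norm_eq_abs, sq_abs]
    ring
  rw [e]
  exact h2

/-- existence for the Dirichlet problem. -/
def EXIST_statement : Prop :=
  ∀ (Ω : Set E3) (lam mu : E3 → ℝ), IsOpen Ω → Bornology.IsBounded Ω →
    Admissible Ω lam mu → ∀ f : H1 Ω, ∃ u : H1 Ω, SameTrace u f ∧ WeakSol lam mu u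

/-- The energy comparison inequality. -/
theorem energy_ineq (EX : EXIST_statement) {Ω : Set E3} (ho : IsOpen Ω)
    (hb : Bornology.IsBounded Ω) {lam₁ mu₁ lam₂ mu₂ : E3 → ℝ} (h1 : Admissible Ω lam₁ mu₁)
    (h2 : Admissible Ω lam₂ mu₂) (hS : SameDN Ω lam₁ mu₁ lam₂ mu₂) (x0 : E3) :
    ∃ C : ℝ, 0 < C ∧ ∀ (Γ : Fin 3 → E3 → ℝ) (hΓ : ∀ j, ContDiff ℝ ∞ (Γ j)),
      (∀ φ : Fin 3 → E3 → ℝ, (∀ j, IsTest Ω (φ j)) →
        form Ω (fun _ => lam₂ x0) (fun _ => mu₂ x0) (fun i j => pd i (Γ j))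
          (fun i j => pd i (φ j)) = 0) →
      - C * (∫ x in Ω, ‖x - x0‖ ^ 2 * eq2 (fun i j => pd i (Γ j) x)) ≤
        ∫ x in Ω, fq (lam₁ x - lam₂ x) (mu₁ x - mu₂ x) (fun i j => pd i (Γ j) x)
          (fun i j => pd i (Γ j) x) := by
  have hm : MeasurableSet Ω := ho.measurableSet
  obtain ⟨c, hc, hc2⟩ := coer_const hb h2
  -- Lipschitz bound
  have hLip : ∃ K : ℝ, 0 < K ∧ ∀ x ∈ Ω, |lam₂ x - lam₂ x0| ≤ K * ‖x - x0‖ ∧
      |mu₂ x - mu₂ x0| ≤ K * ‖x - x0‖ := by
    obtain ⟨R, hR⟩ := hb.subset_closedBall x0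
    have aux : ∀ f : E3 → ℝ, ContDiff ℝ ∞ f → ∃ K : ℝ, 0 ≤ K ∧ ∀ x ∈ Ω,
        |f x - f x0| ≤ K * ‖x - x0‖ := by
      intro f hf
      have hcont : Continuous (fun x => ‖fderiv ℝ f x‖) :=
        (hf.continuous_fderiv (by simp)).norm
      obtain ⟨K, hK⟩ := (isCompact_closedBall x0 R).bddAbove_image hcont.continuousOn
      refine ⟨max K 0, le_max_right _ _, fun x hx => ?_⟩
      have hx' := hR hx
      have hx0 : x0 ∈ Metric.closedBall x0 R := by
        rw [Metric.mem_closedBall, dist_self]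
        exact le_trans dist_nonneg (Metric.mem_closedBall.mp hx')
      have := (convex_closedBall x0 R).norm_image_sub_le_of_norm_fderiv_le (𝕜 := ℝ) (f := f)
        (C := max K 0) (fun y _ => (hf.differentiable (by simp)) y)
        (fun y hy => (hK ⟨y, hy, rfl⟩).trans (le_max_left _ _)) hx0 hx'
      simpa [Real.norm_eq_abs] using this
    obtain ⟨K1, hK1, hK1'⟩ := aux lam₂ h2.lam_smooth
    obtain ⟨K2, hK2, hK2'⟩ := aux mu₂ h2.mu_smooth
    refine ⟨K1 + K2 + 1, by linarith, fun x hx => ⟨(hK1' x hx).trans ?_, (hK2' x hx).trans ?_⟩⟩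
    · exact mul_le_mul_of_nonneg_right (by linarith) (norm_nonneg _)
    · exact mul_le_mul_of_nonneg_right (by linarith) (norm_nonneg _)
  obtain ⟨K, hK, hKx⟩ := hLip
  refine ⟨25 * K ^ 2 / c, by positivity, ?_⟩
  intro Γ hΓ hfroz
  set g : H1 Ω := smoothH1 hb Γ hΓ with hg
  have hgder : g.der = fun i j => pd i (Γ j) := rfl
  obtain ⟨u1, hu1t, hu1⟩ := EX Ω lam₁ mu₁ ho hb h1 g
  have hDN1 : DN Ω lam₁ mu₁ g g (form Ω lam₁ mu₁ u1.der g.der) := ⟨u1, hu1t, hu1, rfl⟩
  obtain ⟨u2, hu2t, hu2, hr⟩ := (hS g g _).mp hDN1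
  have cl1 := h1.lam_smooth.continuous
  have cm1 := h1.mu_smooth.continuous
  have cl2 := h2.lam_smooth.continuous
  have cm2 := h2.mu_smooth.continuous
  have mg : MemG Ω g.der := g.der_mem
  have mu1' : MemG Ω u1.der := u1.der_mem
  have mu2' : MemG Ω u2.der := u2.der_mem
  have o1 : form Ω lam₁ mu₁ u1.der u1.der = form Ω lam₁ mu₁ u1.der g.der :=
    form_trace hm hb cl1 cm1 mu1' hu1 hu1t
  have o2 : form Ω lam₂ mu₂ u2.der u2.der = form Ω lam₂ mu₂ u2.der g.der :=
    form_trace hm hb cl2 cm2 mu2' hu2 hu2t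
  -- Dirichlet principle in medium 1
  have m1 : form Ω lam₁ mu₁ u1.der g.der ≤ form Ω lam₁ mu₁ g.der g.der := by
    have hp := form_nonneg hm hb h1 (fun i j x => g.der i j x - u1.der i j x)
    rw [form_sub_right hm hb cl1 cm1 (mg.sub mu1') mg mu1', form_sub_left hm hb cl1 cm1 mg mg mu1',
      form_sub_left hm hb cl1 cm1 mu1' mg mu1', form_symm Ω lam₁ mu₁ g.der u1.der, o1] at hp
    linarith
  -- Pythagoras in medium 2
  have mz : MemG Ω (fun i j x => u2.der i j x - g.der i j x) := mu2'.sub mg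
  have p2 : form Ω lam₂ mu₂ g.der g.der = form Ω lam₂ mu₂ u2.der g.der +
      form Ω lam₂ mu₂ (fun i j x => u2.der i j x - g.der i j x)
        (fun i j x => u2.der i j x - g.der i j x) := by
    rw [form_sub_right hm hb cl2 cm2 mz mu2' mg, form_sub_left hm hb cl2 cm2 mu2' mu2' mg,
      form_sub_left hm hb cl2 cm2 mg mu2' mg, form_symm Ω lam₂ mu₂ g.der u2.der, o2]
    ring
  -- the correction
  have z1 : form Ω lam₂ mu₂ (fun i j x => u2.der i j x - g.der i j x)
        (fun i j x => u2.der i j x - g.der i j x) =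
      - form Ω (fun x => lam₂ x - lam₂ x0) (fun x => mu₂ x - mu₂ x0) g.der
        (fun i j x => u2.der i j x - g.der i j x) := by
    have hfr : form Ω (fun _ => lam₂ x0) (fun _ => mu₂ x0) g.der u2.der =
        form Ω (fun _ => lam₂ x0) (fun _ => mu₂ x0) g.der g.der :=
      form_trace hm hb continuous_const continuous_const mg hfroz hu2t
    rw [form_coef_sub hm hb cl2 cm2 continuous_const continuous_const mg mz,
      form_sub_right hm hb continuous_const continuous_const mg mu2' mg,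
      form_sub_right hm hb cl2 cm2 mg mu2' mg,
      form_sub_right hm hb cl2 cm2 mz mu2' mg, form_sub_left hm hb cl2 cm2 mu2' mu2' mg,
      form_sub_left hm hb cl2 cm2 mg mu2' mg, form_symm Ω lam₂ mu₂ g.der u2.der, o2, hfr]
    ring
  set Z := fun i j x => u2.der i j x - g.der i j x with hZ
  have iE := eq2_int mz
  have hxsq : Integrable (fun x => ‖x - x0‖ ^ 2 * eq2 (fun i j => g.der i j x))
      (volume.restrict Ω) := by
    obtain ⟨M, hM0, hM⟩ := coef_bdd hb (f := fun x => ‖x - x0‖ ^ 2) (by fun_prop)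
    refine (eq2_int mg).bdd_mul (c := M) (by fun_prop) ?_
    filter_upwards [ae_restrict_mem hm] with x hx
    exact hM x (subset_closure hx)
  have z2 : form Ω lam₂ mu₂ Z Z ≤ 25 * K ^ 2 / (2 * c) *
      (∫ x in Ω, ‖x - x0‖ ^ 2 * eq2 (fun i j => g.der i j x)) +
      1 / 2 * form Ω lam₂ mu₂ Z Z := by
    have hb1 : form Ω lam₂ mu₂ Z Z ≤ ∫ x in Ω,
        (25 * K ^ 2 / (2 * c) * (‖x - x0‖ ^ 2 * eq2 (fun i j => g.der i j x)) +
          1 / 2 * fq (lam₂ x) (mu₂ x) (fun i j => Z i j x) (fun i j => Z i j x)) := by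
      rw [z1, form_eq, ← integral_neg]
      apply setIntegral_mono_on
      · exact (form_int hm hb (cl2.sub continuous_const) (cm2.sub continuous_const) mg mz).neg
      · exact (hxsq.const_mul _).add ((form_int hm hb cl2 cm2 mz mz).const_mul _)
      · exact hm
      · intro x hx
        obtain ⟨k1, k2⟩ := hKx x hx
        obtain ⟨c1, c2⟩ := hc2 x (subset_closure hx)
        have hη : 0 < c / 5 := by positivity
        have e1 := fq_bound _ _ (K * ‖x - x0‖) k1 k2 (fun i j => g.der i j x)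
          (fun i j => Z i j x) (c / 5) hη
        have e2 := fq_coercive c1 c2 (fun i j => Z i j x)
        have e3 := neg_le_of_abs_le e1
        have e4 : 5 * (K * ‖x - x0‖) ^ 2 / (2 * (c / 5)) = 25 * K ^ 2 / (2 * c) * ‖x - x0‖ ^ 2 := by
          field_simp
          ring
        rw [e4] at e3
        linarith only [e3, e2]
    refine hb1.trans (le_of_eq ?_)
    have h5 := integral_add (hxsq.const_mul (25 * K ^ 2 / (2 * c)))
      ((form_int hm hb cl2 cm2 mz mz).const_mul (1 / 2))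
    rw [h5, integral_const_mul, integral_const_mul]
    rfl
  have z3 : form Ω lam₂ mu₂ Z Z ≤ 25 * K ^ 2 / c *
      (∫ x in Ω, ‖x - x0‖ ^ 2 * eq2 (fun i j => g.der i j x)) := by
    have e : 25 * K ^ 2 / c * (∫ x in Ω, ‖x - x0‖ ^ 2 * eq2 (fun i j => g.der i j x)) =
      2 * (25 * K ^ 2 / (2 * c) * (∫ x in Ω, ‖x - x0‖ ^ 2 * eq2 (fun i j => g.der i j x))) := by
      field_simp
    rw [e]
    linarith only [z2]
  have hfin : (∫ x in Ω, fq (lam₁ x - lam₂ x) (mu₁ x - mu₂ x) (fun i j => pd i (Γ j) x)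
          (fun i j => pd i (Γ j) x)) = form Ω lam₁ mu₁ g.der g.der - form Ω lam₂ mu₂ g.der g.der := by
    rw [← form_coef_sub hm hb cl1 cm1 cl2 cm2 mg mg]
    rfl
  rw [hfin]
  have : (∫ x in Ω, ‖x - x0‖ ^ 2 * eq2 (fun i j => pd i (Γ j) x)) =
    ∫ x in Ω, ‖x - x0‖ ^ 2 * eq2 (fun i j => g.der i j x) := rfl
  rw [this]
  linarith only [z3, p2, m1, hr]

end Vale.Agent.P136.BD
end
end

section

section

/-! The explicit singular fields, frozen coefficient equation. -/

open MeasureTheory Filter Topology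
open scoped ContDiff InnerProductSpace

namespace Vale.Agent.P136.BD

/-- frozen coefficient Lame operator -/
noncomputable def frz (l m : ℝ) (Γ : Fin 3 → E3 → ℝ) (j : Fin 3) (x : E3) : ℝ :=
  m * lap (Γ j) x + (l + m) * pd j (fun y => ∑ i, pd i (Γ i) y) x

lemma fq_expand (l m : ℝ) (A B : Fin 3 → Fin 3 → ℝ) :
    fq l m A B = ∑ i, ∑ j, (l * (A i i * B j j) + m * (A i j * B i j) + m * (A i j * B j i)) := by
  simp only [fq, Fin.sum_univ_three]
  ring

lemma pd_sum' {ι : Type*} (S : Finset ι) {f : ι → E3 → ℝ} {x : E3}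
    (h : ∀ i ∈ S, DifferentiableAt ℝ (f i) x) (j : Fin 3) :
    pd j (fun y => ∑ i ∈ S, f i y) x = ∑ i ∈ S, pd j (f i) x := by
  unfold pd
  rw [fderiv_fun_sum h]
  simp

lemma frozen_of_pde {Ω : Set E3} {l m : ℝ} {Γ : Fin 3 → E3 → ℝ} (hΓ : ∀ j, ContDiff ℝ ∞ (Γ j))
    (hP : ∀ x ∈ Ω, ∀ j, frz l m Γ j x = 0) (φ : Fin 3 → E3 → ℝ) (hφ : ∀ j, IsTest Ω (φ j)) :
    form Ω (fun _ => l) (fun _ => m) (fun i j => pd i (Γ j)) (fun i j => pd i (φ j)) = 0 := by
  rw [form_eq]
  have hout : ∀ x, x ∉ Ω → ∀ i j, pd i (φ j) x = 0 := by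
    intro x hx i j
    by_contra h
    exact hx ((isTest_pd (hφ j) i).2.2 (subset_tsupport _ h))
  have e0 : ∫ x in Ω, fq l m (fun i j => pd i (Γ j) x) (fun i j => pd i (φ j) x) =
      ∫ x, fq l m (fun i j => pd i (Γ j) x) (fun i j => pd i (φ j) x) := by
    apply setIntegral_eq_integral_of_forall_compl_eq_zero
    intro x hx
    rw [fq_expand]
    refine Finset.sum_eq_zero fun i _ => Finset.sum_eq_zero fun j _ => ?_
    simp only [hout x hx]
    ring
  rw [e0]
  simp_rw [fq_expand]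
  have cG : ∀ i j, Continuous (pd i (Γ j)) := fun i j => (pd_contDiff_infty (hΓ j) i).continuous
  have cF : ∀ i j, Continuous (pd i (φ j)) := fun i j => (pd_contDiff_infty (hφ j).1 i).continuous
  have sF : ∀ i j, HasCompactSupport (pd i (φ j)) := fun i j => pd_hasCompactSupport (hφ j).2.1 i
  have I : ∀ i j k l', Integrable (fun x => pd i (Γ j) x * pd k (φ l') x) := fun i j k l' =>
    int_cc ((cG i j).mul (cF k l')) (sF k l').mul_left
  have I3 : ∀ i j : Fin 3, Integrable (fun x => l * (pd i (Γ i) x * pd j (φ j) x) +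
      m * (pd i (Γ j) x * pd i (φ j) x) + m * (pd i (Γ j) x * pd j (φ i) x)) := fun i j =>
    (((I i i j j).const_mul l).add ((I i j i j).const_mul m)).add ((I i j j i).const_mul m)
  rw [integral_finsetSum _ fun i _ => integrable_finsetSum _ fun j _ => I3 i j]
  have e1 : ∀ i j : Fin 3, ∫ x, (l * (pd i (Γ i) x * pd j (φ j) x) +
      m * (pd i (Γ j) x * pd i (φ j) x) + m * (pd i (Γ j) x * pd j (φ i) x)) =
      - ∫ x, (l * pd j (pd i (Γ i)) x + m * pd i (pd i (Γ j)) x) * φ j x +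
        m * (pd i (pd j (Γ j)) x) * φ i x := by
    intro i j
    have cg2 : ∀ i j k, Continuous (pd i (pd j (Γ k))) := fun i j k =>
      (pd_contDiff_infty (pd_contDiff_infty (hΓ k) j) i).continuous
    have J : ∀ i j k l', Integrable (fun x => pd i (pd j (Γ k)) x * φ l' x) := fun i j k l' =>
      int_cc ((cg2 i j k).mul (hφ l').1.continuous) (hφ l').2.1.mul_left
    have ib : ∀ i j k l', ∫ x, pd i (Γ j) x * pd k (φ l') x = - ∫ x, pd k (pd i (Γ j)) x * φ l' x :=
      fun i j k l' => ibp ((pd_contDiff_infty (hΓ j) i).of_le (by norm_cast))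
        ((hφ l').1.of_le (by norm_cast)) (hφ l').2.1 k
    have a1 := integral_add (((I i i j j).const_mul l).add ((I i j i j).const_mul m))
      ((I i j j i).const_mul m)
    have a2 := integral_add ((I i i j j).const_mul l) ((I i j i j).const_mul m)
    have a3 := integral_add (((J j i i j).const_mul l).add ((J i i j j).const_mul m))
      ((J i j j i).const_mul m)
    have a4 := integral_add ((J j i i j).const_mul l) ((J i i j j).const_mul m)
    have a5 : ∫ x, ((l * pd j (pd i (Γ i)) x + m * pd i (pd i (Γ j)) x) * φ j x +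
        m * (pd i (pd j (Γ j)) x) * φ i x) = ∫ x, ((l * (pd j (pd i (Γ i)) x * φ j x) +
        m * (pd i (pd i (Γ j)) x * φ j x)) + m * (pd i (pd j (Γ j)) x * φ i x)) := by
      congr 1; funext x; ring
    have a6 : pd j (pd i (Γ j)) = pd i (pd j (Γ j)) := pd_comm ((hΓ j).of_le (by norm_cast)) j i
    calc ∫ x, (l * (pd i (Γ i) x * pd j (φ j) x) +
          m * (pd i (Γ j) x * pd i (φ j) x) + m * (pd i (Γ j) x * pd j (φ i) x))
        = (∫ x, (l * (pd i (Γ i) x * pd j (φ j) x) + m * (pd i (Γ j) x * pd i (φ j) x))) +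
          ∫ x, m * (pd i (Γ j) x * pd j (φ i) x) := a1
      _ = ((∫ x, l * (pd i (Γ i) x * pd j (φ j) x)) + ∫ x, m * (pd i (Γ j) x * pd i (φ j) x)) +
          ∫ x, m * (pd i (Γ j) x * pd j (φ i) x) := by rw [← a2]
      _ = _ := by
          rw [a5]
          refine Eq.trans ?_ (congrArg Neg.neg a3.symm)
          refine Eq.trans ?_ (congrArg (fun t => -(t + _)) a4.symm)
          rw [integral_const_mul, integral_const_mul, integral_const_mul, integral_const_mul,
            integral_const_mul, integral_const_mul, ib, ib, ib, a6]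
          ring
  have I4 : ∀ i j : Fin 3, Integrable (fun x =>
      (l * pd j (pd i (Γ i)) x + m * pd i (pd i (Γ j)) x) * φ j x +
        m * (pd i (pd j (Γ j)) x) * φ i x) := by
    intro i j
    have cg2 : ∀ i j k, Continuous (pd i (pd j (Γ k))) := fun i j k =>
      (pd_contDiff_infty (pd_contDiff_infty (hΓ k) j) i).continuous
    apply Integrable.add
    · exact int_cc ((((cg2 j i i).const_mul l).add ((cg2 i i j).const_mul m)).mul
        (hφ j).1.continuous) (hφ j).2.1.mul_left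
    · exact int_cc (((cg2 i j j).const_mul m).mul (hφ i).1.continuous) (hφ i).2.1.mul_left
  have e2 : ∀ i : Fin 3, ∫ x, ∑ j, (l * (pd i (Γ i) x * pd j (φ j) x) +
      m * (pd i (Γ j) x * pd i (φ j) x) + m * (pd i (Γ j) x * pd j (φ i) x)) =
      - ∫ x, ∑ j, ((l * pd j (pd i (Γ i)) x + m * pd i (pd i (Γ j)) x) * φ j x +
        m * (pd i (pd j (Γ j)) x) * φ i x) := by
    intro i
    rw [integral_finsetSum _ fun j _ => I3 i j, integral_finsetSum _ fun j _ => I4 i j,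
      Finset.sum_congr rfl fun j _ => e1 i j, Finset.sum_neg_distrib]
  rw [Finset.sum_congr rfl fun i _ => e2 i, Finset.sum_neg_distrib,
    ← integral_finsetSum _ fun i _ => integrable_finsetSum _ fun j _ => I4 i j]
  rw [neg_eq_zero]
  apply integral_eq_zero_of_ae
  refine Filter.Eventually.of_forall fun x => ?_
  simp only [Pi.zero_apply]
  by_cases hx : x ∈ Ω
  · have hdiv : ∀ j, pd j (fun y => ∑ i, pd i (Γ i) y) x = ∑ i, pd j (pd i (Γ i)) x := by
      intro j
      exact pd_sum' _ (fun i _ => ((pd_contDiff_infty (hΓ i) i).differentiable (by simp)) x) j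
    have h0 := hP x hx 0
    have h1 := hP x hx 1
    have h2 := hP x hx 2
    unfold frz at h0 h1 h2
    rw [hdiv] at h0 h1 h2
    simp only [lap, Fin.sum_univ_three] at h0 h1 h2
    simp only [Fin.sum_univ_three]
    linear_combination (φ 0 x) * h0 + (φ 1 x) * h1 + (φ 2 x) * h2
  · have hz : ∀ j, φ j x = 0 := by
      intro j
      by_contra h
      exact hx ((hφ j).2.2 (subset_tsupport _ h))
    simp [hz]

/-! ### the fields -/

lemma pd_sub' {f g : E3 → ℝ} {x : E3} (hf : DifferentiableAt ℝ f x) (hg : DifferentiableAt ℝ g x)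
    (i : Fin 3) : pd i (fun y => f y - g y) x = pd i f x - pd i g x := by
  unfold pd
  rw [fderiv_fun_sub hf hg]
  rfl

lemma sm_diff {f : E3 → ℝ} (hf : ContDiff ℝ ∞ f) (x : E3) : DifferentiableAt ℝ f x :=
  (hf.differentiable (by simp)) x

lemma lap_pd {f : E3 → ℝ} (hf : ContDiff ℝ ∞ f) (j : Fin 3) : lap (pd j f) = pd j (lap f) := by
  funext x
  have h1 : ∀ i, pd i (pd i (pd j f)) = pd j (pd i (pd i f)) := by
    intro i
    rw [pd_comm (hf.of_le (by norm_cast)) i j,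
      pd_comm ((pd_contDiff_infty hf i).of_le (by norm_cast)) i j]
  have h2 : pd j (lap f) x = ∑ i, pd j (pd i (pd i f)) x :=
    pd_sum' _ (fun i _ => sm_diff (pd_contDiff_infty (pd_contDiff_infty hf i) i) x) j
  rw [h2]
  unfold lap
  exact Finset.sum_congr rfl fun i _ => congrFun (h1 i) x

lemma dd_eq_sum' (n : E3) (f : E3 → ℝ) : dd n f = fun x => ∑ i, n i * pd i f x := by
  funext x
  rw [dd_eq_sum]
  simp

lemma lap_sum_const {n : E3} {f : Fin 3 → E3 → ℝ} (hf : ∀ i, ContDiff ℝ ∞ (f i)) (x : E3) :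
    lap (fun y => ∑ i, n i * f i y) x = ∑ i, n i * lap (f i) x := by
  unfold lap
  have h1 : ∀ k, pd k (fun y => ∑ i, n i * f i y) = fun y => ∑ i, n i * pd k (f i) y := by
    intro k
    funext y
    rw [pd_sum' _ (fun i _ => (sm_diff (hf i) y).const_mul (n i)) k]
    exact Finset.sum_congr rfl fun i _ => pd_const_mul (sm_diff (hf i) y) _ _
  have h2 : ∀ k, pd k (pd k (fun y => ∑ i, n i * f i y)) x = ∑ i, n i * pd k (pd k (f i)) x := by
    intro k
    rw [h1, pd_sum' _ (fun i _ => (sm_diff (pd_contDiff_infty (hf i) k) x).const_mul (n i)) k]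
    exact Finset.sum_congr rfl fun i _ => pd_const_mul (sm_diff (pd_contDiff_infty (hf i) k) x) _ _
  simp_rw [h2, Finset.mul_sum]
  exact Finset.sum_comm

lemma lap_dd {f : E3 → ℝ} (hf : ContDiff ℝ ∞ f) (n : E3) : lap (dd n f) = dd n (lap f) := by
  funext x
  rw [dd_eq_sum' n f, lap_sum_const (fun i => pd_contDiff_infty hf i), dd_eq_sum']
  simp_rw [lap_pd hf]

lemma HomOut.dd {d : ℤ} {f : E3 → ℝ} (hf : HomOut d f) (n : E3) : HomOut (d + 1) (dd n f) := by
  rw [dd_eq_sum']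
  exact HomOut.sum _ fun i _ => (hf.pd i).const_mul (n i)

lemma HomOut.lap {d : ℤ} {f : E3 → ℝ} (hf : HomOut d f) : HomOut (d + 1 + 1) (lap f) :=
  HomOut.sum _ fun i _ => (hf.pd i).pd i

lemma HomOut.sub {d : ℤ} {f g : E3 → ℝ} (hf : HomOut d f) (hg : HomOut d g) :
    HomOut d (fun w => f w - g w) := by
  refine ⟨hf.smooth.sub hg.smooth, ?_⟩
  intro s hs w hw
  rw [hf.hom s hs w hw, hg.hom s hs w hw]; ring

lemma HomOut.cast {d e : ℤ} {f : E3 → ℝ} (hf : HomOut d f) (h : d = e) : HomOut e f := h ▸ hf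

/-- the field for `μ` -/
noncomputable def gMu (j : Fin 3) : E3 → ℝ := pd j (lap KK)

/-- the field for `λ` -/
noncomputable def gLa (k : ℝ) (n : E3) (j : Fin 3) : E3 → ℝ :=
  fun w => (1 + k) * n j * lap (dd n KK) w - pd j (dd n (dd n KK)) w

lemma gMu_hom (j : Fin 3) : HomOut 2 (gMu j) := (KK_homOut.lap.pd j).cast (by norm_num)

lemma gLa_hom (k : ℝ) (n : E3) (j : Fin 3) : HomOut 2 (gLa k n j) :=
  (((KK_homOut.dd n).lap.const_mul ((1 + k) * n j)).cast (by norm_num)).sub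
    ((((KK_homOut.dd n).dd n).pd j).cast (by norm_num))

lemma lapKK_contDiff : ContDiff ℝ ∞ (lap KK) := lap_contDiff KK_contDiff

lemma eventually_of_out {f : E3 → ℝ} (h : ∀ w : E3, 1 < ‖w‖ → f w = 0) {w : E3} (hw : 1 < ‖w‖) :
    f =ᶠ[𝓝 w] fun _ => 0 := by
  filter_upwards [nhds_out hw] with v hv
  exact h v hv

lemma pd_out {f : E3 → ℝ} (h : ∀ w : E3, 1 < ‖w‖ → f w = 0) {w : E3} (hw : 1 < ‖w‖)
    (i : Fin 3) : pd i f w = 0 := by
  rw [pd_congr (eventually_of_out h hw)]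
  simp [pd]

lemma dd_out {f : E3 → ℝ} (h : ∀ w : E3, 1 < ‖w‖ → f w = 0) {w : E3} (hw : 1 < ‖w‖)
    (n : E3) : dd n f w = 0 := by
  rw [dd_eq_sum']
  simp [pd_out h hw]

lemma gMu_div {w : E3} (hw : 1 < ‖w‖) : ∑ i, pd i (gMu i) w = 0 := lap_lap_KK hw

lemma gMu_frz (l m : ℝ) {w : E3} (hw : 1 < ‖w‖) (j : Fin 3) : frz l m gMu j w = 0 := by
  unfold frz
  have h1 : lap (gMu j) w = 0 := by
    unfold gMu
    rw [lap_pd lapKK_contDiff]
    exact pd_out (fun v hv => lap_lap_KK hv) hw j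
  have h2 : pd j (fun y => ∑ i, pd i (gMu i) y) w = 0 := pd_out (fun v hv => gMu_div hv) hw j
  rw [h1, h2]
  ring

lemma gLa_div (k : ℝ) (n : E3) (w : E3) :
    ∑ i, pd i (gLa k n i) w = k * dd n (dd n (lap KK)) w := by
  have s1 : ContDiff ℝ ∞ (dd n KK) := dd_contDiff_infty KK_contDiff n
  have s2 : ContDiff ℝ ∞ (lap (dd n KK)) := lap_contDiff s1
  have s3 : ContDiff ℝ ∞ (dd n (dd n KK)) := dd_contDiff_infty s1 n
  have h1 : ∀ i, pd i (gLa k n i) w =
      (1 + k) * n i * pd i (lap (dd n KK)) w - pd i (pd i (dd n (dd n KK))) w := by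
    intro i
    unfold gLa
    rw [pd_sub' ((sm_diff s2 w).const_mul _) (sm_diff (pd_contDiff_infty s3 i) w),
      pd_const_mul (sm_diff s2 w)]
  simp_rw [h1, Finset.sum_sub_distrib]
  have h2 : ∑ i, pd i (pd i (dd n (dd n KK))) w = dd n (dd n (lap KK)) w := by
    have : ∑ i, pd i (pd i (dd n (dd n KK))) w = lap (dd n (dd n KK)) w := rfl
    rw [this, lap_dd s1, lap_dd KK_contDiff]
  have h3 : ∑ i, (1 + k) * n i * pd i (lap (dd n KK)) w = (1 + k) * dd n (dd n (lap KK)) w := by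
    have : dd n (dd n (lap KK)) w = ∑ i, n i * pd i (lap (dd n KK)) w := by
      rw [lap_dd KK_contDiff, dd_eq_sum' n (dd n (lap KK))]
    rw [this, Finset.mul_sum]
    exact Finset.sum_congr rfl fun i _ => by ring
  rw [h2, h3]
  ring

lemma gLa_frz {l m : ℝ} (hlm : l + m ≠ 0) (n : E3) {w : E3} (hw : 1 < ‖w‖) (j : Fin 3) :
    frz l m (gLa (m / (l + m)) n) j w = 0 := by
  have s1 : ContDiff ℝ ∞ (dd n KK) := dd_contDiff_infty KK_contDiff n
  have s2 : ContDiff ℝ ∞ (lap (dd n KK)) := lap_contDiff s1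
  have s3 : ContDiff ℝ ∞ (dd n (dd n KK)) := dd_contDiff_infty s1 n
  have s4 : ContDiff ℝ ∞ (dd n (dd n (lap KK))) :=
    dd_contDiff_infty (dd_contDiff_infty lapKK_contDiff n) n
  unfold frz
  have h1 : (fun y => ∑ i, pd i (gLa (m / (l + m)) n i) y) =
      fun y => m / (l + m) * dd n (dd n (lap KK)) y := by
    funext y; exact gLa_div _ n y
  rw [h1, pd_const_mul (sm_diff s4 w)]
  have h2 : lap (gLa (m / (l + m)) n j) w = - pd j (dd n (dd n (lap KK))) w := by
    have e1 : lap (gLa (m / (l + m)) n j) w =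
        (1 + m / (l + m)) * n j * lap (lap (dd n KK)) w - lap (pd j (dd n (dd n KK))) w := by
      unfold lap
      rw [Finset.mul_sum, ← Finset.sum_sub_distrib]
      refine Finset.sum_congr rfl fun i _ => ?_
      have e2 : pd i (gLa (m / (l + m)) n j) = fun v =>
          (1 + m / (l + m)) * n j * pd i (lap (dd n KK)) v -
            pd i (pd j (dd n (dd n KK))) v := by
        funext v
        unfold gLa
        rw [pd_sub' ((sm_diff s2 v).const_mul _) (sm_diff (pd_contDiff_infty s3 j) v),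
          pd_const_mul (sm_diff s2 v)]
      rw [e2, pd_sub' ((sm_diff (pd_contDiff_infty s2 i) w).const_mul _)
        (sm_diff (pd_contDiff_infty (pd_contDiff_infty s3 j) i) w),
        pd_const_mul (sm_diff (pd_contDiff_infty s2 i) w)]
      rfl
    rw [e1, lap_dd KK_contDiff, lap_dd lapKK_contDiff, dd_out (fun v hv => lap_lap_KK hv) hw,
      lap_pd s3, lap_dd s1, lap_dd KK_contDiff]
    ring
  rw [h2]
  field_simp
  ring

/-- the density `∂ₙ∂ₙ Δ K` is positive on the axis. -/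
lemma pp_axis {n : E3} (hn : ‖n‖ = 1) {t : ℝ} (ht : 1 < t) :
    0 < dd n (dd n (lap KK)) (-(t • n)) := by
  have hw : ‖-(t • n)‖ = t := by
    rw [norm_neg, norm_smul, hn, mul_one, Real.norm_of_nonneg (by linarith)]
  have hw1 : 1 < ‖-(t • n)‖ := by rw [hw]; exact ht
  have s1 : ContDiff ℝ ∞ (lap KK) := lapKK_contDiff
  have e1 : dd n (dd n (lap KK)) (-(t • n)) =
      ∑ i, ∑ j, n i * n j * pd i (pd j (lap KK)) (-(t • n)) := by
    rw [dd_eq_sum' n (dd n (lap KK))]
    simp only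
    refine Finset.sum_congr rfl fun i _ => ?_
    rw [dd_eq_sum' n (lap KK), pd_sum' _ (fun j _ => (sm_diff (pd_contDiff_infty s1 j) _).const_mul (n j))]
    rw [Finset.mul_sum]
    refine Finset.sum_congr rfl fun j _ => ?_
    rw [pd_const_mul (sm_diff (pd_contDiff_infty s1 j) _)]
    ring
  rw [e1]
  simp_rw [pd_pd_lap_KK hw1, hw]
  have h1 : n 0 ^ 2 + n 1 ^ 2 + n 2 ^ 2 = 1 := by
    have := norm_sq_eq_sum n
    rw [hn, Fin.sum_univ_three] at this
    linarith
  have ht2 : 0 < t ^ 2 := by positivity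
  have e : (t ^ 2) ^ (-(5 / 2) : ℝ) * t ^ 2 = (t ^ 2) ^ (-(3 / 2) : ℝ) := by
    conv_lhs => rw [← Real.rpow_one (t ^ 2), ← Real.rpow_mul ht2.le, ← Real.rpow_add ht2]
    norm_num
  have hA : 0 < (t ^ 2) ^ (-(5 / 2) : ℝ) := Real.rpow_pos_of_pos ht2 _
  rw [← e]
  generalize (t ^ 2) ^ (-(5 / 2) : ℝ) = A at hA
  have e3 : ∑ i : Fin 3, ∑ j : Fin 3, n i * n j * (6 * A * (-(t • n)).ofLp i * (-(t • n)).ofLp j -
      2 * (A * t ^ 2) * (if i = j then 1 else 0)) = 4 * (A * t ^ 2) := by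
    simp only [Fin.sum_univ_three]
    simp
    linear_combination (6 * (A * t ^ 2) * (n 0 ^ 2 + n 1 ^ 2 + n 2 ^ 2 + 1) - 2 * (A * t ^ 2)) * h1
  rw [e3]
  positivity

end Vale.Agent.P136.BD
end
end

section

section

open MeasureTheory Filter Topology Metric
open scoped ContDiff InnerProductSpace

namespace Vale.Agent.P136

/-- second order Taylor bound on a ball -/
lemma taylor2 {f : E3 → ℝ} (hf : ContDiff ℝ ∞ f) (x₀ : E3) (D : ℝ) :
    ∃ K : ℝ, 0 ≤ K ∧ ∀ x, ‖x - x₀‖ ≤ D →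
      |f x - f x₀ - fderiv ℝ f x₀ (x - x₀)| ≤ K * ‖x - x₀‖ ^ 2 := by
  have h1 : ContDiff ℝ ∞ (fderiv ℝ f) := hf.fderiv_right (by norm_cast)
  have h2 : Continuous (fun x => ‖fderiv ℝ (fderiv ℝ f) x‖) :=
    (h1.continuous_fderiv (by simp)).norm
  obtain ⟨K, hK'⟩ := (isCompact_closedBall x₀ D).exists_bound_of_continuousOn
    (f := fun x => ‖fderiv ℝ (fderiv ℝ f) x‖) h2.continuousOn
  have hK : ∀ x ∈ closedBall x₀ D, ‖fderiv ℝ (fderiv ℝ f) x‖ ≤ K := by
    intro x hx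
    exact (le_abs_self _).trans (hK' x hx)
  refine ⟨max K 0, le_max_right _ _, fun x hx => ?_⟩
  have h3 : ∀ y ∈ closedBall x₀ D, ‖fderiv ℝ f y - fderiv ℝ f x₀‖ ≤ max K 0 * ‖y - x₀‖ := by
    intro y hy
    have hD : 0 ≤ D := le_trans dist_nonneg (mem_closedBall.1 hy)
    exact Convex.norm_image_sub_le_of_norm_fderiv_le
      (fun z _ => (h1.differentiable (by simp)) z)
      (fun z hz => (hK z hz).trans (le_max_left _ _)) (convex_closedBall x₀ D)
      (mem_closedBall_self hD) hy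
  have h4 := Convex.norm_image_sub_le_of_norm_fderiv_le' (𝕜 := ℝ) (f := f)
    (C := max K 0 * ‖x - x₀‖) (s := closedBall x₀ ‖x - x₀‖) (x := x₀) (y := x)
    (φ := fderiv ℝ f x₀)
    (fun z _ => (hf.differentiable (by simp)) z)
    (fun z hz => by
      rw [mem_closedBall, dist_eq_norm] at hz
      refine (h3 z ?_).trans ?_
      · rw [mem_closedBall, dist_eq_norm]; exact hz.trans hx
      · exact mul_le_mul_of_nonneg_left hz (le_max_right _ _))
    (convex_closedBall _ _) (mem_closedBall_self (norm_nonneg _))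
    (by rw [mem_closedBall, dist_eq_norm])
  rw [Real.norm_eq_abs] at h4
  calc _ ≤ _ := h4
    _ = _ := by ring

/-- geometry of a smooth domain near a boundary point -/
structure BGeom (Ω : Set E3) (x₀ n : E3) (M r₀ : ℝ) : Prop where
  unit : ‖n‖ = 1
  M_nonneg : 0 ≤ M
  r₀_pos : 0 < r₀
  upper : ∀ x ∈ Ω, ⟪n, x - x₀⟫_ℝ ≤ M * ‖x - x₀‖ ^ 2
  far : ∀ r, 0 < r → r < r₀ → ∀ x ∈ Ω, r / 2 ≤ ‖x - (x₀ + r • n)‖
  inner_ball : ∀ r, 0 < r → r < r₀ → ball (x₀ - (2 * r) • n) r ⊆ Ω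
  tang : ∀ f : E3 → ℝ, ContDiff ℝ ∞ f → (∀ x ∈ frontier Ω, f x = 0) →
    ∃ κ : ℝ, ∀ v, fderiv ℝ f x₀ v = κ * ⟪n, v⟫_ℝ

lemma exists_bgeom {Ω : Set E3} (hΩ : SmoothDomain Ω) {x₀ : E3} (hx₀ : x₀ ∈ frontier Ω) :
    ∃ (n : E3) (M r₀ : ℝ), BGeom Ω x₀ n M r₀ := by
  obtain ⟨U, ρ, hU, hxU, hρ, hρ', hΩU⟩ := hΩ.smooth_boundary x₀ hx₀
  obtain ⟨g, hg⟩ : ∃ g : E3, ∀ v, fderiv ℝ ρ x₀ v = ⟪g, v⟫_ℝ :=
    ⟨(InnerProductSpace.toDual ℝ E3).symm (fderiv ℝ ρ x₀), fun v => by simp⟩
  have hg0 : g ≠ 0 := by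
    rintro rfl
    apply hρ'
    ext v
    simp [hg v]
  have hc : 0 < ‖g‖ := norm_pos_iff.2 hg0
  set c := ‖g‖ with hcdef
  set n : E3 := c⁻¹ • g with hn
  have hn1 : ‖n‖ = 1 := by
    rw [hn, norm_smul, norm_inv, Real.norm_eq_abs, abs_of_pos hc, ← hcdef]
    field_simp
  have hL : ∀ v, fderiv ℝ ρ x₀ v = c * ⟪n, v⟫_ℝ := by
    intro v
    rw [hg, hn, real_inner_smul_left]
    field_simp
  have hfr : x₀ ∈ closure Ω ∧ x₀ ∉ Ω := by
    rw [hΩ.isOpen.frontier_eq] at hx₀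
    exact hx₀
  have hmem : ∀ x ∈ U, (x ∈ Ω ↔ ρ x < 0) := by
    intro x hx
    constructor
    · intro h
      have : x ∈ Ω ∩ U := ⟨h, hx⟩
      rw [hΩU] at this
      exact this.2
    · intro h
      have : x ∈ Ω ∩ U := by
        rw [hΩU]
        exact ⟨hx, h⟩
      exact this.1
  have hρc : Continuous ρ := hρ.continuous
  have hρ0 : ρ x₀ = 0 := by
    apply le_antisymm
    · by_contra hcon
      rw [not_le] at hcon
      have hV : IsOpen (U ∩ {y | 0 < ρ y}) := hU.inter (isOpen_lt continuous_const hρc)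
      obtain ⟨z, hz1, hz2⟩ := mem_closure_iff.1 hfr.1 _ hV ⟨hxU, hcon⟩
      have := (hmem z hz1.1).1 hz2
      exact absurd hz1.2 (not_lt.2 this.le)
    · by_contra hcon
      rw [not_le] at hcon
      exact hfr.2 ((hmem x₀ hxU).2 hcon)
  obtain ⟨δ, hδ, hδU⟩ := Metric.isOpen_iff.1 hU x₀ hxU
  obtain ⟨K, hK0, hK⟩ := taylor2 hρ x₀ δ
  have hT : ∀ x, ‖x - x₀‖ < δ → |ρ x - c * ⟪n, x - x₀⟫_ℝ| ≤ K * ‖x - x₀‖ ^ 2 := by
    intro x hx
    have := hK x hx.le
    rwa [hρ0, sub_zero, hL] at this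
  have hxδ : ∀ x, ‖x - x₀‖ < δ → x ∈ U := by
    intro x hx
    apply hδU
    rwa [mem_ball, dist_eq_norm]
  have hcs : ∀ v : E3, ⟪n, v⟫_ℝ ≤ ‖v‖ := by
    intro v
    have := real_inner_le_norm n v
    rwa [hn1, one_mul] at this
  have hcs' : ∀ v : E3, - ‖v‖ ≤ ⟪n, v⟫_ℝ := by
    intro v
    have := hcs (-v)
    rw [inner_neg_right, norm_neg] at this
    linarith
  set M := K / c + 1 / δ with hM
  have hM0 : 0 ≤ M := by (clear * - hK0 hg0 hδ; positivity)
  have hnn : ⟪n, n⟫_ℝ = 1 := by rw [real_inner_self_eq_norm_sq, hn1]; norm_num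
  have hup : ∀ x ∈ Ω, ⟪n, x - x₀⟫_ℝ ≤ M * ‖x - x₀‖ ^ 2 := by
    intro x hx
    by_cases hxd : ‖x - x₀‖ < δ
    · have h1 := hT x hxd
      have h2 := (hmem x (hxδ x hxd)).1 hx
      have h3 := (abs_le.1 h1).1
      have h4 : c * ⟪n, x - x₀⟫_ℝ ≤ K * ‖x - x₀‖ ^ 2 := by linarith
      have h5 : ⟪n, x - x₀⟫_ℝ ≤ K / c * ‖x - x₀‖ ^ 2 := by
        rw [div_mul_eq_mul_div, le_div_iff₀ hc]
        linarith
      have h6 : 0 ≤ 1 / δ * ‖x - x₀‖ ^ 2 := by (clear * - hδ; positivity)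
      rw [hM]
      linarith
    · rw [not_lt] at hxd
      have h1 := hcs (x - x₀)
      have h2 : ‖x - x₀‖ ≤ 1 / δ * ‖x - x₀‖ ^ 2 := by
        rw [div_mul_eq_mul_div, le_div_iff₀ hδ, one_mul, sq]
        exact mul_le_mul_of_nonneg_left hxd (norm_nonneg _)
      have h6 : 0 ≤ K / c * ‖x - x₀‖ ^ 2 := by (clear * - hK0 hg0; positivity)
      rw [hM]
      linarith only [h6, h2, h1]
  refine ⟨n, M, min (1 / (5 * (M + 1))) (min (δ / 4) (c / (10 * (K + 1)))), hn1, hM0,
    by (clear * - hK0 hg0 hδ; positivity), hup, ?_, ?_, ?_⟩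
  · intro r hr hr0 x hx
    by_contra hcon
    rw [not_le] at hcon
    have hr1 : r < 1 / (5 * (M + 1)) := lt_of_lt_of_le hr0 (min_le_left _ _)
    rw [lt_div_iff₀ (by (clear * - hK0 hg0 hδ; positivity))] at hr1
    have e1 : x - x₀ = (x - (x₀ + r • n)) + r • n := by abel
    have h1 : ‖x - x₀‖ ≤ 3 / 2 * r := by
      rw [e1]
      refine (norm_add_le _ _).trans ?_
      rw [norm_smul, hn1, mul_one, Real.norm_eq_abs, abs_of_pos hr]
      linarith only [hcon]
    have h2 : r / 2 ≤ ⟪n, x - x₀⟫_ℝ := by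
      rw [e1, inner_add_right, real_inner_smul_right, hnn]
      have := hcs' (x - (x₀ + r • n))
      linarith only [this, hcon]
    have h3 := hup x hx
    have h4 : M * ‖x - x₀‖ ^ 2 ≤ M * (3 / 2 * r) ^ 2 := by gcongr
    linarith only [mul_pos (sub_pos.2 hr1) (sub_pos.2 (mul_pos hr hr)), mul_pos (sub_pos.2 hr) (sub_pos.2 (mul_pos hr hr)), mul_nonneg (le_of_lt (sub_pos.2 hr)) (sub_nonneg.2 h4), mul_nonneg (le_of_lt (sub_pos.2 hr)) (sub_nonneg.2 h3), mul_nonneg (le_of_lt (sub_pos.2 hr)) (sub_nonneg.2 h2), mul_pos (sub_pos.2 hr) (sub_pos.2 hr)]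
  · intro r hr hr0 x hx
    have hr1 : r < δ / 4 := lt_of_lt_of_le hr0 ((min_le_right _ _).trans (min_le_left _ _))
    have hr2 : r < c / (10 * (K + 1)) :=
      lt_of_lt_of_le hr0 ((min_le_right _ _).trans (min_le_right _ _))
    rw [lt_div_iff₀ (by (clear * - hK0; positivity))] at hr2
    rw [mem_ball, dist_eq_norm] at hx
    have e1 : x - x₀ = (x - (x₀ - (2 * r) • n)) - (2 * r) • n := by abel
    have h1 : ‖x - x₀‖ ≤ 3 * r := by
      rw [e1]
      refine (norm_sub_le _ _).trans ?_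
      rw [norm_smul, hn1, mul_one, Real.norm_eq_abs, abs_of_pos (by positivity)]
      linarith only [hx]
    have h2 : ⟪n, x - x₀⟫_ℝ ≤ - r := by
      rw [e1, inner_sub_right, real_inner_smul_right, hnn]
      have := hcs (x - (x₀ - (2 * r) • n))
      linarith
    have hxd : ‖x - x₀‖ < δ := by linarith only [h1, hr1, hr]
    rw [hmem x (hxδ x hxd)]
    have h3 := (abs_le.1 (hT x hxd)).2
    have h4 : K * ‖x - x₀‖ ^ 2 ≤ K * (3 * r) ^ 2 := by gcongr
    have h5 : c * ⟪n, x - x₀⟫_ℝ ≤ c * (- r) := by gcongr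
    (by_contra nlg; linarith only [nlg, mul_nonneg (sub_nonneg.2 h2) (le_of_lt (sub_pos.2 (mul_pos hr hc))), mul_pos (sub_pos.2 hr2) (sub_pos.2 (mul_pos hr hr)), mul_pos (sub_pos.2 hr) (sub_pos.2 (mul_pos hr hc)), mul_pos (sub_pos.2 hr) (sub_pos.2 (mul_pos hr hr)), mul_nonneg (le_of_lt (sub_pos.2 hr)) (sub_nonneg.2 h4), mul_nonneg (le_of_lt (sub_pos.2 hr)) (sub_nonneg.2 h3), mul_nonneg (sub_nonneg.2 (not_lt.1 nlg)) (le_of_lt (sub_pos.2 hr))])
  · intro f hf hf0
    have hlev : ∀ᶠ x in 𝓝 x₀, fderiv ℝ ρ x ≠ 0 := by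
      have : Continuous (fderiv ℝ ρ) := hρ.continuous_fderiv (by simp)
      exact this.continuousAt.eventually_ne hρ'
    have hfront : ∀ᶠ x in 𝓝 x₀, ρ x = 0 → x ∈ frontier Ω := by
      filter_upwards [hlev, hU.mem_nhds hxU] with x hx1 hx2 hx3
      rw [hΩ.isOpen.frontier_eq]
      refine ⟨?_, fun h => ?_⟩
      · by_contra hcl
        -- then `ρ ≥ 0` near `x`, so `x` is a local minimum of `ρ`
        have hmin : IsLocalMin ρ x := by
          have hV : IsOpen (U ∩ (closure Ω)ᶜ) := hU.inter isClosed_closure.isOpen_compl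
          filter_upwards [hV.mem_nhds ⟨hx2, hcl⟩] with z hz
          rw [hx3]
          by_contra hcon
          rw [not_le] at hcon
          exact hz.2 (subset_closure ((hmem z hz.1).2 hcon))
        exact hx1 hmin.fderiv_eq_zero
      · have := (hmem x hx2).1 h
        rw [hx3] at this
        exact lt_irrefl _ this
    have hextr : IsLocalExtrOn f {x | ρ x = ρ x₀} x₀ := by
      left
      have : ∀ᶠ x in 𝓝[{x | ρ x = ρ x₀}] x₀, f x₀ ≤ f x := by
        rw [eventually_nhdsWithin_iff]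
        filter_upwards [hfront] with x hx hx1
        rw [hf0 x (hx (by rw [← hρ0]; exact hx1)), hf0 x₀ hx₀]
      exact this
    obtain ⟨a, b, hab, hab0⟩ := hextr.exists_multipliers_of_hasStrictFDerivAt_1d
      (hρ.contDiffAt.hasStrictFDerivAt (by simp)) (hf.contDiffAt.hasStrictFDerivAt (by simp))
    have hb : b ≠ 0 := by
      rintro rfl
      have ha : a ≠ 0 := by
        rintro rfl
        exact hab rfl
      rw [zero_smul, add_zero] at hab0
      exact hρ' ((smul_eq_zero.1 hab0).resolve_left ha)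
    refine ⟨-(a * c / b), fun v => ?_⟩
    have h := congrArg (fun T : E3 →L[ℝ] ℝ => T v) hab0
    simp only [add_apply, smul_apply, zero_apply, smul_eq_mul, hL] at h
    field_simp
    linarith

lemma integrable_far (r : ℝ) (hr : 0 < r) (y : E3) :
    Integrable (fun x : E3 => ((r + ‖x - y‖) ^ 4)⁻¹) ∧
    ∫ x : E3, ((r + ‖x - y‖) ^ 4)⁻¹ = (∫ x : E3, ((1 + ‖x‖) ^ 4)⁻¹) / r := by
  have h0 : Integrable (fun x : E3 => ((1 + ‖x‖) ^ 4)⁻¹) := by
    have := integrable_one_add_norm (E := E3) (μ := volume) (r := 4) (by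
      rw [finrank_euclideanSpace, Fintype.card_fin]; norm_num)
    refine this.congr (ae_of_all _ fun x => ?_)
    change (1 + ‖x‖) ^ (-(4 : ℝ)) = ((1 + ‖x‖) ^ 4)⁻¹
    rw [Real.rpow_neg (by positivity)]
    norm_cast
  have e1 : ∀ x : E3, ((r + ‖x‖) ^ 4)⁻¹ = (r ^ 4)⁻¹ * ((1 + ‖r⁻¹ • x‖) ^ 4)⁻¹ := by
    intro x
    rw [norm_smul, norm_inv, Real.norm_eq_abs, abs_of_pos hr, ← mul_inv, ← mul_pow]
    congr 2
    field_simp
  have h1 : Integrable (fun x : E3 => ((r + ‖x‖) ^ 4)⁻¹) := by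
    simp_rw [e1]
    exact (h0.comp_smul (inv_ne_zero hr.ne')).const_mul _
  have h2 : ∫ x : E3, ((r + ‖x‖) ^ 4)⁻¹ = (∫ x : E3, ((1 + ‖x‖) ^ 4)⁻¹) / r := by
    simp_rw [e1]
    rw [integral_const_mul, Measure.integral_comp_smul volume (fun x : E3 => ((1 + ‖x‖) ^ 4)⁻¹) r⁻¹,
      finrank_euclideanSpace, Fintype.card_fin, smul_eq_mul, abs_of_pos (by positivity)]
    field_simp
  refine ⟨h1.comp_sub_right y, ?_⟩
  rw [integral_sub_right_eq_self (fun x : E3 => ((r + ‖x‖) ^ 4)⁻¹) y, h2]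

/-- local geometry of a smooth domain at a boundary point -/
theorem bd_geom {Ω : Set E3} (hΩ : SmoothDomain Ω) {x0 : E3} (hx : x0 ∈ frontier Ω) :
    ∃ (n : E3) (c r0 : ℝ), ‖n‖ = 1 ∧ 0 < c ∧ c ≤ 1 ∧ 0 < r0 ∧
      (∀ r, 0 < r → r < r0 → ∀ x ∈ Ω, c * (r + ‖x - x0‖) < ‖x - (x0 + r • n)‖) ∧
      (∀ r, 0 < r → r < r0 → Metric.ball (x0 - (2 * r) • n) r ⊆ Ω) ∧
      (∃ K, ∀ x ∈ Ω, ⟪n, x - x0⟫_ℝ ≤ K * ‖x - x0‖ ^ 2) ∧
      (∀ f : E3 → ℝ, ContDiff ℝ ∞ f → (∀ z ∈ frontier Ω, f z = 0) → ∀ v, ⟪n, v⟫_ℝ = 0 →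
        fderiv ℝ f x0 v = 0) := by
  obtain ⟨n, M, r₀, h⟩ := exists_bgeom hΩ hx
  refine ⟨n, 1 / 6, r₀, h.unit, by norm_num, by norm_num, h.r₀_pos, ?_, h.inner_ball,
    ⟨M, h.upper⟩, ?_⟩
  · intro r hr hr0 x hx
    have h1 := h.far r hr hr0 x hx
    have e1 : x - x0 = (x - (x0 + r • n)) + r • n := by abel
    have h2 : ‖x - x0‖ ≤ ‖x - (x0 + r • n)‖ + r := by
      calc ‖x - x0‖ = ‖(x - (x0 + r • n)) + r • n‖ := by rw [← e1]
        _ ≤ ‖x - (x0 + r • n)‖ + ‖r • n‖ := norm_add_le _ _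
        _ = _ := by rw [norm_smul, h.unit, mul_one, Real.norm_eq_abs, abs_of_pos hr]
    linarith
  · intro f hf hf0 v hv
    obtain ⟨κ, hκ⟩ := h.tang f hf hf0
    rw [hκ, hv, mul_zero]

/-- the density majorant -/
noncomputable def maj (x0 : E3) (r : ℝ) (x : E3) : ℝ := r ^ 4 * ((r + ‖x - x0‖) ^ 6)⁻¹

lemma maj_nonneg (x0 : E3) {r : ℝ} (hr : 0 < r) (x : E3) : 0 ≤ maj x0 r x := by
  unfold maj
  positivity

lemma maj_continuous (x0 : E3) {r : ℝ} (hr : 0 < r) : Continuous (maj x0 r) := by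
  unfold maj
  apply Continuous.mul continuous_const
  apply Continuous.inv₀ (by fun_prop)
  intro x
  positivity

lemma integrableOn_of_cont {Ω : Set E3} (hb : Bornology.IsBounded Ω) {f : E3 → ℝ}
    (hf : Continuous f) : IntegrableOn f Ω := by
  obtain ⟨D, hD⟩ := hb.subset_closedBall (0 : E3)
  exact (hf.continuousOn.integrableOn_compact (isCompact_closedBall (0 : E3) D)).mono_set hD

theorem bd_err {Ω : Set E3} (hb : Bornology.IsBounded Ω) (x0 : E3) :
    ∃ C > 0, ∀ r, 0 < r → r < 1 →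
      ∫ x in Ω, ‖x - x0‖ ^ 2 * (r ^ 4 * ((r + ‖x - x0‖) ^ 6)⁻¹) ≤ C * r ^ 3 := by
  have h0 : 0 ≤ ∫ x : E3, ((1 + ‖x‖) ^ 4)⁻¹ := integral_nonneg fun x => by positivity
  refine ⟨(∫ x : E3, ((1 + ‖x‖) ^ 4)⁻¹) + 1, by positivity, fun r hr _ => ?_⟩
  obtain ⟨h1, h2⟩ := integrable_far r hr x0
  have hpt : ∀ x : E3, ‖x - x0‖ ^ 2 * (r ^ 4 * ((r + ‖x - x0‖) ^ 6)⁻¹) ≤
      r ^ 4 * ((r + ‖x - x0‖) ^ 4)⁻¹ := by
    intro x
    have h3 : ‖x - x0‖ ^ 2 ≤ (r + ‖x - x0‖) ^ 2 := by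
      gcongr
      linarith
    calc ‖x - x0‖ ^ 2 * (r ^ 4 * ((r + ‖x - x0‖) ^ 6)⁻¹)
        ≤ (r + ‖x - x0‖) ^ 2 * (r ^ 4 * ((r + ‖x - x0‖) ^ 6)⁻¹) := by gcongr
      _ = _ := by
        have : (0 : ℝ) < r + ‖x - x0‖ := by positivity
        field_simp
  have hc : Continuous fun x : E3 => ‖x - x0‖ ^ 2 * (r ^ 4 * ((r + ‖x - x0‖) ^ 6)⁻¹) := by
    have := maj_continuous x0 hr
    unfold maj at this
    continuity
  calc ∫ x in Ω, ‖x - x0‖ ^ 2 * (r ^ 4 * ((r + ‖x - x0‖) ^ 6)⁻¹)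
      ≤ ∫ x in Ω, r ^ 4 * ((r + ‖x - x0‖) ^ 4)⁻¹ := by
        apply setIntegral_mono
        · exact integrableOn_of_cont hb hc
        · exact (h1.const_mul _).integrableOn
        · exact hpt
    _ ≤ ∫ x, r ^ 4 * ((r + ‖x - x0‖) ^ 4)⁻¹ := by
        apply setIntegral_le_integral (h1.const_mul _)
        exact ae_of_all _ fun x => by positivity
    _ = (∫ x : E3, ((1 + ‖x‖) ^ 4)⁻¹) * r ^ 3 := by
        rw [integral_const_mul, h2]
        field_simp
    _ ≤ _ := by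
        gcongr
        linarith

/-- lower bound of the integral of `g * P` when `g ≥ 0` on `Ω`, `g ≥ m` on the inner ball -/
lemma bd_lower {Ω : Set E3} (hΩo : IsOpen Ω) (hb : Bornology.IsBounded Ω) {x0 n : E3}
    {r ε c1 m : ℝ} (hr : 0 < r) (hε : 0 < ε) (hε1 : ε ≤ 1) (hc1 : 0 < c1)
    (hball : ball (x0 - (2 * r) • n) r ⊆ Ω) {g P : E3 → ℝ} (hg : Continuous g)
    (hP : Continuous P) (hP0 : ∀ x ∈ Ω, 0 ≤ P x)
    (hP1 : ∀ x ∈ ball (x0 - (2 * r) • n) (ε * r), c1 * (r ^ 2)⁻¹ ≤ P x)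
    (_hm : 0 ≤ m) (hg0 : ∀ x ∈ Ω, 0 ≤ g x)
    (hgm : ∀ x ∈ ball (x0 - (2 * r) • n) (ε * r), m ≤ g x) :
    c1 * ε ^ 3 * (volume (ball (0 : E3) 1)).toReal * m * r ≤ ∫ x in Ω, g x * P x := by
  have hsub : ball (x0 - (2 * r) • n) (ε * r) ⊆ Ω := by
    refine (ball_subset_ball ?_).trans hball
    (by_contra nlg; linarith [mul_nonneg (le_of_lt (sub_pos.2 hr)) (sub_nonneg.2 hε1), mul_nonneg (le_of_lt (sub_pos.2 (not_le.1 nlg))) (sub_nonneg.2 hε1), mul_pos (sub_pos.2 (not_le.1 nlg)) (sub_pos.2 hε)])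
  have hint : IntegrableOn (fun x => g x * P x) Ω := integrableOn_of_cont hb (hg.mul hP)
  have hvol : (volume (ball (x0 - (2 * r) • n) (ε * r))).toReal =
      (ε * r) ^ 3 * (volume (ball (0 : E3) 1)).toReal := by
    have e : ε * r = (ε * r) * 1 := by ring
    rw [e, Measure.addHaar_ball_mul _ _ (by positivity), ENNReal.toReal_mul,
      finrank_euclideanSpace, Fintype.card_fin, ENNReal.toReal_ofReal (by positivity), ← e]
  calc c1 * ε ^ 3 * (volume (ball (0 : E3) 1)).toReal * m * r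
      = ∫ x in ball (x0 - (2 * r) • n) (ε * r), m * (c1 * (r ^ 2)⁻¹) := by
        rw [setIntegral_const, Measure.real, hvol, smul_eq_mul]
        field_simp
    _ ≤ ∫ x in ball (x0 - (2 * r) • n) (ε * r), g x * P x := by
        apply setIntegral_mono_on
        · exact integrableOn_const (measure_ball_lt_top.ne)
        · exact hint.mono_set hsub
        · exact measurableSet_ball
        · intro x hx
          exact mul_le_mul (hgm x hx) (hP1 x hx) (by positivity) (hg0 x (hsub hx))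
    _ ≤ ∫ x in Ω, g x * P x := by
        apply setIntegral_mono_set hint
        · filter_upwards [ae_restrict_mem hΩo.measurableSet] with x hx
          exact mul_nonneg (hg0 x hx) (hP0 x hx)
        · exact hsub.eventuallyLE

/-- the limiting argument -/
lemma bd_limit {a A r1 : ℝ} (hr1 : 0 < r1) (h : ∀ r, 0 < r → r < r1 → a ≤ A * r) : a ≤ 0 := by
  have hlim : Tendsto (fun r : ℝ => A * r) (𝓝[>] 0) (𝓝 0) := by
    have : Tendsto (fun r : ℝ => A * r) (𝓝 0) (𝓝 (A * 0)) :=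
      (continuous_const.mul continuous_id).tendsto 0
    rw [mul_zero] at this
    exact this.mono_left nhdsWithin_le_nhds
  have hev : ∀ᶠ r in 𝓝[>] (0 : ℝ), a ≤ A * r := by
    filter_upwards [self_mem_nhdsWithin, nhdsWithin_le_nhds (Iio_mem_nhds hr1)] with r h1 h2
    exact h r h1 h2
  exact ge_of_tendsto hlim hev

theorem bd_end {Ω : Set E3} (hΩ : SmoothDomain Ω) {x0 : E3} (hx : x0 ∈ frontier Ω) {n : E3}
    {r0 : ℝ} (hn : ‖n‖ = 1) (hr0 : 0 < r0)
    (hball : ∀ r, 0 < r → r < r0 → Metric.ball (x0 - (2 * r) • n) r ⊆ Ω)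
    (hup : ∃ K, ∀ x ∈ Ω, ⟪n, x - x0⟫_ℝ ≤ K * ‖x - x0‖ ^ 2)
    (htan : ∀ f : E3 → ℝ, ContDiff ℝ ∞ f → (∀ z ∈ frontier Ω, f z = 0) → ∀ v, ⟪n, v⟫_ℝ = 0 →
        fderiv ℝ f x0 v = 0)
    {f : E3 → ℝ} (hf : ContDiff ℝ ∞ f) (P : ℝ → E3 → ℝ) {ε c1 C1 C2 : ℝ}
    (hε : 0 < ε) (hε1 : ε ≤ 1) (hc1 : 0 < c1)
    (hPc : ∀ r, 0 < r → r < r0 → Continuous (P r))
    (hP0 : ∀ r, 0 < r → r < r0 → ∀ x ∈ Ω,
      0 ≤ P r x ∧ P r x ≤ C1 * (r ^ 4 * ((r + ‖x - x0‖) ^ 6)⁻¹))
    (hP1 : ∀ r, 0 < r → r < r0 → ∀ x ∈ Metric.ball (x0 - (2 * r) • n) (ε * r),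
      c1 * (r ^ 2)⁻¹ ≤ P r x)
    (hint : ∀ r, 0 < r → r < r0 → - C2 * r ^ 3 ≤ ∫ x in Ω, f x * P r x) :
    0 ≤ f x0 ∧ ((∀ z ∈ frontier Ω, f z = 0) → fderiv ℝ f x0 n ≤ 0) := by
  have hΩo := hΩ.isOpen
  have hb := hΩ.isBounded
  obtain ⟨D', hD'⟩ := hb.subset_closedBall x0
  set D := max D' 1 with hDdef
  have hD : ∀ x ∈ Ω, ‖x - x0‖ ≤ D := fun x hx => by
    rw [← dist_eq_norm]
    exact (hD' hx).trans (le_max_left _ _)
  obtain ⟨K, hK0, hK⟩ := taylor2 hf x0 D
  obtain ⟨Ce, hCe, herr⟩ := bd_err hb x0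
  set v := (volume (ball (0 : E3) 1)).toReal with hv
  have hv0 : 0 < v := by
    rw [hv]
    exact ENNReal.toReal_pos (measure_ball_pos volume _ (by norm_num)).ne'
      measure_ball_lt_top.ne
  -- the second moment of `P`
  have hmom : ∀ r, 0 < r → r < min r0 1 →
      ∫ x in Ω, ‖x - x0‖ ^ 2 * P r x ≤ |C1| * Ce * r ^ 3 := by
    intro r hr hr1
    have hr2 : r < r0 := lt_of_lt_of_le hr1 (min_le_left _ _)
    have hr3 : r < 1 := lt_of_lt_of_le hr1 (min_le_right _ _)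
    have hmc := maj_continuous x0 hr
    have hPr := hPc r hr hr2
    calc ∫ x in Ω, ‖x - x0‖ ^ 2 * P r x
        ≤ ∫ x in Ω, |C1| * (‖x - x0‖ ^ 2 * maj x0 r x) := by
          apply setIntegral_mono_on
          · exact integrableOn_of_cont hb (by fun_prop)
          · exact integrableOn_of_cont hb (by fun_prop)
          · exact hΩo.measurableSet
          · intro x hx
            have h1 := (hP0 r hr hr2 x hx).2
            have h2 : C1 * maj x0 r x ≤ |C1| * maj x0 r x :=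
              mul_le_mul_of_nonneg_right (le_abs_self _) (maj_nonneg x0 hr x)
            have h3 : P r x ≤ |C1| * maj x0 r x := h1.trans h2
            calc ‖x - x0‖ ^ 2 * P r x ≤ ‖x - x0‖ ^ 2 * (|C1| * maj x0 r x) := by gcongr
              _ = _ := by ring
      _ = |C1| * ∫ x in Ω, ‖x - x0‖ ^ 2 * maj x0 r x := integral_const_mul _ _
      _ ≤ |C1| * (Ce * r ^ 3) := by
          apply mul_le_mul_of_nonneg_left _ (abs_nonneg _)
          exact herr r hr hr3
      _ = _ := by ring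
  -- main inequality
  have main : ∀ (K' : ℝ) (m : ℝ → ℝ), 0 ≤ K' → (∀ r, 0 < r → 0 ≤ m r) →
      (∀ x ∈ Ω, 0 ≤ - f x + K' * ‖x - x0‖ ^ 2) →
      (∀ r, 0 < r → r < r0 → ∀ x ∈ ball (x0 - (2 * r) • n) (ε * r),
        m r ≤ - f x + K' * ‖x - x0‖ ^ 2) →
      ∀ r, 0 < r → r < min r0 1 →
        c1 * ε ^ 3 * v * m r * r ≤ (|C2| + K' * (|C1| * Ce)) * r ^ 3 := by
    intro K' m hK' hm hg0 hgm r hr hr1
    have hr2 : r < r0 := lt_of_lt_of_le hr1 (min_le_left _ _)
    have hPr := hPc r hr hr2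
    have hfc := hf.continuous
    have h1 := bd_lower hΩo hb hr hε hε1 hc1 (hball r hr hr2)
      (g := fun x => - f x + K' * ‖x - x0‖ ^ 2) (P := P r) (by fun_prop) hPr
      (fun x hx => (hP0 r hr hr2 x hx).1) (hP1 r hr hr2) (hm r hr) hg0 (hgm r hr hr2)
    have e : ∫ x in Ω, (- f x + K' * ‖x - x0‖ ^ 2) * P r x =
        - (∫ x in Ω, f x * P r x) + K' * ∫ x in Ω, ‖x - x0‖ ^ 2 * P r x := by
      rw [← integral_const_mul, ← integral_neg, ← integral_add]
      · congr 1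
        funext x
        ring
      · exact integrableOn_of_cont hb (by fun_prop)
      · exact integrableOn_of_cont hb (by fun_prop)
    rw [e] at h1
    have h2 := hint r hr hr2
    have h3 := mul_le_mul_of_nonneg_left (hmom r hr hr1) hK'
    have h4 : C2 * r ^ 3 ≤ |C2| * r ^ 3 := by
      apply mul_le_mul_of_nonneg_right (le_abs_self _) (by positivity)
    calc _ ≤ _ := h1
      _ ≤ |C2| * r ^ 3 + K' * (|C1| * Ce * r ^ 3) := by linarith only [h4, h3, h2]
      _ = _ := by ring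
  have hrr : 0 < min r0 1 := lt_min hr0 one_pos
  constructor
  · by_contra hcon
    rw [not_le] at hcon
    set δ := - f x0 with hδ
    have hδ0 : 0 < δ := by linarith
    set L := ‖fderiv ℝ f x0‖ with hL
    set K' := L ^ 2 / (2 * δ) + K with hK'
    have hK'0 : 0 ≤ K' := by (clear * - hδ0 hK0; positivity)
    have hfx : ∀ x, ‖x - x0‖ ≤ D → δ / 2 ≤ - f x + K' * ‖x - x0‖ ^ 2 := by
      intro x hx
      have h1 := (abs_le.1 (hK x hx)).2
      have h2 : |fderiv ℝ f x0 (x - x0)| ≤ L * ‖x - x0‖ := by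
        rw [← Real.norm_eq_abs]
        exact (fderiv ℝ f x0).le_opNorm _
      have h3 := (abs_le.1 h2).2
      have h4 : L * ‖x - x0‖ ≤ δ / 2 + L ^ 2 / (2 * δ) * ‖x - x0‖ ^ 2 := by
        have e : δ / 2 + L ^ 2 / (2 * δ) * ‖x - x0‖ ^ 2 - L * ‖x - x0‖ =
            (L * ‖x - x0‖ - δ) ^ 2 / (2 * δ) := by
          field_simp
          ring
        have : 0 ≤ (L * ‖x - x0‖ - δ) ^ 2 / (2 * δ) := by (clear * - hδ0; positivity)
        linarith only [this, e]
      rw [hK']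
      linarith only [h4, h3, h1]
    have h5 := main K' (fun _ => δ / 2) hK'0 (fun _ _ => by positivity)
      (fun x hx => le_trans (by positivity) (hfx x (hD x hx)))
      (fun r hr hr2 x hx => hfx x (hD x (hball r hr hr2 (ball_subset_ball (by (by_contra nlg; linarith only [nlg, mul_nonneg (sub_nonneg.2 hε1) (le_of_lt (sub_pos.2 hr)), mul_nonneg (le_of_lt (sub_pos.2 (not_le.1 nlg))) (sub_nonneg.2 hε1), mul_pos (sub_pos.2 (not_le.1 nlg)) (sub_pos.2 hε)])) hx))))
    have h6 : c1 * ε ^ 3 * v * (δ / 2) ≤ 0 := by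
      apply bd_limit (A := |C2| + K' * (|C1| * Ce)) hrr
      intro r hr hr1
      have h7 := h5 r hr hr1
      have hr3 : r < 1 := lt_of_lt_of_le hr1 (min_le_right _ _)
      have h8 : 0 ≤ |C2| + K' * (|C1| * Ce) := by (clear * - hδ0 hK0 hCe; positivity)
      have h9 : c1 * ε ^ 3 * v * (δ / 2) * r ≤ ((|C2| + K' * (|C1| * Ce)) * r) * r := by
        calc _ ≤ _ := h7
          _ = ((|C2| + K' * (|C1| * Ce)) * r * r) * r := by ring
          _ ≤ ((|C2| + K' * (|C1| * Ce)) * r * 1) * r := by gcongr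
          _ = _ := by ring
      exact le_of_mul_le_mul_right h9 hr
    have : 0 < c1 * ε ^ 3 * v * (δ / 2) := by positivity
    linarith only [this, h6]
  · intro hfr
    by_contra hcon
    rw [not_le] at hcon
    obtain ⟨M', hM'⟩ := hup
    set M := max M' 0 with hMdef
    have hM0 : 0 ≤ M := le_max_right _ _
    have hM : ∀ x ∈ Ω, ⟪n, x - x0⟫_ℝ ≤ M * ‖x - x0‖ ^ 2 := fun x hx =>
      (hM' x hx).trans (mul_le_mul_of_nonneg_right (le_max_left _ _) (by (clear * -; positivity)))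
    set b := fderiv ℝ f x0 n with hbdef
    have hnn : ⟪n, n⟫_ℝ = 1 := by rw [real_inner_self_eq_norm_sq, hn]; norm_num
    have hlin : ∀ w, fderiv ℝ f x0 w = b * ⟪n, w⟫_ℝ := by
      intro w
      have h1 := htan f hf hfr (w - ⟪n, w⟫_ℝ • n) (by
        rw [inner_sub_right, real_inner_smul_right, hnn]; ring)
      rw [map_sub, map_smul, smul_eq_mul, ← hbdef] at h1
      linarith
    set K' := K + b * M with hK'
    have hK'0 : 0 ≤ K' := by (clear * - hK0 hcon; positivity)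
    have hfx : ∀ x, ‖x - x0‖ ≤ D → - (b * ⟪n, x - x0⟫_ℝ) + b * M * ‖x - x0‖ ^ 2 ≤
        - f x + K' * ‖x - x0‖ ^ 2 := by
      intro x hx
      have h1 := (abs_le.1 (hK x hx)).2
      rw [hfr x0 ‹_›, sub_zero, hlin] at h1
      rw [hK']
      linarith only [h1]
    have h5 := main K' (fun r => b * r) hK'0 (fun r hr => by positivity)
      (fun x hx => by
        have h1 := hfx x (hD x hx)
        have h2 := mul_le_mul_of_nonneg_left (hM x hx) hcon.le
        linarith only [h2, h1])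
      (fun r hr hr2 x hx => by
        have hx' : x ∈ ball (x0 - (2 * r) • n) r := ball_subset_ball (by (by_contra nlg; linarith only [nlg, mul_nonneg (sub_nonneg.2 hε1) (le_of_lt (sub_pos.2 hr)), mul_nonneg (le_of_lt (sub_pos.2 (not_le.1 nlg))) (sub_nonneg.2 hε1), mul_pos (sub_pos.2 (not_le.1 nlg)) (sub_pos.2 hε)])) hx
        have hxΩ := hball r hr hr2 hx'
        have h1 := hfx x (hD x hxΩ)
        have h2 : ⟪n, x - x0⟫_ℝ ≤ - r := by
          have e : x - x0 = (x - (x0 - (2 * r) • n)) - (2 * r) • n := by abel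
          rw [mem_ball, dist_eq_norm] at hx'
          have h3 := real_inner_le_norm n (x - (x0 - (2 * r) • n))
          rw [hn, one_mul] at h3
          rw [e, inner_sub_right, real_inner_smul_right, hnn]
          linarith only [h3, hx']
        have h3 : 0 ≤ b * M * ‖x - x0‖ ^ 2 := by (clear * - hcon; positivity)
        have h4 := mul_le_mul_of_nonneg_left h2 hcon.le
        linarith)
    have h6 : c1 * ε ^ 3 * v * b ≤ 0 := by
      apply bd_limit (A := |C2| + K' * (|C1| * Ce)) hrr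
      intro r hr hr1
      have h7 := h5 r hr hr1
      have h9 : c1 * ε ^ 3 * v * b * r ^ 2 ≤ ((|C2| + K' * (|C1| * Ce)) * r) * r ^ 2 := by
        calc _ = c1 * ε ^ 3 * v * (b * r) * r := by ring
          _ ≤ _ := h7
          _ = _ := by ring
      exact le_of_mul_le_mul_right h9 (by positivity)
    have : 0 < c1 * ε ^ 3 * v * b := by positivity
    linarith

end Vale.Agent.P136
end
end

section

section

open MeasureTheory Filter Topology
open scoped ContDiff InnerProductSpace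

namespace Vale.Agent.P136

section integrability

variable {Ω : Set E3}

lemma bdd_on {Ω : Set E3} (hb : Bornology.IsBounded Ω) {c : E3 → ℝ} (hc : Continuous c) :
    ∃ M : ℝ, 0 ≤ M ∧ ∀ x ∈ Ω, |c x| ≤ M := by
  have hK : IsCompact (closure Ω) := hb.isCompact_closure
  obtain ⟨M, hM⟩ := hK.exists_bound_of_continuousOn hc.continuousOn
  refine ⟨max M 0, le_max_right _ _, fun x hx => ?_⟩
  have := hM x (subset_closure hx)
  rw [Real.norm_eq_abs] at this
  exact this.trans (le_max_left _ _)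

lemma int_c {𝕜 : Type*} [RCLike 𝕜] (ho : MeasurableSet Ω) (hb : Bornology.IsBounded Ω)
    {c : E3 → ℝ} (hc : Continuous c) {f g : E3 → 𝕜} (hf : MemLp f 2 (volume.restrict Ω))
    (hg : MemLp g 2 (volume.restrict Ω)) :
    Integrable (fun x => (c x : 𝕜) * (f x * g x)) (volume.restrict Ω) := by
  obtain ⟨M, hM0, hM⟩ := bdd_on hb hc
  have h1 : Integrable (fun x => f x * g x) (volume.restrict Ω) := hf.integrable_mul hg
  refine h1.bdd_mul (c := M) ?_ ?_
  · exact (RCLike.continuous_ofReal.comp hc).aestronglyMeasurable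
  · rw [ae_restrict_iff' ho]
    refine ae_of_all _ fun x hx => ?_
    rw [RCLike.norm_ofReal]
    exact hM x hx

/-- integrand of `cform`. -/
noncomputable def qc {𝕜 : Type*} [RCLike 𝕜] (lam mu : E3 → ℝ) (G H : Fin 3 → Fin 3 → E3 → 𝕜)
    (x : E3) : 𝕜 :=
  ((lam x : 𝕜) * ((∑ i, G i i x) * ∑ i, H i i x) +
    2 * (mu x : 𝕜) * ∑ i, ∑ j, ((G i j x + G j i x) / 2) * ((H i j x + H j i x) / 2))

lemma qc_expand {𝕜 : Type*} [RCLike 𝕜] (lam mu : E3 → ℝ) (G H : Fin 3 → Fin 3 → E3 → 𝕜)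
    (x : E3) : qc lam mu G H x = ∑ i, ∑ j, (lam x : 𝕜) * (G i i x * H j j x) +
      ∑ i, ∑ j, ((mu x : 𝕜) * (G i j x * H i j x) + (mu x : 𝕜) * (G i j x * H j i x)) := by
  unfold qc
  simp only [Fin.sum_univ_three]
  ring

lemma int_qc {𝕜 : Type*} [RCLike 𝕜] (ho : MeasurableSet Ω) (hb : Bornology.IsBounded Ω)
    {lam mu : E3 → ℝ} (hl : Continuous lam) (hm : Continuous mu)
    {G H : Fin 3 → Fin 3 → E3 → 𝕜}
    (hG : ∀ i j, MemLp (G i j) 2 (volume.restrict Ω))
    (hH : ∀ i j, MemLp (H i j) 2 (volume.restrict Ω)) :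
    Integrable (qc lam mu G H) (volume.restrict Ω) := by
  have : qc lam mu G H = fun x => ∑ i, ∑ j, (lam x : 𝕜) * (G i i x * H j j x) +
      ∑ i, ∑ j, ((mu x : 𝕜) * (G i j x * H i j x) + (mu x : 𝕜) * (G i j x * H j i x)) := by
    funext x
    exact qc_expand lam mu G H x
  rw [this]
  refine Integrable.add ?_ ?_
  · refine integrable_finsetSum _ fun i _ => integrable_finsetSum _ fun j _ => ?_
    exact int_c ho hb hl (hG i i) (hH j j)
  · refine integrable_finsetSum _ fun i _ => integrable_finsetSum _ fun j _ => ?_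
    exact (int_c ho hb hm (hG i j) (hH i j)).add (int_c ho hb hm (hG i j) (hH j i))

lemma form_eq (Ω : Set E3) (lam mu : E3 → ℝ) (G H : Fin 3 → Fin 3 → E3 → ℝ) :
    form Ω lam mu G H = ∫ x in Ω, qc lam mu G H x := rfl

lemma cform_eq (Ω : Set E3) (lam mu : E3 → ℝ) (G H : Fin 3 → Fin 3 → E3 → ℂ) :
    cform Ω lam mu G H = ∫ x in Ω, qc lam mu G H x := rfl

lemma memLp_smooth {𝕜 : Type*} [NormedAddCommGroup 𝕜] (ho : MeasurableSet Ω)
    (hb : Bornology.IsBounded Ω)
    {f : E3 → 𝕜} (hf : Continuous f) : MemLp f 2 (volume.restrict Ω) := by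
  have hK : IsCompact (closure Ω) := hb.isCompact_closure
  obtain ⟨M, hM⟩ := hK.exists_bound_of_continuousOn hf.continuousOn
  have : IsFiniteMeasure (volume.restrict Ω) := ⟨by
    rw [Measure.restrict_apply_univ]
    exact hb.measure_lt_top⟩
  have hfin : (volume.restrict (closure Ω)) (closure Ω) < ⊤ := by
    rw [Measure.restrict_apply_self]
    exact hK.measure_lt_top
  refine MemLp.of_bound ?_ M ?_
  · exact (hf.continuousOn.aestronglyMeasurable_of_isCompact hK isClosed_closure.measurableSet).mono_measure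
      (Measure.restrict_mono subset_closure le_rfl)
  · rw [ae_restrict_iff' ho]
    exact ae_of_all _ fun x hx => hM x (subset_closure hx)

end integrability

section real

variable {Ω : Set E3}

lemma cs_real {μ : Measure E3} {f g : E3 → ℝ} (hf : MemLp f 2 μ) (hg : MemLp g 2 μ) :
    |∫ x, f x * g x ∂μ| ≤ √(∫ x, f x ^ 2 ∂μ) * √(∫ x, g x ^ 2 ∂μ) := by
  have h2 : ENNReal.ofReal (2 : ℝ) = 2 := by norm_num
  have h := integral_mul_le_Lp_mul_Lq_of_nonneg (μ := μ) (p := 2) (q := 2)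
    (f := fun x => |f x|) (g := fun x => |g x|) Real.HolderConjugate.two_two
    (ae_of_all _ fun x => abs_nonneg _) (ae_of_all _ fun x => abs_nonneg _)
    (by rw [h2]; exact hf.abs) (by rw [h2]; exact hg.abs)
  have e1 : ∀ F : E3 → ℝ, (∫ x, |F x| ^ (2 : ℝ) ∂μ) ^ (1 / (2 : ℝ)) = √(∫ x, F x ^ 2 ∂μ) := by
    intro F
    rw [← Real.sqrt_eq_rpow]
    congr 1
    refine integral_congr_ae (ae_of_all _ fun x => ?_)
    simp only
    rw [Real.rpow_two, sq_abs]
  rw [e1, e1] at h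
  refine le_trans ?_ h
  calc |∫ x, f x * g x ∂μ| ≤ ∫ x, |f x * g x| ∂μ := abs_integral_le_integral_abs
    _ = ∫ x, |f x| * |g x| ∂μ := by simp_rw [abs_mul]

lemma tendsto_c (ho : MeasurableSet Ω) (hb : Bornology.IsBounded Ω)
    {c : E3 → ℝ} (hc : Continuous c) {f : E3 → ℝ} {g : ℕ → E3 → ℝ}
    (hf : MemLp f 2 (volume.restrict Ω)) (hg : ∀ n, MemLp (g n) 2 (volume.restrict Ω))
    (h0 : Tendsto (fun n => ∫ x in Ω, (g n x) ^ 2) atTop (𝓝 0)) :
    Tendsto (fun n => ∫ x in Ω, c x * (f x * g n x)) atTop (𝓝 0) := by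
  obtain ⟨M, hM0, hM⟩ := bdd_on hb hc
  have hcf : MemLp (fun x => c x * f x) 2 (volume.restrict Ω) := by
    refine (hf.const_mul M).mono ?_ ?_
    · exact hc.aestronglyMeasurable.mul hf.1
    · rw [ae_restrict_iff' ho]
      refine ae_of_all _ fun x hx => ?_
      rw [norm_mul, norm_mul]
      refine mul_le_mul_of_nonneg_right ?_ (norm_nonneg _)
      rw [Real.norm_eq_abs, Real.norm_of_nonneg hM0]
      exact hM x hx
  have hb2 : ∀ n, |∫ x in Ω, c x * (f x * g n x)| ≤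
      √(∫ x in Ω, (c x * f x) ^ 2) * √(∫ x in Ω, (g n x) ^ 2) := by
    intro n
    have := cs_real hcf (hg n)
    simp_rw [mul_assoc] at this
    exact this
  have h3 : Tendsto (fun n => √(∫ x in Ω, (c x * f x) ^ 2) * √(∫ x in Ω, (g n x) ^ 2)) atTop
      (𝓝 0) := by
    have h4 : Tendsto (fun n => √(∫ x in Ω, (g n x) ^ 2)) atTop (𝓝 0) := by
      have := (Real.continuous_sqrt.tendsto 0).comp h0
      rw [Real.sqrt_zero] at this
      exact this
    simpa using h4.const_mul (√(∫ x in Ω, (c x * f x) ^ 2))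
  exact squeeze_zero_norm (fun n => by rw [Real.norm_eq_abs]; exact hb2 n) h3

/-- continuity of the form in the second argument. -/
lemma tendsto_form (ho : MeasurableSet Ω) (hb : Bornology.IsBounded Ω)
    {lam mu : E3 → ℝ} (hl : Continuous lam) (hm : Continuous mu)
    {G H : Fin 3 → Fin 3 → E3 → ℝ} {K : ℕ → Fin 3 → Fin 3 → E3 → ℝ}
    (hG : ∀ i j, MemLp (G i j) 2 (volume.restrict Ω))
    (hH : ∀ i j, MemLp (H i j) 2 (volume.restrict Ω))
    (hK : ∀ n i j, MemLp (K n i j) 2 (volume.restrict Ω))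
    (h0 : ∀ i j, Tendsto (fun n => ∫ x in Ω, (H i j x - K n i j x) ^ 2) atTop (𝓝 0)) :
    Tendsto (fun n => form Ω lam mu G (K n)) atTop (𝓝 (form Ω lam mu G H)) := by
  have hdiff : ∀ n, form Ω lam mu G H - form Ω lam mu G (K n) =
      (∑ i, ∑ j, ∫ x in Ω, lam x * (G i i x * (H j j x - K n j j x))) +
      (∑ i, ∑ j, ((∫ x in Ω, (mu x * (G i j x * (H i j x - K n i j x)))) +
        (∫ x in Ω, mu x * (G i j x * (H j i x - K n j i x))))) := by
    intro n
    rw [form_eq, form_eq, ← integral_sub (int_qc ho hb hl hm hG hH)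
      (int_qc ho hb hl hm hG (hK n))]
    have e : ∀ x, qc lam mu G H x - qc lam mu G (K n) x =
        ∑ i, ∑ j, lam x * (G i i x * (H j j x - K n j j x)) +
      ∑ i, ∑ j, ((mu x * (G i j x * (H i j x - K n i j x))) +
        mu x * (G i j x * (H j i x - K n j i x))) := by
      intro x
      rw [qc_expand, qc_expand]
      simp only [Fin.sum_univ_three, RCLike.ofReal_real_eq_id, id_eq]
      ring
    simp_rw [e]
    have i1 : ∀ i j, Integrable (fun x => lam x * (G i i x * (H j j x - K n j j x)))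
        (volume.restrict Ω) := fun i j => int_c ho hb hl (hG i i) ((hH j j).sub (hK n j j))
    have i2 : ∀ i j, Integrable (fun x => mu x * (G i j x * (H i j x - K n i j x)))
        (volume.restrict Ω) := fun i j => int_c ho hb hm (hG i j) ((hH i j).sub (hK n i j))
    have i3 : ∀ i j, Integrable (fun x => mu x * (G i j x * (H j i x - K n j i x)))
        (volume.restrict Ω) := fun i j => int_c ho hb hm (hG i j) ((hH j i).sub (hK n j i))
    rw [integral_add]
    · congr 1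
      · rw [integral_finsetSum]
        · refine Finset.sum_congr rfl fun i _ => ?_
          rw [integral_finsetSum]
          exact fun j _ => i1 i j
        · exact fun i _ => integrable_finsetSum _ fun j _ => i1 i j
      · rw [integral_finsetSum]
        · refine Finset.sum_congr rfl fun i _ => ?_
          rw [integral_finsetSum]
          · refine Finset.sum_congr rfl fun j _ => ?_
            rw [integral_add (i2 i j) (i3 i j)]
          · exact fun j _ => (i2 i j).add (i3 i j)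
        · exact fun i _ => integrable_finsetSum _ fun j _ => (i2 i j).add (i3 i j)
    · exact integrable_finsetSum _ fun i _ => integrable_finsetSum _ fun j _ => i1 i j
    · exact integrable_finsetSum _ fun i _ => integrable_finsetSum _ fun j _ =>
        (i2 i j).add (i3 i j)
  have hlim : Tendsto (fun n => form Ω lam mu G H - form Ω lam mu G (K n)) atTop (𝓝 0) := by
    simp_rw [hdiff]
    have t1 : ∀ i j, Tendsto (fun n => ∫ x in Ω, lam x * (G i i x * (H j j x - K n j j x)))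
        atTop (𝓝 0) := fun i j => tendsto_c ho hb hl (hG i i)
          (fun n => (hH j j).sub (hK n j j)) (h0 j j)
    have t2 : ∀ i j k l, Tendsto (fun n => ∫ x in Ω, mu x * (G i j x * (H k l x - K n k l x)))
        atTop (𝓝 0) := fun i j k l => tendsto_c ho hb hm (hG i j)
          (fun n => (hH k l).sub (hK n k l)) (h0 k l)
    have s1 : Tendsto (fun n => ∑ i, ∑ j, ∫ x in Ω, lam x * (G i i x * (H j j x - K n j j x)))
        atTop (𝓝 (∑ i : Fin 3, ∑ j : Fin 3, (0 : ℝ))) :=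
      tendsto_finsetSum _ fun i _ => tendsto_finsetSum _ fun j _ => t1 i j
    have s2 : Tendsto (fun n => ∑ i, ∑ j, ((∫ x in Ω, (mu x * (G i j x * (H i j x - K n i j x)))) +
        (∫ x in Ω, mu x * (G i j x * (H j i x - K n j i x)))))
        atTop (𝓝 (∑ i : Fin 3, ∑ j : Fin 3, ((0 : ℝ) + 0))) :=
      tendsto_finsetSum _ fun i _ => tendsto_finsetSum _ fun j _ => (t2 i j i j).add (t2 i j j i)
    have := s1.add s2
    simpa using this
  have := (tendsto_const_nhds (x := form Ω lam mu G H)).sub hlim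
  simpa using this

lemma qc_self (lam mu : E3 → ℝ) (G : Fin 3 → Fin 3 → E3 → ℝ) (x : E3) :
    qc lam mu G G x = (lam x + 2 * mu x / 3) * (G 0 0 x + G 1 1 x + G 2 2 x) ^ 2 +
      mu x * ((G 0 1 x + G 1 0 x) ^ 2 + (G 0 2 x + G 2 0 x) ^ 2 + (G 1 2 x + G 2 1 x) ^ 2) +
      2 * mu x * ((G 0 0 x - (G 0 0 x + G 1 1 x + G 2 2 x) / 3) ^ 2 +
        (G 1 1 x - (G 0 0 x + G 1 1 x + G 2 2 x) / 3) ^ 2 +
        (G 2 2 x - (G 0 0 x + G 1 1 x + G 2 2 x) / 3) ^ 2) := by
  unfold qc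
  simp only [Fin.sum_univ_three, RCLike.ofReal_real_eq_id, id_eq]
  ring

lemma qc_self_nonneg {lam mu : E3 → ℝ} {x : E3} (h1 : 0 < mu x) (h2 : 0 < 3 * lam x + 2 * mu x)
    (G : Fin 3 → Fin 3 → E3 → ℝ) : 0 ≤ qc lam mu G G x := by
  rw [qc_self]
  have h3 : 0 < lam x + 2 * mu x / 3 := by linarith
  positivity

lemma sq3_zero {a b c : ℝ} (h : a ^ 2 + b ^ 2 + c ^ 2 = 0) : a = 0 ∧ b = 0 ∧ c = 0 := by
  have ha := sq_nonneg a
  have hb := sq_nonneg b
  have hc := sq_nonneg c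
  refine ⟨?_, ?_, ?_⟩
  · exact pow_eq_zero_iff (two_ne_zero) |>.1 (by linarith : a ^ 2 = 0)
  · exact pow_eq_zero_iff (two_ne_zero) |>.1 (by linarith : b ^ 2 = 0)
  · exact pow_eq_zero_iff (two_ne_zero) |>.1 (by linarith : c ^ 2 = 0)

lemma strain_zero_of_qc {lam mu : E3 → ℝ} {x : E3} (h1 : 0 < mu x)
    (h2 : 0 < 3 * lam x + 2 * mu x)
    {G : Fin 3 → Fin 3 → E3 → ℝ} (h : qc lam mu G G x = 0) :
    ∀ i j, G i j x + G j i x = 0 := by
  rw [qc_self] at h
  have h3 : 0 < lam x + 2 * mu x / 3 := by linarith only [h2]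
  generalize G 0 0 x + G 1 1 x + G 2 2 x = T at h
  have a1 : 0 ≤ (lam x + 2 * mu x / 3) * T ^ 2 := by positivity
  have a2 : 0 ≤ mu x * ((G 0 1 x + G 1 0 x) ^ 2 + (G 0 2 x + G 2 0 x) ^ 2 +
    (G 1 2 x + G 2 1 x) ^ 2) := by (clear * - h1; positivity)
  have a3 : 0 ≤ 2 * mu x * ((G 0 0 x - T / 3) ^ 2 + (G 1 1 x - T / 3) ^ 2 +
    (G 2 2 x - T / 3) ^ 2) := by positivity
  have b1 : (lam x + 2 * mu x / 3) * T ^ 2 = 0 := by linarith
  have b2 : mu x * ((G 0 1 x + G 1 0 x) ^ 2 + (G 0 2 x + G 2 0 x) ^ 2 +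
    (G 1 2 x + G 2 1 x) ^ 2) = 0 := by linarith
  have b3 : 2 * mu x * ((G 0 0 x - T / 3) ^ 2 + (G 1 1 x - T / 3) ^ 2 +
    (G 2 2 x - T / 3) ^ 2) = 0 := by linarith
  have c1 : T = 0 := pow_eq_zero_iff (two_ne_zero) |>.1 ((mul_eq_zero.1 b1).resolve_left h3.ne')
  have c2 := sq3_zero ((mul_eq_zero.1 b2).resolve_left h1.ne')
  have c3 := sq3_zero ((mul_eq_zero.1 b3).resolve_left (by linarith only [h1]))
  obtain ⟨d1, d2, d3⟩ := c2
  obtain ⟨e1, e2, e3⟩ := c3
  rw [c1, zero_div, sub_zero] at e1 e2 e3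
  intro i j
  fin_cases i <;> fin_cases j <;> simp <;> linarith

/-- if the strain of `G` and `G'` coincide then the forms coincide. -/
lemma form_congr_strain {lam mu : E3 → ℝ}
    {G G' H : Fin 3 → Fin 3 → E3 → ℝ}
    (h : ∀ᵐ x ∂(volume.restrict Ω), ∀ i j, G i j x + G j i x = G' i j x + G' j i x) :
    form Ω lam mu G H = form Ω lam mu G' H := by
  rw [form_eq, form_eq]
  refine integral_congr_ae ?_
  filter_upwards [h] with x hx
  unfold qc
  simp only [hx]
  have : ∑ i, G i i x = ∑ i, G' i i x := by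
    refine Finset.sum_congr rfl fun i _ => ?_
    have := hx i i
    linarith
  rw [this]

lemma IsTest.memLp_pd (ho : MeasurableSet Ω) (hb : Bornology.IsBounded Ω) {φ : E3 → ℝ}
    (h : IsTest Ω φ) (i : Fin 3) : MemLp (pd i φ) 2 (volume.restrict Ω) :=
  memLp_smooth ho hb (pd_contDiff_infty h.1 i).continuous

/-- uniqueness of the Dirichlet problem at the level of strains. -/
lemma unique_strain (hop : IsOpen Ω) (hb : Bornology.IsBounded Ω) {lam mu : E3 → ℝ}
    (hA : Admissible Ω lam mu) {f w w' : H1 Ω} (h1 : SameTrace w f) (h2 : SameTrace w' f)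
    (hw : WeakSol lam mu w) (hw' : WeakSol lam mu w') :
    ∀ᵐ x ∂(volume.restrict Ω), ∀ i j,
      w.der i j x + w.der j i x = w'.der i j x + w'.der j i x := by
  have ho := hop.measurableSet
  have hl := hA.lam_smooth.continuous
  have hm := hA.mu_smooth.continuous
  obtain ⟨φ, hφ, -, hφ2⟩ := h1
  obtain ⟨φ', hφ', -, hφ2'⟩ := h2
  set z : Fin 3 → Fin 3 → E3 → ℝ := fun i j x => w.der i j x - w'.der i j x with hz
  have hzm : ∀ i j, MemLp (z i j) 2 (volume.restrict Ω) := fun i j =>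
    (w.der_mem i j).sub (w'.der_mem i j)
  set K : ℕ → Fin 3 → Fin 3 → E3 → ℝ := fun n i j => pd i (fun x => φ n j x - φ' n j x) with hK
  have htest : ∀ n j, IsTest Ω (fun x => φ n j x - φ' n j x) := by
    intro n j
    refine ⟨(hφ n j).1.sub (hφ' n j).1, (hφ n j).2.1.sub (hφ' n j).2.1, ?_⟩
    refine (tsupport_sub _ _).trans (Set.union_subset (hφ n j).2.2 (hφ' n j).2.2)
  have hKm : ∀ n i j, MemLp (K n i j) 2 (volume.restrict Ω) := fun n i j =>
    (htest n j).memLp_pd ho hb i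
  have hKe : ∀ n i j x, K n i j x = pd i (φ n j) x - pd i (φ' n j) x := by
    intro n i j x
    simp only [hK, pd]
    rw [fderiv_fun_sub]
    · rfl
    · exact ((hφ n j).1.differentiable (by simp)) x
    · exact ((hφ' n j).1.differentiable (by simp)) x
  have hconv : ∀ i j, Tendsto (fun n => ∫ x in Ω, (z i j x - K n i j x) ^ 2) atTop (𝓝 0) := by
    intro i j
    have a1 : ∀ n, MemLp (fun x => w.der i j x - f.der i j x - pd i (φ n j) x) 2
        (volume.restrict Ω) := fun n =>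
      ((w.der_mem i j).sub (f.der_mem i j)).sub ((hφ n j).memLp_pd ho hb i)
    have a2 : ∀ n, MemLp (fun x => w'.der i j x - f.der i j x - pd i (φ' n j) x) 2
        (volume.restrict Ω) := fun n =>
      ((w'.der_mem i j).sub (f.der_mem i j)).sub ((hφ' n j).memLp_pd ho hb i)
    have hle : ∀ n, ∫ x in Ω, (z i j x - K n i j x) ^ 2 ≤
        2 * (∫ x in Ω, (w.der i j x - f.der i j x - pd i (φ n j) x) ^ 2) +
        2 * (∫ x in Ω, (w'.der i j x - f.der i j x - pd i (φ' n j) x) ^ 2) := by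
      intro n
      rw [← integral_const_mul, ← integral_const_mul, ← integral_add]
      · refine integral_mono_of_nonneg (ae_of_all _ fun x => sq_nonneg _) ?_
          (ae_of_all _ fun x => ?_)
        · exact ((a1 n).integrable_sq.const_mul 2).add ((a2 n).integrable_sq.const_mul 2)
        · simp only [hz, hKe]
          linarith only [sq_nonneg ((w.der i j x - f.der i j x - pd i (φ n j) x) + (w'.der i j x - f.der i j x - pd i (φ' n j) x))]
      · exact (a1 n).integrable_sq.const_mul 2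
      · exact (a2 n).integrable_sq.const_mul 2
    have hlim : Tendsto (fun n => 2 * (∫ x in Ω, (w.der i j x - f.der i j x - pd i (φ n j) x) ^ 2) +
        2 * (∫ x in Ω, (w'.der i j x - f.der i j x - pd i (φ' n j) x) ^ 2)) atTop (𝓝 0) := by
      simpa using ((hφ2 i j).const_mul 2).add ((hφ2' i j).const_mul 2)
    exact squeeze_zero (fun n => integral_nonneg fun x => sq_nonneg _) hle hlim
  have hlim := tendsto_form ho hb hl hm hzm hzm hKm hconv
  have hzero : ∀ n, form Ω lam mu z (K n) = 0 := by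
    intro n
    have e1 : form Ω lam mu z (K n) = form Ω lam mu w.der (K n) - form Ω lam mu w'.der (K n) := by
      rw [form_eq, form_eq, form_eq, ← integral_sub (int_qc ho hb hl hm w.der_mem (hKm n))
        (int_qc ho hb hl hm w'.der_mem (hKm n))]
      refine integral_congr_ae (ae_of_all _ fun x => ?_)
      simp only [qc_expand, hz, Fin.sum_univ_three, RCLike.ofReal_real_eq_id, id_eq]
      ring
    rw [e1, hw _ (htest n), hw' _ (htest n), sub_zero]
  have hzz : form Ω lam mu z z = 0 := by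
    simp_rw [hzero] at hlim
    exact (tendsto_nhds_unique hlim tendsto_const_nhds)
  rw [form_eq] at hzz
  have hnn : 0 ≤ᵐ[volume.restrict Ω] qc lam mu z z := by
    rw [EventuallyLE, ae_restrict_iff' ho]
    exact ae_of_all _ fun x hx => qc_self_nonneg (hA.mu_pos x (subset_closure hx))
      (hA.bulk_pos x (subset_closure hx)) z
  have hae := (integral_eq_zero_iff_of_nonneg_ae hnn (int_qc ho hb hl hm hzm hzm)).1 hzz
  rw [EventuallyEq, ae_restrict_iff' ho] at hae
  rw [ae_restrict_iff' ho]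
  filter_upwards [hae] with x hx hxΩ i j
  have := strain_zero_of_qc (hA.mu_pos x (subset_closure hxΩ))
      (hA.bulk_pos x (subset_closure hxΩ)) (hx hxΩ) i j
  simp only [hz] at this
  linarith

end real

section transfer

variable {Ω : Set E3}

lemma pd_ofReal_tr {f : E3 → ℝ} (hf : ContDiff ℝ ∞ f) (i : Fin 3) (x : E3) :
    pd i (fun y => (f y : ℂ)) x = ((pd i f x : ℝ) : ℂ) := by
  unfold pd
  have h : HasFDerivAt f (fderiv ℝ f x) x := ((hf.differentiable (by simp)) x).hasFDerivAt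
  have := (Complex.ofRealCLM.hasFDerivAt.comp x h).fderiv
  simp only [Function.comp_def, Complex.ofRealCLM_apply] at this
  rw [this]
  simp

lemma IsTest.ctest {φ : E3 → ℝ} (h : IsTest Ω φ) : CTest Ω (fun x => (φ x : ℂ)) := by
  refine ⟨Complex.ofRealCLM.contDiff.comp h.1, ?_, ?_⟩
  · exact h.2.1.comp_left (g := fun y : ℝ => (y : ℂ)) Complex.ofReal_zero
  · exact (tsupport_comp_subset (g := fun y : ℝ => (y : ℂ)) Complex.ofReal_zero φ).trans h.2.2

lemma IsTest.zero_out {φ : E3 → ℝ} (h : IsTest Ω φ) {x : E3} (hx : x ∉ Ω) : φ x = 0 :=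
  image_eq_zero_of_notMem_tsupport fun h' => hx (h.2.2 h')

lemma IsTest.pd_zero_out {φ : E3 → ℝ} (h : IsTest Ω φ) (i : Fin 3) {x : E3} (hx : x ∉ Ω) :
    pd i φ x = 0 := by
  have h1 : tsupport (fun y => fderiv ℝ φ y (bv i)) ⊆ tsupport φ := tsupport_fderiv_apply_subset ℝ (bv i)
  exact image_eq_zero_of_notMem_tsupport (f := fun y => fderiv ℝ φ y (bv i))
    fun h' => hx (h.2.2 (h1 h'))

/-- restriction of a smooth field to `Ω`. -/
noncomputable def ofSmooth (hop : IsOpen Ω) (hb : Bornology.IsBounded Ω) (g : Fin 3 → E3 → ℝ)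
    (hg : ∀ j, ContDiff ℝ ∞ (g j)) : H1 Ω where
  val := g
  der := fun i j => pd i (g j)
  val_mem := fun j => memLp_smooth hop.measurableSet hb (hg j).continuous
  der_mem := fun i j => memLp_smooth hop.measurableSet hb (pd_contDiff_infty (hg j) i).continuous
  weak := by
    intro i j φ hφ
    have e1 : ∫ x in Ω, g j x * pd i φ x = ∫ x, g j x * pd i φ x := by
      refine setIntegral_eq_integral_of_forall_compl_eq_zero fun x hx => ?_
      rw [hφ.pd_zero_out i hx, mul_zero]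
    have e2 : ∫ x in Ω, pd i (g j) x * φ x = ∫ x, pd i (g j) x * φ x := by
      refine setIntegral_eq_integral_of_forall_compl_eq_zero fun x hx => ?_
      rw [hφ.zero_out hx, mul_zero]
    rw [e1, e2]
    exact ibp ((hg j).of_le (by simp)) (hφ.1.of_le (by simp)) hφ.2.1 i

lemma sameTrace_refl (f : H1 Ω) : SameTrace f f := by
  refine ⟨fun _ _ _ => 0, fun n j => ⟨contDiff_const, HasCompactSupport.zero, ?_⟩, ?_, ?_⟩
  · have : tsupport (fun _ : E3 => (0 : ℝ)) = ∅ := by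
      rw [tsupport_eq_empty_iff]
      rfl
    rw [this]
    exact Set.empty_subset _
  · intro j
    simp
  · intro i j
    simp [pd]

/-- real transfer. -/
lemma real_transfer (hop : IsOpen Ω) (hb : Bornology.IsBounded Ω) {lam₁ mu₁ lam₂ mu₂ : E3 → ℝ}
    (hA₂ : Admissible Ω lam₂ mu₂) (hDN : SameDN Ω lam₁ mu₁ lam₂ mu₂) {u : H1 Ω}
    (hu : WeakSol lam₁ mu₁ u) :
    ∃ w : H1 Ω, SameTrace w u ∧ ∀ g : Fin 3 → E3 → ℝ, (∀ j, ContDiff ℝ ∞ (g j)) →
      form Ω lam₂ mu₂ w.der (fun i j => pd i (g j)) =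
        form Ω lam₁ mu₁ u.der (fun i j => pd i (g j)) := by
  have key : ∀ g : H1 Ω, ∃ w : H1 Ω, SameTrace w u ∧ WeakSol lam₂ mu₂ w ∧
      form Ω lam₁ mu₁ u.der g.der = form Ω lam₂ mu₂ w.der g.der := by
    intro g
    obtain ⟨w, h1, h2, h3⟩ := (hDN u g (form Ω lam₁ mu₁ u.der g.der)).1
      ⟨u, sameTrace_refl u, hu, rfl⟩
    exact ⟨w, h1, h2, h3⟩
  obtain ⟨w, hw1, hw2, -⟩ := key (ofSmooth hop hb (fun _ _ => 0) (fun _ => contDiff_const))
  refine ⟨w, hw1, fun g hg => ?_⟩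
  obtain ⟨w', h1, h2, h3⟩ := key (ofSmooth hop hb g hg)
  have h4 := unique_strain hop hb hA₂ hw1 h1 hw2 h2
  rw [form_congr_strain h4]
  exact h3.symm

/-- splitting of the complex form, real second argument. -/
lemma cform_real (ho : MeasurableSet Ω) (hb : Bornology.IsBounded Ω) {lam mu : E3 → ℝ}
    (hl : Continuous lam) (hm : Continuous mu) {G : Fin 3 → Fin 3 → E3 → ℂ}
    {H : Fin 3 → Fin 3 → E3 → ℝ}
    (hG : ∀ i j, MemLp (G i j) 2 (volume.restrict Ω))
    (hH : ∀ i j, MemLp (H i j) 2 (volume.restrict Ω)) :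
    cform Ω lam mu G (fun i j x => (H i j x : ℂ)) =
      ((form Ω lam mu (fun i j x => (G i j x).re) H : ℝ) : ℂ) +
        Complex.I * ((form Ω lam mu (fun i j x => (G i j x).im) H : ℝ) : ℂ) := by
  have hre : ∀ i j, MemLp (fun x => (G i j x).re) 2 (volume.restrict Ω) := fun i j => (hG i j).re
  have him : ∀ i j, MemLp (fun x => (G i j x).im) 2 (volume.restrict Ω) := fun i j => (hG i j).im
  rw [cform_eq, form_eq, form_eq, ← integral_complex_ofReal, ← integral_complex_ofReal,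
    ← integral_const_mul, ← integral_add]
  · refine integral_congr_ae (ae_of_all _ fun x => ?_)
    simp only
    rw [qc_expand, qc_expand, qc_expand]
    simp only [Fin.sum_univ_three, RCLike.ofReal_real_eq_id, id_eq]
    apply Complex.ext <;> simp
  · exact (int_qc ho hb hl hm hre hH).ofReal
  · exact (int_qc ho hb hl hm him hH).ofReal.const_mul _

/-- weak derivative tested against a real test function. -/
lemma weak_parts (hop : IsOpen Ω) (hb : Bornology.IsBounded Ω) {i : Fin 3} {f g : E3 → ℂ}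
    (hf : MemLp f 2 (volume.restrict Ω)) (hg : MemLp g 2 (volume.restrict Ω))
    (h : WDc Ω i f g) {φ : E3 → ℝ} (hφ : IsTest Ω φ) :
    (∫ x in Ω, (f x).re * pd i φ x = - ∫ x in Ω, (g x).re * φ x) ∧
    (∫ x in Ω, (f x).im * pd i φ x = - ∫ x in Ω, (g x).im * φ x) := by
  have ho := hop.measurableSet
  have h1 := h _ hφ.ctest
  simp_rw [pd_ofReal_tr hφ.1] at h1
  have m1 : MemLp (fun x => ((pd i φ x : ℝ) : ℂ)) 2 (volume.restrict Ω) :=
    (hφ.memLp_pd ho hb i).ofReal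
  have m2 : MemLp (fun x => ((φ x : ℝ) : ℂ)) 2 (volume.restrict Ω) :=
    (memLp_smooth ho hb hφ.1.continuous).ofReal
  have i1 : Integrable (fun x => f x * ((pd i φ x : ℝ) : ℂ)) (volume.restrict Ω) :=
    hf.integrable_mul m1
  have i2 : Integrable (fun x => g x * ((φ x : ℝ) : ℂ)) (volume.restrict Ω) :=
    hg.integrable_mul m2
  constructor
  · have h2 := congrArg Complex.re h1
    rw [Complex.neg_re] at h2
    have e1 : (∫ x in Ω, f x * ((pd i φ x : ℝ) : ℂ)).re = ∫ x in Ω, (f x).re * pd i φ x := by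
      have := Complex.reCLM.integral_comp_comm i1
      simp only [Complex.reCLM_apply, Complex.re_mul_ofReal] at this
      exact this.symm
    have e2 : (∫ x in Ω, g x * ((φ x : ℝ) : ℂ)).re = ∫ x in Ω, (g x).re * φ x := by
      have := Complex.reCLM.integral_comp_comm i2
      simp only [Complex.reCLM_apply, Complex.re_mul_ofReal] at this
      exact this.symm
    rw [e1, e2] at h2
    exact h2
  · have h2 := congrArg Complex.im h1
    rw [Complex.neg_im] at h2
    have e1 : (∫ x in Ω, f x * ((pd i φ x : ℝ) : ℂ)).im = ∫ x in Ω, (f x).im * pd i φ x := by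
      have := Complex.imCLM.integral_comp_comm i1
      simp only [Complex.imCLM_apply, Complex.im_mul_ofReal] at this
      exact this.symm
    have e2 : (∫ x in Ω, g x * ((φ x : ℝ) : ℂ)).im = ∫ x in Ω, (g x).im * φ x := by
      have := Complex.imCLM.integral_comp_comm i2
      simp only [Complex.imCLM_apply, Complex.im_mul_ofReal] at this
      exact this.symm
    rw [e1, e2] at h2
    exact h2

/-- real part of a complex `H¹` field. -/
noncomputable def CH1.rePart (hop : IsOpen Ω) (hb : Bornology.IsBounded Ω) {u : Fin 3 → E3 → ℂ}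
    {du : Fin 3 → Fin 3 → E3 → ℂ} (h : CH1 Ω u du) : H1 Ω where
  val := fun j x => (u j x).re
  der := fun i j x => (du i j x).re
  val_mem := fun j => (h.val_mem j).re
  der_mem := fun i j => (h.der_mem i j).re
  weak := fun i j _ hφ => (weak_parts hop hb (h.val_mem j) (h.der_mem i j) (h.weak i j) hφ).1

/-- imaginary part of a complex `H¹` field. -/
noncomputable def CH1.imPart (hop : IsOpen Ω) (hb : Bornology.IsBounded Ω) {u : Fin 3 → E3 → ℂ}
    {du : Fin 3 → Fin 3 → E3 → ℂ} (h : CH1 Ω u du) : H1 Ω where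
  val := fun j x => (u j x).im
  der := fun i j x => (du i j x).im
  val_mem := fun j => (h.val_mem j).im
  der_mem := fun i j => (h.der_mem i j).im
  weak := fun i j _ hφ => (weak_parts hop hb (h.val_mem j) (h.der_mem i j) (h.weak i j) hφ).2

lemma CSol.parts (hop : IsOpen Ω) (hb : Bornology.IsBounded Ω) {lam mu : E3 → ℝ}
    (hl : Continuous lam) (hm : Continuous mu) {u : Fin 3 → E3 → ℂ}
    {du : Fin 3 → Fin 3 → E3 → ℂ} (h : CH1 Ω u du) (hs : CSol Ω lam mu du) :
    WeakSol lam mu (h.rePart hop hb) ∧ WeakSol lam mu (h.imPart hop hb) := by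
  have key : ∀ φ : Fin 3 → E3 → ℝ, (∀ j, IsTest Ω (φ j)) →
      form Ω lam mu (h.rePart hop hb).der (fun i j => pd i (φ j)) = 0 ∧
      form Ω lam mu (h.imPart hop hb).der (fun i j => pd i (φ j)) = 0 := by
    intro φ hφ
    have h1 := hs (fun j x => (φ j x : ℂ)) (fun j => (hφ j).ctest)
    have e : (fun i j => pd i (fun x => ((φ j x : ℝ) : ℂ))) =
        fun i j x => ((pd i (φ j) x : ℝ) : ℂ) := by
      funext i j x
      exact pd_ofReal_tr (hφ j).1 i x
    rw [e, cform_real hop.measurableSet hb hl hm h.der_mem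
      (fun i j => (hφ j).memLp_pd hop.measurableSet hb i)] at h1
    have h2 := congrArg Complex.re h1
    have h3 := congrArg Complex.im h1
    simp only [Complex.add_re, Complex.ofReal_re, Complex.mul_re, Complex.I_re, zero_mul,
      Complex.I_im, Complex.ofReal_im, mul_zero, add_zero, Complex.zero_re,
      Complex.add_im, Complex.mul_im, one_mul, zero_add, Complex.zero_im, sub_self] at h2 h3
    exact ⟨h2, h3⟩
  exact ⟨fun φ hφ => (key φ hφ).1, fun φ hφ => (key φ hφ).2⟩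

lemma pd_split {g : E3 → ℂ} (hg : ContDiff ℝ ∞ g) (i : Fin 3) (x : E3) :
    pd i g x = ((pd i (fun y => (g y).re) x : ℝ) : ℂ) +
      Complex.I * ((pd i (fun y => (g y).im) x : ℝ) : ℂ) := by
  have h : HasFDerivAt g (fderiv ℝ g x) x := ((hg.differentiable (by simp)) x).hasFDerivAt
  have h1 := (Complex.reCLM.hasFDerivAt.comp x h).fderiv
  have h2 := (Complex.imCLM.hasFDerivAt.comp x h).fderiv
  simp only [Function.comp_def, Complex.reCLM_apply, Complex.imCLM_apply] at h1 h2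
  unfold pd
  rw [h1, h2]
  apply Complex.ext <;> simp

lemma cform_split (ho : MeasurableSet Ω) (hb : Bornology.IsBounded Ω) {lam mu : E3 → ℝ}
    (hl : Continuous lam) (hm : Continuous mu) {G : Fin 3 → Fin 3 → E3 → ℂ}
    (hG : ∀ i j, MemLp (G i j) 2 (volume.restrict Ω))
    {g : Fin 3 → E3 → ℂ} (hg : ∀ j, ContDiff ℝ ∞ (g j)) :
    cform Ω lam mu G (fun i j => pd i (g j)) =
      (((form Ω lam mu (fun i j x => (G i j x).re)
          (fun i j => pd i (fun y => (g j y).re)) : ℝ) : ℂ) +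
        Complex.I * ((form Ω lam mu (fun i j x => (G i j x).im)
          (fun i j => pd i (fun y => (g j y).re)) : ℝ) : ℂ)) +
      Complex.I * (((form Ω lam mu (fun i j x => (G i j x).re)
          (fun i j => pd i (fun y => (g j y).im)) : ℝ) : ℂ) +
        Complex.I * ((form Ω lam mu (fun i j x => (G i j x).im)
          (fun i j => pd i (fun y => (g j y).im)) : ℝ) : ℂ)) := by
  have hgr : ∀ j, ContDiff ℝ ∞ (fun y => (g j y).re) := fun j =>
    Complex.reCLM.contDiff.comp (hg j)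
  have hgi : ∀ j, ContDiff ℝ ∞ (fun y => (g j y).im) := fun j =>
    Complex.imCLM.contDiff.comp (hg j)
  have m1 : ∀ i j, MemLp (pd i (fun y => (g j y).re)) 2 (volume.restrict Ω) := fun i j =>
    memLp_smooth ho hb (pd_contDiff_infty (hgr j) i).continuous
  have m2 : ∀ i j, MemLp (pd i (fun y => (g j y).im)) 2 (volume.restrict Ω) := fun i j =>
    memLp_smooth ho hb (pd_contDiff_infty (hgi j) i).continuous
  rw [← cform_real ho hb hl hm hG m1, ← cform_real ho hb hl hm hG m2, cform_eq, cform_eq,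
    cform_eq, ← integral_const_mul, ← integral_add]
  · refine integral_congr_ae (ae_of_all _ fun x => ?_)
    simp only
    rw [qc_expand, qc_expand, qc_expand]
    simp only [pd_split (hg _), Fin.sum_univ_three]
    ring
  · exact int_qc ho hb hl hm hG (fun i j => (m1 i j).ofReal)
  · exact (int_qc ho hb hl hm hG (fun i j => (m2 i j).ofReal)).const_mul _

/-- complex function on `Ω`, extended by zero, with given real and imaginary parts. -/
noncomputable def cpx (Ω : Set E3) (a b : E3 → ℝ) : E3 → ℂ :=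
  Ω.indicator (fun x => (a x : ℂ) + Complex.I * (b x : ℂ))

lemma cpx_memLp (ho : MeasurableSet Ω) {a b : E3 → ℝ}
    (ha : MemLp a 2 (volume.restrict Ω)) (hb : MemLp b 2 (volume.restrict Ω)) :
    MemLp (cpx Ω a b) 2 (volume : Measure E3) := by
  unfold cpx
  rw [memLp_indicator_iff_restrict ho]
  have h1 : MemLp (fun x => (a x : ℂ)) 2 (volume.restrict Ω) := ha.ofReal
  have h2 : MemLp (fun x => (b x : ℂ)) 2 (volume.restrict Ω) := hb.ofReal
  have h3 : MemLp (fun x => Complex.I * (b x : ℂ)) 2 (volume.restrict Ω) :=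
    h2.const_mul Complex.I
  exact h1.add h3

lemma cpx_zero {a b : E3 → ℝ} {x : E3} (hx : x ∉ Ω) : cpx Ω a b x = 0 :=
  Set.indicator_of_notMem hx _

lemma cpx_re {a b : E3 → ℝ} {x : E3} (hx : x ∈ Ω) : (cpx Ω a b x).re = a x := by
  simp [cpx, Set.indicator_of_mem hx]

lemma cpx_im {a b : E3 → ℝ} {x : E3} (hx : x ∈ Ω) : (cpx Ω a b x).im = b x := by
  simp [cpx, Set.indicator_of_mem hx]

lemma limit_aux (ho : MeasurableSet Ω) {a b : E3 → ℝ} {φ ψ : ℕ → E3 → ℝ}
    (ha : MemLp a 2 (volume.restrict Ω)) (hb : MemLp b 2 (volume.restrict Ω))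
    (hφ : ∀ n, MemLp (φ n) 2 (volume.restrict Ω)) (hψ : ∀ n, MemLp (ψ n) 2 (volume.restrict Ω))
    (zφ : ∀ n x, x ∉ Ω → φ n x = 0) (zψ : ∀ n x, x ∉ Ω → ψ n x = 0)
    (t1 : Tendsto (fun n => ∫ x in Ω, (a x - φ n x) ^ 2) atTop (𝓝 0))
    (t2 : Tendsto (fun n => ∫ x in Ω, (b x - ψ n x) ^ 2) atTop (𝓝 0)) :
    Tendsto (fun n => ∫ x, ‖cpx Ω a b x -
      ((φ n x : ℂ) + Complex.I * (ψ n x : ℂ))‖ ^ 2) atTop (𝓝 0) := by
  have e : ∀ n, ∫ x, ‖cpx Ω a b x -
      ((φ n x : ℂ) + Complex.I * (ψ n x : ℂ))‖ ^ 2 =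
      (∫ x in Ω, (a x - φ n x) ^ 2) + ∫ x in Ω, (b x - ψ n x) ^ 2 := by
    intro n
    have i1 : Integrable (fun x => (a x - φ n x) ^ 2) (volume.restrict Ω) :=
      (ha.sub (hφ n)).integrable_sq
    have i2 : Integrable (fun x => (b x - ψ n x) ^ 2) (volume.restrict Ω) :=
      (hb.sub (hψ n)).integrable_sq
    rw [← integral_add i1 i2]
    rw [← setIntegral_eq_integral_of_forall_compl_eq_zero (s := Ω)]
    · refine setIntegral_congr_fun ho fun x hx => ?_
      rw [← Complex.normSq_eq_norm_sq, Complex.normSq_apply]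
      simp [cpx_re hx, cpx_im hx]
      ring
    · intro x hx
      simp [cpx_zero hx, zφ n x hx, zψ n x hx]
  simp_rw [e]
  simpa using t1.add t2

lemma ch10_cpx (ho : MeasurableSet Ω) (hb : Bornology.IsBounded Ω) {vr vi : E3 → ℝ}
    {dr di : Fin 3 → E3 → ℝ} (mvr : MemLp vr 2 (volume.restrict Ω))
    (mvi : MemLp vi 2 (volume.restrict Ω)) (mdr : ∀ i, MemLp (dr i) 2 (volume.restrict Ω))
    (mdi : ∀ i, MemLp (di i) 2 (volume.restrict Ω)) {φr φi : ℕ → E3 → ℝ}
    (tr1 : ∀ n, IsTest Ω (φr n)) (ti1 : ∀ n, IsTest Ω (φi n))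
    (tr2 : Tendsto (fun n => ∫ x in Ω, (vr x - φr n x) ^ 2) atTop (𝓝 0))
    (ti2 : Tendsto (fun n => ∫ x in Ω, (vi x - φi n x) ^ 2) atTop (𝓝 0))
    (tr3 : ∀ i, Tendsto (fun n => ∫ x in Ω, (dr i x - pd i (φr n) x) ^ 2) atTop (𝓝 0))
    (ti3 : ∀ i, Tendsto (fun n => ∫ x in Ω, (di i x - pd i (φi n) x) ^ 2) atTop (𝓝 0)) :
    CH10 Ω (cpx Ω vr vi) (fun i => cpx Ω (dr i) (di i)) := by
  refine ⟨cpx_memLp ho mvr mvi, fun i => cpx_memLp ho (mdr i) (mdi i), fun x hx => cpx_zero hx,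
    fun i x hx => cpx_zero hx, fun n x => (φr n x : ℂ) + Complex.I * (φi n x : ℂ),
    fun n => ?_, ?_, fun i => ?_⟩
  · obtain ⟨a1, a2, a3⟩ := (tr1 n).ctest
    obtain ⟨b1, b2, b3⟩ := (ti1 n).ctest
    have b2' : HasCompactSupport (fun x => Complex.I * (φi n x : ℂ)) :=
      b2.mul_left
    have b3' : tsupport (fun x => Complex.I * (φi n x : ℂ)) ⊆ Ω :=
      (tsupport_mul_subset_right).trans b3
    exact ⟨a1.add (contDiff_const.mul b1), a2.add b2',
      (tsupport_add _ _).trans (Set.union_subset a3 b3')⟩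
  · exact limit_aux ho mvr mvi
      (fun n => memLp_smooth ho hb (tr1 n).1.continuous)
      (fun n => memLp_smooth ho hb (ti1 n).1.continuous)
      (fun n x hx => (tr1 n).zero_out hx) (fun n x hx => (ti1 n).zero_out hx)
      tr2 ti2
  · have h := limit_aux ho (mdr i) (mdi i)
      (fun n => (tr1 n).memLp_pd ho hb i)
      (fun n => (ti1 n).memLp_pd ho hb i)
      (fun n x hx => (tr1 n).pd_zero_out i hx) (fun n x hx => (ti1 n).pd_zero_out i hx)
      (tr3 i) (ti3 i)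
    have hp : ∀ n x, pd i (fun x => (φr n x : ℂ) + Complex.I * (φi n x : ℂ)) x =
        ((pd i (φr n) x : ℝ) : ℂ) + Complex.I * ((pd i (φi n) x : ℝ) : ℂ) := by
      intro n x
      have hsm : ContDiff ℝ ∞ (fun x => (φr n x : ℂ) + Complex.I * (φi n x : ℂ)) :=
        (tr1 n).ctest.1.add (contDiff_const.mul (ti1 n).ctest.1)
      rw [pd_split hsm]
      simp
    simp only [hp]
    exact h

lemma form_congr_on (ho : MeasurableSet Ω) {lam mu : E3 → ℝ} {G G' H : Fin 3 → Fin 3 → E3 → ℝ}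
    (h : ∀ i j, ∀ x ∈ Ω, G i j x = G' i j x) : form Ω lam mu G H = form Ω lam mu G' H := by
  refine setIntegral_congr_fun ho fun x hx => ?_
  simp only [h _ _ x hx]

theorem TR : TR_statement := by
  intro Ω lam₁ mu₁ lam₂ mu₂ hop hb hA₁ hA₂ hDN u du hu hs
  have ho := hop.measurableSet
  have hl1 := hA₁.lam_smooth.continuous
  have hm1 := hA₁.mu_smooth.continuous
  have hl2 := hA₂.lam_smooth.continuous
  have hm2 := hA₂.mu_smooth.continuous
  obtain ⟨sr, si⟩ := CSol.parts hop hb hl1 hm1 hu hs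
  obtain ⟨wr, ⟨φr, tr1, tr2, tr3⟩, fr⟩ := real_transfer hop hb hA₂ hDN sr
  obtain ⟨wi, ⟨φi, ti1, ti2, ti3⟩, fi⟩ := real_transfer hop hb hA₂ hDN si
  have mvr : ∀ j, MemLp (fun x => wr.val j x - (u j x).re) 2 (volume.restrict Ω) := fun j =>
    (wr.val_mem j).sub (hu.val_mem j).re
  have mvi : ∀ j, MemLp (fun x => wi.val j x - (u j x).im) 2 (volume.restrict Ω) := fun j =>
    (wi.val_mem j).sub (hu.val_mem j).im
  have mdr : ∀ i j, MemLp (fun x => wr.der i j x - (du i j x).re) 2 (volume.restrict Ω) :=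
    fun i j => (wr.der_mem i j).sub (hu.der_mem i j).re
  have mdi : ∀ i j, MemLp (fun x => wi.der i j x - (du i j x).im) 2 (volume.restrict Ω) :=
    fun i j => (wi.der_mem i j).sub (hu.der_mem i j).im
  refine ⟨fun j => cpx Ω (fun x => wr.val j x - (u j x).re) (fun x => wi.val j x - (u j x).im),
    fun i j => cpx Ω (fun x => wr.der i j x - (du i j x).re)
      (fun x => wi.der i j x - (du i j x).im), fun j => ?_, fun g hg => ?_⟩
  · exact ch10_cpx ho hb (mvr j) (mvi j) (fun i => mdr i j) (fun i => mdi i j)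
      (fun n => tr1 n j) (fun n => ti1 n j) (tr2 j) (ti2 j) (fun i => tr3 i j) (fun i => ti3 i j)
  · have hgr : ∀ j, ContDiff ℝ ∞ (fun y => (g j y).re) := fun j =>
      Complex.reCLM.contDiff.comp (hg j)
    have hgi : ∀ j, ContDiff ℝ ∞ (fun y => (g j y).im) := fun j =>
      Complex.imCLM.contDiff.comp (hg j)
    have hG : ∀ i j, MemLp (fun x => du i j x + cpx Ω (fun x => wr.der i j x - (du i j x).re)
      (fun x => wi.der i j x - (du i j x).im) x) 2 (volume.restrict Ω) := by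
      intro i j
      exact (hu.der_mem i j).add ((cpx_memLp ho (mdr i j) (mdi i j)).restrict Ω)
    have er : ∀ H : Fin 3 → Fin 3 → E3 → ℝ, form Ω lam₂ mu₂ (fun i j x =>
        (du i j x + cpx Ω (fun x => wr.der i j x - (du i j x).re)
      (fun x => wi.der i j x - (du i j x).im) x).re) H =
        form Ω lam₂ mu₂ wr.der H := by
      intro H
      refine form_congr_on ho fun i j x hx => ?_
      rw [Complex.add_re, cpx_re hx]
      ring
    have ei : ∀ H : Fin 3 → Fin 3 → E3 → ℝ, form Ω lam₂ mu₂ (fun i j x =>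
        (du i j x + cpx Ω (fun x => wr.der i j x - (du i j x).re)
      (fun x => wi.der i j x - (du i j x).im) x).im) H =
        form Ω lam₂ mu₂ wi.der H := by
      intro H
      refine form_congr_on ho fun i j x hx => ?_
      rw [Complex.add_im, cpx_im hx]
      ring
    rw [cform_split ho hb hl2 hm2 hG hg, cform_split ho hb hl1 hm1 hu.der_mem hg, er, er, ei, ei,
      fr _ hgr, fr _ hgi, fi _ hgr, fi _ hgi]
    rfl

end transfer

end Vale.Agent.P136
end
end

section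

section

open MeasureTheory Filter Topology Set
open scoped ContDiff InnerProductSpace NNReal

namespace Vale.Agent.P136.ZeroAux

/-! ### Zero extension of a `C¹` function vanishing on the boundary -/

lemma ae_deriv_zero_of_zero (u : ℝ → ℝ) : ∀ᵐ t : ℝ, u t = 0 → deriv u t = 0 := by
  have hc : ({t : ℝ | t ∈ {s : ℝ | u s = 0} ∧ 𝓝[{s : ℝ | u s = 0} ∩ Ioi t] t = ⊥}).Countable :=
    countable_setOfPred_isolated_right_within
  have hnull := hc.measure_zero (volume : Measure ℝ)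
  rw [ae_iff]
  refine measure_mono_null ?_ hnull
  intro t ht
  simp only [mem_ofPred_eq, Classical.not_imp] at ht
  obtain ⟨h0, hd⟩ := ht
  refine ⟨h0, ?_⟩
  have hdiff : DifferentiableAt ℝ u t := by
    by_contra hcon
    exact hd (deriv_zero_of_not_differentiableAt hcon)
  have hne := hdiff.hasDerivAt.eventually_ne (c := 0) hd
  rw [← empty_mem_iff_bot]
  rw [eventually_nhdsWithin_iff] at hne
  rw [mem_nhdsWithin_iff_eventually]
  filter_upwards [hne] with s hs hmem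
  exact (hs (ne_of_gt hmem.2)) hmem.1

lemma ae_lineDeriv_zero_of_zero {f : E3 → ℝ} (hf : Continuous f) (v : E3) :
    ∀ᵐ x : E3, f x = 0 → lineDeriv ℝ f x v = 0 := by
  let L : ℝ →L[ℝ] E3 := ContinuousLinearMap.smulRight (1 : ℝ →L[ℝ] ℝ) v
  have hmeas : MeasurableSet {x : E3 | f x = 0 → lineDeriv ℝ f x v = 0} := by
    have h1 : MeasurableSet {x : E3 | f x = 0} :=
      measurableSet_eq_fun hf.measurable measurable_const
    have h2 : MeasurableSet {x : E3 | lineDeriv ℝ f x v = 0} :=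
      measurableSet_eq_fun (measurable_lineDeriv hf) measurable_const
    have h3 : {x : E3 | f x = 0 → lineDeriv ℝ f x v = 0} =
        {x : E3 | f x = 0}ᶜ ∪ {x : E3 | lineDeriv ℝ f x v = 0} := by
      ext x
      simp only [mem_ofPred_eq, mem_union, mem_compl_iff]
      tauto
    rw [h3]
    exact h1.compl.union h2
  refine ae_mem_of_ae_add_linearMap_mem L.toLinearMap volume volume hmeas ?_
  intro p
  filter_upwards [ae_deriv_zero_of_zero (fun t : ℝ => f (p + t • v))] with s hs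
  intro h0
  have h0' : f (p + s • v) = 0 := h0
  have h1 := hs h0'
  have h2 : lineDeriv ℝ f (p + s • v) v = deriv (fun t : ℝ => f (p + t • v)) s := by
    have : (fun t : ℝ => f (p + s • v + t • v)) =
        fun t : ℝ => (fun t : ℝ => f (p + t • v)) (s + t) := by
      funext t
      simp only [add_smul, add_assoc]
    unfold lineDeriv
    rw [this, deriv_comp_const_add (f := fun t : ℝ => f (p + t • v)) s 0]
    simp
  change lineDeriv ℝ f (p + s • v) v = 0
  rw [h2, h1]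

lemma exists_mem_segment_frontier {Ω : Set E3} (hO : IsOpen Ω) {x y : E3} (hx : x ∈ Ω)
    (hy : y ∉ Ω) : ∃ w ∈ segment ℝ x y, w ∈ frontier Ω := by
  by_contra hcon
  push Not at hcon
  have hpre : IsPreconnected (segment ℝ x y) := (convex_segment x y).isPreconnected
  have hfr : ∀ w, w ∉ frontier Ω → w ∈ Ω ∨ w ∈ (closure Ω)ᶜ := by
    intro w hw
    by_cases h : w ∈ Ω
    · exact Or.inl h
    · right
      intro hcl
      apply hw
      rw [frontier, hO.interior_eq]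
      exact ⟨hcl, h⟩
  obtain ⟨w, -, hw1, hw2⟩ := hpre Ω (closure Ω)ᶜ hO isClosed_closure.isOpen_compl
    (fun w hw => hfr w (hcon w hw)) ⟨x, left_mem_segment ℝ x y, hx⟩
    ⟨y, right_mem_segment ℝ x y, (hfr y (hcon y (right_mem_segment ℝ x y))).resolve_left hy⟩
  exact hw2 (subset_closure hw1)

/-- the zero extension is Lipschitz. -/
lemma lipschitz_indicator {Ω : Set E3} (hO : IsOpen Ω) (hb : Bornology.IsBounded Ω)
    {g : E3 → ℝ} (hg : ContDiff ℝ 1 g) (h0 : ∀ x ∈ frontier Ω, g x = 0) :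
    ∃ C : ℝ≥0, LipschitzWith C (Ω.indicator g) := by
  obtain ⟨r, hr⟩ := hb.closure.subset_closedBall (0 : E3)
  have hcomp : IsCompact (Metric.closedBall (0 : E3) r) := isCompact_closedBall _ _
  obtain ⟨C, hC⟩ := hcomp.exists_bound_of_continuousOn
    (hg.continuous_fderiv (by norm_num)).continuousOn
  have hlip : ∀ x ∈ Metric.closedBall (0 : E3) r, ∀ y ∈ Metric.closedBall (0 : E3) r,
      ‖g y - g x‖ ≤ C * ‖y - x‖ := by
    intro x hx y hy
    exact (convex_closedBall (0 : E3) r).norm_image_sub_le_of_norm_fderiv_le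
      (fun z _ => (hg.differentiable (by norm_num)) z) (fun z hz => hC z hz) hx hy
  have hC0 : 0 ≤ max C 0 := le_max_right _ _
  have hfr : frontier Ω ⊆ Metric.closedBall (0 : E3) r :=
    fun w hw => hr (frontier_subset_closure hw)
  have key : ∀ x ∈ Ω, ∀ y, ‖Ω.indicator g x - Ω.indicator g y‖ ≤ max C 0 * ‖x - y‖ := by
    intro x hx y
    by_cases hy : y ∈ Ω
    · rw [indicator_of_mem hx, indicator_of_mem hy]
      refine (hlip y (hr (subset_closure hy)) x (hr (subset_closure hx))).trans ?_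
      gcongr
      exact le_max_left _ _
    · obtain ⟨w, hw, hwf⟩ := exists_mem_segment_frontier hO hx hy
      rw [indicator_of_mem hx, indicator_of_notMem hy, sub_zero]
      have h1 : ‖g x‖ = ‖g x - g w‖ := by rw [h0 w hwf, sub_zero]
      rw [h1]
      refine (hlip w (hfr hwf) x (hr (subset_closure hx))).trans ?_
      have h2 : ‖x - w‖ ≤ ‖x - y‖ := by
        have h := dist_add_dist_of_mem_segment hw
        rw [dist_eq_norm, dist_eq_norm, dist_eq_norm] at h
        have := norm_nonneg (w - y)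
        linarith
      calc C * ‖x - w‖ ≤ max C 0 * ‖x - w‖ := by
            gcongr
            exact le_max_left _ _
        _ ≤ max C 0 * ‖x - y‖ := by gcongr
  refine ⟨⟨max C 0, hC0⟩, LipschitzWith.of_dist_le_mul fun x y => ?_⟩
  rw [dist_eq_norm, dist_eq_norm]
  change _ ≤ max C 0 * _
  by_cases hx : x ∈ Ω
  · exact key x hx y
  · by_cases hy : y ∈ Ω
    · rw [norm_sub_rev, norm_sub_rev x y]
      exact key y hy x
    · rw [indicator_of_notMem hx, indicator_of_notMem hy, sub_zero, norm_zero]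
      (clear * -; positivity)

lemma exists_cutoff {K V : Set E3} (hK : IsCompact K) (hV : IsOpen V) (hKV : K ⊆ V) :
    ∃ (χ : E3 → ℝ) (W : Set E3), ContDiff ℝ ∞ χ ∧ IsOpen W ∧ K ⊆ W ∧ (∀ x ∈ W, χ x = 1) ∧
      (∀ x ∉ V, χ x = 0) ∧ ∀ x, 0 ≤ χ x ∧ χ x ≤ 1 := by
  obtain ⟨f, h1, h2, h3⟩ := exists_contMDiffMap_one_nhds_of_subset_interior (n := ⊤)
    (modelWithCornersSelf ℝ E3) hK.isClosed (t := V) (by rwa [hV.interior_eq])
  obtain ⟨W, hW, hKW, hfW⟩ := eventually_nhdsSet_iff_exists.1 h1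
  exact ⟨f, W, f.contMDiff.contDiff, hW, hKW, fun x hx => hfW x hx, h2, fun x => h3 x⟩

/-- Integral of a derivative of a function vanishing on the boundary. -/
lemma integral_pd_eq_zero {Ω : Set E3} (hO : IsOpen Ω) (hb : Bornology.IsBounded Ω)
    {g : E3 → ℝ} (hg : ContDiff ℝ 1 g) (h0 : ∀ x ∈ frontier Ω, g x = 0) (i : Fin 3) :
    ∫ x in Ω, pd i g x = 0 := by
  obtain ⟨C, hC⟩ := lipschitz_indicator hO hb hg h0
  obtain ⟨r, hr0, hr⟩ := hb.closure.subset_ball_lt 0 (0 : E3)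
  have hK : IsCompact (closure Ω) := hb.isCompact_closure
  obtain ⟨χ, W, hχ, hW, hKW, hχ1, hχ0, -⟩ := exists_cutoff hK Metric.isOpen_ball hr
  have hsupp : HasCompactSupport χ := by
    refine HasCompactSupport.intro (isCompact_closedBall (0 : E3) r) fun x hx => hχ0 x ?_
    exact fun h => hx (Metric.ball_subset_closedBall h)
  obtain ⟨D, hD⟩ := (hχ.of_le (m := 1) (by norm_num)).lipschitzWith_of_hasCompactSupport hsupp
    (by norm_num)
  have key := hC.integral_lineDeriv_mul_eq (μ := volume) hD hsupp (bv i)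
  have hR : ∫ x, lineDeriv ℝ χ x (-(bv i)) * Ω.indicator g x = 0 := by
    rw [← integral_zero E3 ℝ (μ := volume)]
    congr 1
    funext x
    by_cases hx : x ∈ Ω
    · have hxW : W ∈ 𝓝 x := hW.mem_nhds (hKW (subset_closure hx))
      have : lineDeriv ℝ χ x (-(bv i)) = 0 := by
        have heq : χ =ᶠ[𝓝 x] fun _ => (1 : ℝ) := by
          filter_upwards [hxW] with y hy using hχ1 y hy
        rw [heq.lineDeriv_eq]
        simp [lineDeriv]
      rw [this, zero_mul]
    · rw [indicator_of_notMem hx, mul_zero]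
  have hL : ∫ x, lineDeriv ℝ (Ω.indicator g) x (bv i) * χ x = ∫ x in Ω, pd i g x := by
    rw [← integral_indicator hO.measurableSet]
    apply integral_congr_ae
    filter_upwards [ae_lineDeriv_zero_of_zero hC.continuous (bv i)] with x hx
    by_cases hxΩ : x ∈ Ω
    · rw [indicator_of_mem hxΩ, hχ1 x (hKW (subset_closure hxΩ)), mul_one]
      have heq : Ω.indicator g =ᶠ[𝓝 x] g := by
        filter_upwards [hO.mem_nhds hxΩ] with y hy using indicator_of_mem hy g
      rw [heq.lineDeriv_eq, ((hg.differentiable (by norm_num)) x).lineDeriv_eq_fderiv]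
      rfl
    · rw [indicator_of_notMem hxΩ, hx (indicator_of_notMem hxΩ g), zero_mul]
  rw [hL, hR] at key
  exact key

theorem _root_.Vale.Agent.P136.ZERO : ZERO_statement := by
  intro Ω f hO hb hf h0 i φ hφ
  have hφ1 : ContDiff ℝ 1 φ := hφ.of_le (by norm_num)
  have hg : ContDiff ℝ 1 (fun x => f x * φ x) := hf.mul hφ1
  have hre : ContDiff ℝ 1 (fun x => (f x * φ x).re) := Complex.reCLM.contDiff.comp hg
  have him : ContDiff ℝ 1 (fun x => (f x * φ x).im) := Complex.imCLM.contDiff.comp hg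
  have h1 := integral_pd_eq_zero hO hb hre (fun x hx => by simp [h0 x hx]) i
  have h2 := integral_pd_eq_zero hO hb him (fun x hx => by simp [h0 x hx]) i
  have hcompact : IsCompact (closure Ω) := hb.isCompact_closure
  have hint : ∀ F : E3 → ℂ, Continuous F → IntegrableOn F Ω volume := by
    intro F hF
    exact (hF.continuousOn.integrableOn_compact hcompact).mono_set subset_closure
  have hpd : ∀ x, pd i (fun x => f x * φ x) x = f x * pd i φ x + pd i f x * φ x := by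
    intro x
    unfold pd
    rw [fderiv_fun_mul ((hf.differentiable (by norm_num)) x)
      ((hφ1.differentiable (by norm_num)) x)]
    simp [mul_comm]
  have hcont : Continuous (pd i (fun x => f x * φ x)) := pd_continuous hg i
  have hpre : ∀ x, pd i (fun x => (f x * φ x).re) x = (pd i (fun x => f x * φ x) x).re := by
    intro x
    have hd := (hg.differentiable (by norm_num)) x
    have := (Complex.reCLM.hasFDerivAt.comp x hd.hasFDerivAt).fderiv
    unfold pd
    change fderiv ℝ (Complex.reCLM ∘ fun x => f x * φ x) x (bv i) = _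
    rw [this]
    rfl
  have hpim : ∀ x, pd i (fun x => (f x * φ x).im) x = (pd i (fun x => f x * φ x) x).im := by
    intro x
    have hd := (hg.differentiable (by norm_num)) x
    have := (Complex.imCLM.hasFDerivAt.comp x hd.hasFDerivAt).fderiv
    unfold pd
    change fderiv ℝ (Complex.imCLM ∘ fun x => f x * φ x) x (bv i) = _
    rw [this]
    rfl
  have hz : ∫ x in Ω, pd i (fun x => f x * φ x) x = 0 := by
    have e1 := Complex.reCLM.integral_comp_comm (hint _ hcont)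
    have e2 := Complex.imCLM.integral_comp_comm (hint _ hcont)
    apply Complex.ext
    · rw [Complex.zero_re, ← Complex.reCLM_apply, ← e1, ← h1]
      congr 1
      funext x
      rw [hpre]
      rfl
    · rw [Complex.zero_im, ← Complex.imCLM_apply, ← e2, ← h2]
      congr 1
      funext x
      rw [hpim]
      rfl
  simp_rw [hpd] at hz
  rw [integral_add] at hz
  · exact eq_neg_of_add_eq_zero_left hz
  · exact hint _ (hf.continuous.mul (pd_continuous hφ1 i))
  · exact hint _ ((pd_continuous hf i).mul hφ1.continuous)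

/-! ### Normalization of the coefficients -/

theorem _root_.Vale.Agent.P136.N0 : N0_statement := by
  intro Ω lam mu hO hb hadm
  have hK : IsCompact (closure Ω) := hb.isCompact_closure
  have hlc : Continuous lam := hadm.lam_smooth.continuous
  have hmc : Continuous mu := hadm.mu_smooth.continuous
  have hV0 : IsOpen {x : E3 | 0 < mu x ∧ 0 < 3 * lam x + 2 * mu x} := by
    have h1 : IsOpen {x : E3 | 0 < mu x} := isOpen_lt continuous_const hmc
    have h2 : IsOpen {x : E3 | 0 < 3 * lam x + 2 * mu x} :=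
      isOpen_lt continuous_const (by fun_prop)
    exact h1.inter h2
  obtain ⟨χ, W, hχ, hW, hKW, hχ1, hχ0, hχr⟩ := exists_cutoff hK hV0
    (fun x hx => ⟨hadm.mu_pos x hx, hadm.bulk_pos x hx⟩)
  refine ⟨fun x => χ x * lam x + (1 - χ x), fun x => χ x * mu x + (1 - χ x), W, hW, hKW,
    (hχ.mul hadm.lam_smooth).add (contDiff_const.sub hχ),
    (hχ.mul hadm.mu_smooth).add (contDiff_const.sub hχ), ?_, ?_, ?_⟩
  · intro x
    by_cases hx : x ∈ {x : E3 | 0 < mu x ∧ 0 < 3 * lam x + 2 * mu x}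
    · have h1 := hχr x
      have h2 := hx.1
      beta_reduce
      rcases eq_or_lt_of_le h1.1 with h | h
      · rw [← h]; norm_num
      · have h3 : 0 < χ x * mu x := mul_pos h h2
        have h4 : 0 ≤ 1 - χ x := by linarith [h1.2]
        linarith
    · simp only [hχ0 x hx]
      norm_num
  · intro x
    by_cases hx : x ∈ {x : E3 | 0 < mu x ∧ 0 < 3 * lam x + 2 * mu x}
    · have h1 := hχr x
      have h2 : 0 < lam x + mu x := by
        have := hx.1
        have := hx.2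
        linarith
      beta_reduce
      rcases eq_or_lt_of_le h1.1 with h | h
      · rw [← h]; norm_num
      · have h3 : 0 < χ x * (lam x + mu x) := mul_pos h h2
        have h4 : 0 ≤ 1 - χ x := by linarith [h1.2]
        linarith only [h4, h3]
    · simp only [hχ0 x hx]
      norm_num
  · intro x hx
    simp only [hχ1 x hx]
    constructor <;> ring

end Vale.Agent.P136.ZeroAux
end
end

section

section

open MeasureTheory Filter Topology
open scoped ContDiff InnerProductSpace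

namespace Vale.Agent.P136

section congr

variable {Ω : Set E3} {lam mu lam' mu' : E3 → ℝ}

lemma form_congr_coef (ho : MeasurableSet Ω) (hl : ∀ x ∈ Ω, lam' x = lam x)
    (hm : ∀ x ∈ Ω, mu' x = mu x) (G H : Fin 3 → Fin 3 → E3 → ℝ) :
    form Ω lam' mu' G H = form Ω lam mu G H := by
  refine setIntegral_congr_fun ho fun x hx => ?_
  simp only [hl x hx, hm x hx]

lemma DN_congr (ho : MeasurableSet Ω) (hl : ∀ x ∈ Ω, lam' x = lam x)
    (hm : ∀ x ∈ Ω, mu' x = mu x) (f g : H1 Ω) (r : ℝ) :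
    DN Ω lam' mu' f g r ↔ DN Ω lam mu f g r := by
  unfold DN WeakSol
  simp only [form_congr_coef ho hl hm]

end congr

/-- the auxiliary coefficient `a = 2 (λ + 2 μ) / (μ (λ + μ))`. -/
noncomputable def acoef (lam mu : E3 → ℝ) (x : E3) : ℝ :=
  2 * (lam x + 2 * mu x) / (mu x * (lam x + mu x))

lemma acoef_contDiff {lam mu : E3 → ℝ} (hl : ContDiff ℝ ∞ lam) (hm : ContDiff ℝ ∞ mu)
    (h1 : ∀ x, 0 < mu x) (h2 : ∀ x, 0 < lam x + mu x) : ContDiff ℝ ∞ (acoef lam mu) := by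
  refine ContDiff.div ?_ ?_ fun x => (mul_pos (h1 x) (h2 x)).ne'
  · exact contDiff_const.mul (hl.add (contDiff_const.mul hm))
  · exact hm.mul (hl.add hm)

lemma acoef_pos {lam mu : E3 → ℝ} {x : E3} (h1 : 0 < mu x) (h2 : 0 < lam x + mu x) :
    0 < acoef lam mu x := by
  unfold acoef
  have : 0 < lam x + 2 * mu x := by linarith
  positivity

lemma acoef_mul {lam mu : E3 → ℝ} {x : E3} (h1 : 0 < mu x) (h2 : 0 < lam x + mu x) :
    2 < acoef lam mu x * mu x := by
  have e : acoef lam mu x * mu x = 2 + 2 * mu x / (lam x + mu x) := by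
    unfold acoef
    field_simp
    ring
  rw [e]
  have : 0 < 2 * mu x / (lam x + mu x) := by positivity
  linarith only [this]

lemma fderiv_acoef_congr {lam₁ mu₁ lam₂ mu₂ : E3 → ℝ} {x : E3}
    (hl₁ : DifferentiableAt ℝ lam₁ x) (hm₁ : DifferentiableAt ℝ mu₁ x)
    (hl₂ : DifferentiableAt ℝ lam₂ x) (hm₂ : DifferentiableAt ℝ mu₂ x)
    (h1 : 0 < mu₁ x) (h2 : 0 < lam₁ x + mu₁ x)
    (el : lam₁ x = lam₂ x) (em : mu₁ x = mu₂ x) (dl : fderiv ℝ lam₁ x = fderiv ℝ lam₂ x)
    (dm : fderiv ℝ mu₁ x = fderiv ℝ mu₂ x) :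
    fderiv ℝ (acoef lam₁ mu₁) x = fderiv ℝ (acoef lam₂ mu₂) x := by
  set Φ : ℝ × ℝ → ℝ := fun p => 2 * (p.1 + 2 * p.2) / (p.2 * (p.1 + p.2)) with hΦ
  have hd : DifferentiableAt ℝ Φ (lam₁ x, mu₁ x) := by
    have a1 : DifferentiableAt ℝ (fun p : ℝ × ℝ => 2 * (p.1 + 2 * p.2)) (lam₁ x, mu₁ x) := by
      fun_prop
    have a2 : DifferentiableAt ℝ (fun p : ℝ × ℝ => p.2 * (p.1 + p.2)) (lam₁ x, mu₁ x) := by
      fun_prop
    have h3 : (fun p : ℝ × ℝ => p.2 * (p.1 + p.2)) (lam₁ x, mu₁ x) ≠ 0 := (mul_pos h1 h2).ne'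
    have a3 := a1.fun_mul (a2.fun_inv h3)
    simp only [← div_eq_mul_inv] at a3
    exact a3
  have e1 : acoef lam₁ mu₁ = Φ ∘ fun y => (lam₁ y, mu₁ y) := rfl
  have e2 : acoef lam₂ mu₂ = Φ ∘ fun y => (lam₂ y, mu₂ y) := rfl
  have hd' : DifferentiableAt ℝ Φ (lam₂ x, mu₂ x) := by
    rw [← el, ← em]
    exact hd
  rw [e1, e2, fderiv_comp x hd (hl₁.prodMk hm₁), fderiv_comp x hd' (hl₂.prodMk hm₂),
    hl₁.fderiv_prodMk hm₁, hl₂.fderiv_prodMk hm₂, el, em, dl, dm]

lemma lam_eq_of_acoef_eq {lam₁ mu₁ lam₂ mu₂ : E3 → ℝ} {x : E3} (h1 : 0 < mu₁ x)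
    (h2 : 0 < lam₁ x + mu₁ x) (h3 : 0 < lam₂ x + mu₂ x) (em : mu₁ x = mu₂ x)
    (ea : acoef lam₁ mu₁ x = acoef lam₂ mu₂ x) : lam₁ x = lam₂ x := by
  unfold acoef at ea
  rw [← em] at ea h3
  rw [div_eq_div_iff (mul_pos h1 h2).ne' (mul_pos h1 h3).ne'] at ea
  have h4 : mu₁ x * mu₁ x * (lam₁ x - lam₂ x) = 0 := by linear_combination (-1 / 2) * ea
  have h5 : lam₁ x - lam₂ x = 0 := by
    rcases mul_eq_zero.1 h4 with h | h
    · exact absurd h (mul_pos h1 h1).ne'
    · exact h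
  linarith

/-- global uniqueness from the three main ingredients. -/
theorem main_of (hBD : BD1_statement) (hTL : TL_statement) (hCP : CP1_statement)
    (Ω : Set E3) (hΩ : SmoothDomain Ω) (lam₁ mu₁ lam₂ mu₂ : E3 → ℝ)
    (hA₁ : Admissible Ω lam₁ mu₁) (hA₂ : Admissible Ω lam₂ mu₂)
    (hDN : SameDN Ω lam₁ mu₁ lam₂ mu₂) :
    ∀ x ∈ Ω, lam₁ x = lam₂ x ∧ mu₁ x = mu₂ x := by
  have hbd := hBD Ω lam₁ mu₁ lam₂ mu₂ hΩ hA₁ hA₂ hDN
  obtain ⟨l₁, m₁, V₁, hV₁, hc₁, sl₁, sm₁, pm₁, pl₁, e₁⟩ :=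
    N0 Ω lam₁ mu₁ hΩ.isOpen hΩ.isBounded hA₁
  obtain ⟨l₂, m₂, V₂, hV₂, hc₂, sl₂, sm₂, pm₂, pl₂, e₂⟩ :=
    N0 Ω lam₂ mu₂ hΩ.isOpen hΩ.isBounded hA₂
  have ho := hΩ.isOpen.measurableSet
  have B₁ : Admissible Ω l₁ m₁ := by
    refine ⟨sl₁, sm₁, fun x _ => pm₁ x, fun x hx => ?_⟩
    rw [(e₁ x (hc₁ hx)).1, (e₁ x (hc₁ hx)).2]
    exact hA₁.bulk_pos x hx
  have B₂ : Admissible Ω l₂ m₂ := by
    refine ⟨sl₂, sm₂, fun x _ => pm₂ x, fun x hx => ?_⟩
    rw [(e₂ x (hc₂ hx)).1, (e₂ x (hc₂ hx)).2]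
    exact hA₂.bulk_pos x hx
  have hDN' : SameDN Ω l₁ m₁ l₂ m₂ := by
    intro f g r
    rw [DN_congr ho (fun x hx => (e₁ x (hc₁ (subset_closure hx))).1)
      (fun x hx => (e₁ x (hc₁ (subset_closure hx))).2),
      DN_congr ho (fun x hx => (e₂ x (hc₂ (subset_closure hx))).1)
      (fun x hx => (e₂ x (hc₂ (subset_closure hx))).2)]
    exact hDN f g r
  have hbd' : ∀ x ∈ frontier Ω, m₁ x = m₂ x ∧ l₁ x = l₂ x ∧
      fderiv ℝ m₁ x = fderiv ℝ m₂ x ∧ fderiv ℝ l₁ x = fderiv ℝ l₂ x := by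
    intro x hx
    have hxc : x ∈ closure Ω := frontier_subset_closure hx
    obtain ⟨b1, b2, b3, b4⟩ := hbd x hx
    have ev₁ : ∀ᶠ y in 𝓝 x, l₁ y = lam₁ y ∧ m₁ y = mu₁ y := by
      filter_upwards [hV₁.mem_nhds (hc₁ hxc)] with y hy using e₁ y hy
    have ev₂ : ∀ᶠ y in 𝓝 x, l₂ y = lam₂ y ∧ m₂ y = mu₂ y := by
      filter_upwards [hV₂.mem_nhds (hc₂ hxc)] with y hy using e₂ y hy
    have d1 : fderiv ℝ m₁ x = fderiv ℝ mu₁ x :=
      Filter.EventuallyEq.fderiv_eq (ev₁.mono fun y hy => hy.2)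
    have d2 : fderiv ℝ m₂ x = fderiv ℝ mu₂ x :=
      Filter.EventuallyEq.fderiv_eq (ev₂.mono fun y hy => hy.2)
    have d3 : fderiv ℝ l₁ x = fderiv ℝ lam₁ x :=
      Filter.EventuallyEq.fderiv_eq (ev₁.mono fun y hy => hy.1)
    have d4 : fderiv ℝ l₂ x = fderiv ℝ lam₂ x :=
      Filter.EventuallyEq.fderiv_eq (ev₂.mono fun y hy => hy.1)
    refine ⟨?_, ?_, ?_, ?_⟩
    · rw [(e₁ x (hc₁ hxc)).2, (e₂ x (hc₂ hxc)).2, b1]
    · rw [(e₁ x (hc₁ hxc)).1, (e₂ x (hc₂ hxc)).1, b2]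
    · rw [d1, d2, b3]
    · rw [d3, d4, b4]
  have hT : TLS Ω m₁ (acoef l₁ m₁) m₂ (acoef l₂ m₂) :=
    hTL Ω l₁ m₁ l₂ m₂ hΩ.isOpen hΩ.isBounded B₁ B₂ pm₁ pl₁ pm₂ pl₂ hDN' hbd'
  have hfin := hCP Ω m₁ (acoef l₁ m₁) m₂ (acoef l₂ m₂) hΩ.isOpen hΩ.isBounded sm₁
    (acoef_contDiff sl₁ sm₁ pm₁ pl₁) sm₂ (acoef_contDiff sl₂ sm₂ pm₂ pl₂) pm₁
    (fun x => acoef_pos (pm₁ x) (pl₁ x)) pm₂ (fun x => acoef_pos (pm₂ x) (pl₂ x))
    (fun x => acoef_mul (pm₁ x) (pl₁ x)) (fun x => acoef_mul (pm₂ x) (pl₂ x))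
    (fun x hx => by
      obtain ⟨b1, b2, b3, b4⟩ := hbd' x hx
      refine ⟨b1, b3, ?_, ?_⟩
      · unfold acoef
        rw [b1, b2]
      · exact fderiv_acoef_congr (sl₁.differentiable (by simp) x) (sm₁.differentiable (by simp) x)
          (sl₂.differentiable (by simp) x) (sm₂.differentiable (by simp) x) (pm₁ x) (pl₁ x)
          b2 b1 b4 b3) hT
  intro x hx
  obtain ⟨f1, f2⟩ := hfin x hx
  have f3 : l₁ x = l₂ x := lam_eq_of_acoef_eq (pm₁ x) (pl₁ x) (pl₂ x) f1 f2
  have hxc : x ∈ closure Ω := subset_closure hx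
  rw [(e₁ x (hc₁ hxc)).2, (e₂ x (hc₂ hxc)).2] at f1
  rw [(e₁ x (hc₁ hxc)).1, (e₂ x (hc₂ hxc)).1] at f3
  exact ⟨f3, f1⟩

end Vale.Agent.P136
end
end

section

section

/-!
Smooth families of bounded continuous functions: if `Φ : X' × X → F` is smooth and its support in
`x` is locally uniformly compact, then `a ↦ Φ (a, ·)` is smooth with values in `X →ᵇ F`.
-/

open Filter Topology
open scoped ContDiff BoundedContinuousFunction

namespace Vale.Agent.P136.SF

section mkB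

variable {X : Type*} [TopologicalSpace X] {F : Type*} [NormedAddCommGroup F]

/-- package a bounded continuous function (zero if the function is not bounded continuous) -/
noncomputable def mkB (g : X → F) : X →ᵇ F := by
  classical exact
    if h : Continuous g ∧ ∃ C, ∀ x, ‖g x‖ ≤ C then
      { toFun := g
        continuous_toFun := h.1
        map_bounded' := by
          obtain ⟨C, hC⟩ := h.2
          refine ⟨C + C, fun x y => ?_⟩
          rw [dist_eq_norm]
          exact (norm_sub_le _ _).trans (add_le_add (hC x) (hC y)) }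
    else 0

theorem mkB_apply {g : X → F} (h : Continuous g) (h' : ∃ C, ∀ x, ‖g x‖ ≤ C) (x : X) :
    mkB g x = g x := by
  unfold mkB
  rw [dif_pos ⟨h, h'⟩]
  rfl

end mkB

variable {X' X F : Type} [NormedAddCommGroup X'] [NormedSpace ℝ X'] [NormedAddCommGroup X]
  [NormedSpace ℝ X] [NormedAddCommGroup F] [NormedSpace ℝ F]

/-- the support of `Φ a` is compact, locally uniformly in `a` -/
def LocSupp (Φ : X' × X → F) : Prop :=
  ∀ a₀ : X', ∃ K : Set X, IsCompact K ∧ ∀ᶠ a in 𝓝 a₀, ∀ x ∉ K, Φ (a, x) = 0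

theorem LocSupp.bound {Φ : X' × X → F} (hs : LocSupp Φ) (hc : Continuous Φ) (a : X') :
    ∃ C, ∀ x, ‖Φ (a, x)‖ ≤ C := by
  obtain ⟨K, hK, h⟩ := hs a
  have h0 := h.self_of_nhds
  obtain ⟨C, hC⟩ := hK.exists_bound_of_continuousOn (f := fun x => Φ (a, x))
    (by fun_prop)
  refine ⟨max C 0, fun x => ?_⟩
  by_cases hx : x ∈ K
  · exact (hC x hx).trans (le_max_left _ _)
  · rw [h0 x hx, norm_zero]
    exact le_max_right _ _

/-- the family of bounded continuous functions -/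
noncomputable def fam (Φ : X' × X → F) (a : X') : X →ᵇ F := mkB fun x => Φ (a, x)

theorem fam_apply {Φ : X' × X → F} (hs : LocSupp Φ) (hc : Continuous Φ) (a : X') (x : X) :
    fam Φ a x = Φ (a, x) :=
  mkB_apply (by fun_prop) (hs.bound hc a) x

theorem fam_continuous {Φ : X' × X → F} (hs : LocSupp Φ) (hc : Continuous Φ) :
    Continuous (fam Φ) := by
  rw [continuous_iff_continuousAt]
  intro a₀
  rw [ContinuousAt, Metric.tendsto_nhds]
  intro ε hε
  obtain ⟨K, hK, h⟩ := hs a₀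
  have h0 := h.self_of_nhds
  have h1 : ∀ᶠ a in 𝓝 a₀, ∀ x ∈ K, ‖Φ (a, x) - Φ (a₀, x)‖ < ε / 2 := by
    apply hK.eventually_forall_of_forall_eventually
    intro x _
    have hcont : Continuous fun z : X' × X => ‖Φ (z.1, z.2) - Φ (a₀, z.2)‖ := by fun_prop
    apply hcont.continuousAt.eventually_lt_const
    simpa using half_pos hε
  filter_upwards [h, h1] with a ha ha1
  rw [dist_eq_norm]
  refine lt_of_le_of_lt ?_ (half_lt_self hε)
  rw [BoundedContinuousFunction.norm_le (half_pos hε).le]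
  intro x
  rw [BoundedContinuousFunction.sub_apply, fam_apply hs hc, fam_apply hs hc]
  by_cases hx : x ∈ K
  · exact (ha1 x hx).le
  · rw [ha x hx, h0 x hx, sub_zero, norm_zero]
    exact (half_pos hε).le

/-- derivative in the parameter -/
noncomputable def D1 (Φ : X' × X → F) (q : X' × X) : X' →L[ℝ] F :=
  (fderiv ℝ Φ q).comp (ContinuousLinearMap.inl ℝ X' X)

theorem D1_contDiff {Φ : X' × X → F} (h : ContDiff ℝ ∞ Φ) : ContDiff ℝ ∞ (D1 Φ) := by
  unfold D1
  have : ContDiff ℝ ∞ (fderiv ℝ Φ) := h.fderiv_right (m := ∞) (by simp)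
  exact this.clm_comp contDiff_const

theorem D1_locSupp {Φ : X' × X → F} (hs : LocSupp Φ) : LocSupp (D1 Φ) := by
  intro a₀
  obtain ⟨K, hK, h⟩ := hs a₀
  refine ⟨K, hK, ?_⟩
  rw [eventually_nhds_iff] at h ⊢
  obtain ⟨t, ht, hto, hat⟩ := h
  refine ⟨t, fun a ha x hx => ?_, hto, hat⟩
  have hz : Φ =ᶠ[𝓝 (a, x)] fun _ => 0 := by
    have ho : IsOpen (t ×ˢ Kᶜ) := hto.prod hK.isClosed.isOpen_compl
    filter_upwards [ho.mem_nhds ⟨ha, hx⟩] with q hq
    exact ht q.1 hq.1 q.2 hq.2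
  unfold D1
  rw [hz.fderiv_eq]
  simp

theorem hasFDerivAt_slice {Φ : X' × X → F} (h : ContDiff ℝ ∞ Φ) (a : X') (x : X) :
    HasFDerivAt (fun a => Φ (a, x)) (D1 Φ (a, x)) a := by
  have h1 : HasFDerivAt Φ (fderiv ℝ Φ (a, x)) (a, x) :=
    (h.differentiable (by simp) (a, x)).hasFDerivAt
  exact h1.comp a (hasFDerivAt_prodMk_left a x)

/-- evaluation of operator valued bounded functions -/
noncomputable def evL : (X →ᵇ (X' →L[ℝ] F)) →L[ℝ] (X' →L[ℝ] (X →ᵇ F)) :=
  LinearMap.mkContinuous₂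
    (LinearMap.mk₂ ℝ (fun (g : X →ᵇ (X' →L[ℝ] F)) (v : X') =>
      (ContinuousLinearMap.apply ℝ F v).compLeftContinuousBounded X g)
      (by intro g g' v; ext x; simp) (by intro c g v; ext x; simp)
      (by intro g v v'; ext x; simp) (by intro c g v; ext x; simp)) 1 (by
      intro g v
      rw [one_mul]
      apply (BoundedContinuousFunction.norm_le (by positivity)).2
      intro x
      simp only [LinearMap.mk₂_apply, ContinuousLinearMap.compLeftContinuousBounded_apply,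
        ContinuousLinearMap.apply_apply]
      exact (ContinuousLinearMap.le_opNorm _ _).trans
        (mul_le_mul_of_nonneg_right (g.norm_coe_le_norm x) (norm_nonneg _)))

theorem evL_apply (g : X →ᵇ (X' →L[ℝ] F)) (v : X') (x : X) : evL g v x = g x v := rfl

theorem fam_hasFDerivAt {Φ : X' × X → F} (hs : LocSupp Φ) (h : ContDiff ℝ ∞ Φ) (a₀ : X') :
    HasFDerivAt (fam Φ) (evL (fam (D1 Φ) a₀)) a₀ := by
  have hc1 := fam_continuous (D1_locSupp hs) (D1_contDiff h).continuous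
  rw [hasFDerivAt_iff_isLittleO, Asymptotics.isLittleO_iff]
  intro ε hε
  have h1 : ∀ᶠ a in 𝓝 a₀, dist (fam (D1 Φ) a) (fam (D1 Φ) a₀) < ε :=
    Metric.tendsto_nhds.1 hc1.continuousAt ε hε
  obtain ⟨δ, hδ, hball⟩ := Metric.eventually_nhds_iff_ball.1 h1
  filter_upwards [Metric.ball_mem_nhds a₀ hδ] with a ha
  apply (BoundedContinuousFunction.norm_le (by positivity)).2
  intro x
  rw [BoundedContinuousFunction.sub_apply, BoundedContinuousFunction.sub_apply, evL_apply,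
    fam_apply hs h.continuous, fam_apply hs h.continuous,
    fam_apply (D1_locSupp hs) (D1_contDiff h).continuous]
  refine (convex_ball a₀ δ).norm_image_sub_le_of_norm_hasFDerivWithin_le'
    (f := fun a => Φ (a, x)) (f' := fun a => D1 Φ (a, x))
    (fun b _ => (hasFDerivAt_slice h b x).hasFDerivWithinAt) (fun b hb => ?_)
    (Metric.mem_ball_self hδ) ha
  have h2 := (hball b hb).le
  rw [dist_eq_norm] at h2
  have h3 := (BoundedContinuousFunction.norm_coe_le_norm
    (fam (D1 Φ) b - fam (D1 Φ) a₀) x).trans h2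
  rwa [BoundedContinuousFunction.sub_apply,
    fam_apply (D1_locSupp hs) (D1_contDiff h).continuous,
    fam_apply (D1_locSupp hs) (D1_contDiff h).continuous] at h3

theorem fam_contDiff_nat (n : ℕ) : ∀ {F : Type} [NormedAddCommGroup F] [NormedSpace ℝ F]
    {Φ : X' × X → F}, LocSupp Φ → ContDiff ℝ ∞ Φ → ContDiff ℝ n (fam Φ) := by
  induction n with
  | zero =>
    intro F _ _ Φ hs h
    rw [Nat.cast_zero, contDiff_zero]
    exact fam_continuous hs h.continuous
  | succ n ih =>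
    intro F _ _ Φ hs h
    rw [Nat.cast_succ]
    refine contDiff_succ_iff_hasFDerivAt.2 ⟨fun a => evL (fam (D1 Φ) a), ?_, fam_hasFDerivAt hs h⟩
    exact evL.contDiff.comp (ih (D1_locSupp hs) (D1_contDiff h))

theorem fam_contDiff {Φ : X' × X → F} (hs : LocSupp Φ) (h : ContDiff ℝ ∞ Φ) :
    ContDiff ℝ ∞ (fam Φ) :=
  contDiff_infty.2 fun n => fam_contDiff_nat n hs h

end Vale.Agent.P136.SF
end
end

section

section

/-!
The twisted convolution operator on bounded continuous functions on `ℂ × P`.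
-/

open Filter Topology MeasureTheory Set
open scoped ContDiff Real BoundedContinuousFunction ComplexConjugate

set_option linter.unusedSectionVars false

namespace Vale.Agent.P136.SF

/-- the kernel `e^{-s|w|²/2}/w` -/
noncomputable def ker (s : ℝ) (w : ℂ) : ℂ := (Real.exp (-(s / 2) * ‖w‖ ^ 2) : ℂ) * w⁻¹

theorem norm_ker (s : ℝ) (w : ℂ) :
    ‖ker s w‖ = ‖w‖ ^ (-1 : ℝ) * Real.exp (-(s / 2) * ‖w‖ ^ (2 : ℝ)) := by
  rw [ker, norm_mul, norm_inv, Complex.norm_real, Real.norm_eq_abs, abs_of_pos (Real.exp_pos _),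
    Real.rpow_neg_one, mul_comm]
  norm_num

theorem measurable_ker (s : ℝ) : Measurable (ker s) := by
  unfold ker
  fun_prop

theorem integral_norm_ker {s : ℝ} (hs : 0 < s) :
    ∫ w : ℂ, ‖ker s w‖ = π * (s / 2) ^ (-(1 / 2) : ℝ) * Real.Gamma (1 / 2) := by
  have h := Complex.integral_rpow_mul_exp_neg_mul_rpow (p := 2) (q := -1) (b := s / 2)
    (by norm_num) (by norm_num) (by positivity)
  simp_rw [norm_ker]
  rw [h]
  norm_num

theorem integrable_ker {s : ℝ} (hs : 0 < s) : Integrable (ker s) := by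
  rw [← integrable_norm_iff (measurable_ker s).aestronglyMeasurable]
  by_contra hcon
  have h := integral_undef hcon
  rw [integral_norm_ker hs] at h
  have : 0 < π * (s / 2) ^ (-(1 / 2) : ℝ) * Real.Gamma (1 / 2) := by
    have := Real.Gamma_pos_of_pos (s := 1 / 2) (by norm_num)
    positivity
  linarith only [this, h]

/-- the bound of the operator -/
noncomputable def sig (s : ℝ) : ℝ := (2 * π)⁻¹ * ∫ w : ℂ, ‖ker s w‖

theorem sig_nonneg (s : ℝ) : 0 ≤ sig s := by
  unfold sig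
  positivity

theorem exists_sig_lt {ε : ℝ} (hε : 0 < ε) : ∃ s : ℝ, 0 < s ∧ sig s < ε := by
  have h1 : Tendsto (fun s : ℝ => (s / 2) ^ (-(1 / 2) : ℝ)) atTop (𝓝 0) :=
    (tendsto_rpow_neg_atTop (by norm_num)).comp (tendsto_id.atTop_div_const (by norm_num))
  have h2 : Tendsto (fun s : ℝ => (2 * π)⁻¹ * (π * (s / 2) ^ (-(1 / 2) : ℝ) * Real.Gamma (1 / 2)))
      atTop (𝓝 0) := by
    have := ((h1.const_mul π).mul_const (Real.Gamma (1 / 2))).const_mul (2 * π)⁻¹
    simpa using this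
  have h3 := (h2.eventually (gt_mem_nhds hε)).and (eventually_gt_atTop (0 : ℝ))
  obtain ⟨s, hs1, hs2⟩ := h3.exists
  refine ⟨s, hs2, ?_⟩
  rwa [sig, integral_norm_ker hs2]

variable {P : Type} [NormedAddCommGroup P] [NormedSpace ℝ P]

/-- the phase `e^{i s Im (z̄ w)}` -/
noncomputable def ph (s : ℝ) (z w : ℂ) : ℂ :=
  Complex.exp (((s * (conj z * w).im : ℝ) : ℂ) * Complex.I)

theorem norm_ph (s : ℝ) (z w : ℂ) : ‖ph s z w‖ = 1 := Complex.norm_exp_ofReal_mul_I _

theorem continuous_ph (s : ℝ) : Continuous fun q : ℂ × ℂ => ph s q.1 q.2 := by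
  unfold ph
  fun_prop

theorem contDiff_ph (s : ℝ) : ContDiff ℝ ∞ fun q : ℂ × ℂ => ph s q.1 q.2 := by
  unfold ph
  apply ContDiff.cexp
  apply ContDiff.mul _ contDiff_const
  have h1 : ContDiff ℝ ∞ fun q : ℂ × ℂ => conj q.1 * q.2 :=
    (Complex.conjCLE.contDiff.comp contDiff_fst).mul contDiff_snd
  have h2 : ContDiff ℝ ∞ fun q : ℂ × ℂ => (conj q.1 * q.2).im := Complex.imCLM.contDiff.comp h1
  exact Complex.ofRealCLM.contDiff.comp (contDiff_const.mul h2)

/-- the integrand of the twisted convolution -/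
theorem integrable_twist {s : ℝ} (hs : 0 < s) (f : (ℂ × P) →ᵇ ℂ) (x : ℂ × P) :
    Integrable fun w : ℂ => ker s w * (ph s x.1 w * f (x.1 - w, x.2)) := by
  apply (integrable_ker hs).mul_bdd (c := ‖f‖)
  · apply Continuous.aestronglyMeasurable
    have h1 : Continuous fun w : ℂ => ph s x.1 w :=
      (continuous_ph s).comp (continuous_const.prodMk continuous_id)
    exact h1.mul (f.continuous.comp (by fun_prop))
  · refine Eventually.of_forall fun w => ?_
    rw [norm_mul, norm_ph, one_mul]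
    exact f.norm_coe_le_norm _

/-- twisted convolution, as a bounded continuous function -/
noncomputable def twf {s : ℝ} (hs : 0 < s) (f : (ℂ × P) →ᵇ ℂ) : (ℂ × P) →ᵇ ℂ :=
  BoundedContinuousFunction.ofNormedAddCommGroup
    (fun x => ((2 * π)⁻¹ : ℝ) • ∫ w : ℂ, ker s w * (ph s x.1 w * f (x.1 - w, x.2)))
    (by
      refine (continuous_const_smul ((2 * π)⁻¹ : ℝ)).comp ?_
      apply continuous_of_dominated (bound := fun w => ‖ker s w‖ * ‖f‖)
      · intro x
        exact (integrable_twist hs f x).aestronglyMeasurable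
      · intro x
        refine Eventually.of_forall fun w => ?_
        rw [norm_mul, norm_mul, norm_ph, one_mul]
        exact mul_le_mul_of_nonneg_left (f.norm_coe_le_norm _) (norm_nonneg _)
      · exact (integrable_ker hs).norm.mul_const _
      · refine Eventually.of_forall fun w => ?_
        apply continuous_const.mul
        apply Continuous.mul
        · exact (continuous_ph s).comp (continuous_fst.prodMk continuous_const)
        · exact f.continuous.comp ((continuous_fst.sub continuous_const).prodMk continuous_snd))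
    (sig s * ‖f‖)
    (by
      intro x
      rw [norm_smul, Real.norm_of_nonneg (by positivity), sig, mul_assoc]
      apply mul_le_mul_of_nonneg_left _ (by positivity)
      rw [← integral_mul_const]
      apply norm_integral_le_of_norm_le ((integrable_ker hs).norm.mul_const _)
      refine Eventually.of_forall fun w => ?_
      rw [norm_mul, norm_mul, norm_ph, one_mul]
      exact mul_le_mul_of_nonneg_left (f.norm_coe_le_norm _) (norm_nonneg _))

theorem twf_apply {s : ℝ} (hs : 0 < s) (f : (ℂ × P) →ᵇ ℂ) (x : ℂ × P) :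
    twf hs f x = ((2 * π)⁻¹ : ℝ) • ∫ w : ℂ, ker s w * (ph s x.1 w * f (x.1 - w, x.2)) := rfl

theorem norm_twf_le {s : ℝ} (hs : 0 < s) (f : (ℂ × P) →ᵇ ℂ) : ‖twf hs f‖ ≤ sig s * ‖f‖ :=
  BoundedContinuousFunction.norm_ofNormedAddCommGroup_le _
    (mul_nonneg (sig_nonneg s) (norm_nonneg _)) _

/-- the twisted convolution operator -/
noncomputable def tw {s : ℝ} (hs : 0 < s) : ((ℂ × P) →ᵇ ℂ) →L[ℝ] ((ℂ × P) →ᵇ ℂ) :=
  LinearMap.mkContinuous
    { toFun := twf hs
      map_add' := by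
        intro f g
        ext x
        rw [BoundedContinuousFunction.add_apply, twf_apply, twf_apply, twf_apply, ← smul_add,
          ← integral_add (integrable_twist hs f x) (integrable_twist hs g x)]
        congr 2
        funext w
        rw [BoundedContinuousFunction.add_apply]
        ring
      map_smul' := by
        intro c f
        ext x
        rw [RingHom.id_apply, BoundedContinuousFunction.smul_apply, twf_apply, twf_apply,
          smul_comm c]
        congr 1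
        rw [← integral_smul]
        congr 1
        funext w
        rw [BoundedContinuousFunction.smul_apply, mul_smul_comm, mul_smul_comm] }
    (sig s) (norm_twf_le hs)

theorem tw_apply {s : ℝ} (hs : 0 < s) (f : (ℂ × P) →ᵇ ℂ) (x : ℂ × P) :
    tw hs f x = ((2 * π)⁻¹ : ℝ) • ∫ w : ℂ, ker s w * (ph s x.1 w * f (x.1 - w, x.2)) := rfl

theorem norm_tw_le {s : ℝ} (hs : 0 < s) : ‖(tw hs : ((ℂ × P) →ᵇ ℂ) →L[ℝ] _)‖ ≤ sig s :=
  LinearMap.mkContinuous_norm_le _ (sig_nonneg s) _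

/-- magnetic translation -/
noncomputable def mt (s : ℝ) (a : ℂ × P) (f : (ℂ × P) →ᵇ ℂ) : (ℂ × P) →ᵇ ℂ :=
  BoundedContinuousFunction.ofNormedAddCommGroup
    (fun x => ph s x.1 a.1 * f (x + a))
    (by
      apply Continuous.mul
      · exact (continuous_ph s).comp (continuous_fst.prodMk continuous_const)
      · exact f.continuous.comp (continuous_id.add continuous_const))
    ‖f‖
    (by
      intro x
      rw [norm_mul, norm_ph, one_mul]
      exact f.norm_coe_le_norm _)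

theorem mt_apply (s : ℝ) (a : ℂ × P) (f : (ℂ × P) →ᵇ ℂ) (x : ℂ × P) :
    mt s a f x = ph s x.1 a.1 * f (x + a) := rfl

theorem mt_apply_zero (s : ℝ) (a : ℂ × P) (f : (ℂ × P) →ᵇ ℂ) : mt s a f 0 = f a := by
  rw [mt_apply]
  simp [ph]

/-- magnetic translations commute with the twisted convolution -/
theorem mt_tw {s : ℝ} (hs : 0 < s) (a : ℂ × P) (f : (ℂ × P) →ᵇ ℂ) :
    mt s a (tw hs f) = tw hs (mt s a f) := by
  ext x
  rw [mt_apply, tw_apply, tw_apply, mul_smul_comm, ← integral_const_mul]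
  congr 2
  funext w
  rw [mt_apply]
  have h1 : ph s x.1 a.1 * ph s (x + a).1 w = ph s x.1 w * ph s (x.1 - w, x.2).1 a.1 := by
    unfold ph
    rw [← Complex.exp_add, ← Complex.exp_add]
    congr 1
    rw [← add_mul, ← add_mul, ← Complex.ofReal_add, ← Complex.ofReal_add]
    congr 2
    simp only [Prod.fst_add, map_add, map_sub, add_mul, sub_mul, Complex.add_im, Complex.sub_im,
      Complex.mul_im, Complex.conj_re, Complex.conj_im]
    ring
  have h2 : ((x + a).1 - w, (x + a).2) = ((x.1 - w, x.2) : ℂ × P) + a := by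
    ext
    · simp; ring
    · simp
  rw [h2]
  linear_combination (ker s w * f ((x.1 - w, x.2) + a)) * h1

end Vale.Agent.P136.SF
end
end
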