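import Vale.Agent.P136.MathlibUsed
import Vale.Agent.P136.Bdl.B1

set_option linter.all false

section

section

/-! Boundary determination to first order. -/

open MeasureTheory Filter Topology
open scoped ContDiff InnerProductSpace

namespace Vale.Agent.P136.BD

/-- translated and scaled function -/
noncomputable def scal (b : ℝ) (y : E3) (f : E3 → ℝ) (x : E3) : ℝ := f (b • (x - y))

lemma scal_contDiff {b : ℝ} {y : E3} {f : E3 → ℝ} (hf : ContDiff ℝ ∞ f) :
    ContDiff ℝ ∞ (scal b y f) :=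
  hf.comp ((contDiff_id.sub contDiff_const).const_smul b)

lemma pd_scal {b : ℝ} {y : E3} {f : E3 → ℝ} (hf : ContDiff ℝ ∞ f) (i : Fin 3) :
    pd i (scal b y f) = fun x => b * scal b y (pd i f) x := by
  funext x
  have h1 : HasFDerivAt f (fderiv ℝ f (b • (x - y))) (b • (x - y)) :=
    (sm_diff hf _).hasFDerivAt
  have h2 : HasFDerivAt (fun v : E3 => b • (v - y)) (b • ContinuousLinearMap.id ℝ E3) x :=
    ((hasFDerivAt_id x).sub_const y).const_smul b
  have h3 := h1.comp x h2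
  unfold pd scal
  have h4 : fderiv ℝ (fun v => f (b • (v - y))) x = _ := h3.fderiv
  rw [show (fun x => f (b • (x - y))) = fun v => f (b • (v - y)) from rfl, h4]
  simp

lemma lap_scal {b : ℝ} {y : E3} {f : E3 → ℝ} (hf : ContDiff ℝ ∞ f) (x : E3) :
    lap (scal b y f) x = b ^ 2 * lap f (b • (x - y)) := by
  unfold lap
  rw [Finset.mul_sum]
  refine Finset.sum_congr rfl fun i _ => ?_
  rw [pd_scal hf, pd_const_mul (sm_diff (scal_contDiff (pd_contDiff_infty hf i)) x),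
    pd_scal (pd_contDiff_infty hf i)]
  simp only [scal]
  ring

lemma frz_scal {b l m : ℝ} {y : E3} {Γ : Fin 3 → E3 → ℝ} (hΓ : ∀ j, ContDiff ℝ ∞ (Γ j))
    (j : Fin 3) (x : E3) :
    frz l m (fun j => scal b y (Γ j)) j x = b ^ 2 * frz l m Γ j (b • (x - y)) := by
  unfold frz
  rw [lap_scal (hΓ j)]
  have h1 : (fun z => ∑ i, pd i (scal b y (Γ i)) z) =
      fun z => b * scal b y (fun v => ∑ i, pd i (Γ i) v) z := by
    funext z
    simp only [scal, Finset.mul_sum]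
    refine Finset.sum_congr rfl fun i _ => ?_
    rw [pd_scal (hΓ i)]
    rfl
  have hs : ContDiff ℝ ∞ (fun v => ∑ i, pd i (Γ i) v) :=
    ContDiff.sum fun i _ => pd_contDiff_infty (hΓ i) i
  rw [h1, pd_const_mul (sm_diff (scal_contDiff hs) x), pd_scal hs]
  simp only [scal]
  ring

lemma eq2_smul (b : ℝ) (A : Fin 3 → Fin 3 → ℝ) : eq2 (fun i j => b * A i j) = b ^ 2 * eq2 A := by
  simp only [eq2, Fin.sum_univ_three]
  ring

lemma fq_smul (l m b : ℝ) (A : Fin 3 → Fin 3 → ℝ) :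
    fq l m (fun i j => b * A i j) (fun i j => b * A i j) = b ^ 2 * fq l m A A := by
  simp only [fq, Fin.sum_univ_three]
  ring

lemma eq2_le_sum (A : Fin 3 → Fin 3 → ℝ) : eq2 A ≤ ∑ i, ∑ j, (A i j) ^ 2 := by
  simp only [eq2, Fin.sum_univ_three]
  linarith only [sq_nonneg (A 1 2 - A 2 1), sq_nonneg (A 0 2 - A 2 0), sq_nonneg (A 0 1 - A 1 0)]

lemma eq2_bound {Γ : Fin 3 → E3 → ℝ} (hΓ : ∀ j, HomOut 2 (Γ j)) :
    ∃ C : ℝ, 0 < C ∧ ∀ w, eq2 (fun i j => pd i (Γ j) w) ≤ C * ((1 + ‖w‖) ^ 6)⁻¹ := by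
  have h : ∀ i j, ∃ C : ℝ, 0 < C ∧ ∀ w, |pd i (Γ j) w| ≤ C * ((1 + ‖w‖) ^ 3)⁻¹ := fun i j =>
    HomOut.bound (d := 3) ((hΓ j).pd i)
  choose C hC hCb using h
  refine ⟨∑ i, ∑ j, (C i j) ^ 2, Finset.sum_pos (fun i _ => Finset.sum_pos
    (fun j _ => pow_pos (hC i j) 2) Finset.univ_nonempty) Finset.univ_nonempty, fun w => ?_⟩
  refine (eq2_le_sum _).trans ?_
  rw [Finset.sum_mul]
  refine Finset.sum_le_sum fun i _ => ?_
  rw [Finset.sum_mul]
  refine Finset.sum_le_sum fun j _ => ?_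
  have := hCb i j w
  have h0 : 0 < 1 + ‖w‖ := by positivity
  calc (pd i (Γ j) w) ^ 2 = |pd i (Γ j) w| ^ 2 := (sq_abs _).symm
    _ ≤ (C i j * ((1 + ‖w‖) ^ 3)⁻¹) ^ 2 := pow_le_pow_left₀ (abs_nonneg _) this 2
    _ = (C i j) ^ 2 * ((1 + ‖w‖) ^ 6)⁻¹ := by
        rw [mul_pow, inv_pow, ← pow_mul]

/-- One-sided comparison. -/
theorem one_sided (EX : EXIST_statement) {Ω : Set E3} (hΩ : SmoothDomain Ω)
    {lam₁ mu₁ lam₂ mu₂ : E3 → ℝ} (h1 : Admissible Ω lam₁ mu₁)
    (h2 : Admissible Ω lam₂ mu₂) (hS : SameDN Ω lam₁ mu₁ lam₂ mu₂) {x0 : E3}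
    (hx : x0 ∈ frontier Ω) {n : E3} {c r0 : ℝ} (hn : ‖n‖ = 1) (hc : 0 < c) (hc1 : c ≤ 1)
    (hr0 : 0 < r0)
    (hg1 : ∀ r, 0 < r → r < r0 → ∀ x ∈ Ω, c * (r + ‖x - x0‖) < ‖x - (x0 + r • n)‖)
    (hg2 : ∀ r, 0 < r → r < r0 → Metric.ball (x0 - (2 * r) • n) r ⊆ Ω)
    (hg3 : ∃ K, ∀ x ∈ Ω, ⟪n, x - x0⟫_ℝ ≤ K * ‖x - x0‖ ^ 2)
    (hg4 : ∀ f : E3 → ℝ, ContDiff ℝ ∞ f → (∀ z ∈ frontier Ω, f z = 0) →
        ∀ v, ⟪n, v⟫_ℝ = 0 → fderiv ℝ f x0 v = 0)
    {Γ : Fin 3 → E3 → ℝ} (hΓ : ∀ j, HomOut 2 (Γ j))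
    (hfrz : ∀ w : E3, 1 < ‖w‖ → ∀ j, frz (lam₂ x0) (mu₂ x0) Γ j w = 0)
    {Q : E3 → ℝ} (hQc : Continuous Q) (hQ0 : ∀ w, 0 ≤ Q w) {CQ : ℝ}
    (hQ1 : ∀ w, Q w ≤ CQ * ((1 + ‖w‖) ^ 6)⁻¹) (hQ2 : 0 < Q (-((3 / c) • n)))
    {f : E3 → ℝ} (hf : ContDiff ℝ ∞ f) {κ M : ℝ} (hκ : 0 < κ) (hM : 0 ≤ M)
    (hD : ∀ x ∈ Ω, ∀ w : E3, 1 < ‖w‖ →
      fq (lam₁ x - lam₂ x) (mu₁ x - mu₂ x) (fun i j => pd i (Γ j) w) (fun i j => pd i (Γ j) w) ≤
        κ * (f x * Q w) + M * (‖x - x0‖ ^ 2 * eq2 (fun i j => pd i (Γ j) w))) :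
    0 ≤ f x0 ∧ ((∀ z ∈ frontier Ω, f z = 0) → fderiv ℝ f x0 n ≤ 0) := by
  have ho := hΩ.isOpen
  have hb := hΩ.isBounded
  have hm : MeasurableSet Ω := ho.measurableSet
  obtain ⟨CE, hCE, hEI⟩ := energy_ineq EX ho hb h1 h2 hS x0
  obtain ⟨Ce, hCe, herr⟩ := bd_err hb x0
  obtain ⟨C6, hC6, hC6b⟩ := eq2_bound hΓ
  -- continuity of `Q` at the base point
  obtain ⟨ε', hε', hQε⟩ : ∃ ε' > 0, ∀ w, ‖w - (-((3 / c) • n))‖ < ε' →
      Q (-((3 / c) • n)) / 2 ≤ Q w := by
    have hlt : Q (-((3 / c) • n)) / 2 < Q (-((3 / c) • n)) := by linarith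
    have := hQc.continuousAt (x := -((3 / c) • n)) |>.eventually (lt_mem_nhds hlt)
    rw [Metric.eventually_nhds_iff] at this
    obtain ⟨ε', h, h'⟩ := this
    exact ⟨ε', h, fun w hw => (h' (by rw [dist_eq_norm]; exact hw)).le⟩
  set r1 : ℝ := min r0 1 with hr1
  have hr1pos : 0 < r1 := lt_min hr0 one_pos
  have hr10 : ∀ r, r < r1 → r < r0 := fun r h => h.trans_le (min_le_left _ _)
  have hr11 : ∀ r, r < r1 → r < 1 := fun r h => h.trans_le (min_le_right _ _)
  -- the density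
  set P : ℝ → E3 → ℝ := fun r x => (c * r)⁻¹ ^ 2 * Q ((c * r)⁻¹ • (x - (x0 + r • n))) with hP
  have hout : ∀ r, 0 < r → r < r1 → ∀ x ∈ Ω, (r + ‖x - x0‖) / r <
      ‖(c * r)⁻¹ • (x - (x0 + r • n))‖ := by
    intro r hr hr' x hx
    rw [norm_smul, norm_inv, Real.norm_of_nonneg (by positivity), inv_mul_eq_div,
      div_lt_div_iff₀ hr (by positivity)]
    have := hg1 r hr (hr10 r hr') x hx
    (by_contra nlg; linarith only [nlg, mul_pos (sub_pos.2 hr) (sub_pos.2 this), mul_nonneg (sub_nonneg.2 (not_lt.1 nlg)) (sub_nonneg.2 hc1), mul_nonneg (sub_nonneg.2 (not_lt.1 nlg)) (le_of_lt (sub_pos.2 hc))])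
  have hout1 : ∀ r, 0 < r → r < r1 → ∀ x ∈ Ω, 1 < ‖(c * r)⁻¹ • (x - (x0 + r • n))‖ := by
    intro r hr hr' x hx
    refine lt_of_le_of_lt ?_ (hout r hr hr' x hx)
    rw [le_div_iff₀ hr, one_mul]
    linarith [norm_nonneg (x - x0)]
  have hdec : ∀ r, 0 < r → r < r1 → ∀ x ∈ Ω, ∀ C' : ℝ, 0 ≤ C' →
      (c * r)⁻¹ ^ 2 * (C' * ((1 + ‖(c * r)⁻¹ • (x - (x0 + r • n))‖) ^ 6)⁻¹) ≤
        (C' / c ^ 2) * (r ^ 4 * ((r + ‖x - x0‖) ^ 6)⁻¹) := by
    intro r hr hr' x hx C' hC'
    have h3 := hout r hr hr' x hx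
    have hpos : 0 < r + ‖x - x0‖ := by (clear * - hr; positivity)
    have h4 : ((r + ‖x - x0‖) / r) ^ 6 ≤ (1 + ‖(c * r)⁻¹ • (x - (x0 + r • n))‖) ^ 6 :=
      pow_le_pow_left₀ (by (clear * - hr; positivity)) (by linarith) 6
    have h5 : ((1 + ‖(c * r)⁻¹ • (x - (x0 + r • n))‖) ^ 6)⁻¹ ≤ (((r + ‖x - x0‖) / r) ^ 6)⁻¹ :=
      inv_anti₀ (by (clear * - hr; positivity)) h4
    calc (c * r)⁻¹ ^ 2 * (C' * ((1 + ‖(c * r)⁻¹ • (x - (x0 + r • n))‖) ^ 6)⁻¹)
        ≤ (c * r)⁻¹ ^ 2 * (C' * (((r + ‖x - x0‖) / r) ^ 6)⁻¹) := by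
          apply mul_le_mul_of_nonneg_left _ (by positivity)
          exact mul_le_mul_of_nonneg_left h5 hC'
      _ = (C' / c ^ 2) * (r ^ 4 * ((r + ‖x - x0‖) ^ 6)⁻¹) := by
          field_simp
  have hCQ : 0 ≤ CQ := by
    have h3 := (hQ0 0).trans (hQ1 0)
    simp at h3
    exact h3
  -- apply the endgame
  refine bd_end hΩ hx hn hr1pos (fun r hr hr' => hg2 r hr (hr10 r hr')) hg3 hg4 hf P
    (ε := min 1 (c * ε')) (c1 := Q (-((3 / c) • n)) / (2 * c ^ 2)) (C1 := CQ / c ^ 2)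
    (C2 := (CE + M) * (C6 / c ^ 2) * Ce / κ) (lt_min one_pos (by positivity)) (min_le_left _ _)
    (by positivity) ?_ ?_ ?_ ?_
  · intro r hr hr'
    have c0 : Continuous fun x : E3 => (c * r)⁻¹ • (x - (x0 + r • n)) := by fun_prop
    exact continuous_const.mul (hQc.comp c0)
  · intro r hr hr' x hx
    refine ⟨mul_nonneg (sq_nonneg _) (hQ0 _), ?_⟩
    exact (mul_le_mul_of_nonneg_left (hQ1 _) (sq_nonneg _)).trans (hdec r hr hr' x hx CQ hCQ)
  · intro r hr hr' x hx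
    have h3 : ‖(c * r)⁻¹ • (x - (x0 + r • n)) - (-((3 / c) • n))‖ < ε' := by
      have e : (c * r)⁻¹ • (x - (x0 + r • n)) - (-((3 / c) • n)) =
          (c * r)⁻¹ • (x - (x0 - (2 * r) • n)) := by
        have e2 : (3 / c) • n = (c * r)⁻¹ • ((3 * r) • n) := by
          rw [smul_smul]
          congr 1
          field_simp
        rw [e2, sub_neg_eq_add, ← smul_add]
        congr 1
        module
      rw [e, norm_smul, norm_inv, Real.norm_of_nonneg (by positivity), inv_mul_lt_iff₀ (by positivity)]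
      rw [Metric.mem_ball, dist_eq_norm] at hx
      refine hx.trans_le ?_
      calc min 1 (c * ε') * r ≤ (c * ε') * r := mul_le_mul_of_nonneg_right (min_le_right _ _) hr.le
        _ = c * r * ε' := by ring
    have h4 := hQε _ h3
    calc Q (-((3 / c) • n)) / (2 * c ^ 2) * (r ^ 2)⁻¹ = (c * r)⁻¹ ^ 2 * (Q (-((3 / c) • n)) / 2) := by
          field_simp
      _ ≤ P r x := mul_le_mul_of_nonneg_left h4 (sq_nonneg _)
  · intro r hr hr'
    set b : ℝ := (c * r)⁻¹ with hbdef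
    set y : E3 := x0 + r • n with hy
    set Γr : Fin 3 → E3 → ℝ := fun j => scal b y (Γ j) with hΓr
    have hΓs : ∀ j, ContDiff ℝ ∞ (Γ j) := fun j => (hΓ j).smooth
    have hΓrs : ∀ j, ContDiff ℝ ∞ (Γr j) := fun j => scal_contDiff (hΓs j)
    have hpd : ∀ i j x, pd i (Γr j) x = b * pd i (Γ j) (b • (x - y)) := by
      intro i j x
      simp only [hΓr]
      rw [pd_scal (hΓs j)]
      rfl
    have hE := hEI Γr hΓrs (fun φ hφ => frozen_of_pde hΓrs (fun x hx j => by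
      rw [hΓr, frz_scal hΓs, hfrz _ (hout1 r hr hr' x hx), mul_zero]) φ hφ)
    simp_rw [hpd, eq2_smul, fq_smul] at hE
    -- integrability
    have cpd : ∀ i j, Continuous (pd i (Γ j)) := fun i j =>
      (pd_contDiff_infty (hΓs j) i).continuous
    have csc : Continuous (fun x : E3 => b • (x - y)) := by fun_prop
    have ceq : Continuous (fun x : E3 => eq2 (fun i j => pd i (Γ j) (b • (x - y)))) := by
      unfold eq2
      refine continuous_finsetSum _ fun i _ => continuous_finsetSum _ fun j _ => ?_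
      exact ((((cpd i j).comp csc).add ((cpd j i).comp csc)).div_const 2).pow 2
    have cl1 := h1.lam_smooth.continuous
    have cm1 := h1.mu_smooth.continuous
    have cl2 := h2.lam_smooth.continuous
    have cm2 := h2.mu_smooth.continuous
    have cfq : Continuous (fun x : E3 => fq (lam₁ x - lam₂ x) (mu₁ x - mu₂ x)
        (fun i j => pd i (Γ j) (b • (x - y))) (fun i j => pd i (Γ j) (b • (x - y)))) := by
      unfold fq
      have cp : ∀ i j, Continuous (fun x => pd i (Γ j) (b • (x - y))) := fun i j =>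
        (cpd i j).comp csc
      fun_prop
    have cP : Continuous (fun x => f x * P r x) :=
      hf.continuous.mul (continuous_const.mul (hQc.comp csc))
    have cN : Continuous (fun x : E3 => ‖x - x0‖ ^ 2 *
        (b ^ 2 * eq2 (fun i j => pd i (Γ j) (b • (x - y))))) := by
      have : Continuous (fun x : E3 => ‖x - x0‖ ^ 2) := by fun_prop
      exact this.mul (continuous_const.mul ceq)
    have iP := integrableOn_of_cont hb cP
    have iN := integrableOn_of_cont hb cN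
    have iF := integrableOn_of_cont hb (continuous_const.mul cfq : Continuous fun x => b ^ 2 * _)
    -- pointwise comparison
    have hcmp : ∫ x in Ω, b ^ 2 * fq (lam₁ x - lam₂ x) (mu₁ x - mu₂ x)
        (fun i j => pd i (Γ j) (b • (x - y))) (fun i j => pd i (Γ j) (b • (x - y))) ≤
        κ * (∫ x in Ω, f x * P r x) + M * ∫ x in Ω, ‖x - x0‖ ^ 2 *
        (b ^ 2 * eq2 (fun i j => pd i (Γ j) (b • (x - y)))) := by
      rw [← integral_const_mul, ← integral_const_mul, ← integral_add (iP.const_mul κ)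
        (iN.const_mul M)]
      refine setIntegral_mono_on iF ((iP.const_mul κ).add (iN.const_mul M)) hm fun x hx => ?_
      have h3 := hD x hx _ (hout1 r hr hr' x hx)
      have h4 := mul_le_mul_of_nonneg_left h3 (sq_nonneg b)
      refine h4.trans (le_of_eq ?_)
      simp only [hP]
      ring
    have hmaj : ∫ x in Ω, ‖x - x0‖ ^ 2 * (b ^ 2 * eq2 (fun i j => pd i (Γ j) (b • (x - y)))) ≤
        (C6 / c ^ 2) * (Ce * r ^ 3) := by
      have iR : IntegrableOn (fun x : E3 => (C6 / c ^ 2) *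
          (‖x - x0‖ ^ 2 * (r ^ 4 * ((r + ‖x - x0‖) ^ 6)⁻¹))) Ω := by
        apply integrableOn_of_cont hb
        have c1 : Continuous (fun x : E3 => ‖x - x0‖ ^ 2) := by fun_prop
        exact continuous_const.mul (c1.mul (maj_continuous x0 hr))
      calc ∫ x in Ω, ‖x - x0‖ ^ 2 * (b ^ 2 * eq2 (fun i j => pd i (Γ j) (b • (x - y))))
          ≤ ∫ x in Ω, (C6 / c ^ 2) * (‖x - x0‖ ^ 2 * (r ^ 4 * ((r + ‖x - x0‖) ^ 6)⁻¹)) := by
            refine setIntegral_mono_on iN iR hm fun x hx => ?_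
            have h3 := (mul_le_mul_of_nonneg_left (hC6b (b • (x - y))) (sq_nonneg b)).trans
              (hdec r hr hr' x hx C6 hC6.le)
            have h4 := mul_le_mul_of_nonneg_left h3 (sq_nonneg ‖x - x0‖)
            refine h4.trans (le_of_eq ?_)
            ring
        _ = (C6 / c ^ 2) * ∫ x in Ω, ‖x - x0‖ ^ 2 * (r ^ 4 * ((r + ‖x - x0‖) ^ 6)⁻¹) :=
            integral_const_mul _ _
        _ ≤ (C6 / c ^ 2) * (Ce * r ^ 3) :=
            mul_le_mul_of_nonneg_left (herr r hr (hr11 r hr')) (by positivity)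
    set N := ∫ x in Ω, ‖x - x0‖ ^ 2 * (b ^ 2 * eq2 (fun i j => pd i (Γ j) (b • (x - y)))) with hN
    have hfin : - ((CE + M) * ((C6 / c ^ 2) * (Ce * r ^ 3))) ≤ κ * ∫ x in Ω, f x * P r x := by
      have h3 := hE.trans hcmp
      have h4 : (CE + M) * N ≤ (CE + M) * ((C6 / c ^ 2) * (Ce * r ^ 3)) :=
        mul_le_mul_of_nonneg_left hmaj (by (clear * - hCE hM; positivity))
      linarith only [h4, h3]
    have e5 : -((CE + M) * (C6 / c ^ 2) * Ce / κ) * r ^ 3 =
        κ⁻¹ * (- ((CE + M) * ((C6 / c ^ 2) * (Ce * r ^ 3)))) := by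
      field_simp
    rw [e5]
    calc κ⁻¹ * (- ((CE + M) * ((C6 / c ^ 2) * (Ce * r ^ 3)))) ≤
        κ⁻¹ * (κ * ∫ x in Ω, f x * P r x) := mul_le_mul_of_nonneg_left hfin (by positivity)
      _ = ∫ x in Ω, f x * P r x := by field_simp

lemma sameDN_symm {Ω : Set E3} {lam₁ mu₁ lam₂ mu₂ : E3 → ℝ} (h : SameDN Ω lam₁ mu₁ lam₂ mu₂) :
    SameDN Ω lam₂ mu₂ lam₁ mu₁ := fun f g r => (h f g r).symm

lemma three_div {c : ℝ} (hc : 0 < c) (hc1 : c ≤ 1) : 1 < 3 / c := by
  rw [lt_div_iff₀ hc]; linarith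

/-- one-sided comparison for `μ` -/
theorem mu_one_sided (EX : EXIST_statement) {Ω : Set E3} (hΩ : SmoothDomain Ω)
    {lam₁ mu₁ lam₂ mu₂ : E3 → ℝ} (h1 : Admissible Ω lam₁ mu₁)
    (h2 : Admissible Ω lam₂ mu₂) (hS : SameDN Ω lam₁ mu₁ lam₂ mu₂) {x0 : E3}
    (hx : x0 ∈ frontier Ω) {n : E3} {c r0 : ℝ} (hn : ‖n‖ = 1) (hc : 0 < c) (hc1 : c ≤ 1)
    (hr0 : 0 < r0)
    (hg1 : ∀ r, 0 < r → r < r0 → ∀ x ∈ Ω, c * (r + ‖x - x0‖) < ‖x - (x0 + r • n)‖)
    (hg2 : ∀ r, 0 < r → r < r0 → Metric.ball (x0 - (2 * r) • n) r ⊆ Ω)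
    (hg3 : ∃ K, ∀ x ∈ Ω, ⟪n, x - x0⟫_ℝ ≤ K * ‖x - x0‖ ^ 2)
    (hg4 : ∀ f : E3 → ℝ, ContDiff ℝ ∞ f → (∀ z ∈ frontier Ω, f z = 0) →
        ∀ v, ⟪n, v⟫_ℝ = 0 → fderiv ℝ f x0 v = 0) :
    0 ≤ mu₁ x0 - mu₂ x0 ∧ ((∀ z ∈ frontier Ω, mu₁ z - mu₂ z = 0) →
      fderiv ℝ (fun x => mu₁ x - mu₂ x) x0 n ≤ 0) := by
  obtain ⟨C6, hC6, hC6b⟩ := eq2_bound gMu_hom
  have hc3 := three_div hc hc1
  have hcd : ∀ i j, Continuous (pd i (gMu j)) := fun i j =>
    (pd_contDiff_infty (gMu_hom j).smooth i).continuous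
  have hQpos : 0 < eq2 (fun i j => pd i (gMu j) (-((3 / c) • n))) := by
    have h3 := pp_axis hn hc3
    have h4 : dd n (dd n (lap KK)) (-((3 / c) • n)) =
        ∑ i, ∑ j, n i * n j * ((pd i (gMu j) (-((3 / c) • n)) +
          pd j (gMu i) (-((3 / c) • n))) / 2) := by
      have e1 : dd n (dd n (lap KK)) (-((3 / c) • n)) =
          ∑ i, ∑ j, n i * n j * pd i (pd j (lap KK)) (-((3 / c) • n)) := by
        rw [dd_eq_sum' n (dd n (lap KK))]
        simp only
        refine Finset.sum_congr rfl fun i _ => ?_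
        rw [dd_eq_sum' n (lap KK), pd_sum' _ (fun j _ =>
          (sm_diff (pd_contDiff_infty lapKK_contDiff j) _).const_mul (n j))]
        rw [Finset.mul_sum]
        refine Finset.sum_congr rfl fun j _ => ?_
        rw [pd_const_mul (sm_diff (pd_contDiff_infty lapKK_contDiff j) _)]
        ring
      rw [e1]
      simp only [gMu, Fin.sum_univ_three]
      ring
    by_contra hne
    have h0 : eq2 (fun i j => pd i (gMu j) (-((3 / c) • n))) = 0 :=
      le_antisymm (not_lt.mp hne) (eq2_nonneg _)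
    unfold eq2 at h0
    have h5 : ∀ i j, (pd i (gMu j) (-((3 / c) • n)) + pd j (gMu i) (-((3 / c) • n))) / 2 = 0 := by
      intro i j
      have h6 := (Finset.sum_eq_zero_iff_of_nonneg (fun i _ =>
        Finset.sum_nonneg fun j _ => sq_nonneg _)).mp h0 i (Finset.mem_univ i)
      have h7 := (Finset.sum_eq_zero_iff_of_nonneg (fun j _ => sq_nonneg _)).mp h6 j
        (Finset.mem_univ j)
      exact pow_eq_zero_iff (two_ne_zero) |>.mp h7
    rw [h4] at h3
    simp [h5] at h3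
  refine one_sided EX hΩ h1 h2 hS hx hn hc hc1 hr0 hg1 hg2 hg3 hg4 gMu_hom
    (fun w hw j => gMu_frz _ _ hw j) (Q := fun w => eq2 (fun i j => pd i (gMu j) w)) ?_
    (fun w => eq2_nonneg _) hC6b hQpos (f := fun x => mu₁ x - mu₂ x)
    (h1.mu_smooth.sub h2.mu_smooth) (κ := 2) (M := 0) (by norm_num) le_rfl ?_
  · unfold eq2
    fun_prop
  · intro x _ w hw
    rw [fq_self, gMu_div hw]
    linarith

/-- one-sided comparison for `λ` -/
theorem lam_one_sided (EX : EXIST_statement) {Ω : Set E3} (hΩ : SmoothDomain Ω)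
    {lam₁ mu₁ lam₂ mu₂ : E3 → ℝ} (h1 : Admissible Ω lam₁ mu₁)
    (h2 : Admissible Ω lam₂ mu₂) (hS : SameDN Ω lam₁ mu₁ lam₂ mu₂) {x0 : E3}
    (hx : x0 ∈ frontier Ω) {n : E3} {c r0 : ℝ} (hn : ‖n‖ = 1) (hc : 0 < c) (hc1 : c ≤ 1)
    (hr0 : 0 < r0)
    (hg1 : ∀ r, 0 < r → r < r0 → ∀ x ∈ Ω, c * (r + ‖x - x0‖) < ‖x - (x0 + r • n)‖)
    (hg2 : ∀ r, 0 < r → r < r0 → Metric.ball (x0 - (2 * r) • n) r ⊆ Ω)
    (hg3 : ∃ K, ∀ x ∈ Ω, ⟪n, x - x0⟫_ℝ ≤ K * ‖x - x0‖ ^ 2)
    (hg4 : ∀ f : E3 → ℝ, ContDiff ℝ ∞ f → (∀ z ∈ frontier Ω, f z = 0) →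
        ∀ v, ⟪n, v⟫_ℝ = 0 → fderiv ℝ f x0 v = 0)
    {M : ℝ} (hM : 0 ≤ M) (hmu : ∀ x ∈ Ω, mu₁ x - mu₂ x ≤ M * ‖x - x0‖ ^ 2) :
    0 ≤ lam₁ x0 - lam₂ x0 ∧ ((∀ z ∈ frontier Ω, lam₁ z - lam₂ z = 0) →
      fderiv ℝ (fun x => lam₁ x - lam₂ x) x0 n ≤ 0) := by
  have hcl : x0 ∈ closure Ω := frontier_subset_closure hx
  have hm0 := h2.mu_pos x0 hcl
  have hb0 := h2.bulk_pos x0 hcl
  have hlm : 0 < lam₂ x0 + mu₂ x0 := by linarith
  set k : ℝ := mu₂ x0 / (lam₂ x0 + mu₂ x0) with hk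
  have hk0 : 0 < k := by positivity
  have hhom : ∀ j, HomOut 2 (gLa k n j) := gLa_hom k n
  obtain ⟨C6, hC6, hC6b⟩ := eq2_bound hhom
  have hc3 := three_div hc hc1
  have s4 : ContDiff ℝ ∞ (dd n (dd n (lap KK))) :=
    dd_contDiff_infty (dd_contDiff_infty lapKK_contDiff n) n
  have hQle : ∀ w, (k * dd n (dd n (lap KK)) w) ^ 2 ≤ (3 * C6) * ((1 + ‖w‖) ^ 6)⁻¹ := by
    intro w
    rw [← gLa_div k n w]
    have := tr_sq_le (fun i j => pd i (gLa k n j) w)
    have h3 := hC6b w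
    calc (∑ i, pd i (gLa k n i) w) ^ 2 ≤ 3 * eq2 (fun i j => pd i (gLa k n j) w) := this
      _ ≤ (3 * C6) * ((1 + ‖w‖) ^ 6)⁻¹ := by linarith only [h3]
  refine one_sided EX hΩ h1 h2 hS hx hn hc hc1 hr0 hg1 hg2 hg3 hg4 hhom
    (fun w hw j => gLa_frz hlm.ne' n hw j)
    (Q := fun w => (k * dd n (dd n (lap KK)) w) ^ 2) ?_
    (fun w => sq_nonneg _) hQle ?_ (f := fun x => lam₁ x - lam₂ x)
    (h1.lam_smooth.sub h2.lam_smooth) (κ := 1) (M := 2 * M) (by norm_num) (by positivity) ?_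
  · exact (continuous_const.mul s4.continuous).pow 2
  · have := pp_axis hn hc3
    (clear * - hm0 hlm this; positivity)
  · intro x hx w hw
    rw [fq_self, gLa_div]
    have h3 := hmu x hx
    have h4 := eq2_nonneg (fun i j => pd i (gLa k n j) w)
    linarith only [mul_le_mul_of_nonneg_right h3 h4]

/-- Boundary determination to first order. -/
theorem BD1_of (EX : EXIST_statement) : BD1_statement := by
  intro Ω lam₁ mu₁ lam₂ mu₂ hΩ h1 h2 hS
  have hb := hΩ.isBounded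
  have hS' := sameDN_symm hS
  -- values of μ
  have mu0 : ∀ x ∈ frontier Ω, mu₁ x - mu₂ x = 0 := by
    intro x hx
    obtain ⟨n, c, r0, hn, hc, hc1, hr0, hg1, hg2, hg3, hg4⟩ := bd_geom hΩ hx
    have a1 := (mu_one_sided EX hΩ h1 h2 hS hx hn hc hc1 hr0 hg1 hg2 hg3 hg4).1
    have a2 := (mu_one_sided EX hΩ h2 h1 hS' hx hn hc hc1 hr0 hg1 hg2 hg3 hg4).1
    linarith
  have fderiv_zero : ∀ (f : E3 → ℝ) (x : E3), ContDiff ℝ ∞ f → x ∈ frontier Ω →
      (∀ z ∈ frontier Ω, f z = 0) → ∀ n : E3, ‖n‖ = 1 →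
      (∀ f : E3 → ℝ, ContDiff ℝ ∞ f → (∀ z ∈ frontier Ω, f z = 0) →
        ∀ v, ⟪n, v⟫_ℝ = 0 → fderiv ℝ f x v = 0) →
      fderiv ℝ f x n = 0 → fderiv ℝ f x = 0 := by
    intro f x hf hx hz n hn hg4 h0
    ext v
    have hv : v = ⟪n, v⟫_ℝ • n + (v - ⟪n, v⟫_ℝ • n) := by abel
    have hperp : ⟪n, v - ⟪n, v⟫_ℝ • n⟫_ℝ = 0 := by
      rw [inner_sub_right, inner_smul_right, real_inner_self_eq_norm_sq, hn]
      ring
    rw [hv, map_add, map_smul, h0, hg4 f hf hz _ hperp]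
    simp
  have fderiv_sub_eq : ∀ (f g : E3 → ℝ) (x : E3), ContDiff ℝ ∞ f → ContDiff ℝ ∞ g →
      fderiv ℝ (fun y => f y - g y) x = fderiv ℝ f x - fderiv ℝ g x := by
    intro f g x hf hg
    exact fderiv_fun_sub (sm_diff hf x) (sm_diff hg x)
  -- gradients of μ
  have mu1 : ∀ x ∈ frontier Ω, fderiv ℝ (fun y => mu₁ y - mu₂ y) x = 0 := by
    intro x hx
    obtain ⟨n, c, r0, hn, hc, hc1, hr0, hg1, hg2, hg3, hg4⟩ := bd_geom hΩ hx
    have a1 := (mu_one_sided EX hΩ h1 h2 hS hx hn hc hc1 hr0 hg1 hg2 hg3 hg4).2 mu0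
    have a2 := (mu_one_sided EX hΩ h2 h1 hS' hx hn hc hc1 hr0 hg1 hg2 hg3 hg4).2
      (fun z hz => by have := mu0 z hz; linarith)
    rw [fderiv_sub_eq _ _ _ h2.mu_smooth h1.mu_smooth] at a2
    have a1' := a1
    rw [fderiv_sub_eq _ _ _ h1.mu_smooth h2.mu_smooth] at a1'
    refine fderiv_zero _ x (h1.mu_smooth.sub h2.mu_smooth) hx mu0 n hn hg4 (le_antisymm a1 ?_)
    rw [fderiv_sub_eq _ _ _ h1.mu_smooth h2.mu_smooth]
    have : (fderiv ℝ mu₂ x - fderiv ℝ mu₁ x) n = - ((fderiv ℝ mu₁ x - fderiv ℝ mu₂ x) n) := by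
      simp
    rw [this] at a2
    linarith
  -- second order vanishing of μ₁ - μ₂
  have mu2 : ∀ x0 ∈ frontier Ω, ∃ M : ℝ, 0 ≤ M ∧ ∀ x ∈ Ω, |mu₁ x - mu₂ x| ≤ M * ‖x - x0‖ ^ 2 := by
    intro x0 hx0
    obtain ⟨R, hR⟩ := hb.subset_closedBall x0
    obtain ⟨K, hK0, hK⟩ := taylor2 (h1.mu_smooth.sub h2.mu_smooth) x0 R
    refine ⟨K, hK0, fun x hx => ?_⟩
    have h3 := hK x (by rw [← dist_eq_norm]; exact Metric.mem_closedBall.mp (hR hx))
    simp only [mu0 x0 hx0, mu1 x0 hx0] at h3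
    simpa using h3
  -- values of λ
  have la0 : ∀ x ∈ frontier Ω, lam₁ x - lam₂ x = 0 := by
    intro x hx
    obtain ⟨n, c, r0, hn, hc, hc1, hr0, hg1, hg2, hg3, hg4⟩ := bd_geom hΩ hx
    obtain ⟨M, hM, hMx⟩ := mu2 x hx
    have a1 := (lam_one_sided EX hΩ h1 h2 hS hx hn hc hc1 hr0 hg1 hg2 hg3 hg4 hM
      (fun y hy => (le_abs_self _).trans (hMx y hy))).1
    have a2 := (lam_one_sided EX hΩ h2 h1 hS' hx hn hc hc1 hr0 hg1 hg2 hg3 hg4 hM
      (fun y hy => (le_abs_self _).trans (by rw [abs_sub_comm]; exact hMx y hy))).1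
    linarith
  have la1 : ∀ x ∈ frontier Ω, fderiv ℝ (fun y => lam₁ y - lam₂ y) x = 0 := by
    intro x hx
    obtain ⟨n, c, r0, hn, hc, hc1, hr0, hg1, hg2, hg3, hg4⟩ := bd_geom hΩ hx
    obtain ⟨M, hM, hMx⟩ := mu2 x hx
    have a1 := (lam_one_sided EX hΩ h1 h2 hS hx hn hc hc1 hr0 hg1 hg2 hg3 hg4 hM
      (fun y hy => (le_abs_self _).trans (hMx y hy))).2 la0
    have a2 := (lam_one_sided EX hΩ h2 h1 hS' hx hn hc hc1 hr0 hg1 hg2 hg3 hg4 hM
      (fun y hy => (le_abs_self _).trans (by rw [abs_sub_comm]; exact hMx y hy))).2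
      (fun z hz => by have := la0 z hz; linarith)
    rw [fderiv_sub_eq _ _ _ h2.lam_smooth h1.lam_smooth] at a2
    refine fderiv_zero _ x (h1.lam_smooth.sub h2.lam_smooth) hx la0 n hn hg4 (le_antisymm a1 ?_)
    rw [fderiv_sub_eq _ _ _ h1.lam_smooth h2.lam_smooth]
    have : (fderiv ℝ lam₂ x - fderiv ℝ lam₁ x) n = - ((fderiv ℝ lam₁ x - fderiv ℝ lam₂ x) n) := by
      simp
    rw [this] at a2
    linarith
  intro x hx
  have e1 := mu1 x hx
  have e2 := la1 x hx
  rw [fderiv_sub_eq _ _ _ h1.mu_smooth h2.mu_smooth] at e1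
  rw [fderiv_sub_eq _ _ _ h1.lam_smooth h2.lam_smooth] at e2
  exact ⟨sub_eq_zero.mp (mu0 x hx), sub_eq_zero.mp (la0 x hx), sub_eq_zero.mp e1,
    sub_eq_zero.mp e2⟩

end Vale.Agent.P136.BD
end
end

section

section

open MeasureTheory Filter Topology
open scoped ContDiff InnerProductSpace ENNReal Convolution

namespace Vale.Agent.P136

/-- squared `L²` norm of a real function. -/
noncomputable def N2 (f : E3 → ℝ) : ℝ := ∫ x, (f x) ^ 2

lemma N2_nonneg (f : E3 → ℝ) : 0 ≤ N2 f := integral_nonneg fun _ => sq_nonneg _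

lemma memLp_sq_int {f : E3 → ℝ} (hf : MemLp f 2) : Integrable (fun x => (f x) ^ 2) := by
  have := hf.integrable_norm_pow (by norm_num)
  simpa [Real.norm_eq_abs, sq_abs] using this

lemma N2_eq {f : E3 → ℝ} (hf : MemLp f 2) :
    ENNReal.ofReal (N2 f) = (eLpNorm f 2 volume) ^ 2 := by
  have h1 : (eLpNorm f 2 volume) ^ 2 = ∫⁻ x, ‖f x‖ₑ ^ 2 := by
    rw [eLpNorm_eq_lintegral_rpow_enorm_toReal (by norm_num) (by norm_num),
      ← ENNReal.rpow_natCast, ← ENNReal.rpow_mul]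
    norm_num
  rw [h1, N2, ofReal_integral_eq_lintegral_ofReal (memLp_sq_int hf)
    (Eventually.of_forall fun _ => sq_nonneg _)]
  congr 1
  funext x
  rw [← ofReal_norm, ← ENNReal.ofReal_pow (norm_nonneg _), Real.norm_eq_abs, sq_abs]

lemma N2_tendsto {a : ℕ → E3 → ℝ} (ha : ∀ n, MemLp (a n) 2)
    (h : Tendsto (fun n => eLpNorm (a n) 2 volume) atTop (𝓝 0)) :
    Tendsto (fun n => N2 (a n)) atTop (𝓝 0) := by
  have h1 : Tendsto (fun n => (eLpNorm (a n) 2 volume) ^ 2) atTop (𝓝 0) := by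
    have := ENNReal.Tendsto.pow (n := 2) h
    simpa using this
  have h2 : ∀ n, N2 (a n) = ((eLpNorm (a n) 2 volume) ^ 2).toReal := by
    intro n
    rw [← N2_eq (ha n), ENNReal.toReal_ofReal (N2_nonneg _)]
  simp_rw [h2]
  have := (ENNReal.tendsto_toReal (a := 0) (by norm_num)).comp h1
  simpa only [Function.comp_def, ENNReal.toReal_zero] using this

lemma memLp_sub' {f g : E3 → ℝ} (hf : MemLp f 2) (hg : MemLp g 2) :
    MemLp (fun x => f x - g x) 2 := hf.sub hg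

lemma moll_N2_tendsto {f : E3 → ℝ} (hf : MemLp f 2) :
    Tendsto (fun n => N2 (fun x => moll n f x - f x)) atTop (𝓝 0) :=
  N2_tendsto (fun n => memLp_sub' (moll_memLp n hf) hf) (moll_tendsto hf)

lemma N2_sub_le {f g h : E3 → ℝ} (hf : MemLp f 2) (hg : MemLp g 2) (hh : MemLp h 2) :
    N2 (fun x => f x - g x) ≤ 2 * N2 (fun x => f x - h x) + 2 * N2 (fun x => g x - h x) := by
  unfold N2
  have i1 := memLp_sq_int (memLp_sub' hf hh)
  have i2 := memLp_sq_int (memLp_sub' hg hh)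
  rw [← integral_const_mul, ← integral_const_mul, ← integral_add (i1.const_mul _) (i2.const_mul _)]
  apply integral_mono (memLp_sq_int (memLp_sub' hf hg)) ((i1.const_mul _).add (i2.const_mul _))
  intro x
  simp only [Pi.add_apply]
  linarith only [sq_nonneg ((f x - h x) + (g x - h x))]

lemma mul_int {f g : E3 → ℝ} (hf : MemLp f 2) (hg : MemLp g 2) :
    Integrable (fun x => f x * g x) := hf.integrable_mul hg

/-- Cauchy-Schwarz. -/
lemma cs_int {f g : E3 → ℝ} (hf : MemLp f 2) (hg : MemLp g 2) :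
    (∫ x, f x * g x) ^ 2 ≤ N2 f * N2 g := by
  have h1 : ∀ t : ℝ, 0 ≤ N2 f * (t * t) + (2 * ∫ x, f x * g x) * t + N2 g := by
    intro t
    have e : N2 f * (t * t) + (2 * ∫ x, f x * g x) * t + N2 g = ∫ x, (t * f x + g x) ^ 2 := by
      have e1 : ∀ x, (t * f x + g x) ^ 2
          = (t * t) * (f x) ^ 2 + (2 * t) * (f x * g x) + (g x) ^ 2 := by
        intro x; ring
      simp_rw [e1]
      have i1 : Integrable (fun x => (t * t) * (f x) ^ 2) := (memLp_sq_int hf).const_mul _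
      have i2 : Integrable (fun x => (2 * t) * (f x * g x)) := (mul_int hf hg).const_mul _
      have i3 : Integrable (fun x => (t * t) * (f x) ^ 2 + (2 * t) * (f x * g x)) := i1.add i2
      rw [integral_add i3 (memLp_sq_int hg), integral_add i1 i2, integral_const_mul,
        integral_const_mul]
      unfold N2
      ring
    rw [e]
    exact integral_nonneg fun _ => sq_nonneg _
  have h2 := discrim_le_zero h1
  unfold discrim at h2
  linarith only [h2]

lemma tendsto_integral_mul {a : ℕ → E3 → ℝ} {b φ : E3 → ℝ} (ha : ∀ n, MemLp (a n) 2)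
    (hb : MemLp b 2) (hφ : MemLp φ 2)
    (h : Tendsto (fun n => N2 (fun x => a n x - b x)) atTop (𝓝 0)) :
    Tendsto (fun n => ∫ x, a n x * φ x) atTop (𝓝 (∫ x, b x * φ x)) := by
  rw [tendsto_iff_dist_tendsto_zero]
  have h1 : Tendsto (fun n => Real.sqrt (N2 (fun x => a n x - b x) * N2 φ)) atTop (𝓝 0) := by
    have := (h.mul_const (N2 φ)).sqrt
    simpa using this
  refine squeeze_zero (fun _ => dist_nonneg) (fun n => ?_) h1
  rw [Real.dist_eq, ← integral_sub (mul_int (ha n) hφ) (mul_int hb hφ)]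
  have e : ∀ x, a n x * φ x - b x * φ x = (a n x - b x) * φ x := by intro x; ring
  simp_rw [e]
  apply Real.abs_le_sqrt
  exact cs_int (memLp_sub' (ha n) hb) hφ

/-- completeness of `L²` in terms of `N2`. -/
lemma exists_limit {a : ℕ → E3 → ℝ} (ha : ∀ n, MemLp (a n) 2)
    (hC : ∀ ε > 0, ∃ N, ∀ n ≥ N, ∀ m ≥ N, N2 (fun x => a n x - a m x) < ε) :
    ∃ g : E3 → ℝ, MemLp g 2 ∧ Tendsto (fun n => N2 (fun x => a n x - g x)) atTop (𝓝 0) := by
  let u : ℕ → Lp ℝ 2 (volume : Measure E3) := fun n => (ha n).toLp (a n)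
  have hd : ∀ n m, dist (u n) (u m) ^ 2 = N2 (fun x => a n x - a m x) := by
    intro n m
    have h1 : dist (u n) (u m) = (eLpNorm (fun x => a n x - a m x) 2 volume).toReal := by
      rw [dist_eq_norm, ← MemLp.toLp_sub, Lp.norm_toLp]
      rfl
    rw [h1, ← ENNReal.toReal_pow, ← N2_eq (memLp_sub' (ha n) (ha m)),
      ENNReal.toReal_ofReal (N2_nonneg _)]
  have hcau : CauchySeq u := by
    rw [Metric.cauchySeq_iff]
    intro ε hε
    obtain ⟨N, hN⟩ := hC (ε ^ 2) (by positivity)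
    refine ⟨N, fun n hn m hm => ?_⟩
    have := hN n hn m hm
    rw [← hd n m] at this
    exact lt_of_pow_lt_pow_left₀ 2 hε.le this
  obtain ⟨v, hv⟩ := cauchySeq_tendsto_of_complete hcau
  refine ⟨v, Lp.memLp v, ?_⟩
  have h2 : ∀ n, N2 (fun x => a n x - v x) = dist (u n) v ^ 2 := by
    intro n
    have h1 : dist (u n) v = (eLpNorm (fun x => a n x - v x) 2 volume).toReal := by
      rw [Lp.dist_def]
      congr 1
      apply eLpNorm_congr_ae
      filter_upwards [(ha n).coeFn_toLp] with x hx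
      simp only [Pi.sub_apply]
      rw [hx]
    rw [h1, ← ENNReal.toReal_pow, ← N2_eq (memLp_sub' (ha n) (Lp.memLp v)),
      ENNReal.toReal_ofReal (N2_nonneg _)]
  simp_rw [h2]
  have := (tendsto_iff_dist_tendsto_zero.mp hv).pow 2
  simpa using this

/-- convolution with a smooth compactly supported kernel. -/
noncomputable def cv (k f : E3 → ℝ) (x : E3) : ℝ := ∫ y, k (x - y) * f y

lemma cv_eq_conv (k f : E3 → ℝ) :
    cv k f = f ⋆[ContinuousLinearMap.mul ℝ ℝ, volume] k := by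
  funext x
  rw [convolution_def]
  simp only [cv, ContinuousLinearMap.mul_apply']
  congr 1
  funext t
  ring

lemma pd_cv {k f : E3 → ℝ} (hk : ContDiff ℝ ∞ k) (hkc : HasCompactSupport k)
    (hf : LocallyIntegrable f) (i : Fin 3) : pd i (cv k f) = cv (pd i k) f := by
  funext x
  have h1 := hkc.hasFDerivAt_convolution_right (ContinuousLinearMap.mul ℝ ℝ) hf
    (hk.of_le (by norm_cast)) x (μ := volume)
  rw [← cv_eq_conv] at h1
  unfold pd
  rw [h1.fderiv, convolution_precompR_apply _ hf (hkc.fderiv ℝ)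
    ((hk.of_le (by norm_cast) : ContDiff ℝ 1 k).continuous_fderiv (by norm_num)),
    ← cv_eq_conv]

lemma moll_eq_cv (n : ℕ) (f : E3 → ℝ) : moll n f = cv (ker n) f := rfl

lemma sub_cd {k : E3 → ℝ} (hk : ContDiff ℝ ∞ k) (x : E3) : ContDiff ℝ ∞ (fun y => k (x - y)) :=
  hk.comp (contDiff_const.sub contDiff_id)

lemma sub_cs {k : E3 → ℝ} (hk : HasCompactSupport k) (x : E3) :
    HasCompactSupport (fun y => k (x - y)) :=
  hk.comp_homeomorph (Homeomorph.subLeft x)

lemma pd_sub_left {k : E3 → ℝ} (hk : ContDiff ℝ ∞ k) (x y : E3) (i : Fin 3) :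
    pd i (fun y => k (x - y)) y = - pd i k (x - y) := by
  have hd : HasFDerivAt k (fderiv ℝ k (x - y)) (x - y) :=
    ((hk.differentiable (by simp)) (x - y)).hasFDerivAt
  have hs : HasFDerivAt (fun y : E3 => x - y) (-ContinuousLinearMap.id ℝ E3) y :=
    (hasFDerivAt_id y).const_sub x
  have := hd.comp y hs
  unfold pd
  have e : (fun y => k (x - y)) = k ∘ (fun y => x - y) := rfl
  rw [e, this.fderiv]
  simp

lemma pd_neg (f : E3 → ℝ) (i : Fin 3) : pd i (fun y => - f y) = fun y => - pd i f y := by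
  funext x
  unfold pd
  rw [fderiv_fun_neg]
  simp

lemma lap_sub_left {k : E3 → ℝ} (hk : ContDiff ℝ ∞ k) (x y : E3) :
    lap (fun y => k (x - y)) y = lap k (x - y) := by
  unfold lap
  apply Finset.sum_congr rfl
  intro i _
  have e : pd i (fun y => k (x - y)) = fun y => - (fun z => pd i k (x - z)) y := by
    funext z; exact pd_sub_left hk x z i
  rw [e, pd_neg]
  simp only
  rw [pd_sub_left (pd_contDiff_infty hk i)]
  ring

/-- `g` is the weak Laplacian of `f`. -/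
def WLap (f g : E3 → ℝ) : Prop :=
  ∀ φ : E3 → ℝ, ContDiff ℝ ∞ φ → HasCompactSupport φ →
    ∫ x, f x * lap φ x = ∫ x, g x * φ x

/-- `Δ f = div Q + g` weakly. -/
def WLapDiv (f : E3 → ℝ) (Q : Fin 3 → E3 → ℝ) (g : E3 → ℝ) : Prop :=
  ∀ φ : E3 → ℝ, ContDiff ℝ ∞ φ → HasCompactSupport φ →
    ∫ x, f x * lap φ x = - (∑ i, ∫ x, Q i x * pd i φ x) + ∫ x, g x * φ x

lemma lap_moll {n : ℕ} {f : E3 → ℝ} (hf : LocallyIntegrable f) (x : E3) :
    lap (moll n f) x = ∫ y, lap (ker n) (x - y) * f y := by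
  unfold lap
  have h : ∀ i : Fin 3, pd i (pd i (moll n f)) = cv (pd i (pd i (ker n))) f := by
    intro i
    rw [moll_eq_cv, pd_cv (ker_contDiff n) (ker_cs n) hf,
      pd_cv (pd_contDiff_infty (ker_contDiff n) i) (pd_hasCompactSupport (ker_cs n) i) hf]
  simp_rw [h]
  unfold cv
  rw [← integral_finsetSum]
  · congr 1
    funext y
    rw [Finset.sum_mul]
  · intro i _
    have hk : ContDiff ℝ ∞ (pd i (pd i (ker n))) :=
      pd_contDiff_infty (pd_contDiff_infty (ker_contDiff n) i) i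
    have hc : HasCompactSupport (pd i (pd i (ker n))) :=
      pd_hasCompactSupport (pd_hasCompactSupport (ker_cs n) i) i
    have := hf.integrable_smul_left_of_hasCompactSupport (sub_cd hk x).continuous (sub_cs hc x)
    simpa using this

lemma lap_moll_of_WLap {n : ℕ} {f g : E3 → ℝ} (hf : LocallyIntegrable f) (h : WLap f g) (x : E3) :
    lap (moll n f) x = moll n g x := by
  rw [lap_moll hf]
  have h2 := h (fun y => ker n (x - y)) (sub_cd (ker_contDiff n) x) (sub_cs (ker_cs n) x)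
  simp_rw [lap_sub_left (ker_contDiff n)] at h2
  unfold moll
  calc ∫ y, lap (ker n) (x - y) * f y = ∫ y, f y * lap (ker n) (x - y) := by
        congr 1; funext y; ring
    _ = ∫ y, g y * ker n (x - y) := h2
    _ = ∫ y, ker n (x - y) * g y := by congr 1; funext y; ring

lemma lap_moll_of_WLapDiv {n : ℕ} {f g : E3 → ℝ} {Q : Fin 3 → E3 → ℝ}
    (hf : LocallyIntegrable f) (hQ : ∀ i, LocallyIntegrable (Q i))
    (h : WLapDiv f Q g) (x : E3) :
    lap (moll n f) x = (∑ i, pd i (moll n (Q i)) x) + moll n g x := by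
  rw [lap_moll hf]
  have h2 := h (fun y => ker n (x - y)) (sub_cd (ker_contDiff n) x) (sub_cs (ker_cs n) x)
  simp_rw [lap_sub_left (ker_contDiff n)] at h2
  have h3 : ∀ i : Fin 3, ∫ y, Q i y * pd i (fun y => ker n (x - y)) y = - pd i (moll n (Q i)) x := by
    intro i
    rw [moll_eq_cv, pd_cv (ker_contDiff n) (ker_cs n) (hQ i)]
    unfold cv
    rw [← integral_neg]
    congr 1
    funext y
    rw [pd_sub_left (ker_contDiff n)]
    ring
  simp_rw [h3] at h2
  calc ∫ y, lap (ker n) (x - y) * f y = ∫ y, f y * lap (ker n) (x - y) := by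
        congr 1; funext y; ring
    _ = - (∑ i, - pd i (moll n (Q i)) x) + ∫ y, g y * ker n (x - y) := h2
    _ = (∑ i, pd i (moll n (Q i)) x) + moll n g x := by
        rw [Finset.sum_neg_distrib, neg_neg]
        unfold moll
        congr 1
        congr 1
        funext y
        ring

lemma energy_smooth {F : E3 → ℝ} {Q : Fin 3 → E3 → ℝ} {g : E3 → ℝ}
    (hF : ContDiff ℝ ∞ F) (hc : HasCompactSupport F) (hQ : ∀ i, ContDiff ℝ ∞ (Q i))
    (hg : Continuous g) (hQ2 : ∀ i, MemLp (Q i) 2) (hg2 : MemLp g 2)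
    (h : ∀ x, lap F x = (∑ i, pd i (Q i) x) + g x) :
    ∫ x, gradSq F x ≤ (∑ i, N2 (Q i)) + N2 F + N2 g := by
  have h1 := int_w_lap hF hc
  have hF2 : MemLp F 2 := hF.continuous.memLp_of_hasCompactSupport hc
  have j1 : ∀ i : Fin 3, Integrable (fun x => F x * pd i (Q i) x) := fun i =>
    int_cc (hF.continuous.mul (pd_contDiff_infty (hQ i) i).continuous) (HasCompactSupport.mul_right hc)
  have j2 : Integrable (fun x => F x * g x) :=
    int_cc (hF.continuous.mul hg) (HasCompactSupport.mul_right hc)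
  have j3 : ∀ i : Fin 3, Integrable (fun x => pd i F x * Q i x) := fun i =>
    int_cc ((pd_contDiff_infty hF i).continuous.mul (hQ i).continuous)
      (HasCompactSupport.mul_right (pd_hasCompactSupport hc i))
  have e1 : ∫ x, F x * lap F x = - (∑ i, ∫ x, pd i F x * Q i x) + ∫ x, F x * g x := by
    have e2 : ∀ x, F x * lap F x = (∑ i, F x * pd i (Q i) x) + F x * g x := by
      intro x
      rw [h x, mul_add, Finset.mul_sum]
    simp_rw [e2]
    rw [integral_add (integrable_finsetSum _ fun i _ => j1 i) j2, integral_finsetSum _ fun i _ => j1 i]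
    congr 1
    rw [← Finset.sum_neg_distrib]
    apply Finset.sum_congr rfl
    intro i _
    have := ibp (f := Q i) (g := F) ((hQ i).of_le (by norm_cast)) (hF.of_le (by norm_cast)) hc i
    have e3 : ∫ x, F x * pd i (Q i) x = ∫ x, pd i (Q i) x * F x := by
      congr 1; funext x; ring
    have e4 : ∫ x, pd i F x * Q i x = ∫ x, Q i x * pd i F x := by
      congr 1; funext x; ring
    rw [e3, e4, this]
    ring
  have e5 : ∫ x, gradSq F x = (∑ i, ∫ x, pd i F x * Q i x) - ∫ x, F x * g x := by linarith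
  have b1 : ∀ i : Fin 3, ∫ x, pd i F x * Q i x ≤ (1/2) * N2 (pd i F) + (1/2) * N2 (Q i) := by
    intro i
    have k1 : Integrable (fun x => (pd i F x) ^ 2) :=
      int_cc ((pd_contDiff_infty hF i).continuous.pow 2) (cs_sq (pd_hasCompactSupport hc i))
    have k2 := memLp_sq_int (hQ2 i)
    unfold N2
    rw [← integral_const_mul, ← integral_const_mul,
      ← integral_add (k1.const_mul _) (k2.const_mul _)]
    apply integral_mono (j3 i) ((k1.const_mul _).add (k2.const_mul _))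
    intro x
    simp only [Pi.add_apply]
    linarith only [sq_nonneg (pd i F x - Q i x)]
  have b2 : - (∫ x, F x * g x) ≤ (1/2) * N2 F + (1/2) * N2 g := by
    have k1 := memLp_sq_int hF2
    have k2 := memLp_sq_int hg2
    unfold N2
    rw [← integral_neg, ← integral_const_mul, ← integral_const_mul,
      ← integral_add (k1.const_mul _) (k2.const_mul _)]
    apply integral_mono j2.neg ((k1.const_mul _).add (k2.const_mul _))
    intro x
    simp only [Pi.add_apply, Pi.neg_apply]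
    linarith only [sq_nonneg (F x + g x)]
  have e6 : ∫ x, gradSq F x = ∑ i, N2 (pd i F) := by
    unfold gradSq N2
    rw [integral_finsetSum]
    intro i _
    exact int_cc ((pd_contDiff_infty hF i).continuous.pow 2) (cs_sq (pd_hasCompactSupport hc i))
  have b3 : (∑ i, ∫ x, pd i F x * Q i x) ≤ (1/2) * (∫ x, gradSq F x) + (1/2) * ∑ i, N2 (Q i) := by
    rw [e6, Finset.mul_sum, Finset.mul_sum, ← Finset.sum_add_distrib]
    exact Finset.sum_le_sum fun i _ => b1 i
  linarith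

lemma gradSq_le_single {F : E3 → ℝ} (hF : ContDiff ℝ ∞ F) (hc : HasCompactSupport F) (i : Fin 3) :
    N2 (pd i F) ≤ ∫ x, gradSq F x := by
  unfold N2 gradSq
  have k : ∀ i : Fin 3, Integrable (fun x => (pd i F x) ^ 2) := fun i =>
    int_cc ((pd_contDiff_infty hF i).continuous.pow 2) (cs_sq (pd_hasCompactSupport hc i))
  apply integral_mono (k i) (integrable_finsetSum _ fun i _ => k i)
  intro x
  exact Finset.single_le_sum (f := fun i => (pd i F x) ^ 2) (fun _ _ => sq_nonneg _)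
    (Finset.mem_univ i)

lemma pd_sub {f g : E3 → ℝ} (hf : ContDiff ℝ ∞ f) (hg : ContDiff ℝ ∞ g) (i : Fin 3) (x : E3) :
    pd i (fun y => f y - g y) x = pd i f x - pd i g x := by
  unfold pd
  rw [fderiv_fun_sub ((hf.differentiable (by simp)) x) ((hg.differentiable (by simp)) x)]
  simp

lemma lap_sub {f g : E3 → ℝ} (hf : ContDiff ℝ ∞ f) (hg : ContDiff ℝ ∞ g) (x : E3) :
    lap (fun y => f y - g y) x = lap f x - lap g x := by
  unfold lap
  rw [← Finset.sum_sub_distrib]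
  apply Finset.sum_congr rfl
  intro i _
  have e : pd i (fun y => f y - g y) = fun y => pd i f y - pd i g y := by
    funext y; exact pd_sub hf hg i y
  rw [e, pd_sub (pd_contDiff_infty hf i) (pd_contDiff_infty hg i)]

/-- **Weak regularity.** If `f ∈ L²` has compact support and `Δ f = div Q + g` with
`Q, g ∈ L²`, then the first derivatives of `f` are in `L²`. -/
theorem exists_weak_grad {f g : E3 → ℝ} {Q : Fin 3 → E3 → ℝ} {R : ℝ}
    (hf : MemLp f 2) (hsupp : ∀ᵐ y : E3, R < ‖y‖ → f y = 0) (hQ : ∀ i, MemLp (Q i) 2)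
    (hg : MemLp g 2) (h : WLapDiv f Q g) :
    ∃ G : Fin 3 → E3 → ℝ, ∀ i, MemLp (G i) 2 ∧ WD i f (G i) ∧
      Tendsto (fun n => N2 (fun x => pd i (moll n f) x - G i x)) atTop (𝓝 0) := by
  have hlf : LocallyIntegrable f := hf.locallyIntegrable (by norm_num)
  have hlg : LocallyIntegrable g := hg.locallyIntegrable (by norm_num)
  have hlQ : ∀ i, LocallyIntegrable (Q i) := fun i => (hQ i).locallyIntegrable (by norm_num)
  have hsm : ∀ n, ContDiff ℝ ∞ (moll n f) := fun n => moll_contDiff n hlf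
  have hcs : ∀ n, HasCompactSupport (moll n f) := fun n => moll_cs hsupp
  have key : ∀ n m (i : Fin 3), N2 (fun x => pd i (moll n f) x - pd i (moll m f) x)
      ≤ (∑ j, N2 (fun x => moll n (Q j) x - moll m (Q j) x))
        + N2 (fun x => moll n f x - moll m f x) + N2 (fun x => moll n g x - moll m g x) := by
    intro n m i
    have hF : ContDiff ℝ ∞ (fun x => moll n f x - moll m f x) := (hsm n).sub (hsm m)
    have hFc : HasCompactSupport (fun x => moll n f x - moll m f x) := (hcs n).sub (hcs m)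
    have e1 : (fun x => pd i (moll n f) x - pd i (moll m f) x)
        = pd i (fun x => moll n f x - moll m f x) := by
      funext x; rw [pd_sub (hsm n) (hsm m)]
    rw [e1]
    refine (gradSq_le_single hF hFc i).trans ?_
    apply energy_smooth hF hFc (Q := fun j x => moll n (Q j) x - moll m (Q j) x)
      (g := fun x => moll n g x - moll m g x)
    · intro j
      exact (moll_contDiff n (hlQ j)).sub (moll_contDiff m (hlQ j))
    · exact ((moll_contDiff n hlg).sub (moll_contDiff m hlg)).continuous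
    · intro j
      exact memLp_sub' (moll_memLp n (hQ j)) (moll_memLp m (hQ j))
    · exact memLp_sub' (moll_memLp n hg) (moll_memLp m hg)
    · intro x
      rw [lap_sub (hsm n) (hsm m), lap_moll_of_WLapDiv hlf hlQ h, lap_moll_of_WLapDiv hlf hlQ h]
      have e2 : ∀ j : Fin 3, pd j (fun x => moll n (Q j) x - moll m (Q j) x) x
          = pd j (moll n (Q j)) x - pd j (moll m (Q j)) x := fun j =>
        pd_sub (moll_contDiff n (hlQ j)) (moll_contDiff m (hlQ j)) j x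
      simp_rw [e2]
      rw [Finset.sum_sub_distrib]
      ring
  have cau : ∀ {a : E3 → ℝ}, MemLp a 2 → ∀ ε > 0, ∃ N, ∀ n ≥ N, ∀ m ≥ N,
      N2 (fun x => moll n a x - moll m a x) < ε := by
    intro a ha ε hε
    have h1 := (moll_N2_tendsto ha).eventually (gt_mem_nhds (show (0:ℝ) < ε / 4 by positivity))
    obtain ⟨N, hN⟩ := eventually_atTop.mp h1
    refine ⟨N, fun n hn m hm => ?_⟩
    have := N2_sub_le (moll_memLp n ha) (moll_memLp m ha) ha
    have := hN n hn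
    have := hN m hm
    linarith
  have hpm : ∀ n (i : Fin 3), MemLp (pd i (moll n f)) 2 := fun n i =>
    (pd_contDiff_infty (hsm n) i).continuous.memLp_of_hasCompactSupport
      (pd_hasCompactSupport (hcs n) i)
  have hex : ∀ i : Fin 3, ∃ G : E3 → ℝ, MemLp G 2 ∧
      Tendsto (fun n => N2 (fun x => pd i (moll n f) x - G x)) atTop (𝓝 0) := by
    intro i
    apply exists_limit (fun n => hpm n i)
    intro ε hε
    obtain ⟨N0, hN0⟩ := cau hf (ε / 5) (by positivity)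
    obtain ⟨N1, hN1⟩ := cau hg (ε / 5) (by positivity)
    choose N2' hN2' using fun j => cau (hQ j) (ε / 5) (by positivity)
    refine ⟨max (max N0 N1) (max (N2' 0) (max (N2' 1) (N2' 2))), fun n hn m hm => ?_⟩
    simp only [ge_iff_le, max_le_iff] at hn hm
    refine lt_of_le_of_lt (key n m i) ?_
    rw [Fin.sum_univ_three]
    have a0 := hN0 n hn.1.1 m hm.1.1
    have a1 := hN1 n hn.1.2 m hm.1.2
    have a2 := hN2' 0 n hn.2.1 m hm.2.1
    have a3 := hN2' 1 n hn.2.2.1 m hm.2.2.1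
    have a4 := hN2' 2 n hn.2.2.2 m hm.2.2.2
    linarith only [a4, a3, a2, a1, a0]
  choose G hG1 hG2 using hex
  refine ⟨G, fun i => ⟨hG1 i, ?_, hG2 i⟩⟩
  intro φ hφ hφc
  have hφ2 : MemLp φ 2 := hφ.continuous.memLp_of_hasCompactSupport hφc
  have hp2 : MemLp (pd i φ) 2 := (pd_contDiff_infty hφ i).continuous.memLp_of_hasCompactSupport
    (pd_hasCompactSupport hφc i)
  have t1 := tendsto_integral_mul (fun n => moll_memLp n hf) hf hp2 (moll_N2_tendsto hf)
  have t2 := (tendsto_integral_mul (fun n => hpm n i) (hG1 i) hφ2 (hG2 i)).neg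
  have e1 : ∀ n, ∫ x, moll n f x * pd i φ x = - ∫ x, pd i (moll n f) x * φ x := fun n =>
    ibp ((hsm n).of_le (by norm_cast)) (hφ.of_le (by norm_cast)) hφc i
  simp_rw [e1] at t1
  exact tendsto_nhds_unique t1 t2

lemma memLp_add' {f g : E3 → ℝ} (hf : MemLp f 2) (hg : MemLp g 2) :
    MemLp (fun x => f x + g x) 2 := hf.add hg

lemma memLp_bdd_mul {w f : E3 → ℝ} {M : ℝ} (hw : AEStronglyMeasurable w volume)
    (hM : ∀ᵐ x, |w x| ≤ M) (hf : MemLp f 2) : MemLp (fun x => w x * f x) 2 := by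
  refine MemLp.of_le_mul (c := M) hf (hw.mul hf.1) ?_
  filter_upwards [hM] with x hx
  rw [norm_mul]
  gcongr
  exact hx

lemma N2_bdd_mul {w f : E3 → ℝ} {M : ℝ} (hw : AEStronglyMeasurable w volume)
    (hM : ∀ᵐ x, |w x| ≤ M) (hf : MemLp f 2) : N2 (fun x => w x * f x) ≤ M ^ 2 * N2 f := by
  unfold N2
  rw [← integral_const_mul]
  apply integral_mono_ae (memLp_sq_int (memLp_bdd_mul hw hM hf)) ((memLp_sq_int hf).const_mul _)
  filter_upwards [hM] with x hx
  rw [mul_pow]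
  have : (w x) ^ 2 ≤ M ^ 2 := by
    rw [← sq_abs]
    gcongr
  gcongr

lemma tendsto_weighted {w : E3 → ℝ} (hw : Continuous w) {R : ℝ} {a : ℕ → E3 → ℝ} {b : E3 → ℝ}
    (ha : ∀ n, MemLp (a n) 2) (hb : MemLp b 2) (hsa : ∀ n, ∀ᵐ x : E3, R < ‖x‖ → a n x = 0)
    (hsb : ∀ᵐ x : E3, R < ‖x‖ → b x = 0)
    (h : Tendsto (fun n => N2 (fun x => a n x - b x)) atTop (𝓝 0)) :
    Tendsto (fun n => ∫ x, w x * (a n x) ^ 2) atTop (𝓝 (∫ x, w x * (b x) ^ 2)) := by
  obtain ⟨M, hM⟩ : ∃ M : ℝ, ∀ x ∈ Metric.closedBall (0 : E3) R, |w x| ≤ M := by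
    obtain ⟨M, hM⟩ := (isCompact_closedBall (0 : E3) R).exists_bound_of_continuousOn
      hw.continuousOn
    exact ⟨M, fun x hx => hM x hx⟩
  set M' := max M 0 with hM'
  set wt : E3 → ℝ := (Metric.closedBall (0 : E3) R).indicator w with hwt
  have hwtm : AEStronglyMeasurable wt volume :=
    hw.aestronglyMeasurable.indicator measurableSet_closedBall
  have hwtM : ∀ᵐ x, |wt x| ≤ M' := by
    refine Eventually.of_forall fun x => ?_
    by_cases hx : x ∈ Metric.closedBall (0 : E3) R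
    · rw [hwt, Set.indicator_of_mem hx]
      exact (hM x hx).trans (le_max_left _ _)
    · rw [hwt, Set.indicator_of_notMem hx]
      simp [hM']
  have hM'0 : 0 ≤ M' := le_max_right _ _
  have hwta : ∀ n, ∀ᵐ x, w x * (a n x) ^ 2 = (wt x * a n x) * a n x := by
    intro n
    filter_upwards [hsa n] with x hx
    by_cases hxb : x ∈ Metric.closedBall (0 : E3) R
    · rw [hwt, Set.indicator_of_mem hxb]; ring
    · rw [Metric.mem_closedBall, dist_zero_right, not_le] at hxb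
      rw [hx hxb]; ring
  have hwtb : ∀ᵐ x, w x * (b x) ^ 2 = (wt x * b x) * b x := by
    filter_upwards [hsb] with x hx
    by_cases hxb : x ∈ Metric.closedBall (0 : E3) R
    · rw [hwt, Set.indicator_of_mem hxb]; ring
    · rw [Metric.mem_closedBall, dist_zero_right, not_le] at hxb
      rw [hx hxb]; ring
  have e1 : ∀ n, ∫ x, w x * (a n x) ^ 2 = ∫ x, (wt x * a n x) * a n x := fun n =>
    integral_congr_ae (hwta n)
  have e2 : ∫ x, w x * (b x) ^ 2 = ∫ x, (wt x * b x) * b x := integral_congr_ae hwtb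
  simp_rw [e1]
  rw [e2, tendsto_iff_dist_tendsto_zero]
  have hlim : Tendsto (fun n => Real.sqrt ((M' ^ 2 * N2 (fun x => a n x - b x))
      * (2 * N2 (fun x => a n x - b x) + 8 * N2 b))) atTop (𝓝 0) := by
    have := (((h.const_mul (M' ^ 2)).mul ((h.const_mul 2).add_const (8 * N2 b)))).sqrt
    simpa using this
  refine squeeze_zero (fun _ => dist_nonneg) (fun n => ?_) hlim
  have m1 : MemLp (fun x => wt x * a n x) 2 := memLp_bdd_mul hwtm hwtM (ha n)
  have m2 : MemLp (fun x => wt x * b x) 2 := memLp_bdd_mul hwtm hwtM hb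
  have m3 : MemLp (fun x => a n x - b x) 2 := memLp_sub' (ha n) hb
  have m4 : MemLp (fun x => a n x + b x) 2 := memLp_add' (ha n) hb
  have m5 : MemLp (fun x => wt x * (a n x - b x)) 2 := memLp_bdd_mul hwtm hwtM m3
  rw [Real.dist_eq, ← integral_sub (mul_int m1 (ha n)) (mul_int m2 hb)]
  have e : ∀ x, wt x * a n x * a n x - wt x * b x * b x
      = (wt x * (a n x - b x)) * (a n x + b x) := by intro x; ring
  simp_rw [e]
  apply Real.abs_le_sqrt
  refine (cs_int m5 m4).trans ?_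
  have f1 : N2 (fun x => wt x * (a n x - b x)) ≤ M' ^ 2 * N2 (fun x => a n x - b x) :=
    N2_bdd_mul hwtm hwtM m3
  have f2 : N2 (fun x => a n x + b x) ≤ 2 * N2 (fun x => a n x - b x) + 8 * N2 b := by
    unfold N2
    rw [← integral_const_mul, ← integral_const_mul,
      ← integral_add ((memLp_sq_int m3).const_mul _) ((memLp_sq_int hb).const_mul _)]
    apply integral_mono (memLp_sq_int m4)
      (((memLp_sq_int m3).const_mul _).add ((memLp_sq_int hb).const_mul _))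
    intro x
    simp only [Pi.add_apply]
    linarith only [sq_nonneg (a n x - b x - 2 * b x)]
  exact mul_le_mul f1 f2 (N2_nonneg _) (mul_nonneg (sq_nonneg _) (N2_nonneg _))

lemma isOpen_outside (R : ℝ) : IsOpen {x : E3 | R < ‖x‖} := isOpen_lt continuous_const continuous_norm

lemma ae_zero_outside {g : E3 → ℝ} {R : ℝ} (hg : LocallyIntegrable g)
    (h : ∀ φ : E3 → ℝ, ContDiff ℝ ∞ φ → HasCompactSupport φ → tsupport φ ⊆ {x : E3 | R < ‖x‖} →
      ∫ x, g x * φ x = 0) : ∀ᵐ y : E3, R < ‖y‖ → g y = 0 := by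
  have := (isOpen_outside R).ae_eq_zero_of_integral_contDiff_smul_eq_zero (μ := volume)
    (f := g) (hg.locallyIntegrableOn _) (by
      intro φ h1 h2 h3
      have := h φ h1 h2 h3
      simpa [mul_comm] using this)
  simpa using this

lemma tsupport_pd_subset (φ : E3 → ℝ) (i : Fin 3) : tsupport (pd i φ) ⊆ tsupport φ := by
  refine (closure_mono ?_).trans (tsupport_fderiv_subset ℝ (f := φ))
  intro x hx
  rw [Function.mem_support] at hx ⊢
  intro h
  apply hx
  simp [pd, h]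

lemma WD_zero_outside {i : Fin 3} {f g : E3 → ℝ} {R : ℝ} (hg : LocallyIntegrable g)
    (h : WD i f g) (hsupp : ∀ᵐ y : E3, R < ‖y‖ → f y = 0) : ∀ᵐ y : E3, R < ‖y‖ → g y = 0 := by
  apply ae_zero_outside hg
  intro φ h1 h2 h3
  have h4 := h φ h1 h2
  have h5 : ∫ x, f x * pd i φ x = 0 := by
    apply integral_eq_zero_of_ae
    filter_upwards [hsupp] with y hy
    by_cases hR : R < ‖y‖
    · simp [hy hR]
    · have : pd i φ y = 0 := by
        by_contra hne
        exact hR (h3 (tsupport_pd_subset φ i (subset_tsupport _ hne)))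
      simp [this]
  linarith

lemma WLap_zero_outside {f g : E3 → ℝ} {R : ℝ} (hg : LocallyIntegrable g)
    (h : WLap f g) (hsupp : ∀ᵐ y : E3, R < ‖y‖ → f y = 0) : ∀ᵐ y : E3, R < ‖y‖ → g y = 0 := by
  apply ae_zero_outside hg
  intro φ h1 h2 h3
  have h4 := h φ h1 h2
  have h5 : ∫ x, f x * lap φ x = 0 := by
    apply integral_eq_zero_of_ae
    filter_upwards [hsupp] with y hy
    by_cases hR : R < ‖y‖
    · simp [hy hR]
    · have : lap φ y = 0 := by
        unfold lap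
        apply Finset.sum_eq_zero
        intro i _
        by_contra hne
        exact hR (h3 (tsupport_pd_subset φ i (tsupport_pd_subset _ i (subset_tsupport _ hne))))
      simp [this]
  linarith

/-- **Carleman inequality** for compactly supported functions with weak gradient and Laplacian
in `L²`. -/
theorem carleman_weak {f g : E3 → ℝ} {G : Fin 3 → E3 → ℝ} {R : ℝ} (hf : MemLp f 2)
    (hG : ∀ i, MemLp (G i) 2) (hWD : ∀ i, WD i f (G i)) (hg : MemLp g 2) (hL : WLap f g)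
    (hsupp : ∀ᵐ y : E3, R < ‖y‖ → f y = 0) (e : E3) (he : ‖e‖ = 1) {τ s : ℝ} (hs : 0 < s)
    (hτ0 : 0 ≤ τ) (hτ : s ≤ τ ^ 2) (hR : 2 * s * (R + 1) ≤ τ) :
    τ ^ 2 * (∫ x, Real.exp (2 * phase e τ s x) * (f x) ^ 2)
      + (∑ i, ∫ x, Real.exp (2 * phase e τ s x) * (G i x) ^ 2)
      ≤ (4 / s) * ∫ x, Real.exp (2 * phase e τ s x) * (g x) ^ 2 := by
  have hlf : LocallyIntegrable f := hf.locallyIntegrable (by norm_num)
  have hlg : LocallyIntegrable g := hg.locallyIntegrable (by norm_num)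
  have hlG : ∀ i, LocallyIntegrable (G i) := fun i => (hG i).locallyIntegrable (by norm_num)
  have hsG : ∀ i, ∀ᵐ y : E3, R < ‖y‖ → G i y = 0 := fun i =>
    WD_zero_outside (hlG i) (hWD i) hsupp
  have hsg : ∀ᵐ y : E3, R < ‖y‖ → g y = 0 := WLap_zero_outside hlg hL hsupp
  have hec : Continuous (fun x => Real.exp (2 * phase e τ s x)) :=
    Real.continuous_exp.comp (continuous_const.mul (phase_contDiff e τ s).continuous)
  have up : ∀ {a : E3 → ℝ}, (∀ᵐ y : E3, R < ‖y‖ → a y = 0) →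
      (∀ᵐ y : E3, R + 1 < ‖y‖ → a y = 0) := by
    intro a ha
    filter_upwards [ha] with y hy h
    exact hy (by linarith)
  have um : ∀ {a : E3 → ℝ}, (∀ᵐ y : E3, R < ‖y‖ → a y = 0) → ∀ n : ℕ,
      (∀ x : E3, R + 1 < ‖x‖ → moll n a x = 0) := by
    intro a ha n x hx
    apply moll_zero ha
    have h4 : 1 / ((n : ℝ) + 1) ≤ 1 := by
      rw [div_le_one (by positivity)]
      have : (0:ℝ) ≤ n := by positivity
      linarith
    linarith
  have tw : ∀ {a : E3 → ℝ}, MemLp a 2 → (∀ᵐ y : E3, R < ‖y‖ → a y = 0) →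
      Tendsto (fun n => ∫ x, Real.exp (2 * phase e τ s x) * (moll n a x) ^ 2) atTop
        (𝓝 (∫ x, Real.exp (2 * phase e τ s x) * (a x) ^ 2)) := by
    intro a ha hsa
    exact tendsto_weighted hec (R := R + 1) (fun n => moll_memLp n ha) ha
      (fun n => Eventually.of_forall (um hsa n)) (up hsa) (moll_N2_tendsto ha)
  have hn : ∀ n : ℕ, τ ^ 2 * (∫ x, Real.exp (2 * phase e τ s x) * (moll n f x) ^ 2)
      + (∑ i, ∫ x, Real.exp (2 * phase e τ s x) * (moll n (G i) x) ^ 2)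
      ≤ (4 / s) * ∫ x, Real.exp (2 * phase e τ s x) * (moll n g x) ^ 2 := by
    intro n
    have hc := carleman_smooth (moll_contDiff n hlf) (moll_cs (n := n) hsupp) e he hs hτ0 hτ hR
      (by
        intro x hx
        have h1 : ‖x‖ ≤ R + 1 := by
          by_contra hne
          exact hx (um hsupp n x (not_le.mp hne))
        calc |⟪e, x⟫_ℝ| ≤ ‖e‖ * ‖x‖ := abs_real_inner_le_norm e x
          _ ≤ R + 1 := by rw [he, one_mul]; exact h1)
    have e1 : ∫ x, Real.exp (2 * phase e τ s x) * gradSq (moll n f) x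
        = ∑ i, ∫ x, Real.exp (2 * phase e τ s x) * (moll n (G i) x) ^ 2 := by
      rw [← integral_finsetSum]
      · congr 1
        funext x
        unfold gradSq
        rw [Finset.mul_sum]
        apply Finset.sum_congr rfl
        intro i _
        rw [moll_pd n hlf (hWD i)]
      · intro i _
        exact int_cc (hec.mul ((moll_contDiff n (hlG i)).continuous.pow 2))
          (HasCompactSupport.mul_left (cs_sq (moll_cs (hsG i))))
    have e2 : ∫ x, Real.exp (2 * phase e τ s x) * (lap (moll n f) x) ^ 2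
        = ∫ x, Real.exp (2 * phase e τ s x) * (moll n g x) ^ 2 := by
      congr 1
      funext x
      rw [lap_moll_of_WLap hlf hL]
    rw [e1, e2] at hc
    exact hc
  exact le_of_tendsto_of_tendsto'
    (((tw hf hsupp).const_mul (τ ^ 2)).add (tendsto_finsetSum _ fun i _ => tw (hG i) (hsG i)))
    ((tw hg hsg).const_mul (4 / s)) hn

end Vale.Agent.P136
end
end

section

section

/-!
The fixed point equation `u = h₀ + N · (twisted convolution of u)` and the smoothness of its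
solution, via magnetic translations.
-/

open Filter Topology MeasureTheory Set
open scoped ContDiff Real BoundedContinuousFunction ComplexConjugate

set_option linter.unusedSectionVars false

namespace Vale.Agent.P136.SF

variable {P : Type} [NormedAddCommGroup P] [NormedSpace ℝ P] [FiniteDimensional ℝ P]

/-- translates -/
def trF (f : ℂ × P → ℂ) : (ℂ × P) × (ℂ × P) → ℂ := fun q => f (q.2 + q.1)

/-- magnetic translates -/
noncomputable def twF (s : ℝ) (f : ℂ × P → ℂ) : (ℂ × P) × (ℂ × P) → ℂ :=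
  fun q => ph s q.2.1 q.1.1 * f (q.2 + q.1)

theorem trF_contDiff {f : ℂ × P → ℂ} (h : ContDiff ℝ ∞ f) : ContDiff ℝ ∞ (trF f) := by
  have h1 : ContDiff ℝ ∞ (fun q : (ℂ × P) × (ℂ × P) => q.2 + q.1) :=
    contDiff_snd.add contDiff_fst
  exact h.comp h1

theorem twF_contDiff (s : ℝ) {f : ℂ × P → ℂ} (h : ContDiff ℝ ∞ f) : ContDiff ℝ ∞ (twF s f) := by
  have h1 : ContDiff ℝ ∞ (fun q : (ℂ × P) × (ℂ × P) => (q.2.1, q.1.1)) :=
    (contDiff_fst.comp contDiff_snd).prodMk (contDiff_fst.comp contDiff_fst)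
  have h2 := (contDiff_ph s).comp h1
  exact h2.mul (trF_contDiff h)

theorem trF_locSupp {f : ℂ × P → ℂ} (hs : HasCompactSupport f) : LocSupp (trF f) := by
  have : ProperSpace P := FiniteDimensional.proper ℝ P
  intro a₀
  obtain ⟨R, hR⟩ := hs.isCompact.isBounded.subset_closedBall 0
  refine ⟨Metric.closedBall 0 (R + ‖a₀‖ + 1), isCompact_closedBall _ _, ?_⟩
  filter_upwards [Metric.ball_mem_nhds a₀ one_pos] with a ha x hx
  by_contra hcon
  have h1 : x + a ∈ tsupport f := subset_tsupport _ hcon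
  have h2 := hR h1
  rw [mem_closedBall_zero_iff] at h2 hx
  apply hx
  have h3 : ‖x‖ ≤ ‖x + a‖ + ‖a‖ := by
    have := norm_sub_le (x + a) a
    simpa using this
  have h4 : ‖a‖ ≤ ‖a₀‖ + 1 := by
    rw [Metric.mem_ball, dist_eq_norm] at ha
    have := norm_add_le (a - a₀) a₀
    rw [sub_add_cancel] at this
    linarith
  linarith

theorem twF_locSupp (s : ℝ) {f : ℂ × P → ℂ} (hs : HasCompactSupport f) : LocSupp (twF s f) := by
  intro a₀
  obtain ⟨K, hK, h⟩ := trF_locSupp hs a₀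
  refine ⟨K, hK, ?_⟩
  filter_upwards [h] with a ha x hx
  have h1 : f (x + a) = 0 := ha x hx
  show ph s x.1 a.1 * f (x + a) = 0
  rw [h1, mul_zero]

theorem bound_of_compact {f : ℂ × P → ℂ} (hc : Continuous f) (hs : HasCompactSupport f) :
    ∃ C, ∀ x, ‖f x‖ ≤ C := hs.exists_bound_of_continuous hc

theorem mt_mkB (s : ℝ) (a : ℂ × P) {f : ℂ × P → ℂ} (hc : ContDiff ℝ ∞ f)
    (hs : HasCompactSupport f) : mt s a (mkB f) = fam (twF s f) a := by
  ext x
  rw [mt_apply, fam_apply (twF_locSupp s hs) (twF_contDiff s hc).continuous,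
    mkB_apply hc.continuous (bound_of_compact hc.continuous hs)]
  rfl

section

variable {n : ℕ}

/-- the operator of the fixed point equation, translated by `a` -/
noncomputable def opA {s : ℝ} (hs : 0 < s) (N : Fin n → Fin n → ℂ × P → ℂ) (a : ℂ × P) :
    (Fin n → ((ℂ × P) →ᵇ ℂ)) →L[ℝ] (Fin n → ((ℂ × P) →ᵇ ℂ)) :=
  ∑ i, ∑ j, (ContinuousLinearMap.single ℝ (fun _ : Fin n => ((ℂ × P) →ᵇ ℂ)) i).comp
    ((ContinuousLinearMap.mul ℝ ((ℂ × P) →ᵇ ℂ) (fam (trF (N i j)) a)).comp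
      ((tw hs).comp (ContinuousLinearMap.proj j)))

theorem opA_apply {s : ℝ} (hs : 0 < s) (N : Fin n → Fin n → ℂ × P → ℂ) (a : ℂ × P)
    (u : Fin n → ((ℂ × P) →ᵇ ℂ)) (i : Fin n) :
    opA hs N a u i = ∑ j, fam (trF (N i j)) a * tw hs (u j) := by
  simp only [opA, sum_apply, ContinuousLinearMap.comp_apply,
    ContinuousLinearMap.proj_apply, ContinuousLinearMap.mul_apply', Finset.sum_apply,
    ContinuousLinearMap.single_apply]
  rw [Finset.sum_eq_single i]
  · simp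
  · intro k _ hk
    apply Finset.sum_eq_zero
    intro j _
    rw [Pi.single_apply, if_neg (Ne.symm hk)]
  · simp

theorem opA_contDiff {s : ℝ} (hs : 0 < s) {N : Fin n → Fin n → ℂ × P → ℂ}
    (hN : ∀ i j, ContDiff ℝ ∞ (N i j)) (hNs : ∀ i j, HasCompactSupport (N i j)) :
    ContDiff ℝ ∞ (opA hs N) := by
  unfold opA
  apply ContDiff.sum
  intro i _
  apply ContDiff.sum
  intro j _
  apply contDiff_const.clm_comp
  apply ContDiff.clm_comp _ contDiff_const
  exact (ContinuousLinearMap.contDiff _).comp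
    (fam_contDiff (trF_locSupp (hNs i j)) (trF_contDiff (hN i j)))

theorem opA_norm {s : ℝ} (hs : 0 < s) {N : Fin n → Fin n → ℂ × P → ℂ}
    (hN : ∀ i j, ContDiff ℝ ∞ (N i j)) (hNs : ∀ i j, HasCompactSupport (N i j)) {M : ℝ}
    (hM0 : 0 ≤ M) (hM : ∀ i j x, ‖N i j x‖ ≤ M) (a : ℂ × P) :
    ‖opA hs N a‖ ≤ n * M * sig s := by
  have hsig := sig_nonneg s
  apply ContinuousLinearMap.opNorm_le_bound _ (by positivity)
  intro u
  rw [pi_norm_le_iff_of_nonneg (by positivity)]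
  intro i
  rw [opA_apply]
  calc ‖∑ j, fam (trF (N i j)) a * tw hs (u j)‖ ≤ ∑ j, ‖fam (trF (N i j)) a * tw hs (u j)‖ :=
        norm_sum_le _ _
    _ ≤ ∑ _j : Fin n, M * (sig s * ‖u‖) := by
        apply Finset.sum_le_sum
        intro j _
        refine (norm_mul_le _ _).trans ?_
        apply mul_le_mul
        · rw [BoundedContinuousFunction.norm_le hM0]
          intro x
          rw [fam_apply (trF_locSupp (hNs i j)) (trF_contDiff (hN i j)).continuous]
          exact hM i j _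
        · exact ((tw hs).le_opNorm _).trans
            (mul_le_mul (norm_tw_le hs) (norm_le_pi_norm u j) (norm_nonneg _) hsig)
        · exact norm_nonneg _
        · exact hM0
    _ = n * M * sig s * ‖u‖ := by
        rw [Finset.sum_const, Finset.card_univ, Fintype.card_fin, nsmul_eq_mul]
        ring

/-- The fixed point equation has a smooth solution. -/
theorem exists_fixed {s : ℝ} (hs : 0 < s) {N : Fin n → Fin n → ℂ × P → ℂ}
    (hN : ∀ i j, ContDiff ℝ ∞ (N i j)) (hNs : ∀ i j, HasCompactSupport (N i j))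
    {h0 : Fin n → ℂ × P → ℂ} (hh : ∀ i, ContDiff ℝ ∞ (h0 i))
    (hhs : ∀ i, HasCompactSupport (h0 i)) {M : ℝ} (hM0 : 0 ≤ M) (hM : ∀ i j x, ‖N i j x‖ ≤ M)
    (hsig : n * M * sig s ≤ 1 / 2) {K : ℝ} (hK0 : 0 ≤ K) (hK : ∀ i x, ‖h0 i x‖ ≤ K) :
    ∃ u : Fin n → ((ℂ × P) →ᵇ ℂ), (∀ i, ContDiff ℝ ∞ (u i)) ∧
      (∀ i x, u i x = h0 i x + ∑ j, N i j x * tw hs (u j) x) ∧ ∀ i, ‖u i‖ ≤ 2 * K := by
  have hnorm : ∀ a, ‖opA hs N a‖ ≤ 1 / 2 := fun a => (opA_norm hs hN hNs hM0 hM a).trans hsig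
  have hunit : ∀ a, IsUnit (1 - opA hs N a) := fun a =>
    isUnit_one_sub_of_norm_lt_one
      (R := (Fin n → ((ℂ × P) →ᵇ ℂ)) →L[ℝ] (Fin n → ((ℂ × P) →ᵇ ℂ))) (x := opA hs N a)
      (lt_of_le_of_lt (hnorm a) (by norm_num))
  set hB : Fin n → ((ℂ × P) →ᵇ ℂ) := fun i => mkB (h0 i) with hhB
  set u : Fin n → ((ℂ × P) →ᵇ ℂ) := Ring.inverse (1 - opA hs N 0) hB with hu
  have hinv : ∀ a, (1 - opA hs N a) * Ring.inverse (1 - opA hs N a) = 1 := fun a =>
    Ring.mul_inverse_cancel _ (hunit a)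
  have hinv' : ∀ a, Ring.inverse (1 - opA hs N a) * (1 - opA hs N a) = 1 := fun a =>
    Ring.inverse_mul_cancel _ (hunit a)
  have hfix : u - opA hs N 0 u = hB := by
    have := congrArg (fun T : (Fin n → ((ℂ × P) →ᵇ ℂ)) →L[ℝ] (Fin n → ((ℂ × P) →ᵇ ℂ)) => T hB)
      (hinv 0)
    simpa [mul_apply_eq_comp] using this
  have hfam0 : ∀ i j, fam (trF (N i j)) 0 = mkB (N i j) := by
    intro i j
    ext x
    rw [fam_apply (trF_locSupp (hNs i j)) (trF_contDiff (hN i j)).continuous,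
      mkB_apply (hN i j).continuous (bound_of_compact (hN i j).continuous (hNs i j))]
    simp [trF]
  have hfix_i : ∀ i, u i = hB i + ∑ j, mkB (N i j) * tw hs (u j) := by
    intro i
    have h1 := congrFun hfix i
    rw [Pi.sub_apply, opA_apply] at h1
    simp_rw [hfam0] at h1
    rw [← h1, sub_add_cancel]
  refine ⟨u, ?_, ?_, ?_⟩
  · -- smoothness
    have hmt : ∀ a, (fun i => mt s a (u i)) =
        Ring.inverse (1 - opA hs N a) (fun i => fam (twF s (h0 i)) a) := by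
      intro a
      have h1 : (1 - opA hs N a) (fun i => mt s a (u i)) = fun i => fam (twF s (h0 i)) a := by
        funext i
        rw [sub_apply, one_apply_eq_self, Pi.sub_apply, opA_apply]
        have h2 : mt s a (u i) = fam (twF s (h0 i)) a +
            ∑ j, fam (trF (N i j)) a * tw hs (mt s a (u j)) := by
          ext x
          rw [BoundedContinuousFunction.add_apply, BoundedContinuousFunction.sum_apply,
            ← mt_mkB s a (hh i) (hhs i), mt_apply, mt_apply, hfix_i i,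
            BoundedContinuousFunction.add_apply, BoundedContinuousFunction.sum_apply, mul_add,
            Finset.mul_sum]
          congr 1
          refine Finset.sum_congr rfl fun j _ => ?_
          rw [BoundedContinuousFunction.mul_apply, BoundedContinuousFunction.mul_apply, ← mt_tw,
            mt_apply, fam_apply (trF_locSupp (hNs i j)) (trF_contDiff (hN i j)).continuous,
            mkB_apply (hN i j).continuous (bound_of_compact (hN i j).continuous (hNs i j))]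
          show ph s x.1 a.1 * (N i j (x + a) * _) = N i j (x + a) * _
          ring
        rw [h2]
        simp
      rw [← h1, ← mul_apply_eq_comp, hinv' a]
      rfl
    intro i
    have h3 : (u i : ℂ × P → ℂ) = fun a =>
        (Ring.inverse (1 - opA hs N a) (fun i => fam (twF s (h0 i)) a)) i 0 := by
      funext a
      rw [← hmt a, mt_apply_zero]
    rw [h3]
    have h4 : ContDiff ℝ ∞ fun a : ℂ × P => Ring.inverse (1 - opA hs N a) := by
      rw [contDiff_iff_contDiffAt]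
      intro a
      have h5 : ContDiffAt ℝ ∞ Ring.inverse (1 - opA hs N a) := by
        obtain ⟨v, hv⟩ := hunit a
        rw [← hv]
        exact contDiffAt_ringInverse ℝ
          (R := (Fin n → ((ℂ × P) →ᵇ ℂ)) →L[ℝ] (Fin n → ((ℂ × P) →ᵇ ℂ))) v
      exact h5.comp a (contDiffAt_const.sub (opA_contDiff hs hN hNs).contDiffAt)
    have h6 : ContDiff ℝ ∞ fun a : ℂ × P => (fun i => fam (twF s (h0 i)) a :
        Fin n → ((ℂ × P) →ᵇ ℂ)) :=
      contDiff_pi.2 fun i => fam_contDiff (twF_locSupp s (hhs i)) (twF_contDiff s (hh i))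
    have h7 := h4.clm_apply h6
    have h8 : ContDiff ℝ ∞ fun a : ℂ × P =>
        (Ring.inverse (1 - opA hs N a) (fun i => fam (twF s (h0 i)) a)) i :=
      (contDiff_pi.1 h7) i
    exact (BoundedContinuousFunction.evalCLM ℝ (0 : ℂ × P)).contDiff.comp h8
  · intro i x
    have h1 := hfix_i i
    have h2 := congrArg (fun f : (ℂ × P) →ᵇ ℂ => f x) h1
    simp only [BoundedContinuousFunction.add_apply, BoundedContinuousFunction.sum_apply,
      BoundedContinuousFunction.mul_apply] at h2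
    rw [h2, hhB]
    simp only
    rw [mkB_apply (hh i).continuous (bound_of_compact (hh i).continuous (hhs i))]
    congr 1
    refine Finset.sum_congr rfl fun j _ => ?_
    rw [mkB_apply (hN i j).continuous (bound_of_compact (hN i j).continuous (hNs i j))]
  · intro i
    have hBn : ‖hB‖ ≤ K := by
      rw [pi_norm_le_iff_of_nonneg hK0]
      intro i
      rw [BoundedContinuousFunction.norm_le hK0]
      intro x
      rw [hhB]
      simp only
      rw [mkB_apply (hh i).continuous (bound_of_compact (hh i).continuous (hhs i))]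
      exact hK i x
    have h1 : ‖u‖ ≤ ‖hB‖ + 1 / 2 * ‖u‖ := by
      have h2 : u = hB + opA hs N 0 u := by rw [← hfix]; simp
      calc ‖u‖ = ‖hB + opA hs N 0 u‖ := by rw [← h2]
        _ ≤ ‖hB‖ + ‖opA hs N 0 u‖ := norm_add_le _ _
        _ ≤ ‖hB‖ + 1 / 2 * ‖u‖ := by
            gcongr
            exact ((opA hs N 0).le_opNorm u).trans
              (mul_le_mul_of_nonneg_right (hnorm 0) (norm_nonneg _))
    have h3 := norm_le_pi_norm u i
    linarith only [h3, h1, hBn]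

end

end Vale.Agent.P136.SF
end
end

section

section

/-!
The Cauchy–Pompeiu formula for compactly supported `C¹` functions on `ℂ`.
-/

open Filter Topology MeasureTheory Set
open scoped ContDiff Real

namespace Vale.Agent.P136.SF

/-- `e^{iθ}` -/
noncomputable def uu (θ : ℝ) : ℂ := Complex.exp (θ * Complex.I)

theorem norm_uu (θ : ℝ) : ‖uu θ‖ = 1 := Complex.norm_exp_ofReal_mul_I θ

theorem continuous_uu : Continuous uu := by unfold uu; fun_prop

theorem hasDerivAt_uu (θ : ℝ) : HasDerivAt uu (Complex.I * uu θ) θ := by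
  unfold uu
  have h1 : HasDerivAt (fun θ : ℝ => (θ : ℂ) * Complex.I) (1 * Complex.I) θ :=
    (Complex.ofRealCLM.hasDerivAt (x := θ)).mul_const Complex.I
  have h2 := h1.cexp
  simpa [mul_comm] using h2

theorem polar_eq (p : ℝ × ℝ) : Complex.polarCoord.symm p = (p.1 : ℂ) * uu p.2 := by
  rw [Complex.polarCoord_symm_apply, uu, Complex.exp_mul_I]
  push_cast
  rfl

section

variable {ψ : ℂ → ℂ}

/-- twice the Wirtinger derivative -/
noncomputable def db (ψ : ℂ → ℂ) (w : ℂ) : ℂ := fderiv ℝ ψ w 1 + Complex.I * fderiv ℝ ψ w Complex.I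

/-- the polar form of the d-bar operator -/
theorem db_polar (D : ℂ →L[ℝ] ℂ) (θ : ℝ) :
    (uu θ)⁻¹ * (D 1 + Complex.I * D Complex.I) =
      D (uu θ) + Complex.I * D (Complex.I * uu θ) := by
  have h1 : uu θ = (Real.cos θ : ℂ) + (Real.sin θ : ℂ) * Complex.I := by
    rw [uu, Complex.exp_mul_I]; simp
  have h2 : (uu θ)⁻¹ = (Real.cos θ : ℂ) - (Real.sin θ : ℂ) * Complex.I := by
    rw [uu, ← Complex.exp_neg, ← neg_mul, Complex.exp_mul_I]
    simp [sub_eq_add_neg]
  have h3 : D (uu θ) = (Real.cos θ : ℂ) * D 1 + (Real.sin θ : ℂ) * D Complex.I := by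
    have : uu θ = Real.cos θ • (1 : ℂ) + Real.sin θ • Complex.I := by
      rw [h1]; simp
    rw [this, map_add, map_smul, map_smul]
    simp
  have h4 : D (Complex.I * uu θ) = (Real.cos θ : ℂ) * D Complex.I - (Real.sin θ : ℂ) * D 1 := by
    have : Complex.I * uu θ = Real.cos θ • Complex.I + (-Real.sin θ) • (1 : ℂ) := by
      rw [h1]
      simp only [Complex.real_smul]
      push_cast
      ring_nf
      rw [Complex.I_sq]
      ring
    rw [this, map_add, map_smul, map_smul]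
    simp only [Complex.real_smul]
    push_cast
    ring
  rw [h2, h3, h4]
  ring_nf
  rw [Complex.I_sq]
  ring

theorem radial_integral (h : ContDiff ℝ 1 ψ) (hs : HasCompactSupport ψ) (θ : ℝ) :
    ∫ r in Ioi (0 : ℝ), fderiv ℝ ψ ((r : ℂ) * uu θ) (uu θ) = - ψ 0 := by
  set g : ℝ → ℂ := fun r => ψ ((r : ℂ) * uu θ) with hg
  have hder : ∀ r : ℝ, HasDerivAt g (fderiv ℝ ψ ((r : ℂ) * uu θ) (uu θ)) r := by
    intro r
    have h1 : HasDerivAt (fun r : ℝ => (r : ℂ) * uu θ) (uu θ) r := by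
      simpa using (Complex.ofRealCLM.hasDerivAt (x := r)).mul_const (uu θ)
    exact ((h.differentiable (by simp) _).hasFDerivAt).comp_hasDerivAt r h1
  have hgs : HasCompactSupport g := by
    apply hs.comp_isClosedEmbedding
    apply Isometry.isClosedEmbedding
    intro x y
    rw [edist_dist, edist_dist, dist_eq_norm, dist_eq_norm, ← sub_mul, norm_mul, norm_uu, mul_one,
      ← Complex.ofReal_sub, Complex.norm_real]
  have hgc : ContDiff ℝ 1 g := by
    apply h.comp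
    exact (Complex.ofRealCLM.contDiff).mul contDiff_const
  have h2 := hgs.integral_Ioi_deriv_eq hgc 0
  have h3 : (fun r : ℝ => fderiv ℝ ψ ((r : ℂ) * uu θ) (uu θ)) = deriv g := by
    funext r
    exact (hder r).deriv.symm
  rw [h3, h2, hg]
  simp

theorem angular_integral (h : ContDiff ℝ 1 ψ) {r : ℝ} (hr : 0 < r) :
    ∫ θ in Ioo (-π) π, fderiv ℝ ψ ((r : ℂ) * uu θ) (Complex.I * uu θ) = 0 := by
  rw [← integral_Ioc_eq_integral_Ioo, ← intervalIntegral.integral_of_le (by linarith [Real.pi_pos])]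
  have hder : ∀ θ : ℝ, HasDerivAt (fun θ : ℝ => ψ ((r : ℂ) * uu θ))
      (fderiv ℝ ψ ((r : ℂ) * uu θ) ((r : ℂ) * (Complex.I * uu θ))) θ := by
    intro θ
    have h1 : HasDerivAt (fun θ : ℝ => (r : ℂ) * uu θ) ((r : ℂ) * (Complex.I * uu θ)) θ :=
      (hasDerivAt_uu θ).const_mul _
    exact ((h.differentiable (by simp) _).hasFDerivAt).comp_hasDerivAt θ h1
  have hcont : Continuous fun θ : ℝ =>
      fderiv ℝ ψ ((r : ℂ) * uu θ) ((r : ℂ) * (Complex.I * uu θ)) := by
    have := h.continuous_fderiv (by simp)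
    have := continuous_uu
    continuity
  have h2 := intervalIntegral.integral_eq_sub_of_hasDerivAt (a := -π) (b := π)
    (fun θ _ => hder θ) (hcont.intervalIntegrable _ _)
  have h3 : uu π = uu (-π) := by
    unfold uu
    rw [Complex.exp_pi_mul_I]
    push_cast
    rw [neg_mul, Complex.exp_neg, Complex.exp_pi_mul_I]
    norm_num
  rw [h3, sub_self] at h2
  have h4 : ∀ θ : ℝ, fderiv ℝ ψ ((r : ℂ) * uu θ) ((r : ℂ) * (Complex.I * uu θ)) =
      (r : ℂ) * fderiv ℝ ψ ((r : ℂ) * uu θ) (Complex.I * uu θ) := by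
    intro θ
    have : (r : ℂ) * (Complex.I * uu θ) = r • (Complex.I * uu θ) := by simp
    rw [this, map_smul]
    simp
  simp_rw [h4] at h2
  rw [intervalIntegral.integral_const_mul] at h2
  rcases mul_eq_zero.1 h2 with h5 | h5
  · exact absurd h5 (by exact_mod_cast hr.ne')
  · exact h5

theorem integrableOn_polar {v : ℝ → ℂ} (hv : Continuous v) (h : ContDiff ℝ 1 ψ)
    (hs : HasCompactSupport ψ) :
    IntegrableOn (fun p : ℝ × ℝ => fderiv ℝ ψ ((p.1 : ℂ) * uu p.2) (v p.2))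
      (Ioi (0 : ℝ) ×ˢ Ioo (-π) π) := by
  have hD := h.continuous_fderiv (by simp)
  have hDs : HasCompactSupport (fderiv ℝ ψ) := hs.fderiv ℝ
  obtain ⟨R, hR⟩ := hDs.isCompact.isBounded.subset_closedBall 0
  have hcont : Continuous fun p : ℝ × ℝ => fderiv ℝ ψ ((p.1 : ℂ) * uu p.2) (v p.2) := by
    have := continuous_uu
    continuity
  have h1 : IntegrableOn (fun p : ℝ × ℝ => fderiv ℝ ψ ((p.1 : ℂ) * uu p.2) (v p.2))
      (Icc (0 : ℝ) R ×ˢ Icc (-π) π) :=
    hcont.continuousOn.integrableOn_compact (isCompact_Icc.prod isCompact_Icc)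
  refine h1.of_forall_sdiff_eq_zero (measurableSet_Ioi.prod measurableSet_Ioo) ?_
  rintro ⟨r, θ⟩ ⟨h2, h3⟩
  have h4 : R < r := by
    by_contra hcon
    push Not at hcon
    exact h3 ⟨⟨(mem_Ioi.1 h2.1).le, hcon⟩, ⟨h2.2.1.le, h2.2.2.le⟩⟩
  have h5 : fderiv ℝ ψ ((r : ℂ) * uu θ) = 0 := by
    by_contra hcon
    have h6 : (r : ℂ) * uu θ ∈ tsupport (fderiv ℝ ψ) := subset_tsupport _ hcon
    have h7 := hR h6
    rw [mem_closedBall_zero_iff, norm_mul, norm_uu, mul_one, Complex.norm_real] at h7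
    have := le_abs_self r
    rw [Real.norm_eq_abs] at h7
    linarith
  simp only
  rw [h5]
  rfl

/-- Cauchy–Pompeiu -/
theorem pompeiu (h : ContDiff ℝ 1 ψ) (hs : HasCompactSupport ψ) :
    ∫ w : ℂ, w⁻¹ * db ψ w = - (2 * π) * ψ 0 := by
  rw [← Complex.integral_comp_polarCoord_symm, polarCoord_target]
  have h1 : ∀ p ∈ Ioi (0 : ℝ) ×ˢ Ioo (-π) π,
      p.1 • ((Complex.polarCoord.symm p)⁻¹ * db ψ (Complex.polarCoord.symm p)) =
      fderiv ℝ ψ ((p.1 : ℂ) * uu p.2) (uu p.2) +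
        Complex.I * fderiv ℝ ψ ((p.1 : ℂ) * uu p.2) (Complex.I * uu p.2) := by
    rintro ⟨r, θ⟩ ⟨hr, -⟩
    have hr0 : (r : ℂ) ≠ 0 := by exact_mod_cast (mem_Ioi.1 hr).ne'
    rw [polar_eq, ← db_polar, db, Complex.real_smul]
    simp only
    rw [mul_inv]
    field_simp
  rw [setIntegral_congr_fun (measurableSet_Ioi.prod measurableSet_Ioo) h1]
  have hA := integrableOn_polar (v := uu) continuous_uu h hs
  have hB := integrableOn_polar (v := fun θ => Complex.I * uu θ)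
    (continuous_const.mul continuous_uu) h hs
  rw [integral_add hA (hB.const_mul Complex.I), integral_const_mul]
  have e1 : ∫ p in Ioi (0 : ℝ) ×ˢ Ioo (-π) π, fderiv ℝ ψ ((p.1 : ℂ) * uu p.2) (uu p.2) =
      - (2 * π) * ψ 0 := by
    rw [IntegrableOn, Measure.volume_eq_prod, ← Measure.prod_restrict] at hA
    rw [Measure.volume_eq_prod, ← Measure.prod_restrict, integral_prod_symm _ hA]
    simp_rw [radial_integral h hs]
    rw [setIntegral_const]
    simp only [Real.volume_real_Ioo, sub_neg_eq_add]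
    rw [max_eq_left (by linarith [Real.pi_pos]), Complex.real_smul]
    push_cast
    ring
  have e2 : ∫ p in Ioi (0 : ℝ) ×ˢ Ioo (-π) π,
      fderiv ℝ ψ ((p.1 : ℂ) * uu p.2) (Complex.I * uu p.2) = 0 := by
    rw [Measure.volume_eq_prod, setIntegral_prod _ hB]
    rw [setIntegral_congr_fun measurableSet_Ioi (g := fun _ => 0)]
    · simp
    · intro r hr
      exact angular_integral h hr
  rw [e1, e2, mul_zero, add_zero]

end

end Vale.Agent.P136.SF
end
end

section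

section

/-!
The solution operator of the parametric d-bar equation.
-/

open Filter Topology MeasureTheory Set
open scoped ContDiff Real BoundedContinuousFunction ComplexConjugate

set_option linter.unusedSectionVars false

namespace Vale.Agent.P136.SF

variable {P : Type} [NormedAddCommGroup P] [NormedSpace ℝ P]

/-- exponential factor `e^{s (z̄ w - |w|²/2)}` -/
noncomputable def ef (s : ℝ) (z w : ℂ) : ℂ :=
  Complex.exp ((s : ℂ) * (conj z * w - w * conj w / 2))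

theorem contDiff_ef (s : ℝ) : ContDiff ℝ ∞ fun q : ℂ × ℂ => ef s q.1 q.2 := by
  unfold ef
  apply ContDiff.cexp
  apply contDiff_const.mul
  have h1 : ContDiff ℝ ∞ fun q : ℂ × ℂ => conj q.1 * q.2 :=
    (Complex.conjCLE.contDiff.comp contDiff_fst).mul contDiff_snd
  have h2 : ContDiff ℝ ∞ fun q : ℂ × ℂ => q.2 * conj q.2 / 2 :=
    (contDiff_snd.mul (Complex.conjCLE.contDiff.comp contDiff_snd)).div_const 2
  exact h1.sub h2

/-- the family of integrands -/
noncomputable def Psi (s : ℝ) (f : ℂ × P → ℂ) : (ℂ × P) × ℂ → ℂ :=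
  fun q => ef s q.1.1 q.2 * f (q.1 - (q.2, 0))

theorem Psi_contDiff (s : ℝ) {f : ℂ × P → ℂ} (h : ContDiff ℝ ∞ f) : ContDiff ℝ ∞ (Psi s f) := by
  have h1 : ContDiff ℝ ∞ (fun q : (ℂ × P) × ℂ => (q.1.1, q.2)) :=
    (contDiff_fst.comp contDiff_fst).prodMk contDiff_snd
  have h2 := (contDiff_ef s).comp h1
  have h3 : ContDiff ℝ ∞ (fun q : (ℂ × P) × ℂ => q.1 - (q.2, (0 : P))) :=
    contDiff_fst.sub (contDiff_snd.prodMk contDiff_const)
  exact h2.mul (h.comp h3)

theorem Psi_locSupp (s : ℝ) {f : ℂ × P → ℂ} (hs : HasCompactSupport f) : LocSupp (Psi s f) := by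
  intro a₀
  obtain ⟨R, hR⟩ := hs.isCompact.isBounded.subset_closedBall 0
  refine ⟨Metric.closedBall 0 (R + ‖a₀‖ + 1), isCompact_closedBall _ _, ?_⟩
  filter_upwards [Metric.ball_mem_nhds a₀ one_pos] with a ha w hw
  show ef s a.1 w * f (a - (w, 0)) = 0
  by_contra hcon
  have h1 : a - (w, 0) ∈ tsupport f := subset_tsupport _ (right_ne_zero_of_mul hcon)
  have h2 := hR h1
  rw [mem_closedBall_zero_iff] at h2 hw
  apply hw
  have h3 : ‖w‖ ≤ ‖a - (w, 0)‖ + ‖a‖ := by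
    have h4 := norm_sub_le a (a - (w, 0))
    rw [sub_sub_cancel] at h4
    have h5 : ‖w‖ ≤ ‖((w, 0) : ℂ × P)‖ := norm_fst_le (w, (0 : P))
    linarith
  have h4 : ‖a‖ ≤ ‖a₀‖ + 1 := by
    rw [Metric.mem_ball, dist_eq_norm] at ha
    have := norm_add_le (a - a₀) a₀
    rw [sub_add_cancel] at this
    linarith
  linarith

theorem integrable_ker_mul {s : ℝ} (hs : 0 < s) (g : ℂ →ᵇ ℂ) :
    Integrable fun w : ℂ => ker s w * g w :=
  (integrable_ker hs).mul_bdd (c := ‖g‖) g.continuous.aestronglyMeasurable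
    (Eventually.of_forall fun _ => g.norm_coe_le_norm _)

/-- integration against the kernel -/
noncomputable def Lk {s : ℝ} (hs : 0 < s) : (ℂ →ᵇ ℂ) →L[ℝ] ℂ :=
  LinearMap.mkContinuous
    { toFun := fun g => ((2 * π)⁻¹ : ℝ) • ∫ w : ℂ, ker s w * g w
      map_add' := by
        intro f g
        rw [← smul_add, ← integral_add (integrable_ker_mul hs f) (integrable_ker_mul hs g)]
        congr 2
        funext w
        rw [BoundedContinuousFunction.add_apply]
        ring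
      map_smul' := by
        intro c f
        rw [RingHom.id_apply, smul_comm c]
        congr 1
        rw [← integral_smul]
        congr 1
        funext w
        rw [BoundedContinuousFunction.smul_apply, mul_smul_comm] }
    (sig s) (by
      intro g
      show ‖((2 * π)⁻¹ : ℝ) • ∫ w : ℂ, ker s w * g w‖ ≤ _
      rw [norm_smul, Real.norm_of_nonneg (by positivity), sig, mul_assoc]
      apply mul_le_mul_of_nonneg_left _ (by positivity)
      rw [← integral_mul_const]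
      apply norm_integral_le_of_norm_le ((integrable_ker hs).norm.mul_const _)
      refine Eventually.of_forall fun w => ?_
      rw [norm_mul]
      exact mul_le_mul_of_nonneg_left (g.norm_coe_le_norm _) (norm_nonneg _))

theorem Lk_apply {s : ℝ} (hs : 0 < s) (g : ℂ →ᵇ ℂ) :
    Lk hs g = ((2 * π)⁻¹ : ℝ) • ∫ w : ℂ, ker s w * g w := rfl

/-- the solution operator -/
noncomputable def Sop (s : ℝ) (f : ℂ × P → ℂ) (a : ℂ × P) : ℂ :=
  ((2 * π)⁻¹ : ℝ) • ∫ w : ℂ, ker s w * (ef s a.1 w * f (a - (w, 0)))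

theorem Sop_eq {s : ℝ} (hs : 0 < s) {f : ℂ × P → ℂ} (h : ContDiff ℝ ∞ f)
    (hf : HasCompactSupport f) : Sop s f = fun a => Lk hs (fam (Psi s f) a) := by
  funext a
  rw [Lk_apply, Sop]
  congr 2
  funext w
  rw [fam_apply (Psi_locSupp s hf) (Psi_contDiff s h).continuous]
  rfl

theorem Sop_contDiff {s : ℝ} (hs : 0 < s) {f : ℂ × P → ℂ} (h : ContDiff ℝ ∞ f)
    (hf : HasCompactSupport f) : ContDiff ℝ ∞ (Sop s f) := by
  rw [Sop_eq hs h hf]
  exact (Lk hs).contDiff.comp (fam_contDiff (Psi_locSupp s hf) (Psi_contDiff s h))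

theorem Sop_fderiv {s : ℝ} (hs : 0 < s) {f : ℂ × P → ℂ} (h : ContDiff ℝ ∞ f)
    (hf : HasCompactSupport f) (a v : ℂ × P) :
    fderiv ℝ (Sop s f) a v =
      ((2 * π)⁻¹ : ℝ) • ∫ w : ℂ, ker s w * D1 (Psi s f) (a, w) v := by
  rw [Sop_eq hs h hf]
  have h1 := (Lk hs).hasFDerivAt.comp a (fam_hasFDerivAt (Psi_locSupp s hf) (Psi_contDiff s h) a)
  have h2 : fderiv ℝ (fun a => Lk hs (fam (Psi s f) a)) a =
      (Lk hs).comp (evL (fam (D1 (Psi s f)) a)) := h1.fderiv
  rw [h2, ContinuousLinearMap.comp_apply, Lk_apply]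
  congr 2
  funext w
  rw [evL_apply, fam_apply (D1_locSupp (Psi_locSupp s hf)) (D1_contDiff (Psi_contDiff s h)).continuous]

theorem integrable_ker_D1 {s : ℝ} (hs : 0 < s) {f : ℂ × P → ℂ} (h : ContDiff ℝ ∞ f)
    (hf : HasCompactSupport f) (a v : ℂ × P) :
    Integrable fun w : ℂ => ker s w * D1 (Psi s f) (a, w) v := by
  have h1 := integrable_ker_mul hs (evL (fam (D1 (Psi s f)) a) v)
  refine h1.congr (Eventually.of_forall fun w => ?_)
  simp only
  rw [evL_apply, fam_apply (D1_locSupp (Psi_locSupp s hf)) (D1_contDiff (Psi_contDiff s h)).continuous]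

/-- the derivative of the slice -/
theorem D1_Psi (s : ℝ) {f : ℂ × P → ℂ} (h : ContDiff ℝ ∞ f) (a : ℂ × P) (w : ℂ) (v : ℂ × P) :
    D1 (Psi s f) (a, w) v = ef s a.1 w * (s * (conj v.1 * w)) * f (a - (w, 0)) +
      ef s a.1 w * fderiv ℝ f (a - (w, 0)) v := by
  have h1 := hasFDerivAt_slice (Psi_contDiff s h) a w
  have h2 : HasDerivAt (fun t : ℝ => Psi s f (a + t • v, w)) (D1 (Psi s f) (a, w) v) 0 := by
    have h3 : HasDerivAt (fun t : ℝ => a + t • v) v 0 := by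
      simpa using ((hasDerivAt_id (0 : ℝ)).smul_const v).const_add a
    have h4 : HasFDerivAt (fun a => Psi s f (a, w)) (D1 (Psi s f) (a, w)) (a + (0 : ℝ) • v) := by
      simpa using h1
    exact h4.comp_hasDerivAt (0 : ℝ) h3
  have h5 : HasDerivAt (fun t : ℝ => ef s (a + t • v).1 w)
      (ef s a.1 w * (s * (conj v.1 * w))) 0 := by
    have e1 : HasDerivAt (fun t : ℝ => conj a.1 + (t : ℂ) * conj v.1) (conj v.1) 0 := by
      simpa using ((Complex.ofRealCLM.hasDerivAt (x := (0 : ℝ))).mul_const (conj v.1)).const_add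
        (conj a.1)
    have e2 : HasDerivAt (fun t : ℝ => (s : ℂ) * ((conj a.1 + (t : ℂ) * conj v.1) * w -
        w * conj w / 2)) (s * (conj v.1 * w)) 0 :=
      ((e1.mul_const w).sub_const _).const_mul _
    have e3 := e2.cexp
    have e4 : (fun t : ℝ => ef s (a + t • v).1 w) = fun t : ℝ => Complex.exp
        ((s : ℂ) * ((conj a.1 + (t : ℂ) * conj v.1) * w - w * conj w / 2)) := by
      funext t
      simp [ef]
    rw [e4]
    simpa [ef] using e3
  have h6 : HasDerivAt (fun t : ℝ => f (a + t • v - (w, 0))) (fderiv ℝ f (a - (w, 0)) v) 0 := by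
    have h3 : HasDerivAt (fun t : ℝ => a + t • v - (w, 0)) v 0 := by
      simpa using (((hasDerivAt_id (0 : ℝ)).smul_const v).const_add a).sub_const (w, (0 : P))
    have h4 : HasFDerivAt f (fderiv ℝ f (a - (w, 0))) (a + (0 : ℝ) • v - (w, 0)) := by
      simpa using (h.differentiable (by simp) (a - (w, 0))).hasFDerivAt
    exact h4.comp_hasDerivAt (0 : ℝ) h3
  have h7 := h5.mul h6
  have h8 := h2.unique h7
  rw [h8]
  simp

/-- the function to which the Cauchy–Pompeiu formula is applied -/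
noncomputable def psi (s : ℝ) (f : ℂ × P → ℂ) (a : ℂ × P) (w : ℂ) : ℂ :=
  Complex.exp ((s : ℂ) * (conj a.1 * w - w * conj w)) * f (a - (w, 0))

theorem psi_contDiff (s : ℝ) {f : ℂ × P → ℂ} (h : ContDiff ℝ ∞ f) (a : ℂ × P) :
    ContDiff ℝ ∞ (psi s f a) := by
  unfold psi
  apply ContDiff.mul
  · apply ContDiff.cexp
    apply contDiff_const.mul
    have h1 : ContDiff ℝ ∞ fun w : ℂ => conj a.1 * w := contDiff_const.mul contDiff_id
    have h2 : ContDiff ℝ ∞ fun w : ℂ => w * conj w := contDiff_id.mul Complex.conjCLE.contDiff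
    exact h1.sub h2
  · have h3 : ContDiff ℝ ∞ (fun w : ℂ => a - (w, (0 : P))) :=
      contDiff_const.sub (contDiff_id.prodMk contDiff_const)
    exact h.comp h3

theorem psi_hasCompactSupport (s : ℝ) {f : ℂ × P → ℂ} (hf : HasCompactSupport f) (a : ℂ × P) :
    HasCompactSupport (psi s f a) := by
  obtain ⟨K, hK, h⟩ := Psi_locSupp s hf a
  have h0 := h.self_of_nhds
  apply HasCompactSupport.intro hK
  intro w hw
  have h1 : ef s a.1 w * f (a - (w, 0)) = 0 := h0 w hw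
  have h2 : f (a - (w, 0)) = 0 :=
    (mul_eq_zero.1 h1).resolve_left (Complex.exp_ne_zero _)
  rw [psi, h2, mul_zero]

/-- the derivative of `psi` -/
theorem fderiv_psi (s : ℝ) {f : ℂ × P → ℂ} (h : ContDiff ℝ ∞ f) (a : ℂ × P) (w v : ℂ) :
    fderiv ℝ (psi s f a) w v =
      Complex.exp ((s : ℂ) * (conj a.1 * w - w * conj w)) *
        (s * (conj a.1 * v - (v * conj w + w * conj v))) * f (a - (w, 0)) -
      Complex.exp ((s : ℂ) * (conj a.1 * w - w * conj w)) * fderiv ℝ f (a - (w, 0)) (v, 0) := by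
  have h1 : HasFDerivAt (psi s f a) (fderiv ℝ (psi s f a) w) w :=
    ((psi_contDiff s h a).differentiable (by simp) w).hasFDerivAt
  have h2 : HasDerivAt (fun t : ℝ => psi s f a (w + t • v)) (fderiv ℝ (psi s f a) w v) 0 := by
    have h3 : HasDerivAt (fun t : ℝ => w + t • v) v 0 := by
      simpa using ((hasDerivAt_id (0 : ℝ)).smul_const v).const_add w
    have h4 : HasFDerivAt (psi s f a) (fderiv ℝ (psi s f a) w) (w + (0 : ℝ) • v) := by
      simpa using h1
    exact h4.comp_hasDerivAt (0 : ℝ) h3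
  have h5 : HasDerivAt (fun t : ℝ => Complex.exp ((s : ℂ) * (conj a.1 * (w + t • v) -
      (w + t • v) * conj (w + t • v))))
      (Complex.exp ((s : ℂ) * (conj a.1 * w - w * conj w)) *
        (s * (conj a.1 * v - (v * conj w + w * conj v)))) 0 := by
    have e1 : HasDerivAt (fun t : ℝ => conj w + (t : ℂ) * conj v) (conj v) 0 := by
      simpa using ((Complex.ofRealCLM.hasDerivAt (x := (0 : ℝ))).mul_const (conj v)).const_add
        (conj w)
    have e0 : HasDerivAt (fun t : ℝ => w + (t : ℂ) * v) v 0 := by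
      simpa using ((Complex.ofRealCLM.hasDerivAt (x := (0 : ℝ))).mul_const v).const_add w
    have e2 := ((((e0.const_mul (conj a.1)).sub (e0.mul e1))).const_mul (s : ℂ)).cexp
    have e4 : (fun t : ℝ => Complex.exp ((s : ℂ) * (conj a.1 * (w + t • v) -
      (w + t • v) * conj (w + t • v)))) = fun t : ℝ => Complex.exp
        ((s : ℂ) * (conj a.1 * (w + (t : ℂ) * v) - (w + (t : ℂ) * v) * (conj w + (t : ℂ) * conj v))) := by
      funext t
      simp
    rw [e4]
    simpa using e2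
  have h6 : HasDerivAt (fun t : ℝ => f (a - (w + t • v, 0))) (-fderiv ℝ f (a - (w, 0)) (v, 0)) 0 := by
    have h3 : HasDerivAt (fun t : ℝ => a - (w + t • v, (0 : P))) (-(v, 0)) 0 := by
      have e0 : HasDerivAt (fun t : ℝ => a - (w, (0 : P)) + t • (-(v, (0 : P)))) (-(v, 0)) 0 := by
        simpa using ((hasDerivAt_id (0 : ℝ)).smul_const (-(v, (0 : P)))).const_add (a - (w, (0 : P)))
      convert e0 using 2 with t
      ext
      · simp; ring
      · simp
    have h4 : HasFDerivAt f (fderiv ℝ f (a - (w, 0))) (a - (w + (0 : ℝ) • v, 0)) := by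
      simpa using (h.differentiable (by simp) (a - (w, 0))).hasFDerivAt
    have h7 := h4.comp_hasDerivAt (0 : ℝ) h3
    rwa [map_neg] at h7
  have h7 := h5.mul h6
  have h8 := h2.unique h7
  rw [h8]
  simp
  ring

theorem ker_ef (s : ℝ) (a w : ℂ) : ker s w * ef s a w =
    w⁻¹ * Complex.exp ((s : ℂ) * (conj a * w - w * conj w)) := by
  have h1 : (Real.exp (-(s / 2) * ‖w‖ ^ 2) : ℂ) = Complex.exp (-(s / 2) * (w * conj w)) := by
    rw [Complex.mul_conj, Complex.normSq_eq_norm_sq]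
    push_cast
    rfl
  rw [ker, ef, h1, mul_right_comm, ← Complex.exp_add, mul_comm]
  congr 2
  ring

/-- twice the Wirtinger derivative in the first variable -/
noncomputable def dbr (f : ℂ × P → ℂ) (q : ℂ × P) : ℂ :=
  fderiv ℝ f q (1, 0) + Complex.I * fderiv ℝ f q (Complex.I, 0)

/-- the solution operator solves the d-bar equation -/
theorem dbr_Sop {s : ℝ} (hs : 0 < s) {f : ℂ × P → ℂ} (h : ContDiff ℝ ∞ f)
    (hf : HasCompactSupport f) (a : ℂ × P) : dbr (Sop s f) a = f a := by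
  have h1 : ∀ w : ℂ, ker s w * D1 (Psi s f) (a, w) (1, 0) +
      Complex.I * (ker s w * D1 (Psi s f) (a, w) (Complex.I, 0)) = -(w⁻¹ * db (psi s f a) w) := by
    intro w
    rw [db, fderiv_psi s h, fderiv_psi s h, D1_Psi s h, D1_Psi s h]
    have e1 := ker_ef s a.1 w
    simp only [map_one, Complex.conj_I]
    linear_combination (2 * (s : ℂ) * w * f (a - (w, 0)) + fderiv ℝ f (a - (w, 0)) (1, 0) +
      Complex.I * fderiv ℝ f (a - (w, 0)) (Complex.I, 0)) * e1 +
      ((s : ℂ) * f (a - (w, 0)) * (-(ker s w * ef s a.1 w * w) +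
        w⁻¹ * Complex.exp ((s : ℂ) * (conj a.1 * w - w * conj w)) * (w + conj a.1 - conj w))) *
        Complex.I_sq
  rw [dbr, Sop_fderiv hs h hf, Sop_fderiv hs h hf, mul_smul_comm, ← smul_add,
    ← integral_const_mul, ← integral_add (integrable_ker_D1 hs h hf a _)
    ((integrable_ker_D1 hs h hf a _).const_mul _)]
  simp_rw [h1]
  rw [integral_neg, pompeiu ((psi_contDiff s h a).of_le (by simp)) (psi_hasCompactSupport s hf a)]
  have h2 : psi s f a 0 = f a := by simp [psi, Prod.mk_zero_zero]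
  rw [h2, Complex.real_smul]
  push_cast
  have := Complex.ofReal_ne_zero.2 Real.pi_ne_zero
  field_simp

end Vale.Agent.P136.SF
end
end

section

section

/-!
S1: the d-bar equation with parameters.
-/

open Filter Topology MeasureTheory Set
open scoped ContDiff Real BoundedContinuousFunction ComplexConjugate

set_option linter.unusedSectionVars false

namespace Vale.Agent.P136.SF

variable {P : Type} [NormedAddCommGroup P] [NormedSpace ℝ P] [FiniteDimensional ℝ P]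

/-- the gaussian weight -/
noncomputable def gw (s : ℝ) (x : ℂ × P) : ℂ := Complex.exp ((s : ℂ) * (x.1 * conj x.1 / 2))

theorem gw_contDiff (s : ℝ) : ContDiff ℝ ∞ (gw s : ℂ × P → ℂ) := by
  unfold gw
  apply ContDiff.cexp
  apply contDiff_const.mul
  apply ContDiff.div_const
  exact contDiff_fst.mul (Complex.conjCLE.contDiff.comp contDiff_fst)

theorem gw_ne (s : ℝ) (x : ℂ × P) : gw s x ≠ 0 := Complex.exp_ne_zero _

theorem norm_gw (s : ℝ) (x : ℂ × P) : ‖gw s x‖ = Real.exp (s * (‖x.1‖ ^ 2 / 2)) := by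
  rw [gw, Complex.mul_conj, Complex.norm_exp, Complex.normSq_eq_norm_sq]
  congr 1
  norm_cast

theorem one_le_norm_gw {s : ℝ} (hs : 0 < s) (x : ℂ × P) : 1 ≤ ‖gw s x‖ := by
  rw [norm_gw]
  exact Real.one_le_exp (by positivity)

theorem weight_id (s : ℝ) (x : ℂ × P) (w : ℂ) :
    ef s x.1 w * gw s (x - (w, 0)) = gw s x * ph s x.1 w := by
  unfold ef gw ph
  rw [← Complex.exp_add, ← Complex.exp_add]
  congr 1
  have h1 : ((s * (conj x.1 * w).im : ℝ) : ℂ) * Complex.I =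
      (s : ℂ) * ((conj x.1 * w - x.1 * conj w) / 2) := by
    have h2 : conj x.1 * w - x.1 * conj w = ((2 * (conj x.1 * w).im : ℝ) : ℂ) * Complex.I := by
      apply Complex.ext
      · simp [mul_comm]
      · simp
        ring
    rw [h2]
    push_cast
    ring
  rw [h1]
  simp
  ring

theorem Sop_gw {s : ℝ} (hs : 0 < s) (u : (ℂ × P) →ᵇ ℂ) (x : ℂ × P) :
    Sop s (fun y => gw s y * u y) x = gw s x * tw hs u x := by
  rw [Sop, tw_apply, mul_smul_comm, ← integral_const_mul]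
  congr 2
  funext w
  have h1 := weight_id s x w
  have h2 : x - (w, 0) = (x.1 - w, x.2) := by
    ext
    · simp
    · simp
  rw [← h2]
  linear_combination (ker s w * u (x - (w, 0))) * h1

/-- the fixed point equation for the solution operator -/
theorem exists_fixedS {n : ℕ} {s : ℝ} (hs : 0 < s) {N : Fin n → Fin n → ℂ × P → ℂ}
    (hN : ∀ i j, ContDiff ℝ ∞ (N i j)) (hNs : ∀ i j, HasCompactSupport (N i j))
    {h0 : Fin n → ℂ × P → ℂ} (hh : ∀ i, ContDiff ℝ ∞ (h0 i))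
    (hhs : ∀ i, HasCompactSupport (h0 i)) {M : ℝ} (hM0 : 0 ≤ M) (hM : ∀ i j x, ‖N i j x‖ ≤ M)
    (hsig : n * M * sig s ≤ 1 / 2) {K : ℝ} (hK0 : 0 ≤ K) (hK : ∀ i x, ‖h0 i x‖ ≤ K) :
    ∃ H : Fin n → ℂ × P → ℂ, (∀ i, ContDiff ℝ ∞ (H i)) ∧ (∀ i, HasCompactSupport (H i)) ∧
      (∀ i x, H i x = h0 i x + ∑ j, N i j x * Sop s (H j) x) ∧
      ∀ i p, ‖Sop s (H i) (0, p)‖ ≤ sig s * (2 * K) := by
  obtain ⟨u, hu, hfix, hnorm⟩ := exists_fixed hs hN hNs (h0 := fun i x => (gw s x)⁻¹ * h0 i x)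
    (fun i => ((gw_contDiff s).inv fun x => gw_ne s x).mul (hh i)) (fun i => (hhs i).mul_left)
    hM0 hM hsig hK0 (fun i x => by
      rw [norm_mul, norm_inv]
      have h1 := one_le_norm_gw hs x
      have h2 : ‖gw s x‖⁻¹ ≤ 1 := inv_le_one_of_one_le₀ h1
      calc ‖gw s x‖⁻¹ * ‖h0 i x‖ ≤ 1 * ‖h0 i x‖ :=
            mul_le_mul_of_nonneg_right h2 (norm_nonneg _)
        _ ≤ K := by rw [one_mul]; exact hK i x)
  refine ⟨fun i x => gw s x * u i x, fun i => (gw_contDiff s).mul (hu i), fun i => ?_,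
    fun i x => ?_, fun i p => ?_⟩
  · have hT : IsCompact (tsupport (h0 i) ∪ ⋃ j, tsupport (N i j)) :=
      (hhs i).isCompact.union (isCompact_iUnion fun j => (hNs i j).isCompact)
    apply HasCompactSupport.intro hT
    intro x hx
    have h1 : h0 i x = 0 := by
      by_contra hcon
      exact hx (Or.inl (subset_tsupport _ hcon))
    have h2 : ∀ j, N i j x = 0 := by
      intro j
      by_contra hcon
      exact hx (Or.inr (mem_iUnion.2 ⟨j, subset_tsupport _ hcon⟩))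
    simp only
    rw [hfix, h1]
    simp [h2]
  · simp only
    simp_rw [Sop_gw hs]
    rw [hfix, mul_add, ← mul_assoc, mul_inv_cancel₀ (gw_ne s x), one_mul, Finset.mul_sum]
    congr 1
    refine Finset.sum_congr rfl fun j _ => ?_
    ring
  · simp only
    rw [Sop_gw hs]
    have h1 : gw s ((0, p) : ℂ × P) = 1 := by simp [gw]
    rw [h1, one_mul]
    calc ‖tw hs (u i) (0, p)‖ ≤ ‖tw hs (u i)‖ := BoundedContinuousFunction.norm_coe_le_norm _ _
      _ ≤ ‖(tw hs : ((ℂ × P) →ᵇ ℂ) →L[ℝ] _)‖ * ‖u i‖ := (tw hs).le_opNorm _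
      _ ≤ sig s * (2 * K) :=
        mul_le_mul (norm_tw_le hs) (hnorm i) (norm_nonneg _) (sig_nonneg s)

theorem contDiff_det {X : Type} [NormedAddCommGroup X] [NormedSpace ℝ X] {n : ℕ}
    {A : X → Matrix (Fin n) (Fin n) ℂ} (h : ∀ i j, ContDiff ℝ ∞ fun x => A x i j) :
    ContDiff ℝ ∞ fun x => (A x).det := by
  simp_rw [Matrix.det_apply']
  apply ContDiff.sum
  intro σ _
  apply contDiff_const.mul
  apply contDiff_prod
  intro i _
  exact h _ _

theorem contDiff_updateCol {X : Type} [NormedAddCommGroup X] [NormedSpace ℝ X] {n : ℕ}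
    {A : X → Matrix (Fin n) (Fin n) ℂ} (h : ∀ i j, ContDiff ℝ ∞ fun x => A x i j)
    {b : X → Fin n → ℂ} (hb : ∀ i, ContDiff ℝ ∞ fun x => b x i) (k : Fin n) (i j : Fin n) :
    ContDiff ℝ ∞ fun x => (A x).updateCol k (b x) i j := by
  simp_rw [Matrix.updateCol_apply]
  by_cases hjk : j = k
  · simp only [hjk, if_true]
    exact hb i
  · simp only [hjk, if_false]
    exact h i j

/-- smooth solution of a linear system -/
theorem exists_smooth_solution {X : Type} [NormedAddCommGroup X] [NormedSpace ℝ X] {n : ℕ}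
    {A : X → Matrix (Fin n) (Fin n) ℂ} (h : ∀ i j, ContDiff ℝ ∞ fun x => A x i j)
    {b : X → Fin n → ℂ} (hb : ∀ i, ContDiff ℝ ∞ fun x => b x i) (hdet : ∀ x, (A x).det ≠ 0) :
    ∃ c : Fin n → X → ℂ, (∀ k, ContDiff ℝ ∞ (c k)) ∧
      ∀ x i, ∑ k, A x i k * c k x = b x i := by
  refine ⟨fun k x => (A x).det⁻¹ * ((A x).updateCol k (b x)).det, fun k => ?_, fun x i => ?_⟩
  · exact ((contDiff_det h).inv hdet).mul (contDiff_det fun i j => contDiff_updateCol h hb k i j)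
  · have h1 := congrFun (Matrix.mulVec_cramer (A x) (b x)) i
    rw [Matrix.mulVec, dotProduct] at h1
    simp only [Matrix.cramer_apply, Pi.smul_apply, smul_eq_mul] at h1
    have h2 : ∀ k, A x i k * ((A x).det⁻¹ * ((A x).updateCol k (b x)).det) =
        (A x).det⁻¹ * (A x i k * ((A x).updateCol k (b x)).det) := fun k => by ring
    simp_rw [h2]
    rw [← Finset.mul_sum, h1, ← mul_assoc, inv_mul_cancel₀ (hdet x), one_mul]

theorem dbr_mul_snd {f : ℂ × P → ℂ} (hf : ContDiff ℝ ∞ f) {c : P → ℂ} (hc : ContDiff ℝ ∞ c)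
    (q : ℂ × P) : dbr (fun x => f x * c x.2) q = dbr f q * c q.2 := by
  have h1 : HasFDerivAt f (fderiv ℝ f q) q := (hf.differentiable (by simp) q).hasFDerivAt
  have h2 : HasFDerivAt (fun x : ℂ × P => c x.2)
      ((fderiv ℝ c q.2).comp (ContinuousLinearMap.snd ℝ ℂ P)) q := by
    have h3 : HasFDerivAt c (fderiv ℝ c q.2) q.2 := (hc.differentiable (by simp) q.2).hasFDerivAt
    exact h3.comp q hasFDerivAt_snd
  have h3 := (h1.mul h2).fderiv
  have h4 : fderiv ℝ (fun x : ℂ × P => f x * c x.2) q = f q • (fderiv ℝ c q.2).comp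
      (ContinuousLinearMap.snd ℝ ℂ P) + c q.2 • fderiv ℝ f q := h3
  rw [dbr, dbr, h4]
  simp
  ring

theorem dbr_add {f g : ℂ × P → ℂ} (hf : ContDiff ℝ ∞ f) (hg : ContDiff ℝ ∞ g)
    (q : ℂ × P) : dbr (fun x => f x + g x) q = dbr f q + dbr g q := by
  have h1 : HasFDerivAt f (fderiv ℝ f q) q := (hf.differentiable (by simp) q).hasFDerivAt
  have h2 : HasFDerivAt g (fderiv ℝ g q) q := (hg.differentiable (by simp) q).hasFDerivAt
  have h4 : fderiv ℝ (fun x : ℂ × P => f x + g x) q = fderiv ℝ f q + fderiv ℝ g q :=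
    (h1.add h2).fderiv
  rw [dbr, dbr, dbr, h4]
  simp
  ring

theorem dbr_const (c : ℂ) (q : ℂ × P) : dbr (fun _ : ℂ × P => c) q = 0 := by
  simp [dbr]

theorem dbr_sum {ι : Type} (t : Finset ι) {f : ι → ℂ × P → ℂ} (hf : ∀ i, ContDiff ℝ ∞ (f i))
    (q : ℂ × P) : dbr (fun x => ∑ i ∈ t, f i x) q = ∑ i ∈ t, dbr (f i) q := by
  classical
  induction t using Finset.induction_on with
  | empty => simp [dbr_const]
  | insert a t ha ih =>
    simp_rw [Finset.sum_insert ha]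
    rw [dbr_add (hf a) (ContDiff.sum fun i _ => hf i), ih]

theorem exists_cutoff (R : ℝ) : ∃ χ : ℂ × P → ℂ, ContDiff ℝ ∞ χ ∧ HasCompactSupport χ ∧
    ∀ x, ‖x‖ < R → χ x = 1 := by
  have : ProperSpace P := FiniteDimensional.proper ℝ P
  let f : ContDiffBump (0 : ℂ × P) :=
    { rIn := |R| + 1
      rOut := |R| + 2
      rIn_pos := by positivity
      rIn_lt_rOut := by linarith }
  refine ⟨fun x => (f x : ℂ), Complex.ofRealCLM.contDiff.comp f.contDiff, ?_, fun x hx => ?_⟩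
  · exact f.hasCompactSupport.comp_left (g := fun r : ℝ => (r : ℂ)) Complex.ofReal_zero
  · simp only
    rw [f.one_of_mem_closedBall, Complex.ofReal_one]
    rw [mem_closedBall_zero_iff]
    have : R ≤ |R| := le_abs_self R
    show ‖x‖ ≤ |R| + 1
    linarith

theorem S1_proof : S1_statement := by
  intro P _ _ _ n N F e R hN hF he
  have : ProperSpace P := FiniteDimensional.proper ℝ P
  obtain ⟨χ, hχ, hχs, hχ1⟩ := exists_cutoff (P := P) R
  set N' : Fin n → Fin n → ℂ × P → ℂ := fun i j x => χ x * N i j x with hN'def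
  set F' : Fin n → ℂ × P → ℂ := fun i x => χ x * F i x with hF'def
  have hN' : ∀ i j, ContDiff ℝ ∞ (N' i j) := fun i j => hχ.mul (hN i j)
  have hN's : ∀ i j, HasCompactSupport (N' i j) := fun i j => hχs.mul_right
  have hF' : ∀ i, ContDiff ℝ ∞ (F' i) := fun i => hχ.mul (hF i)
  have hF's : ∀ i, HasCompactSupport (F' i) := fun i => hχs.mul_right
  obtain ⟨M, hM0, hM⟩ : ∃ M : ℝ, 0 ≤ M ∧ ∀ i j x, ‖N' i j x‖ ≤ M := by
    choose B hB using fun i j => bound_of_compact (hN' i j).continuous (hN's i j)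
    have hBn : ∀ i j, 0 ≤ B i j := fun i j => (norm_nonneg _).trans (hB i j 0)
    refine ⟨∑ i, ∑ j, B i j, Finset.sum_nonneg fun i _ => Finset.sum_nonneg fun j _ => hBn i j,
      fun i j x => (hB i j x).trans ?_⟩
    exact (Finset.single_le_sum (f := fun j => B i j) (fun j _ => hBn i j)
      (Finset.mem_univ j)).trans (Finset.single_le_sum (f := fun i => ∑ j, B i j)
        (fun i _ => Finset.sum_nonneg fun j _ => hBn i j) (Finset.mem_univ i))
  obtain ⟨K, hK0, hK⟩ : ∃ K : ℝ, 0 ≤ K ∧ ∀ i x, ‖F' i x‖ ≤ K := by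
    choose B hB using fun i => bound_of_compact (hF' i).continuous (hF's i)
    have hBn : ∀ i, 0 ≤ B i := fun i => (norm_nonneg _).trans (hB i 0)
    refine ⟨∑ i, B i, Finset.sum_nonneg fun i _ => hBn i, fun i x => (hB i x).trans ?_⟩
    exact Finset.single_le_sum (f := fun i => B i) (fun i _ => hBn i) (Finset.mem_univ i)
  have hnM : (0 : ℝ) ≤ n * M := by positivity
  obtain ⟨s, hs, hsig⟩ := exists_sig_lt (ε := 1 / (4 * (n * M + 1))) (by positivity)
  have hsig0 := sig_nonneg s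
  have hsig1 : n * M * sig s ≤ 1 / 4 := by
    rw [lt_div_iff₀ (by (clear * - hM0; positivity))] at hsig
    linarith only [hsig0, hsig]
  have hsig2 : n * M * sig s ≤ 1 / 2 := by linarith only [hsig1]
  choose H hH1 hH2 hH3 hH4 using fun k => exists_fixedS hs hN' hN's (h0 := fun i => N' i k)
    (fun i => hN' i k) (fun i => hN's i k) hM0 hM hsig2 hM0 (fun i x => hM i k x)
  obtain ⟨G, hG1, hG2, hG3, -⟩ := exists_fixedS hs hN' hN's (h0 := F') hF' hF's hM0 hM hsig2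
    hK0 hK
  have hdet : ∀ p : P, (Matrix.of fun i k => (if i = k then (1 : ℂ) else 0) +
      Sop s (H k i) (0, p)).det ≠ 0 := by
    intro p
    apply det_ne_zero_of_sum_row_lt_diag
    intro i
    have h1 : ∀ k, ‖Sop s (H k i) (0, p)‖ ≤ sig s * (2 * M) := fun k => hH4 k i p
    have h2 : ∑ k ∈ Finset.univ.erase i, ‖(Matrix.of fun i k => (if i = k then (1 : ℂ) else 0) +
        Sop s (H k i) (0, p)) i k‖ ≤ ∑ k ∈ Finset.univ.erase i, ‖Sop s (H k i) (0, p)‖ := by
      apply Finset.sum_le_sum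
      intro k hk
      have hki : i ≠ k := (Finset.ne_of_mem_erase hk).symm
      simp [hki]
    refine lt_of_le_of_lt h2 ?_
    have h3 : ‖(1 : ℂ)‖ - ‖Sop s (H i i) (0, p)‖ ≤ ‖1 + Sop s (H i i) (0, p)‖ := by
      have := norm_sub_le (1 + Sop s (H i i) (0, p)) (Sop s (H i i) (0, p))
      rw [add_sub_cancel_right] at this
      linarith only [this]
    have h4 : ∑ k ∈ Finset.univ.erase i, ‖Sop s (H k i) (0, p)‖ + ‖Sop s (H i i) (0, p)‖ ≤
        n * (sig s * (2 * M)) := by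
      rw [Finset.sum_erase_add _ _ (Finset.mem_univ i)]
      calc ∑ k, ‖Sop s (H k i) (0, p)‖ ≤ ∑ _k : Fin n, sig s * (2 * M) :=
            Finset.sum_le_sum fun k _ => h1 k
        _ = n * (sig s * (2 * M)) := by
            rw [Finset.sum_const, Finset.card_univ, Fintype.card_fin, nsmul_eq_mul]
    simp only [Matrix.of_apply, if_true]
    rw [norm_one] at h3
    have h5 : n * (sig s * (2 * M)) ≤ 1 / 2 := by linarith only [hsig1]
    linarith only [h5, h4, h3]
  have hincl : ContDiff ℝ ∞ fun p : P => ((0 : ℂ), p) := contDiff_const.prodMk contDiff_id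
  obtain ⟨c, hc, hcs⟩ := exists_smooth_solution
    (A := fun p : P => Matrix.of fun i k => (if i = k then (1 : ℂ) else 0) + Sop s (H k i) (0, p))
    (b := fun p i => e i p - Sop s (G i) (0, p))
    (fun i k => contDiff_const.add ((Sop_contDiff hs (hH1 k i) (hH2 k i)).comp hincl))
    (fun i => (he i).sub ((Sop_contDiff hs (hG1 i) (hG2 i)).comp hincl)) hdet
  have hCk : ∀ i k, ContDiff ℝ ∞ fun x : ℂ × P => (if i = k then (1 : ℂ) else 0) +
      Sop s (H k i) x := fun i k => contDiff_const.add (Sop_contDiff hs (hH1 k i) (hH2 k i))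
  have hGk : ∀ i, ContDiff ℝ ∞ (Sop s (G i)) := fun i => Sop_contDiff hs (hG1 i) (hG2 i)
  have hck : ∀ k, ContDiff ℝ ∞ fun x : ℂ × P => c k x.2 := fun k => (hc k).comp contDiff_snd
  have hterm : ∀ i k, ContDiff ℝ ∞ fun x : ℂ × P => ((if i = k then (1 : ℂ) else 0) +
      Sop s (H k i) x) * c k x.2 := fun i k => (hCk i k).mul (hck k)
  refine ⟨fun i x => (∑ k, ((if i = k then (1 : ℂ) else 0) + Sop s (H k i) x) * c k x.2) +
    Sop s (G i) x, fun i => (ContDiff.sum fun k _ => hterm i k).add (hGk i),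
    fun z p hz hp i => ⟨?_, ?_⟩⟩
  · have hx : ‖((z, p) : ℂ × P)‖ < R := by
      rw [Prod.norm_def]
      exact max_lt hz hp
    have hNN : ∀ i j, N i j (z, p) = N' i j (z, p) := fun i j => by
      rw [hN'def]; simp only; rw [hχ1 _ hx, one_mul]
    have hFF : F i (z, p) = F' i (z, p) := by
      rw [hF'def]; simp only; rw [hχ1 _ hx, one_mul]
    show dbr (fun x => (∑ k, ((if i = k then (1 : ℂ) else 0) + Sop s (H k i) x) * c k x.2) +
      Sop s (G i) x) (z, p) = _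
    rw [dbr_add (ContDiff.sum fun k _ => hterm i k) (hGk i), dbr_sum _ (fun k => hterm i k),
      dbr_Sop hs (hG1 i) (hG2 i), hG3 i]
    have h1 : ∀ k, dbr (fun x : ℂ × P => ((if i = k then (1 : ℂ) else 0) +
        Sop s (H k i) x) * c k x.2) (z, p) =
        ∑ j, N' i j (z, p) * (((if j = k then (1 : ℂ) else 0) + Sop s (H k j) (z, p)) * c k p) := by
      intro k
      rw [dbr_mul_snd (hCk i k) (hc k), dbr_add contDiff_const
        (Sop_contDiff hs (hH1 k i) (hH2 k i)), dbr_const, zero_add,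
        dbr_Sop hs (hH1 k i) (hH2 k i), hH3 k i, add_mul, Finset.sum_mul]
      have h2 : ∀ j, N' i j (z, p) * (((if j = k then (1 : ℂ) else 0) +
          Sop s (H k j) (z, p)) * c k p) = (if j = k then N' i j (z, p) * c k p else 0) +
          N' i j (z, p) * Sop s (H k j) (z, p) * c k p := by
        intro j
        split_ifs <;> ring
      simp_rw [h2]
      rw [Finset.sum_add_distrib, Finset.sum_ite_eq' Finset.univ k]
      simp
    simp_rw [h1]
    rw [Finset.sum_comm]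
    simp_rw [hNN]
    rw [hFF]
    have h3 : ∀ j, N' i j (z, p) * ((∑ k, ((if j = k then (1 : ℂ) else 0) +
        Sop s (H k j) (z, p)) * c k p) + Sop s (G j) (z, p)) =
        (∑ k, N' i j (z, p) * (((if j = k then (1 : ℂ) else 0) + Sop s (H k j) (z, p)) * c k p)) +
        N' i j (z, p) * Sop s (G j) (z, p) := by
      intro j
      rw [mul_add, Finset.mul_sum]
    simp_rw [h3]
    rw [Finset.sum_add_distrib]
    ring
  · simp only
    have h1 := hcs p i
    simp only [Matrix.of_apply] at h1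
    rw [h1, sub_add_cancel]

end Vale.Agent.P136.SF

namespace Vale.Agent.P136

theorem S1 : S1_statement := SF.S1_proof

end Vale.Agent.P136
end
end

section

section

open MeasureTheory Filter Topology
open scoped ContDiff InnerProductSpace

namespace Vale.Agent.P136.S1EAux

/-! ### The d-bar equation in the direction of a null vector -/

/-- squared length of the real part. -/
noncomputable def nr2 (ζ : Fin 3 → ℂ) : ℝ := ∑ i, (ζ i).re ^ 2

/-- cross product of the real and the imaginary part. -/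
noncomputable def ncr (ζ : Fin 3 → ℂ) : Fin 3 → ℝ :=
  ![(ζ 1).re * (ζ 2).im - (ζ 2).re * (ζ 1).im, (ζ 2).re * (ζ 0).im - (ζ 0).re * (ζ 2).im,
    (ζ 0).re * (ζ 1).im - (ζ 1).re * (ζ 0).im]

lemma null_re {ζ : Fin 3 → ℂ} (h : dot ζ ζ = 0) :
    (ζ 0).re ^ 2 + (ζ 1).re ^ 2 + (ζ 2).re ^ 2 = (ζ 0).im ^ 2 + (ζ 1).im ^ 2 + (ζ 2).im ^ 2 := by
  have h1 := congrArg Complex.re h
  simp only [dot, Fin.sum_univ_three, Complex.add_re, Complex.mul_re, Complex.zero_re] at h1
  linarith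

lemma null_im {ζ : Fin 3 → ℂ} (h : dot ζ ζ = 0) :
    (ζ 0).re * (ζ 0).im + (ζ 1).re * (ζ 1).im + (ζ 2).re * (ζ 2).im = 0 := by
  have h1 := congrArg Complex.im h
  simp only [dot, Fin.sum_univ_three, Complex.add_im, Complex.mul_im, Complex.zero_im] at h1
  linarith

lemma nr2_pos {ζ : Fin 3 → ℂ} (h : dot ζ ζ = 0) (hne : ζ ≠ 0) : 0 < nr2 ζ := by
  have h0 : 0 ≤ nr2 ζ := Finset.sum_nonneg fun i _ => sq_nonneg _
  refine lt_of_le_of_ne h0 fun hcon => hne ?_
  have h1 := null_re h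
  have h2 : (ζ 0).re ^ 2 + (ζ 1).re ^ 2 + (ζ 2).re ^ 2 = 0 := by
    rw [hcon]; simp [nr2, Fin.sum_univ_three]
  have h3 : (ζ 0).im ^ 2 + (ζ 1).im ^ 2 + (ζ 2).im ^ 2 = 0 := by rw [← h1, h2]
  have a0 : (ζ 0).re = 0 := by nlinarith [sq_nonneg (ζ 0).re, sq_nonneg (ζ 1).re, sq_nonneg (ζ 2).re]
  have a1 : (ζ 1).re = 0 := by nlinarith [sq_nonneg (ζ 0).re, sq_nonneg (ζ 1).re, sq_nonneg (ζ 2).re]
  have a2 : (ζ 2).re = 0 := by nlinarith [sq_nonneg (ζ 0).re, sq_nonneg (ζ 1).re, sq_nonneg (ζ 2).re]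
  have b0 : (ζ 0).im = 0 := by nlinarith [sq_nonneg (ζ 0).im, sq_nonneg (ζ 1).im, sq_nonneg (ζ 2).im]
  have b1 : (ζ 1).im = 0 := by nlinarith [sq_nonneg (ζ 0).im, sq_nonneg (ζ 1).im, sq_nonneg (ζ 2).im]
  have b2 : (ζ 2).im = 0 := by nlinarith [sq_nonneg (ζ 0).im, sq_nonneg (ζ 1).im, sq_nonneg (ζ 2).im]
  funext i
  fin_cases i
  · exact Complex.ext a0 b0
  · exact Complex.ext a1 b1
  · exact Complex.ext a2 b2

lemma null_dot_re {ζ : Fin 3 → ℂ} (h : dot ζ ζ = 0) :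
    ∑ i, ζ i * ((ζ i).re : ℂ) = nr2 ζ := by
  have h2 := null_im h
  apply Complex.ext
  · simp only [nr2, Fin.sum_univ_three, Complex.add_re, Complex.mul_re, Complex.ofReal_re,
      Complex.ofReal_im]
    ring
  · simp only [Fin.sum_univ_three, Complex.add_im, Complex.mul_im, Complex.ofReal_re,
      Complex.ofReal_im]
    linarith

lemma null_dot_im {ζ : Fin 3 → ℂ} (h : dot ζ ζ = 0) :
    ∑ i, ζ i * ((ζ i).im : ℂ) = Complex.I * nr2 ζ := by
  have h1 := null_re h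
  have h2 := null_im h
  apply Complex.ext
  · simp only [nr2, Fin.sum_univ_three, Complex.add_re, Complex.mul_re, Complex.ofReal_re,
      Complex.ofReal_im, Complex.I_re, Complex.I_im]
    linarith
  · simp only [nr2, Fin.sum_univ_three, Complex.add_im, Complex.mul_im, Complex.ofReal_re,
      Complex.ofReal_im, Complex.I_re, Complex.I_im]
    linarith

lemma null_dot_cr (ζ : Fin 3 → ℂ) : ∑ i, ζ i * (ncr ζ i : ℂ) = 0 := by
  apply Complex.ext
  · simp only [ncr, Fin.sum_univ_three, Complex.add_re, Complex.mul_re, Complex.ofReal_re,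
      Complex.ofReal_im, Matrix.cons_val, Complex.zero_re]
    ring
  · simp only [ncr, Fin.sum_univ_three, Complex.add_im, Complex.mul_im, Complex.ofReal_re,
      Complex.ofReal_im, Matrix.cons_val, Complex.zero_im]
    ring

/-- expansion of a vector in the frame. -/
lemma frame_expand {ζ : Fin 3 → ℂ} (h : dot ζ ζ = 0) (w : Fin 3 → ℝ) (i : Fin 3) :
    nr2 ζ ^ 2 * w i = nr2 ζ * ((∑ j, (ζ j).re * w j) * (ζ i).re + (∑ j, (ζ j).im * w j) * (ζ i).im)
      + (∑ j, ncr ζ j * w j) * ncr ζ i := by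
  have h1 := null_re h
  have h2 := null_im h
  simp only [nr2, ncr, Fin.sum_univ_three, Matrix.cons_val]
  have key : ∀ i : Fin 3, i = 0 ∨ i = 1 ∨ i = 2 := by decide
  rcases key i with rfl | rfl | rfl
  all_goals
    simp only [Matrix.cons_val]
    generalize (ζ 0).re = a0 at *
    generalize (ζ 1).re = a1 at *
    generalize (ζ 2).re = a2 at *
    generalize (ζ 0).im = b0 at *
    generalize (ζ 1).im = b1 at *
    generalize (ζ 2).im = b2 at *
  · linear_combination ((a0 ^ 2 + a1 ^ 2 + a2 ^ 2) * w 0 - (a0 * w 0 + a1 * w 1 + a2 * w 2) * a0)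
      * h1 + ((a0 * b0 + a1 * b1 + a2 * b2) * w 0 - (b0 * w 0 + b1 * w 1 + b2 * w 2) * a0 -
        (a0 * w 0 + a1 * w 1 + a2 * w 2) * b0) * h2
  · linear_combination ((a0 ^ 2 + a1 ^ 2 + a2 ^ 2) * w 1 - (a0 * w 0 + a1 * w 1 + a2 * w 2) * a1)
      * h1 + ((a0 * b0 + a1 * b1 + a2 * b2) * w 1 - (b0 * w 0 + b1 * w 1 + b2 * w 2) * a1 -
        (a0 * w 0 + a1 * w 1 + a2 * w 2) * b1) * h2
  · linear_combination ((a0 ^ 2 + a1 ^ 2 + a2 ^ 2) * w 2 - (a0 * w 0 + a1 * w 1 + a2 * w 2) * a2)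
      * h1 + ((a0 * b0 + a1 * b1 + a2 * b2) * w 2 - (b0 * w 0 + b1 * w 1 + b2 * w 2) * a2 -
        (a0 * w 0 + a1 * w 1 + a2 * w 2) * b2) * h2


section general

variable {P : Type} [NormedAddCommGroup P] [NormedSpace ℝ P]

/-- the inverse change of variables `x ↦ (z, y)`, for one vector. -/
noncomputable def fM (P : Type) [NormedAddCommGroup P] [NormedSpace ℝ P] (ζ : Fin 3 → ℂ) :
    E3 →L[ℝ] ℂ × (ℝ × P) :=
  (∑ i, (EuclideanSpace.proj i : E3 →L[ℝ] ℝ).smulRight (ζ i)).prod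
    ((∑ i, (ncr ζ i / nr2 ζ) • (EuclideanSpace.proj i : E3 →L[ℝ] ℝ)).prod 0)

lemma fM_apply (ζ : Fin 3 → ℂ) (x : E3) :
    fM P ζ x = (∑ i, (x i : ℂ) * ζ i, (∑ i, ncr ζ i / nr2 ζ * x i, 0)) := by
  simp [fM]

lemma fM_bv (ζ : Fin 3 → ℂ) (i : Fin 3) :
    fM P ζ (bv i) = (ζ i, (ncr ζ i / nr2 ζ, 0)) := by
  rw [fM_apply]
  have h : ∀ j : Fin 3, (bv i) j = if j = i then (1 : ℝ) else 0 := by
    intro j
    simp [bv]
  simp [h, apply_ite (fun t : ℝ => (t : ℂ)), ite_mul]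

/-- `ζ·∇` in the new variables is `nr2 ζ` times the d-bar operator. -/
lemma Dz_comp {ζ : Fin 3 → ℂ} (h : dot ζ ζ = 0) (x₀ : E3) (p : P)
    {U : ℂ × (ℝ × P) → ℂ} (hU : Differentiable ℝ U) (x : E3) :
    Dz ζ (fun y => U (fM P ζ (y - x₀) + (0, (0, p)))) x =
      nr2 ζ * dbar U (fM P ζ (x - x₀) + (0, (0, p))) := by
  have hder : HasFDerivAt (fun y => U (fM P ζ (y - x₀) + (0, (0, p))))
      ((fderiv ℝ U (fM P ζ (x - x₀) + (0, (0, p)))).comp (fM P ζ)) x := by
    have h1 : HasFDerivAt (fun y => fM P ζ (y - x₀) + (0, (0, p))) (fM P ζ) x := by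
      have h2 : HasFDerivAt (fun y : E3 => y - x₀) (ContinuousLinearMap.id ℝ E3) x :=
        (hasFDerivAt_id x).sub_const x₀
      exact ((fM P ζ).hasFDerivAt.comp x h2).add_const _
    exact (hU _).hasFDerivAt.comp x h1
  unfold Dz pd dbar
  rw [hder.fderiv]
  set D := fderiv ℝ U (fM P ζ (x - x₀) + (0, (0, p)))
  have hD : ∀ i, (D.comp (fM P ζ)) (bv i) = ((ζ i).re : ℂ) * D (1, 0) + ((ζ i).im : ℂ) *
      D (Complex.I, 0) + ((ncr ζ i : ℂ) / nr2 ζ) * D (0, (1, 0)) := by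
    intro i
    rw [ContinuousLinearMap.comp_apply, fM_bv]
    have hv : ((ζ i, (ncr ζ i / nr2 ζ, 0)) : ℂ × (ℝ × P)) = (ζ i).re • ((1 : ℂ), (0 : ℝ × P)) +
        (ζ i).im • (Complex.I, (0 : ℝ × P)) + (ncr ζ i / nr2 ζ) • ((0 : ℂ), ((1 : ℝ), (0 : P))) := by
      refine Prod.ext ?_ (Prod.ext ?_ ?_)
      · simp [Complex.re_add_im]
      · simp
      · simp
    rw [hv]
    simp only [map_add, map_smul, Complex.real_smul, Complex.ofReal_div]
  simp only [hD]
  have e : ∀ i, ζ i * (((ζ i).re : ℂ) * D (1, 0) + ((ζ i).im : ℂ) *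
      D (Complex.I, 0) + ((ncr ζ i : ℂ) / nr2 ζ) * D (0, (1, 0))) =
      (ζ i * ((ζ i).re : ℂ)) * D (1, 0) + (ζ i * ((ζ i).im : ℂ)) * D (Complex.I, 0) +
        (ζ i * (ncr ζ i : ℂ)) * (D (0, (1, 0)) / nr2 ζ) := by
    intro i; ring
  simp only [e, Finset.sum_add_distrib, ← Finset.sum_mul]
  rw [null_dot_re h, null_dot_im h, null_dot_cr]
  ring

/-- the map `(x, p) ↦ (ζ(p)·(x - x₀), (n(p)·(x - x₀), p))`. -/
noncomputable def fPsi (zz : P → Fin 3 → ℂ) (x₀ : E3) (q : E3 × P) : ℂ × (ℝ × P) :=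
  fM P (zz q.2) (q.1 - x₀) + (0, (0, q.2))

/-- its inverse. -/
noncomputable def fPhi (zz : P → Fin 3 → ℂ) (x₀ : E3) (q : ℂ × (ℝ × P)) : E3 × P :=
  ((∑ i : Fin 3, ((q.1.re * (zz q.2.2 i).re + q.1.im * (zz q.2.2 i).im) / nr2 (zz q.2.2) +
    q.2.1 * (ncr (zz q.2.2) i / nr2 (zz q.2.2))) • bv i) + x₀, q.2.2)

lemma sum_bv (w : Fin 3 → ℝ) (j : Fin 3) : (∑ i : Fin 3, w i • bv i) j = w j := by
  have h : ∀ i j : Fin 3, (bv i) j = if j = i then (1 : ℝ) else 0 := by
    intro i j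
    simp [bv]
  simp [h]

lemma fPhi_fPsi {zz : P → Fin 3 → ℂ} (hnull : ∀ p, dot (zz p) (zz p) = 0)
    (hne : ∀ p, zz p ≠ 0) (x₀ x : E3) (p : P) : fPhi zz x₀ (fPsi zz x₀ (x, p)) = (x, p) := by
  have hr : nr2 (zz p) ≠ 0 := (nr2_pos (hnull p) (hne p)).ne'
  have hre : (∑ i, (((x - x₀) i : ℝ) : ℂ) * zz p i).re = ∑ j, (zz p j).re * (x - x₀) j := by
    simp only [Complex.re_sum, Complex.re_ofReal_mul]
    exact Finset.sum_congr rfl fun i _ => mul_comm _ _
  have him : (∑ i, (((x - x₀) i : ℝ) : ℂ) * zz p i).im = ∑ j, (zz p j).im * (x - x₀) j := by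
    simp only [Complex.im_sum, Complex.im_ofReal_mul]
    exact Finset.sum_congr rfl fun i _ => mul_comm _ _
  unfold fPhi fPsi
  simp only [fM_apply, Prod.mk_add_mk, add_zero, zero_add]
  refine Prod.ext ?_ rfl
  change _ + x₀ = x
  rw [← eq_sub_iff_add_eq]
  ext j
  rw [sum_bv, hre, him]
  have hfe := frame_expand (hnull p) (fun j => (x - x₀) j) j
  have hsum : ∑ i, ncr (zz p) i / nr2 (zz p) * (x - x₀) i =
      (∑ i, ncr (zz p) i * (x - x₀) i) / nr2 (zz p) := by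
    rw [Finset.sum_div]
    exact Finset.sum_congr rfl fun i _ => by ring
  rw [hsum]
  field_simp
  linarith

lemma contDiff_nr2 {zz : P → Fin 3 → ℂ} (hz : ∀ i, ContDiff ℝ ∞ (fun p => zz p i)) :
    ContDiff ℝ ∞ (fun p => nr2 (zz p)) := by
  have hre : ∀ i, ContDiff ℝ ∞ (fun p => (zz p i).re) := fun i =>
    Complex.reCLM.contDiff.comp (hz i)
  unfold nr2
  exact ContDiff.sum fun i _ => (hre i).pow 2

lemma contDiff_ncr {zz : P → Fin 3 → ℂ} (hz : ∀ i, ContDiff ℝ ∞ (fun p => zz p i)) (i : Fin 3) :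
    ContDiff ℝ ∞ (fun p => ncr (zz p) i) := by
  have hre : ∀ i, ContDiff ℝ ∞ (fun p => (zz p i).re) := fun i =>
    Complex.reCLM.contDiff.comp (hz i)
  have him : ∀ i, ContDiff ℝ ∞ (fun p => (zz p i).im) := fun i =>
    Complex.imCLM.contDiff.comp (hz i)
  have key : ∀ i : Fin 3, i = 0 ∨ i = 1 ∨ i = 2 := by decide
  rcases key i with rfl | rfl | rfl
  · exact ((hre 1).mul (him 2)).sub ((hre 2).mul (him 1))
  · exact ((hre 2).mul (him 0)).sub ((hre 0).mul (him 2))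
  · exact ((hre 0).mul (him 1)).sub ((hre 1).mul (him 0))

lemma contDiff_coord (x₀ : E3) (i : Fin 3) :
    ContDiff ℝ ∞ (fun q : E3 × P => (q.1 - x₀) i) := by
  have h : ContDiff ℝ ∞ (fun x : E3 => (EuclideanSpace.proj i : E3 →L[ℝ] ℝ) x) :=
    (EuclideanSpace.proj i : E3 →L[ℝ] ℝ).contDiff
  exact h.comp (contDiff_fst.sub contDiff_const)

lemma contDiff_fPsi {zz : P → Fin 3 → ℂ} (hz : ∀ i, ContDiff ℝ ∞ (fun p => zz p i))
    (hnull : ∀ p, dot (zz p) (zz p) = 0) (hne : ∀ p, zz p ≠ 0) (x₀ : E3) :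
    ContDiff ℝ ∞ (fPsi zz x₀) := by
  have h1 : fPsi zz x₀ = fun q : E3 × P => ((∑ i, (((q.1 - x₀) i : ℝ) : ℂ) * zz q.2 i,
      (∑ i, ncr (zz q.2) i / nr2 (zz q.2) * (q.1 - x₀) i, q.2)) : ℂ × (ℝ × P)) := by
    funext q
    unfold fPsi
    rw [fM_apply]
    simp only [Prod.mk_add_mk, add_zero, zero_add]
  rw [h1]
  refine ContDiff.prodMk (ContDiff.sum fun i _ => ContDiff.mul ?_ ?_)
    (ContDiff.prodMk (ContDiff.sum fun i _ => ContDiff.mul ?_ (contDiff_coord x₀ i)) contDiff_snd)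
  · exact Complex.ofRealCLM.contDiff.comp (contDiff_coord x₀ i)
  · exact (hz i).comp contDiff_snd
  · exact ((contDiff_ncr hz i).comp contDiff_snd).div ((contDiff_nr2 hz).comp contDiff_snd)
      fun q => (nr2_pos (hnull _) (hne _)).ne'

lemma contDiff_fPhi {zz : P → Fin 3 → ℂ} (hz : ∀ i, ContDiff ℝ ∞ (fun p => zz p i))
    (hnull : ∀ p, dot (zz p) (zz p) = 0) (hne : ∀ p, zz p ≠ 0) (x₀ : E3) :
    ContDiff ℝ ∞ (fPhi zz x₀) := by
  have hre : ∀ i, ContDiff ℝ ∞ (fun p => (zz p i).re) := fun i =>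
    Complex.reCLM.contDiff.comp (hz i)
  have him : ∀ i, ContDiff ℝ ∞ (fun p => (zz p i).im) := fun i =>
    Complex.imCLM.contDiff.comp (hz i)
  have h2 : ContDiff ℝ ∞ (fun q : ℂ × (ℝ × P) => q.2.2) := contDiff_snd.comp contDiff_snd
  have h3 : ContDiff ℝ ∞ (fun q : ℂ × (ℝ × P) => q.2.1) := contDiff_fst.comp contDiff_snd
  have h4 : ContDiff ℝ ∞ (fun q : ℂ × (ℝ × P) => q.1.re) :=
    Complex.reCLM.contDiff.comp contDiff_fst
  have h5 : ContDiff ℝ ∞ (fun q : ℂ × (ℝ × P) => q.1.im) :=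
    Complex.imCLM.contDiff.comp contDiff_fst
  have hr : ContDiff ℝ ∞ (fun q : ℂ × (ℝ × P) => nr2 (zz q.2.2)) := (contDiff_nr2 hz).comp h2
  have hr0 : ∀ q : ℂ × (ℝ × P), nr2 (zz q.2.2) ≠ 0 := fun q => (nr2_pos (hnull _) (hne _)).ne'
  have h6 : ∀ i : Fin 3, ContDiff ℝ ∞ (fun q : ℂ × (ℝ × P) =>
      (q.1.re * (zz q.2.2 i).re + q.1.im * (zz q.2.2 i).im) / nr2 (zz q.2.2) +
      q.2.1 * (ncr (zz q.2.2) i / nr2 (zz q.2.2))) := fun i =>
    (((h4.mul ((hre i).comp h2)).add (h5.mul ((him i).comp h2))).div hr hr0).add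
      (h3.mul (((contDiff_ncr hz i).comp h2).div hr hr0))
  exact ContDiff.prodMk (ContDiff.add (ContDiff.sum fun i _ =>
    ContDiff.fun_smul (h6 i) contDiff_const) contDiff_const) h2

/-- the general reduction. -/
theorem _root_.Vale.Agent.P136.S1G_of (h : S1_statement) [FiniteDimensional ℝ P] (zz : P → Fin 3 → ℂ)
    (hz : ∀ i, ContDiff ℝ ∞ (fun p => zz p i)) (hnull : ∀ p, dot (zz p) (zz p) = 0)
    (hne : ∀ p, zz p ≠ 0) (n : ℕ) (N : Fin n → Fin n → E3 × P → ℂ) (F : Fin n → E3 × P → ℂ)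
    (x₀ : E3) (e : Fin n → ℂ) (R : ℝ)
    (hN : ∀ a b, ContDiff ℝ ∞ (N a b)) (hF : ∀ a, ContDiff ℝ ∞ (F a)) :
    ∃ U : Fin n → E3 × P → ℂ, (∀ a, ContDiff ℝ ∞ (U a)) ∧
      (∀ (x : E3) (p : P), ‖x‖ < R → ‖p‖ < R → ∀ a,
        Dz (zz p) (fun y => U a (y, p)) x = ∑ b, N a b (x, p) * U b (x, p) + F a (x, p)) ∧
      ∀ (p : P), ‖p‖ < R → ∀ a, U a (x₀, p) = e a := by
  have hΨ := contDiff_fPsi hz hnull hne x₀
  have hΦ := contDiff_fPhi hz hnull hne x₀
  have hK : IsCompact (Metric.closedBall (0 : E3) (max R ‖x₀‖) ×ˢ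
      Metric.closedBall (0 : P) R) :=
    (isCompact_closedBall _ _).prod (isCompact_closedBall _ _)
  obtain ⟨C, hC⟩ := hK.exists_bound_of_continuousOn hΨ.continuous.continuousOn
  have hr : ContDiff ℝ ∞ (fun q : ℂ × (ℝ × P) => ((nr2 (zz q.2.2) : ℝ) : ℂ)) :=
    Complex.ofRealCLM.contDiff.comp ((contDiff_nr2 hz).comp (contDiff_snd.comp contDiff_snd))
  have hr0 : ∀ q : ℂ × (ℝ × P), ((nr2 (zz q.2.2) : ℝ) : ℂ) ≠ 0 := fun q =>
    Complex.ofReal_ne_zero.2 (nr2_pos (hnull _) (hne _)).ne'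
  have hdiv : ∀ G : ℂ × (ℝ × P) → ℂ, ContDiff ℝ ∞ G →
      ContDiff ℝ ∞ (fun q => G q / nr2 (zz q.2.2)) := by
    intro G hG
    simp only [div_eq_mul_inv]
    exact hG.mul (hr.inv hr0)
  obtain ⟨U, hU, hUe⟩ := h (ℝ × P) n (fun a b q => N a b (fPhi zz x₀ q) / nr2 (zz q.2.2))
    (fun a q => F a (fPhi zz x₀ q) / nr2 (zz q.2.2)) (fun a _ => e a) (C + 1)
    (fun a b => hdiv _ ((hN a b).comp hΦ)) (fun a => hdiv _ ((hF a).comp hΦ))
    (fun a => contDiff_const)
  have hbound : ∀ (x : E3) (p : P), ‖x‖ ≤ max R ‖x₀‖ → ‖p‖ < R →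
      ‖(fPsi zz x₀ (x, p)).1‖ < C + 1 ∧ ‖(fPsi zz x₀ (x, p)).2‖ < C + 1 := by
    intro x p hx hp
    have h1 := hC (x, p) ⟨mem_closedBall_zero_iff.2 hx, mem_closedBall_zero_iff.2 hp.le⟩
    have h2 := norm_fst_le (fPsi zz x₀ (x, p))
    have h3 := norm_snd_le (fPsi zz x₀ (x, p))
    constructor <;> linarith
  refine ⟨fun a q => U a (fPsi zz x₀ q), fun a => (hU a).comp hΨ, ?_, ?_⟩
  · intro x p hx hp a
    obtain ⟨hb1, hb2⟩ := hbound x p (hx.le.trans (le_max_left _ _)) hp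
    obtain ⟨h1, -⟩ := hUe _ _ hb1 hb2 a
    have h2 := Dz_comp (hnull p) x₀ p ((hU a).differentiable (by norm_num)) x
    change Dz (zz p) (fun y => U a (fPsi zz x₀ (y, p))) x = _
    have h3 : (fun y => U a (fPsi zz x₀ (y, p))) =
        fun y => U a (fM P (zz p) (y - x₀) + (0, (0, p))) := rfl
    rw [h3, h2]
    have h4 : fM P (zz p) (x - x₀) + (0, (0, p)) = fPsi zz x₀ (x, p) := rfl
    rw [h4]
    have h5 : dbar (U a) (fPsi zz x₀ (x, p)) = _ := h1
    rw [h5]
    have hr' := hr0 (fPsi zz x₀ (x, p))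
    have h6 : (fPsi zz x₀ (x, p)).2.2 = p := by
      have := congrArg Prod.snd (fPhi_fPsi hnull hne x₀ x p)
      exact this
    simp only [Prod.mk.eta, fPhi_fPsi hnull hne, h6]
    rw [h6] at hr'
    rw [mul_add, Finset.mul_sum, mul_div_cancel₀ _ hr']
    congr 1
    refine Finset.sum_congr rfl fun b _ => ?_
    field_simp
  · intro p hp a
    obtain ⟨hb1, hb2⟩ := hbound x₀ p (le_max_right _ _) hp
    have h1 : fPsi zz x₀ (x₀, p) = (0, (0, p)) := by
      unfold fPsi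
      simp
    rw [h1] at hb1 hb2
    obtain ⟨-, h2⟩ := hUe _ _ hb1 hb2 a
    change U a (fPsi zz x₀ (x₀, p)) = e a
    rw [h1]
    exact h2

end general

/-! ### The two statements -/

theorem _root_.Vale.Agent.P136.S1E_of (h : S1_statement) : S1E_statement := by
  intro ζ hnull hne n N F x₀ e R hN hF
  obtain ⟨U, hU, h1, h2⟩ := S1G_of (P := ℝ) h (fun _ => ζ) (fun i => contDiff_const)
    (fun _ => hnull) (fun _ => hne) n (fun a b q => N a b q.1) (fun a q => F a q.1) x₀ e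
    (max R 1) (fun a b => (hN a b).comp contDiff_fst) (fun a => (hF a).comp contDiff_fst)
  have h0 : ‖(0 : ℝ)‖ < max R 1 := by
    rw [norm_zero]
    exact lt_of_lt_of_le one_pos (le_max_right _ _)
  refine ⟨fun a x => U a (x, 0), fun a => (hU a).comp (contDiff_id.prodMk contDiff_const),
    fun x hx a => ?_, fun a => h2 0 h0 a⟩
  exact h1 x 0 (lt_of_lt_of_le hx (le_max_left _ _)) h0 a

lemma dot_zs (s : ℂ) : dot (zs s) (zs s) = 0 := by
  simp only [dot, zs, Fin.sum_univ_three, Matrix.cons_val]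
  ring_nf
  simp only [Complex.I_sq]
  ring

lemma dot_zh (s : ℂ) : dot (zh s) (zh s) = 0 := by
  simp only [dot, zh, Fin.sum_univ_three, Matrix.cons_val]
  ring_nf
  simp only [Complex.I_sq]
  ring

lemma zs_ne (s : ℂ) : zs s ≠ 0 := by
  intro h
  have h2 := congrFun h 2
  have h0 := congrFun h 0
  simp only [zs, Matrix.cons_val, Pi.zero_apply] at h0 h2
  have hs : s = 0 := by simpa using h2
  rw [hs] at h0
  norm_num at h0

lemma zh_ne (s : ℂ) : zh s ≠ 0 := by
  intro h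
  have h2 := congrFun h 2
  have h0 := congrFun h 0
  simp only [zh, Matrix.cons_val, Pi.zero_apply] at h0 h2
  have hs : s = 0 := by simpa using h2
  rw [hs] at h0
  norm_num at h0

lemma contDiff_zs (i : Fin 3) : ContDiff ℝ ∞ (fun s : ℂ => zs s i) := by
  have key : ∀ i : Fin 3, i = 0 ∨ i = 1 ∨ i = 2 := by decide
  have hid : ContDiff ℝ ∞ (fun s : ℂ => s) := contDiff_id
  rcases key i with rfl | rfl | rfl
  · exact contDiff_const.sub (hid.pow 2)
  · exact contDiff_const.mul (contDiff_const.add (hid.pow 2))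
  · exact contDiff_const.mul hid

lemma contDiff_zh (i : Fin 3) : ContDiff ℝ ∞ (fun s : ℂ => zh s i) := by
  have key : ∀ i : Fin 3, i = 0 ∨ i = 1 ∨ i = 2 := by decide
  have hid : ContDiff ℝ ∞ (fun s : ℂ => s) := contDiff_id
  rcases key i with rfl | rfl | rfl
  · exact (hid.pow 2).sub contDiff_const
  · exact contDiff_const.mul ((hid.pow 2).add contDiff_const)
  · exact contDiff_const.mul hid

theorem _root_.Vale.Agent.P136.S1Es_of (h : S1_statement) : S1Es_statement := by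
  intro zz hzz n N F R hN hF
  have hz : ∀ i, ContDiff ℝ ∞ (fun s => zz s i) := by
    rcases hzz with rfl | rfl
    · exact contDiff_zs
    · exact contDiff_zh
  have hnull : ∀ s, dot (zz s) (zz s) = 0 := by
    rcases hzz with rfl | rfl
    · exact dot_zs
    · exact dot_zh
  have hne : ∀ s, zz s ≠ 0 := by
    rcases hzz with rfl | rfl
    · exact zs_ne
    · exact zh_ne
  obtain ⟨U, hU, h1, -⟩ := S1G_of (P := ℂ) h zz hz hnull hne n N F 0 0 R hN hF
  exact ⟨U, hU, h1⟩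

/-! ### Uniqueness of compactly supported solutions -/

theorem _root_.Vale.Agent.P136.UNIQ_of (h : S1E_statement) : UNIQ_statement := by
  intro ζ hnull hne n N Ω X hb hm hN hX hX0 hweak a₀
  obtain ⟨R, hR0, hR⟩ := hb.subset_ball_lt 0 (0 : E3)
  -- integrability of `X a * g` for continuous `g`
  have hint : ∀ a, ∀ g : E3 → ℂ, Continuous g → Integrable (fun x => X a x * g x) := by
    intro a g hg
    have h1 : IntegrableOn (X a) (Metric.closedBall (0 : E3) R) :=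
      ((hX a).locallyIntegrable (by norm_num)).integrableOn_isCompact (isCompact_closedBall _ _)
    have h2 := h1.mul_continuousOn hg.continuousOn (isCompact_closedBall _ _)
    refine (integrableOn_iff_integrable_of_support_subset ?_).1 h2
    intro x hx
    by_contra hcon
    apply hx
    have : x ∉ Ω := fun hxO => hcon (Metric.ball_subset_closedBall (hR hxO))
    simp [hX0 a x this]
  refine ae_eq_zero_of_integral_contDiff_smul_eq_zero
    ((hX a₀).locallyIntegrable (by norm_num)) fun φ hφ _ => ?_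
  have hφc : ContDiff ℝ ∞ (fun x => (φ x : ℂ)) := Complex.ofRealCLM.contDiff.comp hφ
  have hF : ∀ a, ContDiff ℝ ∞ (fun x => if a = a₀ then (φ x : ℂ) else 0) := by
    intro a
    by_cases ha : a = a₀
    · simp only [ha, if_true]; exact hφc
    · simp only [ha, if_false]; exact contDiff_const
  obtain ⟨W, hW, hWe, -⟩ := h ζ hnull hne n (fun a b x => - N b a x)
    (fun a x => if a = a₀ then (φ x : ℂ) else 0) 0 0 R (fun a b => (hN b a).neg) hF
  have key : ∀ a, ∫ x, X a x * Dz ζ (W a) x =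
      (∑ b, ∫ x, X a x * (-N b a x * W b x)) + ∫ x, X a x * (if a = a₀ then (φ x : ℂ) else 0) := by
    intro a
    rw [← integral_finsetSum, ← integral_add]
    · congr 1
      funext x
      by_cases hx : x ∈ Ω
      · have hxR : ‖x‖ < R := mem_ball_zero_iff.1 (hR hx)
        rw [hWe x hxR a, mul_add, Finset.mul_sum]
      · simp [hX0 a x hx]
    · refine integrable_finsetSum _ fun b _ => ?_
      exact hint a _ ((hN b a).continuous.neg.mul (hW b).continuous)
    · exact hint a _ (hF a).continuous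
    · intro b _
      exact hint a _ ((hN b a).continuous.neg.mul (hW b).continuous)
  have hsum : ∑ a, ((∫ x, X a x * Dz ζ (W a) x) + (∑ b, ∫ x, N a b x * X b x * W a x)) = 0 :=
    Finset.sum_eq_zero fun a _ => hweak a (W a) (hW a)
  simp only [key, Finset.sum_add_distrib] at hsum
  have h1 : ∑ a, ∑ b, ∫ x, X a x * (-N b a x * W b x) =
      - ∑ a, ∑ b, ∫ x, N a b x * X b x * W a x := by
    rw [Finset.sum_comm, ← Finset.sum_neg_distrib]
    refine Finset.sum_congr rfl fun a _ => ?_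
    rw [← Finset.sum_neg_distrib]
    refine Finset.sum_congr rfl fun b _ => ?_
    rw [← integral_neg]
    congr 1
    funext x
    ring
  have h2 : ∑ a, ∫ x, X a x * (if a = a₀ then (φ x : ℂ) else 0) = ∫ x, X a₀ x * φ x := by
    rw [Finset.sum_eq_single a₀]
    · simp
    · intro a _ ha
      simp [ha]
    · intro ha
      exact absurd (Finset.mem_univ _) ha
  rw [h1, h2] at hsum
  have h3 : ∫ x, X a₀ x * φ x = 0 := by linear_combination hsum
  rw [← h3]
  congr 1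
  funext x
  rw [Complex.real_smul, mul_comm]

end Vale.Agent.P136.S1EAux
end
end

section

section

/-!
# Calculus for `Dz`, `WDz`, `BL2`
-/

open MeasureTheory Filter Topology
open scoped ContDiff InnerProductSpace

namespace Vale.Agent.P136.EX

/-- `ζ·∇ X = g` weakly on `ℝ³`, tested against all smooth functions (used only for `X`, `g`
vanishing outside a bounded set). -/
def WDz (ζ : Fin 3 → ℂ) (X g : E3 → ℂ) : Prop :=
  ∀ ψ : E3 → ℂ, ContDiff ℝ ∞ ψ → ∫ x, X x * Dz ζ ψ x = - ∫ x, g x * ψ x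

/-- square integrable functions vanishing outside `Ω`. -/
structure BL2 (Ω : Set E3) (X : E3 → ℂ) : Prop where
  mem : MemLp X 2 (volume : Measure E3)
  zero : ∀ x, x ∉ Ω → X x = 0

section Dz

variable {ζ : Fin 3 → ℂ} {f g : E3 → ℂ} {x : E3}

lemma cpd_sub (hf : DifferentiableAt ℝ f x) (hg : DifferentiableAt ℝ g x) (i : Fin 3) :
    pd i (fun y => f y - g y) x = pd i f x - pd i g x := by
  unfold pd
  rw [fderiv_fun_sub hf hg]
  simp

lemma cpd_mul (hf : DifferentiableAt ℝ f x) (hg : DifferentiableAt ℝ g x) (i : Fin 3) :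
    pd i (fun y => f y * g y) x = f x * pd i g x + pd i f x * g x := by
  unfold pd
  rw [fderiv_fun_mul hf hg]
  simp [mul_comm]

lemma Dz_sub (hf : DifferentiableAt ℝ f x) (hg : DifferentiableAt ℝ g x) :
    Dz ζ (fun y => f y - g y) x = Dz ζ f x - Dz ζ g x := by
  unfold Dz
  simp only [cpd_sub hf hg, mul_sub, Finset.sum_sub_distrib]

lemma Dz_mul (hf : DifferentiableAt ℝ f x) (hg : DifferentiableAt ℝ g x) :
    Dz ζ (fun y => f y * g y) x = f x * Dz ζ g x + Dz ζ f x * g x := by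
  unfold Dz
  simp only [cpd_mul hf hg, Fin.sum_univ_three]
  ring

lemma Dz_const (c : ℂ) : Dz ζ (fun _ => c) x = 0 := by
  unfold Dz pd
  simp

lemma Dz_sum {ι : Type*} (s : Finset ι) {F : ι → E3 → ℂ}
    (hF : ∀ i ∈ s, DifferentiableAt ℝ (F i) x) :
    Dz ζ (fun y => ∑ i ∈ s, F i y) x = ∑ i ∈ s, Dz ζ (F i) x := by
  unfold Dz pd
  rw [fderiv_fun_sum hF]
  simp only [_root_.sum_apply, Finset.mul_sum]
  rw [Finset.sum_comm]

lemma Dz_contDiff (hf : ContDiff ℝ ∞ f) : ContDiff ℝ ∞ (Dz ζ f) := by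
  unfold Dz
  exact ContDiff.sum fun i _ => contDiff_const.mul (pd_contDiff_infty hf i)

lemma ContDiff.dAt (hf : ContDiff ℝ ∞ f) : DifferentiableAt ℝ f x :=
  (hf.differentiable (by simp)) x

lemma Dz_congr_of_eventuallyEq (h : f =ᶠ[𝓝 x] g) : Dz ζ f x = Dz ζ g x := by
  unfold Dz pd
  rw [h.fderiv_eq]

end Dz

section BL2

variable {Ω : Set E3} {X Y g f : E3 → ℂ}

lemma BL2.zero' : BL2 Ω (fun _ => 0) := ⟨MemLp.zero', fun _ _ => rfl⟩

lemma BL2.add (hX : BL2 Ω X) (hY : BL2 Ω Y) : BL2 Ω (fun x => X x + Y x) :=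
  ⟨hX.mem.add hY.mem, fun x hx => by simp [hX.zero x hx, hY.zero x hx]⟩

lemma BL2.sub (hX : BL2 Ω X) (hY : BL2 Ω Y) : BL2 Ω (fun x => X x - Y x) :=
  ⟨hX.mem.sub hY.mem, fun x hx => by simp [hX.zero x hx, hY.zero x hx]⟩

lemma BL2.neg (hX : BL2 Ω X) : BL2 Ω (fun x => - X x) :=
  ⟨hX.mem.neg, fun x hx => by simp [hX.zero x hx]⟩

lemma BL2.sum {ι : Type*} (s : Finset ι) {F : ι → E3 → ℂ} (hF : ∀ i ∈ s, BL2 Ω (F i)) :
    BL2 Ω (fun x => ∑ i ∈ s, F i x) :=
  ⟨memLp_finsetSum s fun i hi => (hF i hi).mem, fun x hx =>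
    Finset.sum_eq_zero fun i hi => (hF i hi).zero x hx⟩

/-- a continuous function is bounded on a bounded set -/
lemma exists_bound_on (hΩ : Bornology.IsBounded Ω) (hf : Continuous f) :
    ∃ M : ℝ, 0 ≤ M ∧ ∀ x ∈ Ω, ‖f x‖ ≤ M := by
  have hc : IsCompact (closure Ω) := hΩ.isCompact_closure
  obtain ⟨M, hM⟩ := hc.exists_bound_of_continuousOn hf.continuousOn
  refine ⟨max M 0, le_max_right _ _, fun x hx => (hM x (subset_closure hx)).trans (le_max_left _ _)⟩

lemma BL2.mul (hΩ : Bornology.IsBounded Ω) (hX : BL2 Ω X) (hf : Continuous f) :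
    BL2 Ω (fun x => f x * X x) := by
  obtain ⟨M, hM0, hM⟩ := exists_bound_on hΩ hf
  refine ⟨?_, fun x hx => by simp [hX.zero x hx]⟩
  have h1 : MemLp (fun x => (M : ℂ) * X x) 2 (volume : Measure E3) := hX.mem.const_mul _
  refine h1.mono (hf.aestronglyMeasurable.mul hX.mem.aestronglyMeasurable) ?_
  refine Eventually.of_forall fun x => ?_
  by_cases hx : x ∈ Ω
  · simp only [norm_mul, Complex.norm_real, Real.norm_eq_abs, abs_of_nonneg hM0]
    exact mul_le_mul_of_nonneg_right (hM x hx) (norm_nonneg _)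
  · simp [hX.zero x hx]

lemma BL2.mul' (hΩ : Bornology.IsBounded Ω) (hX : BL2 Ω X) (hf : Continuous f) :
    BL2 Ω (fun x => X x * f x) := by
  have := hX.mul hΩ hf
  simpa only [mul_comm] using this

lemma BL2.integrable (hΩ : Bornology.IsBounded Ω) (hX : BL2 Ω X) : Integrable X := by
  have hc : IsCompact (closure Ω) := hΩ.isCompact_closure
  have h1 : IntegrableOn X (closure Ω) := by
    have : IsFiniteMeasure (volume.restrict (closure Ω) : Measure E3) :=
      ⟨by rw [Measure.restrict_apply_univ]; exact hc.measure_lt_top⟩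
    exact (hX.mem.restrict _).integrable (by norm_num)
  rwa [integrableOn_iff_integrable_of_support_subset] at h1
  intro x hx
  by_contra hn
  exact hx (hX.zero x fun h => hn (subset_closure h))

lemma BL2.integrable_mul (hΩ : Bornology.IsBounded Ω) (hX : BL2 Ω X) (hf : Continuous f) :
    Integrable (fun x => X x * f x) := (hX.mul' hΩ hf).integrable hΩ

lemma BL2.indicator (hΩ : Bornology.IsBounded Ω) (hm : MeasurableSet Ω) (hf : Continuous f) :
    BL2 Ω (Ω.indicator f) := by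
  obtain ⟨M, hM0, hM⟩ := exists_bound_on hΩ hf
  refine ⟨?_, fun x hx => Set.indicator_of_notMem hx f⟩
  rw [memLp_indicator_iff_restrict hm]
  have : IsFiniteMeasure (volume.restrict Ω : Measure E3) :=
    ⟨by rw [Measure.restrict_apply_univ]; exact hΩ.measure_lt_top⟩
  refine MemLp.of_bound hf.aestronglyMeasurable M ?_
  exact ae_restrict_of_forall_mem hm hM

lemma BL2.congr (hX : BL2 Ω X) (h : ∀ x, X x = Y x) : BL2 Ω Y := by
  have : X = Y := funext h
  exact this ▸ hX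

end BL2

section WDz

variable {Ω : Set E3} {X Y g k f : E3 → ℂ} {ζ : Fin 3 → ℂ}

lemma WDz.congr (h : WDz ζ X g) (h1 : ∀ x, X x = Y x) (h2 : ∀ x, g x = k x) : WDz ζ Y k := by
  have e1 : X = Y := funext h1
  have e2 : g = k := funext h2
  rw [← e1, ← e2]; exact h

lemma WDz.congr_ae (h : WDz ζ X g) (h1 : X =ᵐ[volume] Y) (h2 : g =ᵐ[volume] k) :
    WDz ζ Y k := by
  intro ψ hψ
  have e1 : ∫ x, Y x * Dz ζ ψ x = ∫ x, X x * Dz ζ ψ x := by
    apply integral_congr_ae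
    filter_upwards [h1] with x hx
    rw [hx]
  have e2 : ∫ x, k x * ψ x = ∫ x, g x * ψ x := by
    apply integral_congr_ae
    filter_upwards [h2] with x hx
    rw [hx]
  rw [e1, e2]
  exact h ψ hψ

lemma WDz.add (hΩ : Bornology.IsBounded Ω) (hX : BL2 Ω X) (hY : BL2 Ω Y) (hg : BL2 Ω g)
    (hk : BL2 Ω k) (h1 : WDz ζ X g) (h2 : WDz ζ Y k) :
    WDz ζ (fun x => X x + Y x) (fun x => g x + k x) := by
  intro ψ hψ
  have hD : Continuous (Dz ζ ψ) := (Dz_contDiff hψ).continuous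
  simp only [add_mul]
  rw [integral_add (hX.integrable_mul hΩ hD) (hY.integrable_mul hΩ hD),
    integral_add (hg.integrable_mul hΩ hψ.continuous) (hk.integrable_mul hΩ hψ.continuous),
    h1 ψ hψ, h2 ψ hψ]
  ring

lemma WDz.neg (h1 : WDz ζ X g) : WDz ζ (fun x => - X x) (fun x => - g x) := by
  intro ψ hψ
  simp only [neg_mul, integral_neg]
  rw [h1 ψ hψ]

lemma WDz.sub (hΩ : Bornology.IsBounded Ω) (hX : BL2 Ω X) (hY : BL2 Ω Y) (hg : BL2 Ω g)
    (hk : BL2 Ω k) (h1 : WDz ζ X g) (h2 : WDz ζ Y k) :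
    WDz ζ (fun x => X x - Y x) (fun x => g x - k x) := by
  have := WDz.add hΩ hX hY.neg hg hk.neg h1 h2.neg
  simpa only [sub_eq_add_neg] using this

lemma WDz.sum (hΩ : Bornology.IsBounded Ω) {ι : Type*} (s : Finset ι) {F G : ι → E3 → ℂ}
    (hF : ∀ i ∈ s, BL2 Ω (F i)) (hG : ∀ i ∈ s, BL2 Ω (G i)) (h : ∀ i ∈ s, WDz ζ (F i) (G i)) :
    WDz ζ (fun x => ∑ i ∈ s, F i x) (fun x => ∑ i ∈ s, G i x) := by
  intro ψ hψ
  have hD : Continuous (Dz ζ ψ) := (Dz_contDiff hψ).continuous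
  simp only [Finset.sum_mul]
  rw [integral_finsetSum _ fun i hi => (hF i hi).integrable_mul hΩ hD,
    integral_finsetSum _ fun i hi => (hG i hi).integrable_mul hΩ hψ.continuous,
    ← Finset.sum_neg_distrib]
  exact Finset.sum_congr rfl fun i hi => h i hi ψ hψ

/-- Product rule. -/
lemma WDz.mul (hΩ : Bornology.IsBounded Ω) (hX : BL2 Ω X) (hg : BL2 Ω g) (h : WDz ζ X g)
    (hf : ContDiff ℝ ∞ f) :
    WDz ζ (fun x => f x * X x) (fun x => f x * g x + Dz ζ f x * X x) := by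
  intro ψ hψ
  have hfψ : ContDiff ℝ ∞ (fun x => f x * ψ x) := hf.mul hψ
  have h1 := h _ hfψ
  have hDf : Continuous (Dz ζ f) := (Dz_contDiff hf).continuous
  have hDψ : Continuous (Dz ζ ψ) := (Dz_contDiff hψ).continuous
  have e1 : ∀ x, Dz ζ (fun x => f x * ψ x) x = f x * Dz ζ ψ x + Dz ζ f x * ψ x := fun x =>
    Dz_mul (ContDiff.dAt hf) (ContDiff.dAt hψ)
  simp only [e1] at h1
  have i1 : Integrable (fun x => X x * (f x * Dz ζ ψ x)) :=
    hX.integrable_mul hΩ (hf.continuous.mul hDψ)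
  have i2 : Integrable (fun x => X x * (Dz ζ f x * ψ x)) :=
    hX.integrable_mul hΩ (hDf.mul hψ.continuous)
  have i3 : Integrable (fun x => g x * (f x * ψ x)) :=
    hg.integrable_mul hΩ (hf.continuous.mul hψ.continuous)
  have e2 : ∫ x, X x * (f x * Dz ζ ψ x + Dz ζ f x * ψ x) =
      (∫ x, X x * (f x * Dz ζ ψ x)) + ∫ x, X x * (Dz ζ f x * ψ x) := by
    rw [← integral_add i1 i2]
    congr 1
    funext x
    ring
  rw [e2] at h1
  have e3 : ∫ x, f x * X x * Dz ζ ψ x = ∫ x, X x * (f x * Dz ζ ψ x) := by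
    congr 1
    funext x
    ring
  have e4 : ∫ x, (f x * g x + Dz ζ f x * X x) * ψ x =
      (∫ x, g x * (f x * ψ x)) + ∫ x, X x * (Dz ζ f x * ψ x) := by
    rw [← integral_add i3 i2]
    congr 1
    funext x
    ring
  rw [e3, e4]
  linear_combination h1

end WDz

end Vale.Agent.P136.EX
end
end

section

section

open MeasureTheory Filter Topology
open scoped ContDiff InnerProductSpace

namespace Vale.Agent.P136

/-- the `3 x 3` matrix of the amplitude system (S): `D (h, G, z) = Nm (h, G, z)`. -/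
noncomputable def Nm (ζ ζ' : Fin 3 → ℂ) (mu a : E3 → ℝ) (i j : Fin 3) (x : E3) : ℂ :=
  (![![0, 0, 0],
     ![-Dz ζ' (cc fun y => √(mu y)) x, 0, -(1 / (a x : ℂ))],
     ![(√(mu x) : ℂ) * Dz ζ (Dz ζ' (cc fun y => (mu y)⁻¹)) x,
       Dz ζ (Dz ζ (cc fun y => (mu y)⁻¹)) x, 0]] : Fin 3 → Fin 3 → ℂ) i j

/-- `Q = R - 1` where `R = [[1,0,0],[ρ,γ,ε],[κ,β,α]]` is the transfer matrix:
`D Q = N₂ Q - Q N₁ + 1_Ω (N₂ - N₁)` weakly, `Q = 0` outside `Ω`. -/
def QSol (Ω : Set E3) (ζ ζ' : Fin 3 → ℂ) (mu₁ a₁ mu₂ a₂ : E3 → ℝ)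
    (Q : Fin 3 → Fin 3 → E3 → ℂ) : Prop :=
  (∀ i j, MemLp (Q i j) 2 (volume : Measure E3)) ∧
  (∀ i j x, x ∉ Ω → Q i j x = 0) ∧ (∀ j x, Q 0 j x = 0) ∧
  ∀ i j, ∀ ψ : E3 → ℂ, ContDiff ℝ ∞ ψ →
    (∫ x, Q i j x * Dz ζ ψ x) =
      - (∫ x, (∑ k, (Nm ζ ζ' mu₂ a₂ i k x * Q k j x - Q i k x * Nm ζ ζ' mu₁ a₁ k j x)) * ψ x)
      - (∫ x in Ω, (Nm ζ ζ' mu₂ a₂ i j x - Nm ζ ζ' mu₁ a₁ i j x) * ψ x)

/-- the standing hypotheses of `CP1_statement` (without `TLS`). -/
structure CPHyp (Ω : Set E3) (mu₁ a₁ mu₂ a₂ : E3 → ℝ) : Prop where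
  isOpen : IsOpen Ω
  isBounded : Bornology.IsBounded Ω
  mu₁_smooth : ContDiff ℝ ∞ mu₁
  a₁_smooth : ContDiff ℝ ∞ a₁
  mu₂_smooth : ContDiff ℝ ∞ mu₂
  a₂_smooth : ContDiff ℝ ∞ a₂
  mu₁_pos : ∀ x, 0 < mu₁ x
  a₁_pos : ∀ x, 0 < a₁ x
  mu₂_pos : ∀ x, 0 < mu₂ x
  a₂_pos : ∀ x, 0 < a₂ x
  am₁ : ∀ x, 2 < a₁ x * mu₁ x
  am₂ : ∀ x, 2 < a₂ x * mu₂ x
  bdry : ∀ x ∈ frontier Ω, mu₁ x = mu₂ x ∧ fderiv ℝ mu₁ x = fderiv ℝ mu₂ x ∧
      a₁ x = a₂ x ∧ fderiv ℝ a₁ x = fderiv ℝ a₂ x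

/-- CP1a (task 517): existence of the transfer matrix for a fixed null pair. -/
def EXQ_statement : Prop :=
  ∀ (Ω : Set E3) (mu₁ a₁ mu₂ a₂ : E3 → ℝ), CPHyp Ω mu₁ a₁ mu₂ a₂ → TLS Ω mu₁ a₁ mu₂ a₂ →
    ∀ ζ ζ' : Fin 3 → ℂ, dot ζ ζ = 0 → dot ζ ζ' = 0 → dot ζ' ζ' ≠ 0 → ζ ≠ 0 →
      ∃ Q, QSol Ω ζ ζ' mu₁ a₁ mu₂ a₂ Q

/-- CP1b (task 518): holomorphy in `s` and Liouville: `ε = 0`, `γ = √(μ₂/μ₁)` at `s = 0`. -/
def GAM_statement : Prop :=
  ∀ (Ω : Set E3) (mu₁ a₁ mu₂ a₂ : E3 → ℝ), CPHyp Ω mu₁ a₁ mu₂ a₂ →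
    (∀ s : ℂ, ∃ Q, QSol Ω (zs s) (zs' s) mu₁ a₁ mu₂ a₂ Q) →
    (∀ s : ℂ, ∃ Q, QSol Ω (zh s) (zh' s) mu₁ a₁ mu₂ a₂ Q) →
    ∃ Q, QSol Ω (zs 0) (zs' 0) mu₁ a₁ mu₂ a₂ Q ∧
      (∀ᵐ x, Q 1 2 x = 0) ∧ (∀ᵐ x, Q 1 0 x = 0) ∧
      (∀ᵐ x, x ∈ Ω → 1 + Q 1 1 x = ((√(mu₂ x) / √(mu₁ x) : ℝ) : ℂ))

/-- CP1c (task 519): final algebra. -/
def ALG_statement : Prop :=
  ∀ (Ω : Set E3) (mu₁ a₁ mu₂ a₂ : E3 → ℝ), CPHyp Ω mu₁ a₁ mu₂ a₂ →
    ∀ Q, QSol Ω (zs 0) (zs' 0) mu₁ a₁ mu₂ a₂ Q →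
      (∀ᵐ x, Q 1 2 x = 0) → (∀ᵐ x, Q 1 0 x = 0) →
      (∀ᵐ x, x ∈ Ω → 1 + Q 1 1 x = ((√(mu₂ x) / √(mu₁ x) : ℝ) : ℂ)) →
      ∀ x ∈ Ω, mu₁ x = mu₂ x ∧ a₁ x = a₂ x

lemma dot_zs (s : ℂ) : dot (zs s) (zs s) = 0 := by
  simp only [dot, zs, Fin.sum_univ_three, Matrix.cons_val]
  linear_combination (1 + s ^ 2) ^ 2 * Complex.I_sq

lemma dot_zs_zs' (s : ℂ) : dot (zs s) (zs' s) = 0 := by
  simp only [dot, zs, zs', Fin.sum_univ_three, Matrix.cons_val]
  linear_combination (2 * s * (1 + s ^ 2)) * Complex.I_sq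

lemma dot_zs' (s : ℂ) : dot (zs' s) (zs' s) = 4 := by
  simp only [dot, zs', Fin.sum_univ_three, Matrix.cons_val]
  linear_combination (4 * s ^ 2) * Complex.I_sq

lemma dot_zh (s : ℂ) : dot (zh s) (zh s) = 0 := by
  simp only [dot, zh, Fin.sum_univ_three, Matrix.cons_val]
  linear_combination (s ^ 2 + 1) ^ 2 * Complex.I_sq

lemma dot_zh_zh' (s : ℂ) : dot (zh s) (zh' s) = 0 := by
  simp only [dot, zh, zh', Fin.sum_univ_three, Matrix.cons_val]
  linear_combination (2 * s * (s ^ 2 + 1)) * Complex.I_sq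

lemma dot_zh' (s : ℂ) : dot (zh' s) (zh' s) = 4 := by
  simp only [dot, zh', Fin.sum_univ_three, Matrix.cons_val]
  linear_combination (4 * s ^ 2) * Complex.I_sq

lemma zs_ne_zero (s : ℂ) : zs s ≠ 0 := by
  intro h
  have h0 := congrFun h 0
  have h2 := congrFun h 2
  simp [zs] at h0 h2
  subst h2
  norm_num at h0

lemma zh_ne_zero (s : ℂ) : zh s ≠ 0 := by
  intro h
  have h0 := congrFun h 0
  have h2 := congrFun h 2
  simp [zh] at h0 h2
  subst h2
  norm_num at h0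

/-- assembly of the `CP^1` argument. -/
theorem CP1_of (hE : EXQ_statement) (hG : GAM_statement) (hA : ALG_statement) :
    CP1_statement := by
  intro Ω mu₁ a₁ mu₂ a₂ ho hb h1 h2 h3 h4 p1 p2 p3 p4 q1 q2 hbd hT
  have H : CPHyp Ω mu₁ a₁ mu₂ a₂ := ⟨ho, hb, h1, h2, h3, h4, p1, p2, p3, p4, q1, q2, hbd⟩
  obtain ⟨Q, hQ, he, hr, hg⟩ := hG Ω mu₁ a₁ mu₂ a₂ H
    (fun s => hE Ω mu₁ a₁ mu₂ a₂ H hT _ _ (dot_zs s) (dot_zs_zs' s)
      (by rw [dot_zs']; norm_num) (zs_ne_zero s))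
    (fun s => hE Ω mu₁ a₁ mu₂ a₂ H hT _ _ (dot_zh s) (dot_zh_zh' s)
      (by rw [dot_zh']; norm_num) (zh_ne_zero s))
  exact hA Ω mu₁ a₁ mu₂ a₂ H Q hQ he hr hg

end Vale.Agent.P136
end
end

section

section

/-!
# EXQ: existence of the transfer matrix for a fixed null direction
-/

open MeasureTheory Filter Topology
open scoped ContDiff InnerProductSpace

namespace Vale.Agent.P136.EX

section uniq

variable {Ω : Set E3} {ζ : Fin 3 → ℂ}

/-- uniqueness in terms of `WDz`. -/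
lemma uniq_WDz (hU : UNIQ_statement) (hζ : dot ζ ζ = 0) (hζ0 : ζ ≠ 0)
    (hb : Bornology.IsBounded Ω) (hm : MeasurableSet Ω) {n : ℕ} (N : Fin n → Fin n → E3 → ℂ)
    (hN : ∀ a b, ContDiff ℝ ∞ (N a b)) (X : Fin n → E3 → ℂ) (hX : ∀ a, BL2 Ω (X a))
    (h : ∀ a, WDz ζ (X a) (fun x => ∑ b, N a b x * X b x)) : ∀ a, X a =ᵐ[volume] 0 := by
  refine hU ζ hζ hζ0 n N Ω X hb hm hN (fun a => (hX a).mem) (fun a => (hX a).zero) ?_
  intro a ψ hψ
  rw [h a ψ hψ]
  have e : ∫ x, (∑ b, N a b x * X b x) * ψ x = ∑ b, ∫ x, N a b x * X b x * ψ x := by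
    simp only [Finset.sum_mul]
    rw [integral_finsetSum]
    intro b _
    exact ((hX b).mul hb (hN a b).continuous).integrable_mul hb hψ.continuous
  rw [e]
  ring

/-- uniqueness for the matrix system `D Y = A Y - Y B`. -/
lemma uniq_mat (hU : UNIQ_statement) (hζ : dot ζ ζ = 0) (hζ0 : ζ ≠ 0)
    (hb : Bornology.IsBounded Ω) (hm : MeasurableSet Ω) (A B : Fin 3 → Fin 3 → E3 → ℂ)
    (hA : ∀ a b, ContDiff ℝ ∞ (A a b)) (hB : ∀ a b, ContDiff ℝ ∞ (B a b))
    (Y : Fin 3 → Fin 3 → E3 → ℂ) (hY : ∀ a b, BL2 Ω (Y a b))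
    (h : ∀ i j, WDz ζ (Y i j) (fun x => ∑ k, (A i k x * Y k j x - Y i k x * B k j x))) :
    ∀ i j, Y i j =ᵐ[volume] 0 := by
  let e : Fin (3 * 3) ≃ Fin 3 × Fin 3 := finProdFinEquiv.symm
  let N : Fin (3 * 3) → Fin (3 * 3) → E3 → ℂ := fun p q x =>
    (if (e p).2 = (e q).2 then A (e p).1 (e q).1 x else 0) -
      (if (e p).1 = (e q).1 then B (e q).2 (e p).2 x else 0)
  have hN : ∀ p q, ContDiff ℝ ∞ (N p q) := by
    intro p q
    refine ContDiff.sub ?_ ?_
    · by_cases hc : (e p).2 = (e q).2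
      · simp only [hc, if_true]; exact hA _ _
      · simp only [hc, if_false]; exact contDiff_const
    · by_cases hc : (e p).1 = (e q).1
      · simp only [hc, if_true]; exact hB _ _
      · simp only [hc, if_false]; exact contDiff_const
  have key := uniq_WDz hU hζ hζ0 hb hm N hN (fun p => Y (e p).1 (e p).2)
    (fun p => hY _ _) (fun p => by
      refine (h (e p).1 (e p).2).congr (fun x => rfl) fun x => ?_
      rw [← e.symm.sum_comp]
      simp only [N, Equiv.apply_symm_apply]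
      rw [Fintype.sum_prod_type]
      simp only [sub_mul, Finset.sum_sub_distrib, ite_mul, zero_mul]
      congr 1
      · simp
      · rw [Finset.sum_comm]
        simp [mul_comm])
  intro i j
  have := key (e.symm (i, j))
  simpa using this

end uniq

/-! ### three by three matrices -/

/-- adjugate of a `3 x 3` matrix -/
def adj3 (M : Fin 3 → Fin 3 → ℂ) (k a : Fin 3) : ℂ :=
  M (a + 1) (k + 1) * M (a + 2) (k + 2) - M (a + 1) (k + 2) * M (a + 2) (k + 1)

/-- determinant of a `3 x 3` matrix -/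
def det3 (M : Fin 3 → Fin 3 → ℂ) : ℂ :=
  M 0 0 * (M 1 1 * M 2 2 - M 1 2 * M 2 1) + M 0 1 * (M 1 2 * M 2 0 - M 1 0 * M 2 2) +
    M 0 2 * (M 1 0 * M 2 1 - M 1 1 * M 2 0)

lemma mul_adj3 (M : Fin 3 → Fin 3 → ℂ) (a b : Fin 3) :
    ∑ k, M a k * adj3 M k b = if a = b then det3 M else 0 := by
  fin_cases a <;> fin_cases b <;> simp [adj3, det3, Fin.sum_univ_three] <;> ring

section derivs

variable {ζ : Fin 3 → ℂ} {M : Fin 3 → Fin 3 → E3 → ℂ} {N : Fin 3 → Fin 3 → ℂ} {x : E3}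

lemma Dz_two {f g h k : E3 → ℂ} (hf : ContDiff ℝ ∞ f) (hg : ContDiff ℝ ∞ g)
    (hh : ContDiff ℝ ∞ h) (hk : ContDiff ℝ ∞ k) :
    Dz ζ (fun y => f y * g y - h y * k y) x =
      f x * Dz ζ g x + Dz ζ f x * g x - (h x * Dz ζ k x + Dz ζ h x * k x) := by
  have df : DifferentiableAt ℝ f x := ContDiff.dAt hf
  have dg : DifferentiableAt ℝ g x := ContDiff.dAt hg
  have dh : DifferentiableAt ℝ h x := ContDiff.dAt hh
  have dk : DifferentiableAt ℝ k x := ContDiff.dAt hk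
  have h1 := Dz_sub (ζ := ζ) (f := fun y => f y * g y) (g := fun y => h y * k y)
    (df.mul dg) (dh.mul dk)
  rw [h1, Dz_mul df dg, Dz_mul dh dk]

lemma Dz_adj3 (hM : ∀ a b, ContDiff ℝ ∞ (M a b)) (htr : N 0 0 + N 1 1 + N 2 2 = 0)
    (hD : ∀ a k, Dz ζ (M a k) x = ∑ b, N a b * M b k x) (k a : Fin 3) :
    Dz ζ (fun y => adj3 (fun i j => M i j y) k a) x =
      - ∑ c, adj3 (fun i j => M i j x) k c * N c a := by
  have h22 : N 2 2 = - N 0 0 - N 1 1 := by linear_combination htr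
  unfold adj3
  rw [Dz_two (hM _ _) (hM _ _) (hM _ _) (hM _ _), hD, hD, hD, hD]
  simp only [Fin.sum_univ_three]
  fin_cases k <;> fin_cases a <;> simp [h22] <;> ring

lemma Dz_det3 (hM : ∀ a b, ContDiff ℝ ∞ (M a b)) (htr : N 0 0 + N 1 1 + N 2 2 = 0)
    (hD : ∀ a k, Dz ζ (M a k) x = ∑ b, N a b * M b k x) :
    Dz ζ (fun y => det3 (fun i j => M i j y)) x = 0 := by
  have h22 : N 2 2 = - N 0 0 - N 1 1 := by linear_combination htr
  have hadj : ∀ k a, ContDiff ℝ ∞ (fun y => adj3 (fun i j => M i j y) k a) := fun k a =>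
    ((hM _ _).mul (hM _ _)).sub ((hM _ _).mul (hM _ _))
  have e : (fun y => det3 (fun i j => M i j y)) =
      fun y => ∑ k, M 0 k y * adj3 (fun i j => M i j y) k 0 := by
    funext y
    have := mul_adj3 (fun i j => M i j y) 0 0
    simp only [if_true] at this
    exact this.symm
  have h1 := Dz_sum (ζ := ζ) (x := x) (F := fun k y => M 0 k y * adj3 (fun i j => M i j y) k 0)
    Finset.univ (fun k _ => ContDiff.dAt ((hM 0 k).mul (hadj k 0)))
  have h2 : ∀ k, Dz ζ (fun y => M 0 k y * adj3 (fun i j => M i j y) k 0) x =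
      M 0 k x * Dz ζ (fun y => adj3 (fun i j => M i j y) k 0) x +
        Dz ζ (M 0 k) x * adj3 (fun i j => M i j x) k 0 := fun k =>
    Dz_mul (ContDiff.dAt (hM 0 k)) (ContDiff.dAt (hadj k 0))
  rw [e, h1]
  simp only [h2, Dz_adj3 hM htr hD, hD]
  simp [adj3, Fin.sum_univ_three]
  ring

end derivs

lemma exists_weights {ι : Type*} {K : Set E3} (hK : IsCompact K) (t : Finset ι)
    (d : ι → E3 → ℂ) (hd : ∀ i, ContDiff ℝ ∞ (d i)) (hpos : ∀ x ∈ K, ∃ i ∈ t, d i x ≠ 0) :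
    ∃ g : ι → E3 → ℂ, (∀ i, ContDiff ℝ ∞ (g i)) ∧ ∀ x ∈ K, ∑ i ∈ t, g i x * d i x = 1 := by
  rcases K.eq_empty_or_nonempty with rfl | hne
  · exact ⟨fun _ _ => 0, fun _ => contDiff_const, by simp⟩
  set s : E3 → ℝ := fun x => ∑ i ∈ t, ‖d i x‖ ^ 2 with hs
  have hsm : ContDiff ℝ ∞ s := ContDiff.sum fun i _ => (hd i).norm_sq ℝ
  have hs0 : ∀ x, 0 ≤ s x := fun x => Finset.sum_nonneg fun i _ => sq_nonneg _
  have hsp : ∀ x ∈ K, 0 < s x := by
    intro x hx
    obtain ⟨i, hi, h⟩ := hpos x hx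
    exact Finset.sum_pos' (fun i _ => sq_nonneg _) ⟨i, hi, by positivity⟩
  obtain ⟨x₀, hx₀, hmin⟩ := hK.exists_isMinOn hne hsm.continuous.continuousOn
  set δ := s x₀ with hδ
  have hδp : 0 < δ := hsp x₀ hx₀
  set w : E3 → ℝ := fun x => s x + (1 - Real.smoothTransition (s x / δ)) with hw
  have hwm : ContDiff ℝ ∞ w :=
    hsm.add (contDiff_const.sub (Real.smoothTransition.contDiff.comp (hsm.div_const δ)))
  have hwp : ∀ x, w x ≠ 0 := by
    intro x
    rcases (hs0 x).eq_or_lt with h | h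
    · have : w x = 1 := by
        simp only [hw, ← h]
        simp [Real.smoothTransition.zero_of_nonpos]
      rw [this]; norm_num
    · have := Real.smoothTransition.le_one (s x / δ)
      simp only [hw]
      intro h0
      linarith only [h0, this, h]
  refine ⟨fun i x => (starRingEnd ℂ) (d i x) * (((w x)⁻¹ : ℝ) : ℂ), ?_, ?_⟩
  · intro i
    refine ContDiff.mul ?_ ?_
    · exact Complex.conjCLE.contDiff.comp (hd i)
    · exact Complex.ofRealCLM.contDiff.comp (hwm.inv hwp)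
  · intro x hx
    have h1 : w x = s x := by
      have : 1 ≤ s x / δ := by
        rw [le_div_iff₀ hδp, one_mul]
        exact hmin hx
      simp only [hw, Real.smoothTransition.one_of_one_le this]
      ring
    have h2 : ∀ i, (starRingEnd ℂ) (d i x) * (((w x)⁻¹ : ℝ) : ℂ) * d i x =
        ((‖d i x‖ ^ 2 * (s x)⁻¹ : ℝ) : ℂ) := by
      intro i
      rw [h1]
      have h3 : (starRingEnd ℂ) (d i x) * d i x = ((‖d i x‖ ^ 2 : ℝ) : ℂ) := by
        rw [← Complex.normSq_eq_conj_mul_self, Complex.normSq_eq_norm_sq]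
      push_cast at h3 ⊢
      linear_combination ((s x : ℂ)⁻¹) * h3
    simp only [h2]
    rw [← Complex.ofReal_sum, ← Finset.sum_mul]
    have : s x * (s x)⁻¹ = 1 := mul_inv_cancel₀ (hsp x hx).ne'
    simp only [hs] at this
    rw [this]
    simp

/-- abstract version. -/
theorem exq_abs (hU : UNIQ_statement) (hS : S1E_statement) {ζ : Fin 3 → ℂ}
    (hζ : dot ζ ζ = 0) (hζ0 : ζ ≠ 0) {Ω : Set E3} (hb : Bornology.IsBounded Ω)
    (ho : IsOpen Ω) {R : ℝ} (hR : Ω ⊆ Metric.ball 0 R)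
    (N₁ N₂ : Fin 3 → Fin 3 → E3 → ℂ) (hN₁ : ∀ a b, ContDiff ℝ ∞ (N₁ a b))
    (hN₂ : ∀ a b, ContDiff ℝ ∞ (N₂ a b))
    (htr : ∀ x, N₁ 0 0 x + N₁ 1 1 x + N₁ 2 2 x = 0)
    (hT : ∀ U : Fin 3 → E3 → ℂ, (∀ a, ContDiff ℝ ∞ (U a)) →
      (∀ x : E3, ‖x‖ < R → ∀ a, Dz ζ (U a) x = ∑ b, N₁ a b x * U b x) →
      ∃ X : Fin 3 → E3 → ℂ, (∀ a, BL2 Ω (X a)) ∧ (∀ x, X 0 x = 0) ∧
        ∀ a, WDz ζ (X a) (fun x => ∑ b, N₂ a b x * X b x +
          Ω.indicator (fun y => ∑ b, (N₂ a b y - N₁ a b y) * U b y) x)) :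
    ∃ Q : Fin 3 → Fin 3 → E3 → ℂ, (∀ i j, BL2 Ω (Q i j)) ∧ (∀ j x, Q 0 j x = 0) ∧
      ∀ i j, WDz ζ (Q i j) (fun x => ∑ k, (N₂ i k x * Q k j x - Q i k x * N₁ k j x)
        + Ω.indicator (fun y => N₂ i j y - N₁ i j y) x) := by
  classical
  have hm : MeasurableSet Ω := ho.measurableSet
  have h1 : ∀ (p : E3) (k : Fin 3), ∃ C : Fin 3 → E3 → ℂ, (∀ a, ContDiff ℝ ∞ (C a)) ∧
      (∀ x : E3, ‖x‖ < R → ∀ a, Dz ζ (C a) x = ∑ b, N₁ a b x * C b x) ∧
      ∀ a, C a p = if a = k then 1 else 0 := by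
    intro p k
    obtain ⟨U, hU1, hU2, hU3⟩ := hS ζ hζ hζ0 3 N₁ (fun _ _ => 0) p
      (fun a => if a = k then 1 else 0) R hN₁ (fun _ => contDiff_const)
    exact ⟨U, hU1, fun x hx a => by rw [hU2 x hx a, add_zero], hU3⟩
  choose C hC hCD hC0 using h1
  have h2 : ∀ (p : E3) (k : Fin 3), ∃ X : Fin 3 → E3 → ℂ, (∀ a, BL2 Ω (X a)) ∧
      (∀ x, X 0 x = 0) ∧ ∀ a, WDz ζ (X a) (fun x => ∑ b, N₂ a b x * X b x +
          Ω.indicator (fun y => ∑ b, (N₂ a b y - N₁ a b y) * C p k b y) x) :=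
    fun p k => hT _ (hC p k) (hCD p k)
  choose X hX hX0 hXD using h2
  -- notation
  set M : E3 → Fin 3 → Fin 3 → E3 → ℂ := fun p a k => C p k a with hMdef
  have hM : ∀ p a b, ContDiff ℝ ∞ (M p a b) := fun p a b => hC p b a
  have hMD : ∀ p (x : E3), ‖x‖ < R → ∀ a k, Dz ζ (M p a k) x = ∑ b, N₁ a b x * M p b k x :=
    fun p x hx a k => hCD p k x hx a
  set adj : E3 → Fin 3 → Fin 3 → E3 → ℂ := fun p k a y => adj3 (fun i j => M p i j y) k a
    with hadjdef
  have hadj : ∀ p k a, ContDiff ℝ ∞ (adj p k a) := fun p k a =>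
    ((hM p _ _).mul (hM p _ _)).sub ((hM p _ _).mul (hM p _ _))
  set d : E3 → E3 → ℂ := fun p y => det3 (fun i j => M p i j y) with hddef
  have hd : ∀ p, ContDiff ℝ ∞ (d p) := by
    intro p
    have e : d p = fun y => ∑ k, M p 0 k y * adj p k 0 y := by
      funext y
      have := mul_adj3 (fun i j => M p i j y) 0 0
      simp only [if_true] at this
      exact this.symm
    rw [e]
    exact ContDiff.sum fun k _ => (hM p 0 k).mul (hadj p k 0)
  have hadjD : ∀ p (x : E3), ‖x‖ < R → ∀ k a,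
      Dz ζ (adj p k a) x = - ∑ c, adj p k c x * N₁ c a x := fun p x hx k a =>
    Dz_adj3 (N := fun i j => N₁ i j x) (hM p) (htr x) (hMD p x hx) k a
  have hdD : ∀ p (x : E3), ‖x‖ < R → Dz ζ (d p) x = 0 := fun p x hx =>
    Dz_det3 (N := fun i j => N₁ i j x) (hM p) (htr x) (hMD p x hx)
  have hd1 : ∀ p, d p p = 1 := by
    intro p
    simp [hddef, det3, hMdef, hC0]
  have hCadj : ∀ p x a b, ∑ k, M p a k x * adj p k b x = if a = b then d p x else 0 :=
    fun p x a b => mul_adj3 (fun i j => M p i j x) a b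
  -- the matrices `A p = X p * adj p`
  set A : E3 → Fin 3 → Fin 3 → E3 → ℂ := fun p i j x => ∑ k, adj p k j x * X p k i x with hAdef
  have hA : ∀ p i j, BL2 Ω (A p i j) := fun p i j =>
    BL2.sum Finset.univ fun k _ => (hX p k i).mul hb (hadj p k j).continuous
  have hA0 : ∀ p j x, A p 0 j x = 0 := by
    intro p j x
    simp [hAdef, hX0]
  have hind : ∀ i j, Continuous (fun y => N₂ i j y - N₁ i j y) := fun i j =>
    (hN₂ i j).continuous.sub (hN₁ i j).continuous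
  have hgk : ∀ p k i, BL2 Ω (fun x => ∑ b, N₂ i b x * X p k b x +
      Ω.indicator (fun y => ∑ b, (N₂ i b y - N₁ i b y) * C p k b y) x) := fun p k i =>
    (BL2.sum Finset.univ fun b _ => (hX p k b).mul hb (hN₂ i b).continuous).add
      (BL2.indicator hb hm (continuous_finsetSum _ fun b _ =>
        (hind i b).mul (hC p k b).continuous))
  have hxR : ∀ x ∈ Ω, ‖x‖ < R := fun x hx => by simpa using hR hx
  have hAD : ∀ p i j, WDz ζ (A p i j) (fun x =>
      ∑ k, (N₂ i k x * A p k j x - A p i k x * N₁ k j x)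
        + d p x * Ω.indicator (fun y => N₂ i j y - N₁ i j y) x) := by
    intro p i j
    have h3 := WDz.sum (ζ := ζ) hb Finset.univ
      (F := fun k x => adj p k j x * X p k i x)
      (G := fun k x => adj p k j x * (∑ b, N₂ i b x * X p k b x +
          Ω.indicator (fun y => ∑ b, (N₂ i b y - N₁ i b y) * C p k b y) x) +
          Dz ζ (adj p k j) x * X p k i x)
      (fun k _ => (hX p k i).mul hb (hadj p k j).continuous)
      (fun k _ => ((hgk p k i).mul hb (hadj p k j).continuous).add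
        ((hX p k i).mul hb (Dz_contDiff (hadj p k j)).continuous))
      (fun k _ => WDz.mul hb (hX p k i) (hgk p k i) (hXD p k i) (hadj p k j))
    refine h3.congr (fun x => rfl) fun x => ?_
    by_cases hx : x ∈ Ω
    · simp only [Set.indicator_of_mem hx, hadjD p x (hxR x hx), hAdef]
      have key : ∑ b, (N₂ i b x - N₁ i b x) * (if b = j then d p x else 0) =
        (N₂ i j x - N₁ i j x) * d p x := by simp
      have e0 := hCadj p x 0 j
      have e1 := hCadj p x 1 j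
      have e2 := hCadj p x 2 j
      simp only [Fin.sum_univ_three, hMdef] at key e0 e1 e2 ⊢
      linear_combination key + (N₂ i 0 x - N₁ i 0 x) * e0 + (N₂ i 1 x - N₁ i 1 x) * e1 +
        (N₂ i 2 x - N₁ i 2 x) * e2
    · have hz : ∀ k a, X p k a x = 0 := fun k a => (hX p k a).zero x hx
      simp [Set.indicator_of_notMem hx, hAdef, hz]
  have hgA : ∀ p i j, BL2 Ω (fun x =>
      ∑ k, (N₂ i k x * A p k j x - A p i k x * N₁ k j x)
        + d p x * Ω.indicator (fun y => N₂ i j y - N₁ i j y) x) := fun p i j =>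
    (BL2.sum Finset.univ fun k _ => ((hA p k j).mul hb (hN₂ i k).continuous).sub
      ((hA p i k).mul' hb (hN₁ k j).continuous)).add
      ((BL2.indicator hb hm (hind i j)).mul hb (hd p).continuous)
  -- consistency
  have hcons : ∀ p q i j, (fun x => d q x * A p i j x - d p x * A q i j x) =ᵐ[volume] 0 := by
    intro p q
    refine uniq_mat hU hζ hζ0 hb hm N₂ N₁ hN₂ hN₁
      (fun i j x => d q x * A p i j x - d p x * A q i j x)
      (fun i j => ((hA p i j).mul hb (hd q).continuous).sub ((hA q i j).mul hb (hd p).continuous))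
      ?_
    intro i j
    have h4 := WDz.sub (ζ := ζ) hb ((hA p i j).mul hb (hd q).continuous)
      ((hA q i j).mul hb (hd p).continuous)
      (((hgA p i j).mul hb (hd q).continuous).add
        ((hA p i j).mul hb (Dz_contDiff (ζ := ζ) (hd q)).continuous))
      (((hgA q i j).mul hb (hd p).continuous).add
        ((hA q i j).mul hb (Dz_contDiff (ζ := ζ) (hd p)).continuous))
      (WDz.mul hb (hA p i j) (hgA p i j) (hAD p i j) (hd q))
      (WDz.mul hb (hA q i j) (hgA q i j) (hAD q i j) (hd p))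
    refine h4.congr (fun x => rfl) fun x => ?_
    by_cases hx : x ∈ Ω
    · simp only [hdD _ x (hxR x hx), Fin.sum_univ_three]
      ring
    · have hz : ∀ r a b, A r a b x = 0 := fun r a b => (hA r a b).zero x hx
      simp [Set.indicator_of_notMem hx, hz]
  -- finite cover
  have hK : IsCompact (closure Ω) := hb.isCompact_closure
  obtain ⟨t, ht⟩ := hK.elim_finite_subcover (fun p => {x | d p x ≠ 0})
    (fun p => isOpen_ne_fun (hd p).continuous continuous_const)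
    (fun x _ => Set.mem_iUnion.2 ⟨x, by simp [hd1 x]⟩)
  obtain ⟨g, hg, hg1⟩ := exists_weights hK t d hd (fun x hx => by
    have := ht hx
    simp only [Set.mem_iUnion, Set.mem_ofPred_eq] at this
    obtain ⟨p, hp, h⟩ := this
    exact ⟨p, hp, h⟩)
  have hAg : ∀ p i j, BL2 Ω (fun x => g p x * A p i j x) := fun p i j =>
    (hA p i j).mul hb (hg p).continuous
  refine ⟨fun i j x => ∑ p ∈ t, g p x * A p i j x, fun i j => BL2.sum t fun p _ => hAg p i j,
    fun j x => by simp [hA0], ?_⟩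
  intro i j
  have h5 := WDz.sum (ζ := ζ) hb t
      (F := fun p x => g p x * A p i j x)
      (G := fun p x => g p x * (∑ k, (N₂ i k x * A p k j x - A p i k x * N₁ k j x)
        + d p x * Ω.indicator (fun y => N₂ i j y - N₁ i j y) x) +
          Dz ζ (g p) x * A p i j x)
      (fun p _ => hAg p i j)
      (fun p _ => ((hgA p i j).mul hb (hg p).continuous).add
        ((hA p i j).mul hb (Dz_contDiff (hg p)).continuous))
      (fun p _ => WDz.mul hb (hA p i j) (hgA p i j) (hAD p i j) (hg p))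
  refine h5.congr_ae (Eventually.of_forall fun x => rfl) ?_
  have hae : ∀ᵐ x ∂(volume : Measure E3), ∀ p ∈ t, ∀ q ∈ t,
      d q x * A p i j x - d p x * A q i j x = 0 := by
    rw [Finset.eventually_all]
    intro p _
    rw [Finset.eventually_all]
    intro q _
    exact hcons p q i j
  filter_upwards [hae] with x hxae
  by_cases hx : x ∈ Ω
  · have hxc : x ∈ closure Ω := subset_closure hx
    -- `A p = d p * Q`
    have hAQ : ∀ p ∈ t, A p i j x = d p x * ∑ q ∈ t, g q x * A q i j x := by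
      intro p hp
      calc A p i j x = (∑ q ∈ t, g q x * d q x) * A p i j x := by rw [hg1 x hxc, one_mul]
        _ = ∑ q ∈ t, g q x * (d p x * A q i j x) := by
          rw [Finset.sum_mul]
          refine Finset.sum_congr rfl fun q hq => ?_
          have := hxae p hp q hq
          linear_combination (g q x) * this
        _ = d p x * ∑ q ∈ t, g q x * A q i j x := by
          rw [Finset.mul_sum]
          refine Finset.sum_congr rfl fun q hq => ?_
          ring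
    have hDs : ∑ p ∈ t, Dz ζ (g p) x * d p x = 0 := by
      have e1 : Dz ζ (fun y => ∑ p ∈ t, g p y * d p y) x = 0 := by
        rw [Dz_congr_of_eventuallyEq (g := fun _ => (1 : ℂ)) ?_, Dz_const]
        filter_upwards [ho.mem_nhds hx] with y hy
        exact hg1 y (subset_closure hy)
      rw [Dz_sum t (F := fun p y => g p y * d p y)
        (fun p _ => ContDiff.dAt ((hg p).mul (hd p)))] at e1
      rw [← e1]
      refine Finset.sum_congr rfl fun p _ => ?_
      rw [Dz_mul (ContDiff.dAt (hg p)) (ContDiff.dAt (hd p)), hdD p x (hxR x hx)]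
      ring
    have hz : ∑ p ∈ t, Dz ζ (g p) x * A p i j x = 0 := by
      calc ∑ p ∈ t, Dz ζ (g p) x * A p i j x
          = ∑ p ∈ t, (Dz ζ (g p) x * d p x) * ∑ q ∈ t, g q x * A q i j x := by
            refine Finset.sum_congr rfl fun p hp => ?_
            rw [hAQ p hp]
            ring
        _ = 0 := by rw [← Finset.sum_mul, hDs, zero_mul]
    simp only [Finset.sum_add_distrib, hz, add_zero, mul_add]
    congr 1
    · simp only [Finset.mul_sum, Finset.sum_mul]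
      rw [Finset.sum_comm]
      refine Finset.sum_congr rfl fun k _ => ?_
      rw [← Finset.sum_sub_distrib]
      refine Finset.sum_congr rfl fun p _ => ?_
      ring
    · calc ∑ p ∈ t, g p x * (d p x * Ω.indicator (fun y => N₂ i j y - N₁ i j y) x)
          = (∑ p ∈ t, g p x * d p x) * Ω.indicator (fun y => N₂ i j y - N₁ i j y) x := by
            rw [Finset.sum_mul]
            refine Finset.sum_congr rfl fun p _ => ?_
            ring
        _ = _ := by rw [hg1 x hxc, one_mul]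
  · have hz : ∀ r a b, A r a b x = 0 := fun r a b => (hA r a b).zero x hx
    simp [Set.indicator_of_notMem hx, hz]


/-! ### from TLS to the transfer matrix -/

lemma cc_contDiff {f : E3 → ℝ} (hf : ContDiff ℝ ∞ f) : ContDiff ℝ ∞ (cc f) :=
  Complex.ofRealCLM.contDiff.comp hf

lemma cc_sqrt_contDiff {f : E3 → ℝ} (hf : ContDiff ℝ ∞ f) (hp : ∀ x, 0 < f x) :
    ContDiff ℝ ∞ (cc fun y => √(f y)) := cc_contDiff (hf.sqrt fun x => (hp x).ne')

lemma cc_inv_contDiff {f : E3 → ℝ} (hf : ContDiff ℝ ∞ f) (hp : ∀ x, 0 < f x) :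
    ContDiff ℝ ∞ (cc fun y => (f y)⁻¹) := cc_contDiff (hf.inv fun x => (hp x).ne')

lemma Nm_contDiff {ζ ζ' : Fin 3 → ℂ} {mu a : E3 → ℝ} (hmu : ContDiff ℝ ∞ mu)
    (ha : ContDiff ℝ ∞ a) (pmu : ∀ x, 0 < mu x) (pa : ∀ x, 0 < a x) (i j : Fin 3) :
    ContDiff ℝ ∞ (Nm ζ ζ' mu a i j) := by
  have h0 : ContDiff ℝ ∞ (fun _ : E3 => (0 : ℂ)) := contDiff_const
  have h1 : ContDiff ℝ ∞ (fun x => - Dz ζ' (cc fun y => √(mu y)) x) :=
    (Dz_contDiff (cc_sqrt_contDiff hmu pmu)).neg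
  have h2 : ContDiff ℝ ∞ (fun x => -(1 / (a x : ℂ))) := by
    have h := ((cc_contDiff ha).inv fun x => Complex.ofReal_ne_zero.2 (pa x).ne').neg
    have e : (fun x => -(1 / (a x : ℂ))) = fun x => -(cc a x)⁻¹ := by
      funext x
      simp [cc]
    rw [e]
    exact h
  have h3 : ContDiff ℝ ∞ (fun x => (√(mu x) : ℂ) * Dz ζ (Dz ζ' (cc fun y => (mu y)⁻¹)) x) :=
    (cc_sqrt_contDiff hmu pmu).mul (Dz_contDiff (Dz_contDiff (cc_inv_contDiff hmu pmu)))
  have h4 : ContDiff ℝ ∞ (fun x => Dz ζ (Dz ζ (cc fun y => (mu y)⁻¹)) x) :=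
    Dz_contDiff (Dz_contDiff (cc_inv_contDiff hmu pmu))
  fin_cases i <;> fin_cases j
  · exact h0
  · exact h0
  · exact h0
  · exact h1
  · exact h0
  · exact h2
  · exact h3
  · exact h4
  · exact h0

/-- turning the two integrals of `TLS` into `WDz`. -/
lemma WDz_of_integrals {Ω : Set E3} (hb : Bornology.IsBounded Ω) (hm : MeasurableSet Ω)
    {ζ : Fin 3 → ℂ} {X g f : E3 → ℂ} (hg : BL2 Ω g) (hf : Continuous f)
    (h : ∀ ψ : E3 → ℂ, ContDiff ℝ ∞ ψ → (∫ x, X x * Dz ζ ψ x) =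
      - (∫ x, g x * ψ x) - (∫ x in Ω, f x * ψ x)) :
    WDz ζ X (fun x => g x + Ω.indicator f x) := by
  intro ψ hψ
  rw [h ψ hψ]
  have e1 : ∫ x in Ω, f x * ψ x = ∫ x, Ω.indicator f x * ψ x := by
    rw [← integral_indicator hm]
    congr 1
    funext x
    by_cases hx : x ∈ Ω <;> simp [hx]
  rw [e1]
  simp only [add_mul]
  rw [integral_add (hg.integrable_mul hb hψ.continuous)
    ((BL2.indicator hb hm hf).integrable_mul hb hψ.continuous)]
  ring

lemma integrals_of_WDz {Ω : Set E3} (hb : Bornology.IsBounded Ω) (hm : MeasurableSet Ω)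
    {ζ : Fin 3 → ℂ} {X g f : E3 → ℂ} (hg : BL2 Ω g) (hf : Continuous f)
    (h : WDz ζ X (fun x => g x + Ω.indicator f x)) {ψ : E3 → ℂ} (hψ : ContDiff ℝ ∞ ψ) :
    (∫ x, X x * Dz ζ ψ x) = - (∫ x, g x * ψ x) - (∫ x in Ω, f x * ψ x) := by
  rw [h ψ hψ]
  have e1 : ∫ x in Ω, f x * ψ x = ∫ x, Ω.indicator f x * ψ x := by
    rw [← integral_indicator hm]
    congr 1
    funext x
    by_cases hx : x ∈ Ω <;> simp [hx]
  rw [e1]
  simp only [add_mul]
  rw [integral_add (hg.integrable_mul hb hψ.continuous)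
    ((BL2.indicator hb hm hf).integrable_mul hb hψ.continuous)]
  ring

end Vale.Agent.P136.EX

namespace Vale.Agent.P136

open EX in
/-- CP1a: existence of the transfer matrix. -/
theorem EXQ_of (hS : S1E_statement) (hU : UNIQ_statement) : EXQ_statement := by
  intro Ω mu₁ a₁ mu₂ a₂ H hT ζ ζ' hζ hζζ' hζ' hζ0
  have hb := H.isBounded
  have ho := H.isOpen
  have hm : MeasurableSet Ω := ho.measurableSet
  have hN₁ := fun i j => Nm_contDiff (ζ := ζ) (ζ' := ζ') H.mu₁_smooth H.a₁_smooth H.mu₁_pos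
    H.a₁_pos i j
  have hN₂ := fun i j => Nm_contDiff (ζ := ζ) (ζ' := ζ') H.mu₂_smooth H.a₂_smooth H.mu₂_pos
    H.a₂_pos i j
  obtain ⟨r, hr⟩ := hb.closure.subset_ball (0 : E3)
  set R : ℝ := 8 * max r 0 with hRdef
  have hR8 : closure Ω ⊆ Metric.ball 0 (R / 8) := by
    refine hr.trans (Metric.ball_subset_ball ?_)
    rw [hRdef]
    have := le_max_left r 0
    linarith
  have hR : Ω ⊆ Metric.ball 0 R := by
    refine subset_closure.trans (hr.trans (Metric.ball_subset_ball ?_))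
    have := le_max_left r 0
    have := le_max_right r 0
    linarith
  obtain ⟨Q, hQ, hQ0, hQD⟩ := exq_abs hU hS hζ hζ0 hb ho hR
    (Nm ζ ζ' mu₁ a₁) (Nm ζ ζ' mu₂ a₂) hN₁ hN₂ (fun x => by simp [Nm]) (by
      intro U hUs hUD
      have hs : Ssol ζ ζ' mu₁ a₁ R (U 0) (U 1) (U 2) := by
        intro x hx
        have e0 := hUD x hx 0
        have e1 := hUD x hx 1
        have e2 := hUD x hx 2
        simp only [Nm, Fin.sum_univ_three, Matrix.cons_val] at e0 e1 e2
        refine ⟨?_, ?_, ?_⟩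
        · rw [e0]; ring
        · rw [e1]; ring
        · rw [e2]; ring
      obtain ⟨XG, Xz, m1, m2, z1, z2, w1, w2⟩ :=
        hT ζ ζ' R hζ hζζ' hζ' hR8 (U 0) (U 1) (U 2) (hUs 0) (hUs 1) (hUs 2) hs
      have bG : BL2 Ω XG := ⟨m1, z1⟩
      have bz : BL2 Ω Xz := ⟨m2, z2⟩
      refine ⟨![fun _ => 0, XG, Xz], ?_, fun x => rfl, ?_⟩
      · intro a
        fin_cases a
        · exact BL2.zero'
        · exact bG
        · exact bz
      · intro a
        have hbl : BL2 Ω (fun x => ∑ b, Nm ζ ζ' mu₂ a₂ a b x *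
            (![fun _ => 0, XG, Xz] : Fin 3 → E3 → ℂ) b x) := by
          refine BL2.sum Finset.univ fun b _ => BL2.mul hb ?_ (hN₂ a b).continuous
          fin_cases b
          · exact BL2.zero'
          · exact bG
          · exact bz
        refine WDz_of_integrals hb hm hbl (continuous_finsetSum _ fun b _ =>
          ((hN₂ a b).continuous.sub (hN₁ a b).continuous).mul (hUs b).continuous) ?_
        intro ψ hψ
        fin_cases a
        · simp [Nm, Fin.sum_univ_three]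
        · have h := w1 ψ hψ
          have e1 : ∀ x, (∑ b, Nm ζ ζ' mu₂ a₂ 1 b x *
              (![fun _ => 0, XG, Xz] : Fin 3 → E3 → ℂ) b x) * ψ x =
              - (Xz x / a₂ x * ψ x) := by
            intro x
            simp only [Nm, Fin.sum_univ_three, Matrix.cons_val]
            ring
          have e2 : ∀ x, (∑ b, (Nm ζ ζ' mu₂ a₂ 1 b x - Nm ζ ζ' mu₁ a₁ 1 b x) * U b x) * ψ x =
              - ((U 2 x / a₂ x - U 2 x / a₁ x + U 0 x * Dz ζ' (cc fun y => √(mu₂ y)) x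
                - U 0 x * Dz ζ' (cc fun y => √(mu₁ y)) x) * ψ x) := by
            intro x
            simp only [Nm, Fin.sum_univ_three, Matrix.cons_val]
            ring
          calc (∫ x, XG x * Dz ζ ψ x) = _ := h
            _ = _ := by
              have i1 : (∫ x, (∑ b, Nm ζ ζ' mu₂ a₂ 1 b x *
                (![fun _ => 0, XG, Xz] : Fin 3 → E3 → ℂ) b x) * ψ x) =
                - ∫ x, Xz x / a₂ x * ψ x := by
                rw [← integral_neg]
                exact integral_congr_ae (Eventually.of_forall e1)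
              have i2 : (∫ x in Ω, (∑ b, (Nm ζ ζ' mu₂ a₂ 1 b x - Nm ζ ζ' mu₁ a₁ 1 b x)
                  * U b x) * ψ x) =
                - ∫ x in Ω, (U 2 x / a₂ x - U 2 x / a₁ x + U 0 x *
                  Dz ζ' (cc fun y => √(mu₂ y)) x
                  - U 0 x * Dz ζ' (cc fun y => √(mu₁ y)) x) * ψ x := by
                rw [← integral_neg]
                exact integral_congr_ae (Eventually.of_forall e2)
              have hgoal := congrArg₂ (fun u v : ℂ => - u - v) i1 i2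
              simp only [neg_neg, sub_neg_eq_add] at hgoal
              exact hgoal.symm
        · have h := w2 ψ hψ
          have e1 : ∀ x, (∑ b, Nm ζ ζ' mu₂ a₂ 2 b x *
              (![fun _ => 0, XG, Xz] : Fin 3 → E3 → ℂ) b x) * ψ x =
              Dz ζ (Dz ζ (cc fun y => (mu₂ y)⁻¹)) x * XG x * ψ x := by
            intro x
            simp only [Nm, Fin.sum_univ_three, Matrix.cons_val]
            ring
          have e2 : ∀ x, (∑ b, (Nm ζ ζ' mu₂ a₂ 2 b x - Nm ζ ζ' mu₁ a₁ 2 b x) * U b x) * ψ x =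
              ((Dz ζ (Dz ζ (cc fun y => (mu₂ y)⁻¹)) x
                - Dz ζ (Dz ζ (cc fun y => (mu₁ y)⁻¹)) x) * U 1 x
              + U 0 x * (√(mu₂ x) * Dz ζ (Dz ζ' (cc fun y => (mu₂ y)⁻¹)) x
                - √(mu₁ x) * Dz ζ (Dz ζ' (cc fun y => (mu₁ y)⁻¹)) x)) * ψ x := by
            intro x
            simp only [Nm, Fin.sum_univ_three, Matrix.cons_val]
            ring
          have i1 := integral_congr_ae (μ := (volume : Measure E3)) (Eventually.of_forall e1)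
          have i2 := integral_congr_ae (μ := (volume : Measure E3).restrict Ω)
            (Eventually.of_forall e2)
          have hgoal := congrArg₂ (fun u v : ℂ => - u - v) i1 i2
          exact h.trans hgoal.symm)
  refine ⟨Q, fun i j => (hQ i j).mem, fun i j => (hQ i j).zero, hQ0, ?_⟩
  intro i j ψ hψ
  refine integrals_of_WDz hb hm ?_ ((hN₂ i j).continuous.sub (hN₁ i j).continuous)
    (hQD i j) hψ
  exact BL2.sum Finset.univ fun k _ => ((hQ k j).mul hb (hN₂ i k).continuous).sub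
      ((hQ i k).mul' hb (hN₁ k j).continuous)

end Vale.Agent.P136
end
end

section

section

open MeasureTheory Filter Topology
open scoped ContDiff InnerProductSpace

namespace Vale.Agent.P136.CP

/-! ### Calculus of `Dz` -/

section Dz

lemma pd_add' {f g : E3 → ℂ} {x : E3} (i : Fin 3) (hf : DifferentiableAt ℝ f x)
    (hg : DifferentiableAt ℝ g x) : pd i (fun y => f y + g y) x = pd i f x + pd i g x := by
  unfold pd
  rw [fderiv_fun_add hf hg]; rfl

lemma pd_mul' {f g : E3 → ℂ} {x : E3} (i : Fin 3) (hf : DifferentiableAt ℝ f x)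
    (hg : DifferentiableAt ℝ g x) :
    pd i (fun y => f y * g y) x = pd i f x * g x + f x * pd i g x := by
  unfold pd
  rw [fderiv_fun_mul hf hg]
  simp only [add_apply, smul_apply, smul_eq_mul]
  ring

lemma pd_const' (c : ℂ) (i : Fin 3) (x : E3) : pd i (fun _ => c) x = 0 := by
  unfold pd
  simp

lemma pd_const_mul' (c : ℂ) {f : E3 → ℂ} {x : E3} (i : Fin 3) (hf : DifferentiableAt ℝ f x) :
    pd i (fun y => c * f y) x = c * pd i f x := by
  rw [pd_mul' i (differentiableAt_const _) hf, pd_const']; ring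

lemma Dz_add {ζ : Fin 3 → ℂ} {f g : E3 → ℂ} {x : E3} (hf : DifferentiableAt ℝ f x)
    (hg : DifferentiableAt ℝ g x) : Dz ζ (fun y => f y + g y) x = Dz ζ f x + Dz ζ g x := by
  unfold Dz
  rw [← Finset.sum_add_distrib]
  refine Finset.sum_congr rfl fun i _ => ?_
  rw [pd_add' i hf hg]; ring

lemma Dz_mul {ζ : Fin 3 → ℂ} {f g : E3 → ℂ} {x : E3} (hf : DifferentiableAt ℝ f x)
    (hg : DifferentiableAt ℝ g x) :
    Dz ζ (fun y => f y * g y) x = Dz ζ f x * g x + f x * Dz ζ g x := by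
  unfold Dz
  rw [Finset.sum_mul, Finset.mul_sum, ← Finset.sum_add_distrib]
  refine Finset.sum_congr rfl fun i _ => ?_
  rw [pd_mul' i hf hg]; ring

lemma Dz_const_mul {ζ : Fin 3 → ℂ} (c : ℂ) {f : E3 → ℂ} {x : E3}
    (hf : DifferentiableAt ℝ f x) : Dz ζ (fun y => c * f y) x = c * Dz ζ f x := by
  unfold Dz
  rw [Finset.mul_sum]
  refine Finset.sum_congr rfl fun i _ => ?_
  rw [pd_const_mul' c i hf]; ring

lemma Dz_smul (c : ℂ) (ζ : Fin 3 → ℂ) (f : E3 → ℂ) (x : E3) :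
    Dz (fun i => c * ζ i) f x = c * Dz ζ f x := by
  unfold Dz
  rw [Finset.mul_sum]
  exact Finset.sum_congr rfl fun i _ => by ring

lemma Dz_lin (c : ℂ) (ζ ξ : Fin 3 → ℂ) (f : E3 → ℂ) (x : E3) :
    Dz (fun i => c * ζ i - ξ i) f x = c * Dz ζ f x - Dz ξ f x := by
  unfold Dz
  rw [Finset.mul_sum, ← Finset.sum_sub_distrib]
  exact Finset.sum_congr rfl fun i _ => by ring

lemma Dz_contDiff {ζ : Fin 3 → ℂ} {f : E3 → ℂ} (hf : ContDiff ℝ ∞ f) :
    ContDiff ℝ ∞ (Dz ζ f) := by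
  unfold Dz
  exact ContDiff.sum fun i _ => contDiff_const.mul (pd_contDiff_infty hf i)

lemma cd_differentiable {f : E3 → ℂ} (hf : ContDiff ℝ ∞ f) (x : E3) : DifferentiableAt ℝ f x :=
  (hf.differentiable (by simp)) x

lemma Dz_Dz {ζ ξ : Fin 3 → ℂ} {f : E3 → ℂ} (hf : ContDiff ℝ ∞ f) (x : E3) :
    Dz ζ (Dz ξ f) x = ∑ i, ∑ j, ζ i * ξ j * pd i (pd j f) x := by
  have h : ∀ i, pd i (Dz ξ f) x = ∑ j, ξ j * pd i (pd j f) x := by
    intro i
    unfold Dz
    unfold pd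
    rw [fderiv_fun_sum]
    · rw [sum_apply]
      refine Finset.sum_congr rfl fun j _ => ?_
      have := pd_const_mul' (ξ j) i (cd_differentiable (pd_contDiff_infty hf j) x)
      unfold pd at this
      exact this
    · intro j _
      exact (differentiableAt_const _).mul (cd_differentiable (pd_contDiff_infty hf j) x)
  change ∑ i, ζ i * pd i (Dz ξ f) x = _
  refine Finset.sum_congr rfl fun i _ => ?_
  rw [h, Finset.mul_sum]
  exact Finset.sum_congr rfl fun j _ => by ring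

end Dz

/-! ### `L²` functions vanishing outside a bounded set -/

/-- square integrable and zero outside `Ω` -/
structure L2z (Ω : Set E3) (g : E3 → ℂ) : Prop where
  mem : MemLp g 2 (volume : Measure E3)
  zero : ∀ x, x ∉ Ω → g x = 0

namespace L2z

variable {Ω : Set E3} {g h : E3 → ℂ}

lemma add (hg : L2z Ω g) (hh : L2z Ω h) : L2z Ω (fun x => g x + h x) :=
  ⟨hg.mem.add hh.mem, fun x hx => by simp [hg.zero x hx, hh.zero x hx]⟩

lemma zero' : L2z Ω (fun _ => 0) := ⟨MemLp.zero', fun _ _ => rfl⟩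

lemma sum {ι : Type*} (s : Finset ι) {g : ι → E3 → ℂ} (hg : ∀ i ∈ s, L2z Ω (g i)) :
    L2z Ω (fun x => ∑ i ∈ s, g i x) := by
  refine ⟨memLp_finsetSum s fun i hi => (hg i hi).mem, fun x hx => ?_⟩
  exact Finset.sum_eq_zero fun i hi => (hg i hi).zero x hx

lemma cmul (hb : Bornology.IsBounded Ω) (hg : L2z Ω g) {m : E3 → ℂ} (hm : Continuous m) :
    L2z Ω (fun x => m x * g x) := by
  refine ⟨?_, fun x hx => by simp [hg.zero x hx]⟩
  obtain ⟨C, hC⟩ := (hb.isCompact_closure).exists_bound_of_continuousOn hm.continuousOn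
  refine MemLp.of_le_mul (c := C) hg.mem
    (hm.aestronglyMeasurable.mul hg.mem.aestronglyMeasurable) (Eventually.of_forall fun x => ?_)
  by_cases hx : x ∈ Ω
  · rw [norm_mul]
    exact mul_le_mul_of_nonneg_right (hC x (subset_closure hx)) (norm_nonneg _)
  · simp [hg.zero x hx]

lemma integrable (hb : Bornology.IsBounded Ω) (hg : L2z Ω g) : Integrable g := by
  have h1 : IntegrableOn g (closure Ω) := by
    have h0 := hg.mem.restrict (closure Ω)
    have : IsFiniteMeasure (volume.restrict (closure Ω)) :=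
      ⟨by simpa using hb.isCompact_closure.measure_lt_top⟩
    exact h0.integrable (by norm_num)
  refine h1.integrable_of_forall_notMem_eq_zero fun x hx => hg.zero x fun h => hx (subset_closure h)

lemma integrable_mul (hb : Bornology.IsBounded Ω) (hg : L2z Ω g) {m : E3 → ℂ}
    (hm : Continuous m) : Integrable (fun x => g x * m x) := by
  have := (hg.cmul hb hm).integrable hb
  simpa [mul_comm] using this

lemma indicator (ho : IsOpen Ω) (hb : Bornology.IsBounded Ω) {m : E3 → ℂ} (hm : Continuous m) :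
    L2z Ω (Ω.indicator m) := by
  refine ⟨?_, fun x hx => by simp [hx]⟩
  obtain ⟨C, hC⟩ := (hb.isCompact_closure).exists_bound_of_continuousOn hm.continuousOn
  have hfin : volume Ω < ⊤ := lt_of_le_of_lt (measure_mono subset_closure)
    hb.isCompact_closure.measure_lt_top
  refine MemLp.of_le (g := Ω.indicator fun _ => C)
    (memLp_indicator_const 2 ho.measurableSet C (Or.inr hfin.ne))
    (hm.aestronglyMeasurable.indicator ho.measurableSet) (Eventually.of_forall fun x => ?_)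
  by_cases hx : x ∈ Ω
  · simp only [Set.indicator_of_mem hx]
    exact (hC x (subset_closure hx)).trans (le_abs_self C)
  · simp [hx]

/-- an `L²` function with compact support which integrates to zero against all smooth functions
vanishes almost everywhere. -/
lemma ae_zero (hb : Bornology.IsBounded Ω) (hg : L2z Ω g)
    (h : ∀ φ : E3 → ℂ, ContDiff ℝ ∞ φ → ∫ x, g x * φ x = 0) : ∀ᵐ x, g x = 0 := by
  refine ae_eq_zero_of_integral_contDiff_smul_eq_zero (hg.integrable hb).locallyIntegrable ?_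
  intro φ hφ _
  have := h (fun x => (φ x : ℂ)) (Complex.ofRealCLM.contDiff.comp hφ)
  rw [← this]
  refine integral_congr_ae (Eventually.of_forall fun x => ?_)
  simp [mul_comm]

end L2z

/-! ### weak equations -/

/-- `D Q = g` weakly on the whole space (against all smooth functions). -/
def WDz (ζ : Fin 3 → ℂ) (Q g : E3 → ℂ) : Prop :=
  ∀ ψ : E3 → ℂ, ContDiff ℝ ∞ ψ → ∫ x, Q x * Dz ζ ψ x = - ∫ x, g x * ψ x

lemma Dz_continuous {ζ : Fin 3 → ℂ} {f : E3 → ℂ} (hf : ContDiff ℝ ∞ f) : Continuous (Dz ζ f) :=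
  (Dz_contDiff hf).continuous

lemma WDz.add {ζ : Fin 3 → ℂ} {Ω : Set E3} (hb : Bornology.IsBounded Ω) {Q g Q' g' : E3 → ℂ}
    (hQ : L2z Ω Q) (hg : L2z Ω g) (hQ' : L2z Ω Q') (hg' : L2z Ω g')
    (h : WDz ζ Q g) (h' : WDz ζ Q' g') :
    WDz ζ (fun x => Q x + Q' x) (fun x => g x + g' x) := by
  intro ψ hψ
  have e1 : ∀ x, (Q x + Q' x) * Dz ζ ψ x = Q x * Dz ζ ψ x + Q' x * Dz ζ ψ x := fun x => by ring
  have e2 : ∀ x, (g x + g' x) * ψ x = g x * ψ x + g' x * ψ x := fun x => by ring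
  simp only [e1, e2]
  rw [integral_add (hQ.integrable_mul hb (Dz_continuous hψ))
    (hQ'.integrable_mul hb (Dz_continuous hψ)),
    integral_add (hg.integrable_mul hb hψ.continuous) (hg'.integrable_mul hb hψ.continuous),
    h ψ hψ, h' ψ hψ]
  ring

/-- multiplication by a smooth function -/
lemma WDz.cmul {ζ : Fin 3 → ℂ} {Ω : Set E3} (hb : Bornology.IsBounded Ω) {Q g m : E3 → ℂ}
    (hQ : L2z Ω Q) (hg : L2z Ω g) (hm : ContDiff ℝ ∞ m) (h : WDz ζ Q g) :
    WDz ζ (fun x => m x * Q x) (fun x => m x * g x + Dz ζ m x * Q x) := by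
  intro ψ hψ
  have h1 := h (fun x => m x * ψ x) (hm.mul hψ)
  have e1 : ∀ x, Q x * Dz ζ (fun y => m y * ψ y) x
      = (m x * Q x) * Dz ζ ψ x + Q x * (Dz ζ m x * ψ x) := fun x => by
    rw [Dz_mul (cd_differentiable hm x) (cd_differentiable hψ x)]; ring
  have hc : Continuous (fun x => Dz ζ m x * ψ x) := (Dz_continuous hm).mul hψ.continuous
  have hc2 : Continuous (fun x => m x * ψ x) := hm.continuous.mul hψ.continuous
  simp only [e1] at h1
  rw [integral_add ((hQ.cmul hb hm.continuous).integrable_mul hb (Dz_continuous hψ))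
    (hQ.integrable_mul hb hc)] at h1
  have e2 : ∀ x, (m x * g x + Dz ζ m x * Q x) * ψ x
      = g x * (m x * ψ x) + Q x * (Dz ζ m x * ψ x) := fun x => by ring
  simp only [e2]
  rw [integral_add (hg.integrable_mul hb hc2) (hQ.integrable_mul hb hc)]
  linear_combination h1

lemma WDz.scale {ζ : Fin 3 → ℂ} {Q g : E3 → ℂ} (c : ℂ) (h : WDz ζ Q g) :
    WDz (fun i => c * ζ i) Q (fun x => c * g x) := by
  intro ψ hψ
  have h1 := h ψ hψ
  have e1 : ∀ x, Q x * Dz (fun i => c * ζ i) ψ x = c * (Q x * Dz ζ ψ x) := fun x => by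
    rw [Dz_smul]; ring
  have e2 : ∀ x, c * g x * ψ x = c * (g x * ψ x) := fun x => by ring
  simp only [e1, e2]
  rw [integral_const_mul, integral_const_mul, h1]; ring

lemma WDz.congr {ζ : Fin 3 → ℂ} {Q g g' : E3 → ℂ} (h : WDz ζ Q g) (e : ∀ x, g x = g' x) :
    WDz ζ Q g' := by
  have : g = g' := funext e
  rw [← this]; exact h

end Vale.Agent.P136.CP
end
end

section

section

open MeasureTheory Filter Topology
open scoped ContDiff InnerProductSpace

namespace Vale.Agent.P136.CP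

/-- pairing of the weak equation with a solution of the adjoint equation -/
lemma pair {ι : Type*} [Fintype ι] {Ω : Set E3} (hb : Bornology.IsBounded Ω) {ζ : Fin 3 → ℂ}
    {N : ι → ι → E3 → ℂ} (hN : ∀ a b, Continuous (N a b)) {f Q : ι → E3 → ℂ}
    (hf : ∀ a, L2z Ω (f a)) (hQ : ∀ a, L2z Ω (Q a))
    (hw : ∀ a, WDz ζ (Q a) (fun x => ∑ b, N a b x * Q b x + f a x))
    {V g : ι → E3 → ℂ} (hV : ∀ a, ContDiff ℝ ∞ (V a)) (hg : ∀ a, Continuous (g a))
    (hVe : ∀ x ∈ Ω, ∀ a, Dz ζ (V a) x = - ∑ b, N b a x * V b x - g a x) :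
    ∑ a, ∫ x, Q a x * g a x = ∑ a, ∫ x, f a x * V a x := by
  have hNQ : ∀ a, L2z Ω (fun x => ∑ b, N a b x * Q b x + f a x) := fun a =>
    (L2z.sum _ fun b _ => (hQ b).cmul hb (hN a b)).add (hf a)
  have i1 : ∀ a, Integrable (fun x => Q a x * Dz ζ (V a) x) := fun a =>
    (hQ a).integrable_mul hb (Dz_continuous (hV a))
  have i2 : ∀ a, Integrable (fun x => (∑ b, N a b x * Q b x + f a x) * V a x) := fun a =>
    (hNQ a).integrable_mul hb (hV a).continuous
  have i3 : ∀ a, Integrable (fun x => Q a x * g a x) := fun a =>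
    (hQ a).integrable_mul hb (hg a)
  have i4 : ∀ a, Integrable (fun x => f a x * V a x) := fun a =>
    (hf a).integrable_mul hb (hV a).continuous
  have h1 : ∑ a, ∫ x, Q a x * Dz ζ (V a) x
      = - ∑ a, ∫ x, (∑ b, N a b x * Q b x + f a x) * V a x := by
    rw [← Finset.sum_neg_distrib]
    exact Finset.sum_congr rfl fun a _ => hw a (V a) (hV a)
  rw [← integral_finset_sum _ fun a _ => i1 a, ← integral_finset_sum _ fun a _ => i2 a] at h1
  rw [← integral_finset_sum _ fun a _ => i3 a, ← integral_finset_sum _ fun a _ => i4 a]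
  have key : ∀ x, ∑ a, Q a x * g a x = ∑ a, f a x * V a x -
      (∑ a, Q a x * Dz ζ (V a) x + ∑ a, (∑ b, N a b x * Q b x + f a x) * V a x) := by
    intro x
    by_cases hx : x ∈ Ω
    · have e1 : ∑ a, Q a x * Dz ζ (V a) x
          = - ∑ a, ∑ b, Q a x * (N b a x * V b x) - ∑ a, Q a x * g a x := by
        rw [← Finset.sum_neg_distrib, ← Finset.sum_sub_distrib]
        refine Finset.sum_congr rfl fun a _ => ?_
        rw [hVe x hx a, mul_sub, mul_neg, Finset.mul_sum]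
      have e2 : ∑ a, (∑ b, N a b x * Q b x + f a x) * V a x
          = ∑ a, ∑ b, Q b x * (N a b x * V a x) + ∑ a, f a x * V a x := by
        rw [← Finset.sum_add_distrib]
        refine Finset.sum_congr rfl fun a _ => ?_
        rw [add_mul, Finset.sum_mul]
        congr 1
        exact Finset.sum_congr rfl fun b _ => by ring
      rw [e1, e2, Finset.sum_comm (f := fun a b => Q b x * (N a b x * V a x))]
      ring
    · have z1 : ∀ a, Q a x = 0 := fun a => (hQ a).zero x hx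
      have z2 : ∀ a, f a x = 0 := fun a => (hf a).zero x hx
      simp [z1, z2]
  rw [integral_congr_ae (Eventually.of_forall key), integral_sub, integral_add, h1]
  · ring
  · exact integrable_finset_sum _ fun a _ => i1 a
  · exact integrable_finset_sum _ fun a _ => i2 a
  · exact integrable_finset_sum _ fun a _ => i4 a
  · exact (integrable_finset_sum _ fun a _ => i1 a).add (integrable_finset_sum _ fun a _ => i2 a)

/-! ### parameter derivatives -/

/-- `-i` times (twice) the Wirtinger derivative in the parameter -/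
noncomputable def Bs (F : E3 × ℂ → ℂ) (p : E3 × ℂ) : ℂ :=
  fderiv ℝ F p (0, Complex.I) - Complex.I * fderiv ℝ F p (0, 1)

/-- `ζ(s)·∇ₓ` for functions of `(x, s)` -/
noncomputable def Dzs (zz : ℂ → Fin 3 → ℂ) (F : E3 × ℂ → ℂ) (p : E3 × ℂ) : ℂ :=
  ∑ i, zz p.2 i * fderiv ℝ F p (bv i, 0)

lemma pdiff {F : E3 × ℂ → ℂ} (hF : ContDiff ℝ ∞ F) (p : E3 × ℂ) : DifferentiableAt ℝ F p :=
  (hF.differentiable (by simp)) p

lemma pd_slice {F : E3 × ℂ → ℂ} (hF : ContDiff ℝ ∞ F) (i : Fin 3) (x : E3) (s : ℂ) :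
    pd i (fun y => F (y, s)) x = fderiv ℝ F (x, s) (bv i, 0) := by
  unfold pd
  have h : HasFDerivAt (fun y : E3 => F (y, s))
      ((fderiv ℝ F (x, s)).comp (ContinuousLinearMap.inl ℝ E3 ℂ)) x := by
    have h1 : HasFDerivAt (fun y : E3 => (y, s)) (ContinuousLinearMap.inl ℝ E3 ℂ) x := by
      exact hasFDerivAt_prodMk_left x s
    exact (pdiff hF (x, s)).hasFDerivAt.comp x h1
  rw [h.fderiv]
  simp

lemma Dz_slice {F : E3 × ℂ → ℂ} (hF : ContDiff ℝ ∞ F) (zz : ℂ → Fin 3 → ℂ) (x : E3) (s : ℂ) :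
    Dz (zz s) (fun y => F (y, s)) x = Dzs zz F (x, s) := by
  unfold Dz Dzs
  exact Finset.sum_congr rfl fun i _ => by rw [pd_slice hF]

lemma hasFDerivAt_slice {F : E3 × ℂ → ℂ} (hF : ContDiff ℝ ∞ F) (x : E3) (s : ℂ) :
    HasFDerivAt (fun t : ℂ => F (x, t))
      ((fderiv ℝ F (x, s)).comp (ContinuousLinearMap.inr ℝ E3 ℂ)) s := by
  have h1 : HasFDerivAt (fun t : ℂ => (x, t)) (ContinuousLinearMap.inr ℝ E3 ℂ) s :=
    hasFDerivAt_prodMk_right x s
  exact (pdiff hF (x, s)).hasFDerivAt.comp s h1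

lemma Bs_holo {F : E3 × ℂ → ℂ} (hF : ContDiff ℝ ∞ F) (x : E3) (s : ℂ)
    (h : DifferentiableAt ℂ (fun t => F (x, t)) s) : Bs F (x, s) = 0 := by
  have h1 := (differentiableAt_complex_iff_differentiableAt_real.1 h).2
  rw [(hasFDerivAt_slice hF x s).fderiv] at h1
  simp only [ContinuousLinearMap.comp_apply, ContinuousLinearMap.inr_apply, smul_eq_mul] at h1
  unfold Bs
  rw [h1]; ring

lemma Bs_mul {F G : E3 × ℂ → ℂ} {p : E3 × ℂ} (hF : DifferentiableAt ℝ F p)
    (hG : DifferentiableAt ℝ G p) :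
    Bs (fun q => F q * G q) p = Bs F p * G p + F p * Bs G p := by
  unfold Bs
  rw [fderiv_fun_mul hF hG]
  simp only [add_apply, smul_apply, smul_eq_mul]
  ring

lemma Bs_sum {ι : Type*} (u : Finset ι) {F : ι → E3 × ℂ → ℂ} {p : E3 × ℂ}
    (hF : ∀ i ∈ u, DifferentiableAt ℝ (F i) p) :
    Bs (fun q => ∑ i ∈ u, F i q) p = ∑ i ∈ u, Bs (F i) p := by
  unfold Bs
  rw [fderiv_fun_sum hF]
  simp only [sum_apply]
  rw [Finset.mul_sum, Finset.sum_sub_distrib]

lemma Bs_contDiff {F : E3 × ℂ → ℂ} (hF : ContDiff ℝ ∞ F) : ContDiff ℝ ∞ (Bs F) := by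
  have h : ContDiff ℝ ∞ (fderiv ℝ F) := hF.fderiv_right (by norm_cast)
  unfold Bs
  exact (h.clm_apply contDiff_const).sub (contDiff_const.mul (h.clm_apply contDiff_const))

lemma fderiv_contDiff {F : E3 × ℂ → ℂ} (hF : ContDiff ℝ ∞ F) (v : E3 × ℂ) :
    ContDiff ℝ ∞ (fun p => fderiv ℝ F p v) := by
  have h : ContDiff ℝ ∞ (fderiv ℝ F) := hF.fderiv_right (by norm_cast)
  exact h.clm_apply contDiff_const

lemma fderiv_fderiv {F : E3 × ℂ → ℂ} (hF : ContDiff ℝ ∞ F) (p v w : E3 × ℂ) :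
    fderiv ℝ (fun q => fderiv ℝ F q v) p w = fderiv ℝ (fun q => fderiv ℝ F q w) p v := by
  have h : ContDiff ℝ ∞ (fderiv ℝ F) := hF.fderiv_right (by norm_cast)
  have hd : DifferentiableAt ℝ (fderiv ℝ F) p := (h.differentiable (by simp)) p
  have h1 : ∀ v w : E3 × ℂ, fderiv ℝ (fun q => fderiv ℝ F q v) p w
      = fderiv ℝ (fderiv ℝ F) p w v := by
    intro v w
    rw [fderiv_clm_apply hd (differentiableAt_const _)]
    simp
  rw [h1, h1]
  have hF2 : ContDiff ℝ 2 F := contDiff_infty.1 hF 2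
  have h2 := (hF2.contDiffAt (x := p)).isSymmSndFDerivAt (by simp)
  exact h2 _ _

lemma Bs_Dzs {zz : ℂ → Fin 3 → ℂ} (hz : ∀ i, ContDiff ℝ ∞ (fun s => zz s i))
    (hz' : ∀ i, Differentiable ℂ (fun s => zz s i)) {F : E3 × ℂ → ℂ} (hF : ContDiff ℝ ∞ F)
    (p : E3 × ℂ) : Bs (Dzs zz F) p = Dzs zz (Bs F) p := by
  have hzc : ∀ i, ContDiff ℝ ∞ (fun q : E3 × ℂ => zz q.2 i) := fun i => (hz i).comp contDiff_snd
  have hd : ∀ i, ContDiff ℝ ∞ (fun q => fderiv ℝ F q (bv i, 0)) := fun i => fderiv_contDiff hF _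
  have e1 : Bs (Dzs zz F) p
      = ∑ i, Bs (fun q : E3 × ℂ => zz q.2 i * fderiv ℝ F q (bv i, 0)) p := by
    unfold Dzs
    exact Bs_sum _ fun i _ => (pdiff (hzc i) p).mul (pdiff (hd i) p)
  rw [e1]
  unfold Dzs
  refine Finset.sum_congr rfl fun i _ => ?_
  rw [Bs_mul (pdiff (hzc i) p) (pdiff (hd i) p)]
  have e2 : Bs (fun q : E3 × ℂ => zz q.2 i) p = 0 := by
    have := Bs_holo (hzc i) p.1 p.2 (hz' i p.2)
    exact this
  rw [e2]
  have e3 : fderiv ℝ (Bs F) p (bv i, 0)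
      = fderiv ℝ (fun q => fderiv ℝ F q (0, Complex.I)) p (bv i, 0)
        - Complex.I * fderiv ℝ (fun q => fderiv ℝ F q (0, 1)) p (bv i, 0) := by
    have d1 : DifferentiableAt ℝ (fun q => fderiv ℝ F q (0, Complex.I)) p :=
      pdiff (fderiv_contDiff hF _) p
    have d2 : DifferentiableAt ℝ (fun q => fderiv ℝ F q (0, 1)) p :=
      pdiff (fderiv_contDiff hF _) p
    unfold Bs
    rw [fderiv_fun_sub d1 (d2.const_mul Complex.I), fderiv_const_mul d2]
    simp
  rw [e3, fderiv_fderiv hF p _ (bv i, 0), fderiv_fderiv hF p _ (bv i, 0)]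
  unfold Bs
  ring

/-- differentiation under the integral sign -/
lemma param_int {Ω : Set E3} (hb : Bornology.IsBounded Ω) {H : E3 × ℂ → ℂ}
    (hH : ContDiff ℝ ∞ H) (s₀ : ℂ) :
    HasFDerivAt (fun s => ∫ x in Ω, H (x, s))
      (∫ x in Ω, (fderiv ℝ H (x, s₀)).comp (ContinuousLinearMap.inr ℝ E3 ℂ)) s₀ := by
  have hK : IsCompact (closure Ω ×ˢ Metric.closedBall s₀ 1) :=
    hb.isCompact_closure.prod (isCompact_closedBall s₀ 1)
  have hfd : Continuous (fderiv ℝ H) := hH.continuous_fderiv (by simp)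
  have hcc : Continuous (fun p : E3 × ℂ =>
      (fderiv ℝ H p).comp (ContinuousLinearMap.inr ℝ E3 ℂ)) := hfd.clm_comp continuous_const
  obtain ⟨C, hC⟩ := hK.exists_bound_of_continuousOn hcc.continuousOn
  have hfin : volume Ω < ⊤ := lt_of_le_of_lt (measure_mono subset_closure)
    hb.isCompact_closure.measure_lt_top
  have : IsFiniteMeasure (volume.restrict Ω) := ⟨by simpa using hfin⟩
  have hmem : ∀ᵐ x ∂(volume.restrict Ω), x ∈ closure Ω := by
    have h1 : ∀ᵐ x ∂(volume.restrict (closure Ω)), x ∈ closure Ω :=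
      ae_restrict_mem isClosed_closure.measurableSet
    exact ae_mono (Measure.restrict_mono subset_closure le_rfl) h1
  refine hasFDerivAt_integral_of_dominated_of_fderiv_le (μ := volume.restrict Ω)
    (s := Metric.ball s₀ 1) (bound := fun _ => C)
    (F' := fun s x => (fderiv ℝ H (x, s)).comp (ContinuousLinearMap.inr ℝ E3 ℂ))
    (Metric.ball_mem_nhds s₀ one_pos) ?_ ?_ ?_ ?_ ?_ ?_
  · exact Eventually.of_forall fun s =>
      (hH.continuous.comp (continuous_id.prodMk continuous_const)).aestronglyMeasurable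
  · obtain ⟨C', hC'⟩ := (hb.isCompact_closure).exists_bound_of_continuousOn
      (f := fun x => H (x, s₀))
      (hH.continuous.comp (continuous_id.prodMk continuous_const)).continuousOn
    refine Integrable.mono' (integrable_const C')
      (hH.continuous.comp (continuous_id.prodMk continuous_const)).aestronglyMeasurable ?_
    filter_upwards [hmem] with x hx using hC' x hx
  · exact (hcc.comp (continuous_id.prodMk continuous_const)).aestronglyMeasurable
  · filter_upwards [hmem] with x hx s hs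
    exact hC (x, s) ⟨hx, Metric.ball_subset_closedBall hs⟩
  · exact integrable_const C
  · exact Eventually.of_forall fun x s _ => hasFDerivAt_slice hH x s

lemma param_int_Bs {Ω : Set E3} (hb : Bornology.IsBounded Ω) {H : E3 × ℂ → ℂ}
    (hH : ContDiff ℝ ∞ H) (s₀ : ℂ) :
    fderiv ℝ (fun s => ∫ x in Ω, H (x, s)) s₀ Complex.I
      - Complex.I * fderiv ℝ (fun s => ∫ x in Ω, H (x, s)) s₀ 1 = ∫ x in Ω, Bs H (x, s₀) := by
  rw [(param_int hb hH s₀).fderiv]
  have hfd : Continuous (fderiv ℝ H) := hH.continuous_fderiv (by simp)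
  have hcc : Continuous (fun x : E3 =>
      (fderiv ℝ H (x, s₀)).comp (ContinuousLinearMap.inr ℝ E3 ℂ)) :=
    (hfd.comp (continuous_id.prodMk continuous_const)).clm_comp continuous_const
  have hfin : volume Ω < ⊤ := lt_of_le_of_lt (measure_mono subset_closure)
    hb.isCompact_closure.measure_lt_top
  have : IsFiniteMeasure (volume.restrict Ω) := ⟨by simpa using hfin⟩
  have hmem : ∀ᵐ x ∂(volume.restrict Ω), x ∈ closure Ω := by
    have h1 : ∀ᵐ x ∂(volume.restrict (closure Ω)), x ∈ closure Ω :=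
      ae_restrict_mem isClosed_closure.measurableSet
    exact ae_mono (Measure.restrict_mono subset_closure le_rfl) h1
  have hint : ∀ {G : Type} [NormedAddCommGroup G] {f : E3 → G}, Continuous f →
      Integrable f (volume.restrict Ω) := by
    intro G _ f hf
    obtain ⟨C', hC'⟩ := (hb.isCompact_closure).exists_bound_of_continuousOn hf.continuousOn
    refine Integrable.mono' (integrable_const C') ?_ ?_
    · exact hf.aestronglyMeasurable
    · filter_upwards [hmem] with x hx using hC' x hx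
  rw [ContinuousLinearMap.integral_apply (hint hcc), ContinuousLinearMap.integral_apply (hint hcc)]
  unfold Bs
  rw [integral_sub, integral_const_mul]
  · simp
  · exact hint ((hfd.comp (continuous_id.prodMk continuous_const)).clm_apply continuous_const)
  · exact (hint ((hfd.comp (continuous_id.prodMk continuous_const)).clm_apply
      continuous_const)).const_mul _

end Vale.Agent.P136.CP
end
end

section

section

open MeasureTheory Filter Topology
open scoped ContDiff InnerProductSpace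

namespace Vale.Agent.P136.CP

lemma zs_holo (i : Fin 3) : Differentiable ℂ (fun s => zs s i) := by
  fin_cases i <;> simp [zs] <;> fun_prop

lemma zs'_holo (i : Fin 3) : Differentiable ℂ (fun s => zs' s i) := by
  fin_cases i <;> simp [zs'] <;> fun_prop

lemma zh_holo (i : Fin 3) : Differentiable ℂ (fun s => zh s i) := by
  fin_cases i <;> simp [zh] <;> fun_prop

lemma zh'_holo (i : Fin 3) : Differentiable ℂ (fun s => zh' s i) := by
  fin_cases i <;> simp [zh'] <;> fun_prop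

lemma holo_smooth {f : ℂ → ℂ} (hf : Differentiable ℂ f) : ContDiff ℝ ∞ f :=
  (hf.contDiff (n := ∞)).restrict_scalars ℝ

/-- `S1Es` for an arbitrary finite index type -/
lemma s1es {ι : Type*} [Fintype ι] (hS : S1Es_statement) {zz : ℂ → Fin 3 → ℂ}
    (hz : zz = zs ∨ zz = zh) {N : ι → ι → E3 × ℂ → ℂ} {F : ι → E3 × ℂ → ℂ} (R : ℝ)
    (hN : ∀ a b, ContDiff ℝ ∞ (N a b)) (hF : ∀ a, ContDiff ℝ ∞ (F a)) :
    ∃ U : ι → E3 × ℂ → ℂ, (∀ a, ContDiff ℝ ∞ (U a)) ∧
      ∀ (x : E3) (s : ℂ), ‖x‖ < R → ‖s‖ < R → ∀ a,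
        Dz (zz s) (fun y => U a (y, s)) x = ∑ b, N a b (x, s) * U b (x, s) + F a (x, s) := by
  let e := Fintype.equivFin ι
  obtain ⟨U, hU, h⟩ := hS zz hz (Fintype.card ι) (fun a b => N (e.symm a) (e.symm b))
    (fun a => F (e.symm a)) R (fun a b => hN _ _) (fun a => hF _)
  refine ⟨fun a => U (e a), fun a => hU _, fun x s hx hs a => ?_⟩
  rw [h x s hx hs (e a)]
  simp only [Equiv.symm_apply_apply]
  congr 1
  exact Fintype.sum_equiv e.symm _ _ fun b => by simp

/-- (HOL): weak solutions vanishing outside `Ω` depend holomorphically on the parameter. -/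
theorem hol {ι : Type*} [Fintype ι] [DecidableEq ι] (hS : S1Es_statement) {Ω : Set E3}
    (ho : IsOpen Ω) (hb : Bornology.IsBounded Ω) {zz : ℂ → Fin 3 → ℂ}
    (hz : zz = zs ∨ zz = zh) {N : ι → ι → E3 × ℂ → ℂ} {f : ι → E3 × ℂ → ℂ}
    (hN : ∀ a b, ContDiff ℝ ∞ (N a b)) (hf : ∀ a, ContDiff ℝ ∞ (f a))
    (hN' : ∀ a b x, Differentiable ℂ (fun s => N a b (x, s)))
    (hf' : ∀ a x, Differentiable ℂ (fun s => f a (x, s)))
    {Q : ℂ → ι → E3 → ℂ} (hQ : ∀ s a, L2z Ω (Q s a))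
    (hw : ∀ s a, WDz (zz s) (Q s a)
      (fun x => ∑ b, N a b (x, s) * Q s b x + Ω.indicator (fun y => f a (y, s)) x))
    (c : ι) {φ : E3 → ℂ} (hφ : ContDiff ℝ ∞ φ) :
    Differentiable ℂ (fun s => ∫ x, Q s c x * φ x) := by
  have hzh : ∀ i, Differentiable ℂ (fun s => zz s i) := by
    rcases hz with rfl | rfl
    · exact zs_holo
    · exact zh_holo
  have hzs : ∀ i, ContDiff ℝ ∞ (fun s => zz s i) := fun i => holo_smooth (hzh i)
  intro s₀
  obtain ⟨R₁, hR₁⟩ := hb.subset_ball (0 : E3)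
  set R := max R₁ (‖s₀‖ + 1) with hR
  have hΩR : ∀ x ∈ Ω, ‖x‖ < R := fun x hx => by
    have := hR₁ hx
    rw [mem_ball_zero_iff] at this
    exact lt_of_lt_of_le this (le_max_left _ _)
  have hs₀ : ‖s₀‖ < R := lt_of_lt_of_le (by linarith) (le_max_right _ _)
  obtain ⟨W, hW, hWe⟩ := s1es hS hz (N := fun a b p => - N b a p)
    (F := fun a p => if a = c then - φ p.1 else 0) R (fun a b => (hN b a).neg)
    (fun a => by
      by_cases h : a = c
      · simp only [h, if_true]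
        exact (hφ.comp contDiff_fst).neg
      · simp only [h, if_false]
        exact contDiff_const)
  have sl : ∀ {F : E3 × ℂ → ℂ}, ContDiff ℝ ∞ F → ∀ s, ContDiff ℝ ∞ (fun x => F (x, s)) :=
    fun hF s => hF.comp (contDiff_id.prodMk contDiff_const)
  have hpair : ∀ s : ℂ, ∀ V g : ι → E3 → ℂ, (∀ a, ContDiff ℝ ∞ (V a)) → (∀ a, Continuous (g a)) →
      (∀ x ∈ Ω, ∀ a, Dz (zz s) (V a) x = - ∑ b, N b a (x, s) * V b x - g a x) →
      ∑ a, ∫ x, Q s a x * g a x = ∑ a, ∫ x in Ω, f a (x, s) * V a x := by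
    intro s V g hV hg hVe
    rw [pair hb (fun a b => (sl (hN a b) s).continuous)
      (fun a => L2z.indicator ho hb (sl (hf a) s).continuous) (hQ s) (hw s) hV hg hVe]
    refine Finset.sum_congr rfl fun a _ => ?_
    rw [← integral_indicator ho.measurableSet]
    refine integral_congr_ae (Eventually.of_forall fun x => ?_)
    by_cases hx : x ∈ Ω <;> simp [hx]
  -- the pairing is given by a smooth formula near `s₀`
  let H : ι → E3 × ℂ → ℂ := fun a p => f a p * W a p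
  have hH : ∀ a, ContDiff ℝ ∞ (H a) := fun a => (hf a).mul (hW a)
  have hq : ∀ s : ℂ, ‖s‖ < R → ∫ x, Q s c x * φ x = ∑ a, ∫ x in Ω, H a (x, s) := by
    intro s hs
    have h1 := hpair s (fun a x => W a (x, s)) (fun a x => if a = c then φ x else 0)
      (fun a => sl (hW a) s) (fun a => by
        by_cases h : a = c
        · simp only [h, if_true]; exact hφ.continuous
        · simp only [h, if_false]; exact continuous_const)
      (fun x hx a => by
        rw [hWe x s (hΩR x hx) hs a]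
        by_cases h : a = c <;> simp [h, Finset.sum_neg_distrib] <;> ring)
    rw [← h1, Finset.sum_eq_single c]
    · simp
    · intro a _ ha; simp [ha]
    · intro h; exact absurd (Finset.mem_univ c) h
  have hev : (fun s => ∫ x, Q s c x * φ x) =ᶠ[𝓝 s₀] fun s => ∑ a, ∫ x in Ω, H a (x, s) := by
    have : ∀ᶠ s in 𝓝 s₀, ‖s‖ < R :=
      (continuous_norm.tendsto s₀).eventually (gt_mem_nhds hs₀)
    filter_upwards [this] with s hs using hq s hs
  refine DifferentiableAt.congr_of_eventuallyEq ?_ hev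
  rw [differentiableAt_complex_iff_differentiableAt_real]
  have hdf : ∀ a, DifferentiableAt ℝ (fun s => ∫ x in Ω, H a (x, s)) s₀ := fun a =>
    (param_int hb (hH a) s₀).differentiableAt
  refine ⟨DifferentiableAt.fun_sum fun a _ => hdf a, ?_⟩
  rw [fderiv_fun_sum fun a _ => hdf a, sum_apply, sum_apply, smul_eq_mul, ← sub_eq_zero,
    Finset.mul_sum, ← Finset.sum_sub_distrib]
  simp only [param_int_Bs hb (hH _) s₀]
  -- the Wirtinger derivative of `W` solves the homogeneous adjoint equation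
  have hBW : ∀ x ∈ Ω, ∀ a, Dz (zz s₀) (fun y => Bs (W a) (y, s₀)) x
      = - ∑ b, N b a (x, s₀) * Bs (W b) (x, s₀) - 0 := by
    intro x hx a
    rw [Dz_slice (Bs_contDiff (hW a)), ← Bs_Dzs hzs hzh (hW a)]
    have hloc : Dzs zz (W a) =ᶠ[𝓝 (x, s₀)] fun p => ∑ b, - N b a p * W b p
        + (if a = c then - φ p.1 else 0) := by
      have h1 : ∀ᶠ p : E3 × ℂ in 𝓝 (x, s₀), ‖p.1‖ < R :=
        ((continuous_norm.comp continuous_fst).tendsto (x, s₀)).eventually
          (gt_mem_nhds (hΩR x hx))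
      have h2 : ∀ᶠ p : E3 × ℂ in 𝓝 (x, s₀), ‖p.2‖ < R :=
        ((continuous_norm.comp continuous_snd).tendsto (x, s₀)).eventually
          (gt_mem_nhds hs₀)
      filter_upwards [h1, h2] with p hp1 hp2
      have := hWe p.1 p.2 hp1 hp2 a
      rw [Dz_slice (hW a)] at this
      exact this
    have e1 : Bs (Dzs zz (W a)) (x, s₀) = Bs (fun p => ∑ b, - N b a p * W b p
        + (if a = c then - φ p.1 else 0)) (x, s₀) := by
      unfold Bs
      rw [hloc.fderiv_eq]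
    rw [e1]
    have hcs : ContDiff ℝ ∞ (fun p : E3 × ℂ => if a = c then - φ p.1 else 0) := by
      by_cases h : a = c
      · simp only [h, if_true]; exact (hφ.comp contDiff_fst).neg
      · simp only [h, if_false]; exact contDiff_const
    have hcs0 : Bs (fun p : E3 × ℂ => if a = c then - φ p.1 else 0) (x, s₀) = 0 := by
      refine Bs_holo hcs x s₀ ?_
      change DifferentiableAt ℂ (fun _ : ℂ => if a = c then - φ x else 0) s₀
      exact differentiableAt_const _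
    have hds : ∀ b ∈ Finset.univ, DifferentiableAt ℝ (fun p => - N b a p * W b p) (x, s₀) :=
      fun b _ => pdiff ((hN b a).neg.mul (hW b)) _
    have e2 : Bs (fun p => ∑ b, - N b a p * W b p + (if a = c then - φ p.1 else 0)) (x, s₀)
        = Bs (fun p => ∑ b, - N b a p * W b p) (x, s₀)
          + Bs (fun p : E3 × ℂ => if a = c then - φ p.1 else 0) (x, s₀) := by
      unfold Bs
      rw [fderiv_fun_add (DifferentiableAt.fun_sum hds) (pdiff hcs _)]
      simp only [add_apply]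
      ring
    rw [e2, hcs0, Bs_sum _ hds, add_zero, sub_zero, ← Finset.sum_neg_distrib]
    refine Finset.sum_congr rfl fun b _ => ?_
    rw [Bs_mul (F := fun p => - N b a p) (pdiff (hN b a).neg _) (pdiff (hW b) _)]
    have : Bs (fun p => - N b a p) (x, s₀) = 0 :=
      Bs_holo (hN b a).neg x s₀ (hN' b a x s₀).neg
    rw [this]; ring
  have h2 := hpair s₀ (fun a x => Bs (W a) (x, s₀)) (fun _ _ => 0)
    (fun a => sl (Bs_contDiff (hW a)) s₀) (fun _ => continuous_const) hBW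
  simp only [mul_zero, integral_zero, Finset.sum_const_zero] at h2
  rw [h2]
  refine Finset.sum_congr rfl fun a _ => ?_
  refine integral_congr_ae (Eventually.of_forall fun x => ?_)
  change Bs (H a) (x, s₀) = f a (x, s₀) * Bs (W a) (x, s₀)
  rw [show H a = fun p => f a p * W a p from rfl, Bs_mul (pdiff (hf a) _) (pdiff (hW a) _),
    Bs_holo (hf a) x s₀ (hf' a x s₀)]
  ring

end Vale.Agent.P136.CP
end
end

section

section

open MeasureTheory Filter Topology
open scoped ContDiff InnerProductSpace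

namespace Vale.Agent.P136.CP

lemma cc_smooth {f : E3 → ℝ} (hf : ContDiff ℝ ∞ f) : ContDiff ℝ ∞ (cc f) :=
  Complex.ofRealCLM.contDiff.comp hf

lemma sqrt_smooth {mu : E3 → ℝ} (hm : ContDiff ℝ ∞ mu) (hp : ∀ x, 0 < mu x) :
    ContDiff ℝ ∞ (fun x => √(mu x)) := hm.sqrt fun x => (hp x).ne'

lemma inv_smooth {mu : E3 → ℝ} (hm : ContDiff ℝ ∞ mu) (hp : ∀ x, 0 < mu x) :
    ContDiff ℝ ∞ (fun x => (mu x)⁻¹) := hm.inv fun x => (hp x).ne'

lemma ainv_smooth {a : E3 → ℝ} (hm : ContDiff ℝ ∞ a) (hp : ∀ x, 0 < a x) :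
    ContDiff ℝ ∞ (fun x => -(1 / (a x : ℂ))) := by
  have h : (fun x => -(1 / (a x : ℂ))) = fun x => - cc (fun y => (a y)⁻¹) x := by
    funext x; simp [cc]
  rw [h]
  exact (cc_smooth (inv_smooth hm hp)).neg

/-- parameter dependence of `Dz` -/
lemma Dzp_smooth {zz : ℂ → Fin 3 → ℂ} (hz : ∀ i, Differentiable ℂ (fun s => zz s i))
    {f : E3 → ℂ} (hf : ContDiff ℝ ∞ f) :
    ContDiff ℝ ∞ (fun p : E3 × ℂ => Dz (zz p.2) f p.1) := by
  unfold Dz
  exact ContDiff.sum fun i _ =>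
    ((holo_smooth (hz i)).comp contDiff_snd).mul ((pd_contDiff_infty hf i).comp contDiff_fst)

lemma Dzp_holo {zz : ℂ → Fin 3 → ℂ} (hz : ∀ i, Differentiable ℂ (fun s => zz s i))
    (f : E3 → ℂ) (x : E3) : Differentiable ℂ (fun s => Dz (zz s) f x) := by
  unfold Dz
  exact Differentiable.fun_sum fun i _ => (hz i).mul_const _

lemma DzDzp_smooth {zz zz' : ℂ → Fin 3 → ℂ} (hz : ∀ i, Differentiable ℂ (fun s => zz s i))
    (hz' : ∀ i, Differentiable ℂ (fun s => zz' s i)) {f : E3 → ℂ} (hf : ContDiff ℝ ∞ f) :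
    ContDiff ℝ ∞ (fun p : E3 × ℂ => Dz (zz p.2) (Dz (zz' p.2) f) p.1) := by
  simp only [Dz_Dz hf]
  exact ContDiff.sum fun i _ => ContDiff.sum fun j _ =>
    (((holo_smooth (hz i)).comp contDiff_snd).mul ((holo_smooth (hz' j)).comp contDiff_snd)).mul
      ((pd_contDiff_infty (pd_contDiff_infty hf j) i).comp contDiff_fst)

lemma DzDzp_holo {zz zz' : ℂ → Fin 3 → ℂ} (hz : ∀ i, Differentiable ℂ (fun s => zz s i))
    (hz' : ∀ i, Differentiable ℂ (fun s => zz' s i)) {f : E3 → ℂ} (hf : ContDiff ℝ ∞ f)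
    (x : E3) : Differentiable ℂ (fun s => Dz (zz s) (Dz (zz' s) f) x) := by
  simp only [Dz_Dz hf]
  exact Differentiable.fun_sum fun i _ => Differentiable.fun_sum fun j _ =>
    ((hz i).mul (hz' j)).mul_const _

lemma Nmp_smooth {zz zz' : ℂ → Fin 3 → ℂ} (hz : ∀ i, Differentiable ℂ (fun s => zz s i))
    (hz' : ∀ i, Differentiable ℂ (fun s => zz' s i)) {mu a : E3 → ℝ} (hm : ContDiff ℝ ∞ mu)
    (ha : ContDiff ℝ ∞ a) (hmp : ∀ x, 0 < mu x) (hap : ∀ x, 0 < a x) (i j : Fin 3) :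
    ContDiff ℝ ∞ (fun p : E3 × ℂ => Nm (zz p.2) (zz' p.2) mu a i j p.1) := by
  have h1 : ContDiff ℝ ∞ (fun p : E3 × ℂ => -Dz (zz' p.2) (cc fun y => √(mu y)) p.1) :=
    (Dzp_smooth hz' (cc_smooth (sqrt_smooth hm hmp))).neg
  have h2 : ContDiff ℝ ∞ (fun p : E3 × ℂ => -(1 / (a p.1 : ℂ))) :=
    (ainv_smooth ha hap).comp contDiff_fst
  have h3 : ContDiff ℝ ∞ (fun p : E3 × ℂ =>
      (√(mu p.1) : ℂ) * Dz (zz p.2) (Dz (zz' p.2) (cc fun y => (mu y)⁻¹)) p.1) :=
    ((cc_smooth (sqrt_smooth hm hmp)).comp contDiff_fst).mul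
      (DzDzp_smooth hz hz' (cc_smooth (inv_smooth hm hmp)))
  have h4 : ContDiff ℝ ∞ (fun p : E3 × ℂ =>
      Dz (zz p.2) (Dz (zz p.2) (cc fun y => (mu y)⁻¹)) p.1) :=
    DzDzp_smooth hz hz (cc_smooth (inv_smooth hm hmp))
  have h0 : ContDiff ℝ ∞ (fun _ : E3 × ℂ => (0 : ℂ)) := contDiff_const
  fin_cases i <;> fin_cases j <;> first | exact h0 | exact h1 | exact h2 | exact h3 | exact h4

lemma Nmp_holo {zz zz' : ℂ → Fin 3 → ℂ} (hz : ∀ i, Differentiable ℂ (fun s => zz s i))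
    (hz' : ∀ i, Differentiable ℂ (fun s => zz' s i)) {mu : E3 → ℝ} (a : E3 → ℝ)
    (hm : ContDiff ℝ ∞ mu) (hmp : ∀ x, 0 < mu x) (i j : Fin 3) (x : E3) :
    Differentiable ℂ (fun s => Nm (zz s) (zz' s) mu a i j x) := by
  have h1 : Differentiable ℂ (fun s => -Dz (zz' s) (cc fun y => √(mu y)) x) :=
    (Dzp_holo hz' _ x).neg
  have h2 : Differentiable ℂ (fun _ : ℂ => -(1 / (a x : ℂ))) := differentiable_const _
  have h3 : Differentiable ℂ (fun s =>
      (√(mu x) : ℂ) * Dz (zz s) (Dz (zz' s) (cc fun y => (mu y)⁻¹)) x) :=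
    (DzDzp_holo hz hz' (cc_smooth (inv_smooth hm hmp)) x).const_mul _
  have h4 : Differentiable ℂ (fun s => Dz (zz s) (Dz (zz s) (cc fun y => (mu y)⁻¹)) x) :=
    DzDzp_holo hz hz (cc_smooth (inv_smooth hm hmp)) x
  have h0 : Differentiable ℂ (fun _ : ℂ => (0 : ℂ)) := differentiable_const _
  fin_cases i <;> fin_cases j <;> first | exact h0 | exact h1 | exact h2 | exact h3 | exact h4

lemma Nm_smooth (ζ ζ' : Fin 3 → ℂ) {mu a : E3 → ℝ} (hm : ContDiff ℝ ∞ mu)
    (ha : ContDiff ℝ ∞ a) (hmp : ∀ x, 0 < mu x) (hap : ∀ x, 0 < a x) (i j : Fin 3) :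
    ContDiff ℝ ∞ (Nm ζ ζ' mu a i j) := by
  have h1 : ContDiff ℝ ∞ (fun x => -Dz ζ' (cc fun y => √(mu y)) x) :=
    (Dz_contDiff (cc_smooth (sqrt_smooth hm hmp))).neg
  have h2 : ContDiff ℝ ∞ (fun x => -(1 / (a x : ℂ))) := ainv_smooth ha hap
  have h3 : ContDiff ℝ ∞ (fun x =>
      (√(mu x) : ℂ) * Dz ζ (Dz ζ' (cc fun y => (mu y)⁻¹)) x) :=
    (cc_smooth (sqrt_smooth hm hmp)).mul
      (Dz_contDiff (Dz_contDiff (cc_smooth (inv_smooth hm hmp))))
  have h4 : ContDiff ℝ ∞ (fun x => Dz ζ (Dz ζ (cc fun y => (mu y)⁻¹)) x) :=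
    Dz_contDiff (Dz_contDiff (cc_smooth (inv_smooth hm hmp)))
  have h0 : ContDiff ℝ ∞ (fun _ : E3 => (0 : ℂ)) := contDiff_const
  fin_cases i <;> fin_cases j <;> first | exact h0 | exact h1 | exact h2 | exact h3 | exact h4

/-- the matrix of the system for `Q` -/
noncomputable def N9 (N₂ N₁ : Fin 3 → Fin 3 → ℂ) (a b : Fin 3 × Fin 3) : ℂ :=
  (if a.2 = b.2 then N₂ a.1 b.1 else 0) - (if a.1 = b.1 then N₁ b.2 a.2 else 0)

lemma N9_sum (N₂ N₁ : Fin 3 → Fin 3 → ℂ) (q : Fin 3 → Fin 3 → ℂ) (a : Fin 3 × Fin 3) :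
    ∑ b, N9 N₂ N₁ a b * q b.1 b.2
      = ∑ k, (N₂ a.1 k * q k a.2 - q a.1 k * N₁ k a.2) := by
  obtain ⟨i, j⟩ := a
  rw [Fintype.sum_prod_type]
  fin_cases i <;> fin_cases j <;> simp [N9, Fin.sum_univ_three] <;> ring

variable {Ω : Set E3} {ζ ζ' : Fin 3 → ℂ} {mu₁ a₁ mu₂ a₂ : E3 → ℝ}
  {Q : Fin 3 → Fin 3 → E3 → ℂ}

/-- right-hand side of the system -/
noncomputable def rhs (Ω : Set E3) (ζ ζ' : Fin 3 → ℂ) (mu₁ a₁ mu₂ a₂ : E3 → ℝ)
    (Q : Fin 3 → Fin 3 → E3 → ℂ) (i j : Fin 3) (x : E3) : ℂ :=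
  ∑ k, (Nm ζ ζ' mu₂ a₂ i k x * Q k j x - Q i k x * Nm ζ ζ' mu₁ a₁ k j x)
    + Ω.indicator (fun y => Nm ζ ζ' mu₂ a₂ i j y - Nm ζ ζ' mu₁ a₁ i j y) x

lemma hom_L2z (H : CPHyp Ω mu₁ a₁ mu₂ a₂) (hQ : ∀ i j, L2z Ω (Q i j)) (i j : Fin 3) :
    L2z Ω (fun x => ∑ k, (Nm ζ ζ' mu₂ a₂ i k x * Q k j x - Q i k x * Nm ζ ζ' mu₁ a₁ k j x)) := by
  refine L2z.sum _ fun k _ => ?_
  have h1 := (hQ k j).cmul H.isBounded
    (Nm_smooth ζ ζ' H.mu₂_smooth H.a₂_smooth H.mu₂_pos H.a₂_pos i k).continuous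
  have h2 := (hQ i k).cmul H.isBounded
    (Nm_smooth ζ ζ' H.mu₁_smooth H.a₁_smooth H.mu₁_pos H.a₁_pos k j).neg.continuous
  have h3 := h1.add h2
  have e : (fun x => Nm ζ ζ' mu₂ a₂ i k x * Q k j x + - Nm ζ ζ' mu₁ a₁ k j x * Q i k x)
      = fun x => Nm ζ ζ' mu₂ a₂ i k x * Q k j x - Q i k x * Nm ζ ζ' mu₁ a₁ k j x := by
    funext x; ring
  rw [← e]; exact h3

lemma ind_L2z (H : CPHyp Ω mu₁ a₁ mu₂ a₂) (i j : Fin 3) :
    L2z Ω (Ω.indicator (fun y => Nm ζ ζ' mu₂ a₂ i j y - Nm ζ ζ' mu₁ a₁ i j y)) :=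
  L2z.indicator H.isOpen H.isBounded
    ((Nm_smooth ζ ζ' H.mu₂_smooth H.a₂_smooth H.mu₂_pos H.a₂_pos i j).sub
      (Nm_smooth ζ ζ' H.mu₁_smooth H.a₁_smooth H.mu₁_pos H.a₁_pos i j)).continuous

lemma rhs_L2z (H : CPHyp Ω mu₁ a₁ mu₂ a₂) (hQ : ∀ i j, L2z Ω (Q i j)) (i j : Fin 3) :
    L2z Ω (rhs Ω ζ ζ' mu₁ a₁ mu₂ a₂ Q i j) := (hom_L2z H hQ i j).add (ind_L2z H i j)

lemma int_rhs (H : CPHyp Ω mu₁ a₁ mu₂ a₂) (hQ : ∀ i j, L2z Ω (Q i j)) (i j : Fin 3)
    {ψ : E3 → ℂ} (hψ : Continuous ψ) :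
    (∫ x, rhs Ω ζ ζ' mu₁ a₁ mu₂ a₂ Q i j x * ψ x) =
      (∫ x, (∑ k, (Nm ζ ζ' mu₂ a₂ i k x * Q k j x - Q i k x * Nm ζ ζ' mu₁ a₁ k j x)) * ψ x)
      + ∫ x in Ω, (Nm ζ ζ' mu₂ a₂ i j x - Nm ζ ζ' mu₁ a₁ i j x) * ψ x := by
  have e : ∀ x, rhs Ω ζ ζ' mu₁ a₁ mu₂ a₂ Q i j x * ψ x
      = (∑ k, (Nm ζ ζ' mu₂ a₂ i k x * Q k j x - Q i k x * Nm ζ ζ' mu₁ a₁ k j x)) * ψ x
        + Ω.indicator (fun y => Nm ζ ζ' mu₂ a₂ i j y - Nm ζ ζ' mu₁ a₁ i j y) x * ψ x := by
    intro x; unfold rhs; ring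
  simp only [e]
  rw [integral_add ((hom_L2z H hQ i j).integrable_mul H.isBounded hψ)
    ((ind_L2z H i j).integrable_mul H.isBounded hψ)]
  congr 1
  rw [← integral_indicator H.isOpen.measurableSet]
  refine integral_congr_ae (Eventually.of_forall fun x => ?_)
  by_cases hx : x ∈ Ω <;> simp [hx]

lemma qsol_L2z (h : QSol Ω ζ ζ' mu₁ a₁ mu₂ a₂ Q) (i j : Fin 3) : L2z Ω (Q i j) :=
  ⟨h.1 i j, h.2.1 i j⟩

lemma qsol_WDz (H : CPHyp Ω mu₁ a₁ mu₂ a₂) (h : QSol Ω ζ ζ' mu₁ a₁ mu₂ a₂ Q) (i j : Fin 3) :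
    WDz ζ (Q i j) (rhs Ω ζ ζ' mu₁ a₁ mu₂ a₂ Q i j) := by
  intro ψ hψ
  rw [h.2.2.2 i j ψ hψ, int_rhs H (qsol_L2z h) i j hψ.continuous]
  ring

lemma qsol_of_WDz (H : CPHyp Ω mu₁ a₁ mu₂ a₂) (hQ : ∀ i j, L2z Ω (Q i j))
    (h0 : ∀ j x, Q 0 j x = 0)
    (h : ∀ i j, WDz ζ (Q i j) (rhs Ω ζ ζ' mu₁ a₁ mu₂ a₂ Q i j)) :
    QSol Ω ζ ζ' mu₁ a₁ mu₂ a₂ Q := by
  refine ⟨fun i j => (hQ i j).mem, fun i j => (hQ i j).zero, h0, fun i j ψ hψ => ?_⟩
  rw [h i j ψ hψ, int_rhs H hQ i j hψ.continuous]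
  ring

/-- uniqueness for systems with an arbitrary finite index type -/
lemma uniq (hU : UNIQ_statement) {ι : Type*} [Fintype ι] (ho : IsOpen Ω)
    (hb : Bornology.IsBounded Ω) (hζ : dot ζ ζ = 0) (hζ0 : ζ ≠ 0) {N : ι → ι → E3 → ℂ}
    (hN : ∀ a b, ContDiff ℝ ∞ (N a b)) {X : ι → E3 → ℂ} (hX : ∀ a, L2z Ω (X a))
    (h : ∀ a, WDz ζ (X a) (fun x => ∑ b, N a b x * X b x)) (a : ι) : ∀ᵐ x, X a x = 0 := by
  let e := Fintype.equivFin ι
  have h1 := hU ζ hζ hζ0 (Fintype.card ι) (fun a b => N (e.symm a) (e.symm b)) Ω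
    (fun a => X (e.symm a)) hb ho.measurableSet (fun a b => hN _ _) (fun a => (hX _).mem)
    (fun a => (hX _).zero) (fun a ψ hψ => ?_) (e a)
  · simp only [Equiv.symm_apply_apply] at h1
    exact h1
  · have h2 := h (e.symm a) ψ hψ
    rw [h2]
    have h3 : ∑ b, ∫ x, N (e.symm a) (e.symm b) x * X (e.symm b) x * ψ x
        = ∑ b, ∫ x, N (e.symm a) b x * X b x * ψ x :=
      Fintype.sum_equiv e.symm _ _ fun b => rfl
    rw [h3, ← integral_finset_sum]
    · simp only [Finset.sum_mul]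
      ring
    · intro b _
      exact ((hX b).cmul hb (hN (e.symm a) b).continuous).integrable_mul hb hψ.continuous

/-- uniqueness of the transfer matrix -/
lemma qsol_uniq (hU : UNIQ_statement) (H : CPHyp Ω mu₁ a₁ mu₂ a₂) (hζ : dot ζ ζ = 0)
    (hζ0 : ζ ≠ 0) {Q' : Fin 3 → Fin 3 → E3 → ℂ} (h : QSol Ω ζ ζ' mu₁ a₁ mu₂ a₂ Q)
    (h' : QSol Ω ζ ζ' mu₁ a₁ mu₂ a₂ Q') (i j : Fin 3) : ∀ᵐ x, Q i j x = Q' i j x := by
  have hb := H.isBounded
  have hneg : ∀ i j, L2z Ω (fun x => (-1 : ℂ) * Q' i j x) := fun i j =>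
    (qsol_L2z h' i j).cmul hb continuous_const
  have key := uniq hU (ι := Fin 3 × Fin 3) H.isOpen hb hζ hζ0
    (N := fun a b x => N9 (fun i k => Nm ζ ζ' mu₂ a₂ i k x) (fun i k => Nm ζ ζ' mu₁ a₁ i k x) a b)
    (fun a b => by
      unfold N9
      refine ContDiff.sub ?_ ?_
      · by_cases hc : a.2 = b.2
        · simp only [hc, if_true]
          exact Nm_smooth ζ ζ' H.mu₂_smooth H.a₂_smooth H.mu₂_pos H.a₂_pos _ _
        · simp only [hc, if_false]
          exact contDiff_const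
      · by_cases hc : a.1 = b.1
        · simp only [hc, if_true]
          exact Nm_smooth ζ ζ' H.mu₁_smooth H.a₁_smooth H.mu₁_pos H.a₁_pos _ _
        · simp only [hc, if_false]
          exact contDiff_const)
    (X := fun a x => Q a.1 a.2 x + (-1 : ℂ) * Q' a.1 a.2 x)
    (fun a => (qsol_L2z h _ _).add (hneg _ _))
    (fun a => ?_) (i, j)
  · filter_upwards [key] with x hx
    linear_combination hx
  · have hm1 : ContDiff ℝ ∞ (fun _ : E3 => (-1 : ℂ)) := contDiff_const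
    have w1 := (qsol_WDz H h' a.1 a.2).cmul hb (qsol_L2z h' _ _)
      (rhs_L2z H (qsol_L2z h') a.1 a.2) hm1
    have w2 := WDz.add hb (qsol_L2z h _ _) (rhs_L2z H (qsol_L2z h) a.1 a.2) (hneg _ _) (by
      have := ((rhs_L2z H (qsol_L2z h') a.1 a.2 (ζ := ζ) (ζ' := ζ')).cmul hb
        hm1.continuous).add ((qsol_L2z h' a.1 a.2).cmul hb (Dz_continuous hm1 (ζ := ζ)))
      exact this) (qsol_WDz H h a.1 a.2) w1
    refine w2.congr fun x => ?_
    have hD : Dz ζ (fun _ : E3 => (-1 : ℂ)) x = 0 := by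
      unfold Dz; simp [pd_const']
    have e1 := N9_sum (fun i k => Nm ζ ζ' mu₂ a₂ i k x) (fun i k => Nm ζ ζ' mu₁ a₁ i k x)
      (fun i j => Q i j x + (-1 : ℂ) * Q' i j x) a
    rw [e1, hD]
    unfold rhs
    simp only [Fin.sum_univ_three]
    ring

end Vale.Agent.P136.CP
end
end

section

section

open MeasureTheory Filter Topology
open scoped ContDiff InnerProductSpace

namespace Vale.Agent.P136.CP

variable {Ω : Set E3} {ζ ζ' : Fin 3 → ℂ} {mu₁ a₁ mu₂ a₂ : E3 → ℝ}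
  {Q : Fin 3 → Fin 3 → E3 → ℂ}

lemma WDz.const_mul {ζ : Fin 3 → ℂ} {Q g : E3 → ℂ} (c : ℂ) (h : WDz ζ Q g) :
    WDz ζ (fun x => c * Q x) (fun x => c * g x) := by
  intro ψ hψ
  have h1 := h ψ hψ
  have e1 : ∀ x, c * Q x * Dz ζ ψ x = c * (Q x * Dz ζ ψ x) := fun x => by ring
  have e2 : ∀ x, c * g x * ψ x = c * (g x * ψ x) := fun x => by ring
  simp only [e1, e2]
  rw [integral_const_mul, integral_const_mul, h1]; ring

/-- the extension by zero of a smooth function vanishing on the boundary -/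
lemma WDz_ind (hZ : ZERO_statement) (ho : IsOpen Ω) (hb : Bornology.IsBounded Ω) {f : E3 → ℂ}
    (hf : ContDiff ℝ ∞ f) (h0 : ∀ x ∈ frontier Ω, f x = 0) :
    WDz ζ (Ω.indicator f) (Ω.indicator (Dz ζ f)) := by
  intro ψ hψ
  have hfin : volume Ω < ⊤ := lt_of_le_of_lt (measure_mono subset_closure)
    hb.isCompact_closure.measure_lt_top
  have : IsFiniteMeasure (volume.restrict Ω) := ⟨by simpa using hfin⟩
  have hmem : ∀ᵐ x ∂(volume.restrict Ω), x ∈ closure Ω := by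
    have h1 : ∀ᵐ x ∂(volume.restrict (closure Ω)), x ∈ closure Ω :=
      ae_restrict_mem isClosed_closure.measurableSet
    exact ae_mono (Measure.restrict_mono subset_closure le_rfl) h1
  have hint : ∀ {f : E3 → ℂ}, Continuous f → Integrable f (volume.restrict Ω) := by
    intro f hf
    obtain ⟨C', hC'⟩ := (hb.isCompact_closure).exists_bound_of_continuousOn hf.continuousOn
    refine Integrable.mono' (integrable_const C') ?_ ?_
    · exact hf.aestronglyMeasurable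
    · filter_upwards [hmem] with x hx using hC' x hx
  have e1 : ∀ (g k : E3 → ℂ), (∫ x, Ω.indicator g x * k x) = ∫ x in Ω, g x * k x := by
    intro g k
    rw [← integral_indicator ho.measurableSet]
    refine integral_congr_ae (Eventually.of_forall fun x => ?_)
    by_cases hx : x ∈ Ω <;> simp [hx]
  rw [e1, e1]
  have hf1 : ContDiff ℝ 1 f := contDiff_infty.1 hf 1
  have e2 : ∀ x, f x * Dz ζ ψ x = ∑ i, ζ i * (f x * pd i ψ x) := fun x => by
    unfold Dz; rw [Finset.mul_sum]; exact Finset.sum_congr rfl fun i _ => by ring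
  have e3 : ∀ x, Dz ζ f x * ψ x = ∑ i, ζ i * (pd i f x * ψ x) := fun x => by
    unfold Dz; rw [Finset.sum_mul]; exact Finset.sum_congr rfl fun i _ => by ring
  simp only [e2, e3]
  rw [integral_finset_sum, integral_finset_sum, ← Finset.sum_neg_distrib]
  · refine Finset.sum_congr rfl fun i _ => ?_
    rw [integral_const_mul, integral_const_mul, hZ Ω f ho hb hf1 h0 i ψ hψ]
    ring
  · intro i _
    exact (hint ((pd_contDiff_infty hf i).continuous.mul hψ.continuous)).const_mul _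
  · intro i _
    exact (hint (hf.continuous.mul (pd_contDiff_infty hψ i).continuous)).const_mul _

/-- the transfer matrix in the other chart -/
noncomputable def Qh (Ω : Set E3) (mu₁ mu₂ : E3 → ℝ) (s : ℂ) (Q : Fin 3 → Fin 3 → E3 → ℂ)
    (i j : Fin 3) (x : E3) : ℂ :=
  (![![0, 0, 0],
     ![-s ^ 2 * Q 1 0 x + 2 * s * (cc (fun y => √(mu₁ y)) x * Q 1 1 x)
        + 2 * s * Ω.indicator (fun y => cc (fun y => √(mu₁ y)) y - cc (fun y => √(mu₂ y)) y) x,
       Q 1 1 x, s ^ 2 * Q 1 2 x],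
     ![-Q 2 0 x + 2 * s⁻¹ * (cc (fun y => √(mu₁ y)) x * Q 2 1 x), (s⁻¹) ^ 2 * Q 2 1 x,
       Q 2 2 x]] : Fin 3 → Fin 3 → ℂ) i j

lemma zh_inv {s : ℂ} (hs : s ≠ 0) : zh s⁻¹ = fun i => (s⁻¹) ^ 2 * zs s i := by
  funext i
  fin_cases i <;> simp [zh, zs] <;> field_simp

lemma zh'_inv {s : ℂ} (hs : s ≠ 0) : zh' s⁻¹ = fun i => (2 * s⁻¹) * zs s i - zs' s i := by
  funext i
  fin_cases i <;> simp [zh', zs, zs'] <;> field_simp <;> ring

lemma bdry_sqrt (H : CPHyp Ω mu₁ a₁ mu₂ a₂) : ∀ x ∈ frontier Ω,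
    cc (fun y => √(mu₁ y)) x - cc (fun y => √(mu₂ y)) x = 0 := by
  intro x hx
  simp [cc, (H.bdry x hx).1]

lemma Nm_hat_sigma {s : ℂ} (hs : s ≠ 0) (mu a : E3 → ℝ) (x : E3) :
    Nm (zh s⁻¹) (zh' s⁻¹) mu a 1 0 x
      = -(2 * s⁻¹ * Dz (zs s) (cc fun y => √(mu y)) x) - Nm (zs s) (zs' s) mu a 1 0 x := by
  simp only [Nm, Matrix.cons_val_zero, Matrix.cons_val_one, Matrix.cons_val]
  rw [zh'_inv hs, Dz_lin]; ring

lemma Nm_hat_tau {s : ℂ} (hs : s ≠ 0) {mu : E3 → ℝ} (a : E3 → ℝ) (hm : ContDiff ℝ ∞ mu)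
    (hmp : ∀ x, 0 < mu x) (x : E3) :
    Nm (zh s⁻¹) (zh' s⁻¹) mu a 2 0 x
      = (√(mu x) : ℂ) * (2 * (s⁻¹) ^ 3 * Nm (zs s) (zs' s) mu a 2 1 x)
        - (s⁻¹) ^ 2 * Nm (zs s) (zs' s) mu a 2 0 x := by
  simp only [Nm, Matrix.cons_val_zero, Matrix.cons_val_one, Matrix.cons_val]
  have hc := cc_smooth (inv_smooth hm hmp)
  rw [Dz_Dz hc, Dz_Dz hc, Dz_Dz hc, zh_inv hs, zh'_inv hs]
  simp only [Fin.sum_univ_three]
  ring

lemma Nm_hat_delta {s : ℂ} (hs : s ≠ 0) {mu : E3 → ℝ} (a : E3 → ℝ) (hm : ContDiff ℝ ∞ mu)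
    (hmp : ∀ x, 0 < mu x) (x : E3) :
    Nm (zh s⁻¹) (zh' s⁻¹) mu a 2 1 x = (s⁻¹) ^ 4 * Nm (zs s) (zs' s) mu a 2 1 x := by
  simp only [Nm, Matrix.cons_val_one, Matrix.cons_val]
  have hc := cc_smooth (inv_smooth hm hmp)
  rw [Dz_Dz hc, Dz_Dz hc, zh_inv hs]
  simp only [Fin.sum_univ_three]
  ring

lemma Nm_row0 (mu a : E3 → ℝ) (j : Fin 3) (x : E3) : Nm ζ ζ' mu a 0 j x = 0 := by
  fin_cases j <;> simp [Nm]

lemma Nm_11 (mu a : E3 → ℝ) (x : E3) : Nm ζ ζ' mu a 1 1 x = 0 := by simp [Nm]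

lemma Nm_22 (mu a : E3 → ℝ) (x : E3) : Nm ζ ζ' mu a 2 2 x = 0 := by simp [Nm]

lemma Nm_12 (mu a : E3 → ℝ) (x : E3) : Nm ζ ζ' mu a 1 2 x = -(1 / (a x : ℂ)) := by
  simp [Nm]

/-- (REL): change of chart. -/
theorem rel (hZ : ZERO_statement) (H : CPHyp Ω mu₁ a₁ mu₂ a₂) {s : ℂ} (hs : s ≠ 0)
    (h : QSol Ω (zs s) (zs' s) mu₁ a₁ mu₂ a₂ Q) :
    QSol Ω (zh s⁻¹) (zh' s⁻¹) mu₁ a₁ mu₂ a₂ (Qh Ω mu₁ mu₂ s Q) := by
  have hb := H.isBounded
  have hL := qsol_L2z h
  have hW := qsol_WDz H h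
  have hR := fun i j => rhs_L2z (ζ := zs s) (ζ' := zs' s) H hL i j
  have hr₁ : ContDiff ℝ ∞ (cc fun y => √(mu₁ y)) := cc_smooth (sqrt_smooth H.mu₁_smooth H.mu₁_pos)
  have hr₂ : ContDiff ℝ ∞ (cc fun y => √(mu₂ y)) := cc_smooth (sqrt_smooth H.mu₂_smooth H.mu₂_pos)
  have hd : ContDiff ℝ ∞ (fun y => cc (fun y => √(mu₁ y)) y - cc (fun y => √(mu₂ y)) y) :=
    hr₁.sub hr₂
  have cL : ∀ {g : E3 → ℂ} (c : ℂ), L2z Ω g → L2z Ω (fun x => c * g x) := fun c hg =>
    hg.cmul hb continuous_const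
  have hI : L2z Ω (Ω.indicator
      (fun y => cc (fun y => √(mu₁ y)) y - cc (fun y => √(mu₂ y)) y)) :=
    L2z.indicator H.isOpen hb hd.continuous
  have hI' : L2z Ω (Ω.indicator (Dz (zs s)
      (fun y => cc (fun y => √(mu₁ y)) y - cc (fun y => √(mu₂ y)) y))) :=
    L2z.indicator H.isOpen hb (Dz_continuous hd)
  have hDd : ∀ x, Dz (zs s) (fun y => cc (fun y => √(mu₁ y)) y - cc (fun y => √(mu₂ y)) y) x
      = Dz (zs s) (cc fun y => √(mu₁ y)) x - Dz (zs s) (cc fun y => √(mu₂ y)) x := by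
    intro x
    have e : (fun y => cc (fun y => √(mu₁ y)) y - cc (fun y => √(mu₂ y)) y)
        = fun y => cc (fun y => √(mu₁ y)) y + (-1 : ℂ) * cc (fun y => √(mu₂ y)) y := by
      funext y; ring
    rw [e, Dz_add (cd_differentiable hr₁ x) ((cd_differentiable hr₂ x).const_mul _),
      Dz_const_mul _ (cd_differentiable hr₂ x)]
    ring
  -- pieces
  have p11 : L2z Ω (fun x => cc (fun y => √(mu₁ y)) x * Q 1 1 x) :=
    (hL 1 1).cmul hb hr₁.continuous
  have p21 : L2z Ω (fun x => cc (fun y => √(mu₁ y)) x * Q 2 1 x) :=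
    (hL 2 1).cmul hb hr₁.continuous
  have g11 : L2z Ω (fun x => cc (fun y => √(mu₁ y)) x
        * rhs Ω (zs s) (zs' s) mu₁ a₁ mu₂ a₂ Q 1 1 x
        + Dz (zs s) (cc fun y => √(mu₁ y)) x * Q 1 1 x) :=
    ((hR 1 1).cmul hb hr₁.continuous).add ((hL 1 1).cmul hb (Dz_continuous hr₁))
  have g21 : L2z Ω (fun x => cc (fun y => √(mu₁ y)) x
        * rhs Ω (zs s) (zs' s) mu₁ a₁ mu₂ a₂ Q 2 1 x
        + Dz (zs s) (cc fun y => √(mu₁ y)) x * Q 2 1 x) :=
    ((hR 2 1).cmul hb hr₁.continuous).add ((hL 2 1).cmul hb (Dz_continuous hr₁))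
  have w11 := (hW 1 1).cmul hb (hL 1 1) (hR 1 1) hr₁
  have w21 := (hW 2 1).cmul hb (hL 2 1) (hR 2 1) hr₁
  have wI := WDz_ind (ζ := zs s) hZ H.isOpen hb hd (bdry_sqrt H)
  have wA := WDz.add hb (cL (-s ^ 2) (hL 1 0)) (cL (-s ^ 2) (hR 1 0)) (cL (2 * s) p11)
    (cL (2 * s) g11) ((hW 1 0).const_mul (-s ^ 2)) (w11.const_mul (2 * s))
  have wB := WDz.add hb ((cL (-s ^ 2) (hL 1 0)).add (cL (2 * s) p11))
    ((cL (-s ^ 2) (hR 1 0)).add (cL (2 * s) g11)) (cL (2 * s) hI) (cL (2 * s) hI') wA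
    (wI.const_mul (2 * s))
  have wC := WDz.add hb (cL (-1) (hL 2 0)) (cL (-1) (hR 2 0)) (cL (2 * s⁻¹) p21)
    (cL (2 * s⁻¹) g21) ((hW 2 0).const_mul (-1)) (w21.const_mul (2 * s⁻¹))
  have L10 : L2z Ω (Qh Ω mu₁ mu₂ s Q 1 0) :=
    ((cL (-s ^ 2) (hL 1 0)).add (cL (2 * s) p11)).add (cL (2 * s) hI)
  have L20 : L2z Ω (Qh Ω mu₁ mu₂ s Q 2 0) := by
    have := (cL (-1) (hL 2 0)).add (cL (2 * s⁻¹) p21)
    have e : (fun x => (-1 : ℂ) * Q 2 0 x + 2 * s⁻¹ * (cc (fun y => √(mu₁ y)) x * Q 2 1 x))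
        = Qh Ω mu₁ mu₂ s Q 2 0 := by
      funext x; simp [Qh]
    rw [← e]; exact this
  have hz0 : ∀ j, L2z Ω (Qh Ω mu₁ mu₂ s Q 0 j) := by
    intro j
    have e : Qh Ω mu₁ mu₂ s Q 0 j = fun _ => 0 := by
      funext x; fin_cases j <;> simp [Qh]
    rw [e]; exact L2z.zero'
  have hLh : ∀ i j, L2z Ω (Qh Ω mu₁ mu₂ s Q i j) := by
    intro i j
    fin_cases i
    · exact hz0 j
    · fin_cases j
      · exact L10
      · exact hL 1 1
      · exact cL (s ^ 2) (hL 1 2)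
    · fin_cases j
      · exact L20
      · exact cL _ (hL 2 1)
      · exact hL 2 2
  refine qsol_of_WDz H hLh (fun j x => by fin_cases j <;> simp [Qh]) ?_
  have Q0 : ∀ j x, Q 0 j x = 0 := h.2.2.1
  have sI : ∀ (c : ℂ) (u : E3 → ℂ) x, Ω.indicator (fun y => c * u y) x = c * Ω.indicator u x := by
    intro c u x; by_cases hx : x ∈ Ω <;> simp [hx]
  have c10 : WDz (zh s⁻¹) (Qh Ω mu₁ mu₂ s Q 1 0)
      (rhs Ω (zh s⁻¹) (zh' s⁻¹) mu₁ a₁ mu₂ a₂ (Qh Ω mu₁ mu₂ s Q) 1 0) := by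
    have w := (wB).scale ((s⁻¹) ^ 2)
    rw [← zh_inv hs] at w
    refine w.congr fun x => ?_
    by_cases hx : x ∈ Ω
    · simp only [rhs, Fin.sum_univ_three, Set.indicator_of_mem hx, Nm_row0, Nm_11, Nm_22, Nm_12,
        Nm_hat_sigma hs, Nm_hat_tau hs _ H.mu₁_smooth H.mu₁_pos,
        Nm_hat_tau hs _ H.mu₂_smooth H.mu₂_pos, Nm_hat_delta hs _ H.mu₂_smooth H.mu₂_pos,
        Nm_hat_delta hs _ H.mu₁_smooth H.mu₁_pos, Q0, hDd, Qh, Matrix.cons_val_zero,
        Matrix.cons_val_one, Matrix.cons_val]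
      simp only [cc]
      field_simp
      ring
    · rw [(rhs_L2z H hLh 1 0).zero x hx]
      simp [(hR 1 0).zero x hx, (hR 1 1).zero x hx, (hL 1 1).zero x hx, hx]
  have c11 : WDz (zh s⁻¹) (Qh Ω mu₁ mu₂ s Q 1 1)
      (rhs Ω (zh s⁻¹) (zh' s⁻¹) mu₁ a₁ mu₂ a₂ (Qh Ω mu₁ mu₂ s Q) 1 1) := by
    have w := (hW 1 1).scale ((s⁻¹) ^ 2)
    rw [← zh_inv hs] at w
    refine w.congr fun x => ?_
    by_cases hx : x ∈ Ω
    · simp only [rhs, Fin.sum_univ_three, Set.indicator_of_mem hx, Nm_row0, Nm_11, Nm_22, Nm_12,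
        Nm_hat_sigma hs, Nm_hat_tau hs _ H.mu₁_smooth H.mu₁_pos,
        Nm_hat_tau hs _ H.mu₂_smooth H.mu₂_pos, Nm_hat_delta hs _ H.mu₂_smooth H.mu₂_pos,
        Nm_hat_delta hs _ H.mu₁_smooth H.mu₁_pos, Q0, hDd, Qh, Matrix.cons_val_zero,
        Matrix.cons_val_one, Matrix.cons_val]
      skip
      field_simp
      ring
    · rw [(rhs_L2z H hLh 1 1).zero x hx]
      simp [(hR 1 1).zero x hx, hx]
  have c12 : WDz (zh s⁻¹) (Qh Ω mu₁ mu₂ s Q 1 2)
      (rhs Ω (zh s⁻¹) (zh' s⁻¹) mu₁ a₁ mu₂ a₂ (Qh Ω mu₁ mu₂ s Q) 1 2) := by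
    have w := ((hW 1 2).const_mul (s ^ 2)).scale ((s⁻¹) ^ 2)
    rw [← zh_inv hs] at w
    refine w.congr fun x => ?_
    by_cases hx : x ∈ Ω
    · simp only [rhs, Fin.sum_univ_three, Set.indicator_of_mem hx, Nm_row0, Nm_11, Nm_22, Nm_12,
        Nm_hat_sigma hs, Nm_hat_tau hs _ H.mu₁_smooth H.mu₁_pos,
        Nm_hat_tau hs _ H.mu₂_smooth H.mu₂_pos, Nm_hat_delta hs _ H.mu₂_smooth H.mu₂_pos,
        Nm_hat_delta hs _ H.mu₁_smooth H.mu₁_pos, Q0, hDd, Qh, Matrix.cons_val_zero,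
        Matrix.cons_val_one, Matrix.cons_val]
      skip
      field_simp
      ring
    · rw [(rhs_L2z H hLh 1 2).zero x hx]
      simp [(hR 1 2).zero x hx, hx]
  have c20 : WDz (zh s⁻¹) (Qh Ω mu₁ mu₂ s Q 2 0)
      (rhs Ω (zh s⁻¹) (zh' s⁻¹) mu₁ a₁ mu₂ a₂ (Qh Ω mu₁ mu₂ s Q) 2 0) := by
    have w := (wC).scale ((s⁻¹) ^ 2)
    rw [← zh_inv hs] at w
    have e : (fun x => (-1 : ℂ) * Q 2 0 x + 2 * s⁻¹ * (cc (fun y => √(mu₁ y)) x * Q 2 1 x))
        = Qh Ω mu₁ mu₂ s Q 2 0 := by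
      funext x; simp [Qh]
    rw [e] at w
    refine w.congr fun x => ?_
    by_cases hx : x ∈ Ω
    · simp only [rhs, Fin.sum_univ_three, Set.indicator_of_mem hx, Nm_row0, Nm_11, Nm_22, Nm_12,
        Nm_hat_sigma hs, Nm_hat_tau hs _ H.mu₁_smooth H.mu₁_pos,
        Nm_hat_tau hs _ H.mu₂_smooth H.mu₂_pos, Nm_hat_delta hs _ H.mu₂_smooth H.mu₂_pos,
        Nm_hat_delta hs _ H.mu₁_smooth H.mu₁_pos, Q0, hDd, Qh, Matrix.cons_val_zero,
        Matrix.cons_val_one, Matrix.cons_val]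
      simp only [cc]
      field_simp
      ring
    · rw [(rhs_L2z H hLh 2 0).zero x hx]
      simp [(hR 2 0).zero x hx, (hR 2 1).zero x hx, (hL 2 1).zero x hx, hx]
  have c21 : WDz (zh s⁻¹) (Qh Ω mu₁ mu₂ s Q 2 1)
      (rhs Ω (zh s⁻¹) (zh' s⁻¹) mu₁ a₁ mu₂ a₂ (Qh Ω mu₁ mu₂ s Q) 2 1) := by
    have w := ((hW 2 1).const_mul ((s⁻¹) ^ 2)).scale ((s⁻¹) ^ 2)
    rw [← zh_inv hs] at w
    refine w.congr fun x => ?_
    by_cases hx : x ∈ Ω
    · simp only [rhs, Fin.sum_univ_three, Set.indicator_of_mem hx, Nm_row0, Nm_11, Nm_22, Nm_12,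
        Nm_hat_sigma hs, Nm_hat_tau hs _ H.mu₁_smooth H.mu₁_pos,
        Nm_hat_tau hs _ H.mu₂_smooth H.mu₂_pos, Nm_hat_delta hs _ H.mu₂_smooth H.mu₂_pos,
        Nm_hat_delta hs _ H.mu₁_smooth H.mu₁_pos, Q0, hDd, Qh, Matrix.cons_val_zero,
        Matrix.cons_val_one, Matrix.cons_val]
      skip
      field_simp
      ring
    · rw [(rhs_L2z H hLh 2 1).zero x hx]
      simp [(hR 2 1).zero x hx, hx]
  have c22 : WDz (zh s⁻¹) (Qh Ω mu₁ mu₂ s Q 2 2)
      (rhs Ω (zh s⁻¹) (zh' s⁻¹) mu₁ a₁ mu₂ a₂ (Qh Ω mu₁ mu₂ s Q) 2 2) := by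
    have w := (hW 2 2).scale ((s⁻¹) ^ 2)
    rw [← zh_inv hs] at w
    refine w.congr fun x => ?_
    by_cases hx : x ∈ Ω
    · simp only [rhs, Fin.sum_univ_three, Set.indicator_of_mem hx, Nm_row0, Nm_11, Nm_22, Nm_12,
        Nm_hat_sigma hs, Nm_hat_tau hs _ H.mu₁_smooth H.mu₁_pos,
        Nm_hat_tau hs _ H.mu₂_smooth H.mu₂_pos, Nm_hat_delta hs _ H.mu₂_smooth H.mu₂_pos,
        Nm_hat_delta hs _ H.mu₁_smooth H.mu₁_pos, Q0, hDd, Qh, Matrix.cons_val_zero,
        Matrix.cons_val_one, Matrix.cons_val]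
      skip
      field_simp
      ring
    · rw [(rhs_L2z H hLh 2 2).zero x hx]
      simp [(hR 2 2).zero x hx, hx]
  have c0 : ∀ j, WDz (zh s⁻¹) (Qh Ω mu₁ mu₂ s Q 0 j)
      (rhs Ω (zh s⁻¹) (zh' s⁻¹) mu₁ a₁ mu₂ a₂ (Qh Ω mu₁ mu₂ s Q) 0 j) := by
    intro j ψ _
    have e3 : ∀ k x, Qh Ω mu₁ mu₂ s Q 0 k x = 0 := by
      intro k x; fin_cases k <;> simp [Qh]
    have e2 : ∀ x, rhs Ω (zh s⁻¹) (zh' s⁻¹) mu₁ a₁ mu₂ a₂
        (Qh Ω mu₁ mu₂ s Q) 0 j x = 0 := by
      intro x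
      unfold rhs
      by_cases hx : x ∈ Ω <;> simp [Nm_row0, e3, hx]
    simp [e2, e3]
  intro i j
  fin_cases i
  · exact c0 j
  · fin_cases j
    · exact c10
    · exact c11
    · exact c12
  · fin_cases j
    · exact c20
    · exact c21
    · exact c22

end Vale.Agent.P136.CP
end
end

section

section

open MeasureTheory Filter Topology
open scoped ContDiff InnerProductSpace

namespace Vale.Agent.P136

open CP

namespace CP

/-- decay at infinity and Liouville -/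
lemma liou {F G : ℂ → ℂ} (hF : Differentiable ℂ F) (hG : Continuous G)
    (h : ∀ s, s ≠ 0 → ‖F s‖ ≤ ‖G s⁻¹‖) (s : ℂ) : F s = F 0 := by
  obtain ⟨C, hC⟩ := (isCompact_closedBall (0 : ℂ) 1).exists_bound_of_continuousOn hF.continuous.continuousOn
  obtain ⟨D, hD⟩ := (isCompact_closedBall (0 : ℂ) 1).exists_bound_of_continuousOn hG.continuousOn
  refine hF.apply_eq_apply_of_bounded ?_ s 0
  rw [isBounded_iff_forall_norm_le]
  refine ⟨max C D, ?_⟩
  rintro _ ⟨t, rfl⟩
  by_cases ht : ‖t‖ ≤ 1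
  · exact (hC t (by simpa using ht)).trans (le_max_left _ _)
  · push Not at ht
    have ht0 : t ≠ 0 := by
      rintro rfl; simp at ht; linarith
    refine (h t ht0).trans ((hD t⁻¹ ?_).trans (le_max_right _ _))
    simp only [Metric.mem_closedBall, dist_zero_right, norm_inv]
    exact inv_le_one_of_one_le₀ ht.le

lemma liou0 {F G : ℂ → ℂ} (hF : Differentiable ℂ F) (hG : Continuous G)
    (h : ∀ s, s ≠ 0 → F s = s⁻¹ * G s⁻¹) (s : ℂ) : F s = 0 := by
  have h1 : ∀ s, F s = F 0 := liou hF (G := fun t => t * G t) (continuous_id.mul hG)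
    (fun s hs => by rw [h s hs])
  rw [h1 s]
  obtain ⟨D, hD⟩ := (isCompact_closedBall (0 : ℂ) 1).exists_bound_of_continuousOn hG.continuousOn
  by_contra hne
  have hpos : 0 < ‖F 0‖ := norm_pos_iff.2 hne
  have hD0 : 0 ≤ D := (norm_nonneg _).trans (hD 0 (by simp))
  -- choose a large real point
  set r : ℝ := max 1 ((D + 1) / ‖F 0‖) with hr
  have hr1 : 1 ≤ r := le_max_left _ _
  have hr2 : (D + 1) / ‖F 0‖ ≤ r := le_max_right _ _
  have hr0 : (r : ℂ) ≠ 0 := by exact_mod_cast (by linarith : r ≠ 0)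
  have h2 := h r hr0
  rw [h1 r] at h2
  have h3 : ‖F 0‖ ≤ r⁻¹ * D := by
    rw [h2, norm_mul, norm_inv, Complex.norm_real, Real.norm_of_nonneg (by linarith)]
    refine mul_le_mul_of_nonneg_left (hD _ ?_) (by positivity)
    simp only [Metric.mem_closedBall, dist_zero_right, norm_inv, Complex.norm_real,
      Real.norm_of_nonneg (by linarith only [hr1] : (0 : ℝ) ≤ r)]
    exact inv_le_one_of_one_le₀ hr1
  have hrp : 0 < r := by linarith only [hr1]
  rw [div_le_iff₀ hpos] at hr2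
  have h4 : r * ‖F 0‖ ≤ D := by
    have := mul_le_mul_of_nonneg_left h3 hrp.le
    rwa [← mul_assoc, mul_inv_cancel₀ hrp.ne', one_mul] at this
  linarith

variable {Ω : Set E3} {mu₁ a₁ mu₂ a₂ : E3 → ℝ}

/-- holomorphy of the pairings of the transfer matrix -/
lemma hol_q (hS : S1Es_statement) (H : CPHyp Ω mu₁ a₁ mu₂ a₂) {zz zz' : ℂ → Fin 3 → ℂ}
    (hz : zz = zs ∨ zz = zh) (hz' : ∀ i, Differentiable ℂ (fun s => zz' s i))
    {Q : ℂ → Fin 3 → Fin 3 → E3 → ℂ}
    (hQ : ∀ s, QSol Ω (zz s) (zz' s) mu₁ a₁ mu₂ a₂ (Q s)) (i j : Fin 3) {φ : E3 → ℂ}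
    (hφ : ContDiff ℝ ∞ φ) : Differentiable ℂ (fun s => ∫ x, Q s i j x * φ x) := by
  have hzh : ∀ i, Differentiable ℂ (fun s => zz s i) := by
    rcases hz with rfl | rfl
    · exact zs_holo
    · exact zh_holo
  have n1 := fun i j => Nmp_smooth hzh hz' H.mu₁_smooth H.a₁_smooth H.mu₁_pos H.a₁_pos i j
  have n2 := fun i j => Nmp_smooth hzh hz' H.mu₂_smooth H.a₂_smooth H.mu₂_pos H.a₂_pos i j
  have m1 := fun i j x => Nmp_holo hzh hz' a₁ H.mu₁_smooth H.mu₁_pos i j x
  have m2 := fun i j x => Nmp_holo hzh hz' a₂ H.mu₂_smooth H.mu₂_pos i j x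
  refine hol (ι := Fin 3 × Fin 3) hS H.isOpen H.isBounded hz
    (N := fun a b p => N9 (fun i k => Nm (zz p.2) (zz' p.2) mu₂ a₂ i k p.1)
      (fun i k => Nm (zz p.2) (zz' p.2) mu₁ a₁ i k p.1) a b)
    (f := fun a p => Nm (zz p.2) (zz' p.2) mu₂ a₂ a.1 a.2 p.1
      - Nm (zz p.2) (zz' p.2) mu₁ a₁ a.1 a.2 p.1)
    ?_ (fun a => (n2 _ _).sub (n1 _ _)) ?_ (fun a x => (m2 _ _ x).sub (m1 _ _ x))
    (Q := fun s a => Q s a.1 a.2) (fun s a => qsol_L2z (hQ s) _ _) ?_ (i, j) hφ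
  · intro a b
    unfold N9
    refine ContDiff.sub ?_ ?_
    · by_cases hc : a.2 = b.2
      · simp only [hc, if_true]; exact n2 _ _
      · simp only [hc, if_false]; exact contDiff_const
    · by_cases hc : a.1 = b.1
      · simp only [hc, if_true]; exact n1 _ _
      · simp only [hc, if_false]; exact contDiff_const
  · intro a b x
    unfold N9
    refine Differentiable.sub ?_ ?_
    · by_cases hc : a.2 = b.2
      · simp only [hc, if_true]; exact m2 _ _ x
      · simp only [hc, if_false]; exact differentiable_const _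
    · by_cases hc : a.1 = b.1
      · simp only [hc, if_true]; exact m1 _ _ x
      · simp only [hc, if_false]; exact differentiable_const _
  · intro s a
    refine (qsol_WDz H (hQ s) a.1 a.2).congr fun x => ?_
    have e1 := N9_sum (fun i k => Nm (zz s) (zz' s) mu₂ a₂ i k x)
      (fun i k => Nm (zz s) (zz' s) mu₁ a₁ i k x) (fun i j => Q s i j x) a
    rw [e1]
    rfl

end CP

/-- CP1b: holomorphy, change of chart and Liouville. -/
theorem GAM_of (hU : UNIQ_statement) (hS : S1Es_statement) (hZ : ZERO_statement) :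
    GAM_statement := by
  intro Ω mu₁ a₁ mu₂ a₂ H hs hh
  choose Q hQ using hs
  choose P hP using hh
  have hb := H.isBounded
  have hr₁ : ContDiff ℝ ∞ (cc fun y => √(mu₁ y)) := cc_smooth (sqrt_smooth H.mu₁_smooth H.mu₁_pos)
  have hr₂ : ContDiff ℝ ∞ (cc fun y => √(mu₂ y)) := cc_smooth (sqrt_smooth H.mu₂_smooth H.mu₂_pos)
  have hd : ContDiff ℝ ∞ (fun y => cc (fun y => √(mu₁ y)) y - cc (fun y => √(mu₂ y)) y) :=
    hr₁.sub hr₂
  have hI : L2z Ω (Ω.indicator
      (fun y => cc (fun y => √(mu₁ y)) y - cc (fun y => √(mu₂ y)) y)) :=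
    L2z.indicator H.isOpen hb hd.continuous
  -- relation between the two charts
  have hrel : ∀ s : ℂ, s ≠ 0 → ∀ i j, ∀ᵐ x, P s⁻¹ i j x = Qh Ω mu₁ mu₂ s (Q s) i j x := by
    intro s hs i j
    exact qsol_uniq hU H (dot_zh _) (zh_ne_zero _) (hP s⁻¹) (rel hZ H hs (hQ s)) i j
  have q : ∀ i j {φ : E3 → ℂ}, ContDiff ℝ ∞ φ → Differentiable ℂ (fun s => ∫ x, Q s i j x * φ x) :=
    fun i j φ hφ => hol_q hS H (Or.inl rfl) zs'_holo hQ i j hφ
  have p : ∀ i j {φ : E3 → ℂ}, ContDiff ℝ ∞ φ → Differentiable ℂ (fun s => ∫ x, P s i j x * φ x) :=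
    fun i j φ hφ => hol_q hS H (Or.inr rfl) zh'_holo hP i j hφ
  have r11 : ∀ {φ : E3 → ℂ}, ContDiff ℝ ∞ φ → ∀ s : ℂ, s ≠ 0 →
      ∫ x, Q s 1 1 x * φ x = ∫ x, P s⁻¹ 1 1 x * φ x := by
    intro φ hφ s hs
    refine integral_congr_ae ?_
    filter_upwards [hrel s hs 1 1] with x hx
    rw [hx]; simp [Qh]
  have r12 : ∀ {φ : E3 → ℂ}, ContDiff ℝ ∞ φ → ∀ s : ℂ, s ≠ 0 →
      ∫ x, Q s 1 2 x * φ x = s⁻¹ * (s⁻¹ * ∫ x, P s⁻¹ 1 2 x * φ x) := by
    intro φ hφ s hs
    rw [← integral_const_mul, ← integral_const_mul]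
    refine integral_congr_ae ?_
    filter_upwards [hrel s hs 1 2] with x hx
    rw [hx]; simp only [Qh, Matrix.cons_val_one, Matrix.cons_val]
    field_simp
  have r10 : ∀ {φ : E3 → ℂ}, ContDiff ℝ ∞ φ → ∀ s : ℂ, s ≠ 0 →
      ∫ x, P s⁻¹ 1 0 x * φ x = - s ^ 2 * (∫ x, Q s 1 0 x * φ x)
        + 2 * s * (∫ x, Q s 1 1 x * (cc (fun y => √(mu₁ y)) x * φ x))
        + 2 * s * (∫ x, Ω.indicator
            (fun y => cc (fun y => √(mu₁ y)) y - cc (fun y => √(mu₂ y)) y) x * φ x) := by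
    intro φ hφ s hs
    have hL := qsol_L2z (hQ s)
    rw [← integral_const_mul, ← integral_const_mul, ← integral_const_mul]
    have i1 : Integrable (fun x => -s ^ 2 * (Q s 1 0 x * φ x)) :=
      ((hL 1 0).integrable_mul hb hφ.continuous).const_mul _
    have hc : Continuous (fun x => cc (fun y => √(mu₁ y)) x * φ x) :=
      hr₁.continuous.mul hφ.continuous
    have i2 : Integrable (fun x => 2 * s * (Q s 1 1 x * (cc (fun y => √(mu₁ y)) x * φ x))) :=
      ((hL 1 1).integrable_mul hb hc).const_mul _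
    have i3 : Integrable (fun x => 2 * s * (Ω.indicator
        (fun y => cc (fun y => √(mu₁ y)) y - cc (fun y => √(mu₂ y)) y) x * φ x)) :=
      (hI.integrable_mul hb hφ.continuous).const_mul _
    have i12 : Integrable (fun x => -s ^ 2 * (Q s 1 0 x * φ x) +
        2 * s * (Q s 1 1 x * (cc (fun y => √(mu₁ y)) x * φ x))) := i1.add i2
    rw [← integral_add i1 i2, ← integral_add i12 i3]
    refine integral_congr_ae ?_
    filter_upwards [hrel s hs 1 0] with x hx
    rw [hx]; simp only [Qh, Matrix.cons_val_zero, Matrix.cons_val_one, Matrix.cons_val]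
    ring
  have k11 : ∀ {φ : E3 → ℂ}, ContDiff ℝ ∞ φ → ∀ s : ℂ,
      ∫ x, Q s 1 1 x * φ x = ∫ x, Q 0 1 1 x * φ x := by
    intro φ hφ s
    exact liou (q 1 1 hφ) (p 1 1 hφ).continuous (fun s hs => by rw [r11 hφ s hs]) s
  have k12 : ∀ {φ : E3 → ℂ}, ContDiff ℝ ∞ φ → ∀ s : ℂ, ∫ x, Q s 1 2 x * φ x = 0 := by
    intro φ hφ s
    exact liou0 (q 1 2 hφ) (G := fun t => t * ∫ x, P t 1 2 x * φ x)
      (continuous_id.mul (p 1 2 hφ).continuous) (fun s hs => by rw [r12 hφ s hs]) s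
  have k10 : ∀ {φ : E3 → ℂ}, ContDiff ℝ ∞ φ → ∀ s : ℂ, ∫ x, Q s 1 0 x * φ x = 0 := by
    intro φ hφ s
    set A : ℂ := ∫ x, Ω.indicator
      (fun y => cc (fun y => √(mu₁ y)) y - cc (fun y => √(mu₂ y)) y) x * φ x with hA
    set B : ℂ := ∫ x, Q 0 1 1 x * (cc (fun y => √(mu₁ y)) x * φ x) with hB
    refine liou0 (q 1 0 hφ) (G := fun t => 2 * (A + B) - t * ∫ x, P t 1 0 x * φ x)
      (continuous_const.sub (continuous_id.mul (p 1 0 hφ).continuous)) (fun s hs => ?_) s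
    have h1 := r10 hφ s hs
    rw [k11 (hr₁.mul hφ) s, ← hA, ← hB] at h1
    change _ = s⁻¹ * (2 * (A + B) - s⁻¹ * ∫ x, P s⁻¹ 1 0 x * φ x)
    rw [h1]
    field_simp
    ring
  have kAB : ∀ {φ : E3 → ℂ}, ContDiff ℝ ∞ φ →
      (∫ x, Ω.indicator
        (fun y => cc (fun y => √(mu₁ y)) y - cc (fun y => √(mu₂ y)) y) x * φ x)
      + (∫ x, Q 0 1 1 x * (cc (fun y => √(mu₁ y)) x * φ x)) = 0 := by
    intro φ hφ
    refine liou0 (F := fun _ => (∫ x, Ω.indicator
        (fun y => cc (fun y => √(mu₁ y)) y - cc (fun y => √(mu₂ y)) y) x * φ x)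
      + (∫ x, Q 0 1 1 x * (cc (fun y => √(mu₁ y)) x * φ x)))
      (G := fun t => 2⁻¹ * ∫ x, P t 1 0 x * φ x) (differentiable_const _)
      (continuous_const.mul (p 1 0 hφ).continuous) (fun s hs => ?_) 0
    have h1 := r10 hφ s hs
    rw [k11 (hr₁.mul hφ) s, k10 hφ s] at h1
    change _ = s⁻¹ * (2⁻¹ * ∫ x, P s⁻¹ 1 0 x * φ x)
    rw [h1]
    field_simp
    ring
  refine ⟨Q 0, hQ 0, (qsol_L2z (hQ 0) 1 2).ae_zero hb fun φ hφ => k12 hφ 0,
    (qsol_L2z (hQ 0) 1 0).ae_zero hb fun φ hφ => k10 hφ 0, ?_⟩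
  have hL11 := qsol_L2z (hQ 0) 1 1
  have hs := hI.add (hL11.cmul hb hr₁.continuous)
  have h2 := hs.ae_zero hb fun φ hφ => by
    have e : ∀ x, (Ω.indicator
        (fun y => cc (fun y => √(mu₁ y)) y - cc (fun y => √(mu₂ y)) y) x +
          cc (fun y => √(mu₁ y)) x * Q 0 1 1 x) * φ x = Ω.indicator
        (fun y => cc (fun y => √(mu₁ y)) y - cc (fun y => √(mu₂ y)) y) x * φ x
          + Q 0 1 1 x * (cc (fun y => √(mu₁ y)) x * φ x) := fun x => by ring
    have hc : Continuous (fun x => cc (fun y => √(mu₁ y)) x * φ x) :=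
      hr₁.continuous.mul hφ.continuous
    simp only [e]
    rw [integral_add (hI.integrable_mul hb hφ.continuous) (hL11.integrable_mul hb hc)]
    exact kAB hφ
  filter_upwards [h2] with x hx hxΩ
  rw [Set.indicator_of_mem hxΩ] at hx
  simp only [cc] at hx
  have hne : ((√(mu₁ x) : ℝ) : ℂ) ≠ 0 := by
    exact_mod_cast (Real.sqrt_pos.2 (H.mu₁_pos x)).ne'
  push_cast
  field_simp
  linear_combination hx

end Vale.Agent.P136
end
end

section

section

open MeasureTheory Filter Topology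
open scoped ContDiff InnerProductSpace

namespace Vale.Agent.P136.CPc

section Dzcalc

variable {ζ : Fin 3 → ℂ}

lemma Dz_contDiff {f : E3 → ℂ} (hf : ContDiff ℝ ∞ f) : ContDiff ℝ ∞ (Dz ζ f) := by
  unfold Dz
  exact ContDiff.sum fun i _ => contDiff_const.mul (pd_contDiff_infty hf i)

lemma Dz_mul {f g : E3 → ℂ} {x : E3} (hf : DifferentiableAt ℝ f x)
    (hg : DifferentiableAt ℝ g x) :
    Dz ζ (fun y => f y * g y) x = Dz ζ f x * g x + f x * Dz ζ g x := by
  unfold Dz pd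
  rw [fderiv_fun_mul hf hg]
  simp only [add_apply, smul_apply, smul_eq_mul,
    Finset.sum_mul, Finset.mul_sum, ← Finset.sum_add_distrib]
  refine Finset.sum_congr rfl fun i _ => ?_
  ring

lemma Dz_add {f g : E3 → ℂ} {x : E3} (hf : DifferentiableAt ℝ f x)
    (hg : DifferentiableAt ℝ g x) :
    Dz ζ (fun y => f y + g y) x = Dz ζ f x + Dz ζ g x := by
  unfold Dz pd
  rw [fderiv_fun_add hf hg]
  simp only [add_apply, mul_add, Finset.sum_add_distrib]

lemma Dz_sub_const {f : E3 → ℂ} {x : E3} (c : ℂ) :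
    Dz ζ (fun y => f y - c) x = Dz ζ f x := by
  unfold Dz pd
  simp only [fderiv_sub_const]

end Dzcalc

/-- a continuous function orthogonal to all smooth functions on an open set vanishes there. -/
lemma eq_zero_of_weak {Ω : Set E3} (hΩ : IsOpen Ω) {f : E3 → ℂ} (hf : Continuous f)
    (h : ∀ ψ : E3 → ℂ, ContDiff ℝ ∞ ψ → ∫ x in Ω, f x * ψ x = 0) : ∀ x ∈ Ω, f x = 0 := by
  have h1 : ∀ᵐ x ∂(volume : Measure E3), x ∈ Ω → f x = 0 := by
    refine hΩ.ae_eq_zero_of_integral_contDiff_smul_eq_zero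
      (hf.locallyIntegrable.locallyIntegrableOn Ω) ?_
    intro g hg hgc hgs
    have h2 := h (fun x => (g x : ℂ)) (Complex.ofRealCLM.contDiff.comp hg)
    have h3 : ∫ x, g x • f x = ∫ x in Ω, f x * (g x : ℂ) := by
      rw [← integral_indicator hΩ.measurableSet]
      refine integral_congr_ae (Eventually.of_forall fun x => ?_)
      simp only [Set.indicator]
      split_ifs with hx
      · simp [mul_comm]
      · have : g x = 0 := by
          by_contra hne
          exact hx (hgs (subset_tsupport g hne))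
        simp [this]
    rw [h3, h2]
  have h2 : f =ᵐ[volume.restrict Ω] (fun _ => (0 : ℂ)) := by
    rw [Filter.EventuallyEq, ae_restrict_iff' hΩ.measurableSet]
    exact h1
  exact MeasureTheory.Measure.eqOn_open_of_ae_eq h2 hΩ hf.continuousOn continuousOn_const

/-- a square integrable function orthogonal to all smooth functions vanishes. -/
lemma ae_zero_of_weak {f : E3 → ℂ} (hf : LocallyIntegrable f (volume : Measure E3))
    (h : ∀ ψ : E3 → ℂ, ContDiff ℝ ∞ ψ → HasCompactSupport ψ → ∫ x, f x * ψ x = 0) :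
    f =ᵐ[volume] 0 := by
  refine ae_eq_zero_of_integral_contDiff_smul_eq_zero hf ?_
  intro g hg hgc
  have h2 := h (fun x => (g x : ℂ)) (Complex.ofRealCLM.contDiff.comp hg)
    (hgc.comp_left (g := fun r : ℝ => (r : ℂ)) (by simp))
  rw [← h2]
  refine integral_congr_ae (Eventually.of_forall fun x => ?_)
  simp [mul_comm]

lemma integrableOn_of_cont {Ω : Set E3} (hb : Bornology.IsBounded Ω) {f : E3 → ℂ}
    (hf : Continuous f) : IntegrableOn f Ω :=
  (hf.continuousOn.integrableOn_compact hb.isCompact_closure).mono_set subset_closure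

lemma zero_Dz (hZ : ZERO_statement) {Ω : Set E3} (hΩ : IsOpen Ω)
    (hb : Bornology.IsBounded Ω) {ζ : Fin 3 → ℂ} {f : E3 → ℂ} (hf : ContDiff ℝ ∞ f)
    (h0 : ∀ x ∈ frontier Ω, f x = 0) {ψ : E3 → ℂ} (hψ : ContDiff ℝ ∞ ψ) :
    ∫ x in Ω, f x * Dz ζ ψ x = - ∫ x in Ω, Dz ζ f x * ψ x := by
  have h1 : ∀ i, ∫ x in Ω, f x * pd i ψ x = - ∫ x in Ω, pd i f x * ψ x := fun i =>
    hZ Ω f hΩ hb (hf.of_le (by exact_mod_cast le_top)) h0 i ψ hψ
  have h2 : ∫ x in Ω, f x * Dz ζ ψ x = ∑ i, ζ i * ∫ x in Ω, f x * pd i ψ x := by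
    simp_rw [← integral_const_mul]
    rw [← integral_finsetSum]
    · refine integral_congr_ae (Eventually.of_forall fun x => ?_)
      simp only [Dz, Finset.mul_sum]
      exact Finset.sum_congr rfl fun i _ => by ring
    · intro i _
      exact integrableOn_of_cont hb (continuous_const.mul
        (hf.continuous.mul (pd_contDiff_infty hψ i).continuous))
  have h3 : ∫ x in Ω, Dz ζ f x * ψ x = ∑ i, ζ i * ∫ x in Ω, pd i f x * ψ x := by
    simp_rw [← integral_const_mul]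
    rw [← integral_finsetSum]
    · refine integral_congr_ae (Eventually.of_forall fun x => ?_)
      simp only [Dz, Finset.sum_mul]
      exact Finset.sum_congr rfl fun i _ => by ring
    · intro i _
      exact integrableOn_of_cont hb (continuous_const.mul
        ((pd_contDiff_infty hf i).continuous.mul hψ.continuous))
  rw [h2, h3, ← Finset.sum_neg_distrib]
  refine Finset.sum_congr rfl fun i _ => ?_
  rw [h1 i]
  ring

/-- uniqueness for a smooth function vanishing on the boundary. -/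
lemma uniq_one (hU : UNIQ_statement) (hZ : ZERO_statement) {Ω : Set E3} (hΩ : IsOpen Ω)
    (hb : Bornology.IsBounded Ω) {ζ : Fin 3 → ℂ} (hζ : dot ζ ζ = 0) (hζ0 : ζ ≠ 0)
    {f N : E3 → ℂ} (hf : ContDiff ℝ ∞ f) (hN : ContDiff ℝ ∞ N)
    (h0 : ∀ x ∈ frontier Ω, f x = 0) (hD : ∀ x ∈ Ω, Dz ζ f x = N x * f x) :
    ∀ x ∈ Ω, f x = 0 := by
  classical
  have hmem : MemLp (Ω.indicator f) 2 (volume : Measure E3) := by
    rw [memLp_indicator_iff_restrict hΩ.measurableSet]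
    have hfin : IsFiniteMeasure (volume.restrict Ω : Measure E3) :=
      ⟨by
        rw [Measure.restrict_apply_univ]
        exact hb.measure_lt_top⟩
    obtain ⟨C, hC⟩ := (hb.isCompact_closure.exists_bound_of_continuousOn
      hf.continuous.continuousOn)
    refine MemLp.of_bound hf.continuous.aestronglyMeasurable C ?_
    rw [ae_restrict_iff' hΩ.measurableSet]
    exact Eventually.of_forall fun x hx => hC x (subset_closure hx)
  have key := hU ζ hζ hζ0 1 (fun _ _ => N) Ω (fun _ => Ω.indicator f) hb hΩ.measurableSet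
    (fun _ _ => hN) (fun _ => hmem) (fun _ x hx => Set.indicator_of_notMem hx f) ?_ 0
  · have h2 : f =ᵐ[volume.restrict Ω] (fun _ => (0 : ℂ)) := by
      rw [Filter.EventuallyEq, ae_restrict_iff' hΩ.measurableSet]
      filter_upwards [key] with x hx hxΩ
      rwa [Set.indicator_of_mem hxΩ] at hx
    exact MeasureTheory.Measure.eqOn_open_of_ae_eq h2 hΩ hf.continuous.continuousOn
      continuousOn_const
  · intro _ ψ hψ
    have e1 : ∫ x, Ω.indicator f x * Dz ζ ψ x = ∫ x in Ω, f x * Dz ζ ψ x := by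
      rw [← integral_indicator hΩ.measurableSet]
      refine integral_congr_ae (Eventually.of_forall fun x => ?_)
      simp only [Set.indicator]
      split_ifs <;> simp
    have e2 : ∫ x, N x * Ω.indicator f x * ψ x = ∫ x in Ω, N x * f x * ψ x := by
      rw [← integral_indicator hΩ.measurableSet]
      refine integral_congr_ae (Eventually.of_forall fun x => ?_)
      simp only [Set.indicator]
      split_ifs <;> simp
    simp only [Finset.univ_unique, Finset.sum_singleton]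
    rw [e1, e2, zero_Dz hZ hΩ hb hf h0 hψ]
    have e3 : ∫ x in Ω, Dz ζ f x * ψ x = ∫ x in Ω, N x * f x * ψ x := by
      refine setIntegral_congr_fun hΩ.measurableSet fun x hx => ?_
      simp only [hD x hx]
    rw [e3]
    ring


lemma cc_contDiff {f : E3 → ℝ} (hf : ContDiff ℝ ∞ f) : ContDiff ℝ ∞ (cc f) :=
  Complex.ofRealCLM.contDiff.comp hf

/-- algebra: the second derivative identity for `m₁ = g² m₂`. -/
lemma Dz_Dz_sq_mul {ζ : Fin 3 → ℂ} {g m : E3 → ℂ} (hg : ContDiff ℝ ∞ g) (hm : ContDiff ℝ ∞ m)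
    (x : E3) :
    Dz ζ (Dz ζ (fun y => g y * g y * m y)) x =
      g x * g x * Dz ζ (Dz ζ m) x + 4 * g x * Dz ζ g x * Dz ζ m x
        + 2 * m x * Dz ζ g x * Dz ζ g x + 2 * m x * g x * Dz ζ (Dz ζ g) x := by
  have dg : ∀ y, DifferentiableAt ℝ g y := fun y => hg.differentiable (by simp) y
  have dm : ∀ y, DifferentiableAt ℝ m y := fun y => hm.differentiable (by simp) y
  have dDg : ∀ y, DifferentiableAt ℝ (Dz ζ g) y := fun y =>
    (Dz_contDiff hg).differentiable (by simp) y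
  have dDm : ∀ y, DifferentiableAt ℝ (Dz ζ m) y := fun y =>
    (Dz_contDiff hm).differentiable (by simp) y
  have e1 : Dz ζ (fun y => g y * g y * m y) =
      fun y => (Dz ζ g y * g y + g y * Dz ζ g y) * m y + g y * g y * Dz ζ m y := by
    funext y
    rw [Dz_mul ((dg y).fun_mul (dg y)) (dm y), Dz_mul (dg y) (dg y)]
  rw [e1, Dz_add ((((dDg x).fun_mul (dg x)).fun_add ((dg x).fun_mul (dDg x))).fun_mul (dm x))
      (((dg x).fun_mul (dg x)).fun_mul (dDm x)),
    Dz_mul (((dDg x).fun_mul (dg x)).fun_add ((dg x).fun_mul (dDg x))) (dm x),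
    Dz_add ((dDg x).fun_mul (dg x)) ((dg x).fun_mul (dDg x)), Dz_mul (dDg x) (dg x),
    Dz_mul (dg x) (dDg x), Dz_mul ((dg x).fun_mul (dg x)) (dDm x), Dz_mul (dg x) (dg x)]
  ring

/-- CP1c: the final algebra.  `gp`, `al`, `be` are the entries `γ - 1`, `α - 1`, `β` of the
transfer matrix for one null direction `ζ`, the entry `ε` being zero. -/
theorem CP1c (hU : UNIQ_statement) (hZ : ZERO_statement) {Ω : Set E3} {mu₁ a₁ mu₂ a₂ : E3 → ℝ}
    (hΩ : IsOpen Ω) (hb : Bornology.IsBounded Ω)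
    (hmu₁ : ContDiff ℝ ∞ mu₁) (ha₁ : ContDiff ℝ ∞ a₁) (hmu₂ : ContDiff ℝ ∞ mu₂)
    (ha₂ : ContDiff ℝ ∞ a₂)
    (pmu₁ : ∀ x, 0 < mu₁ x) (pa₁ : ∀ x, 0 < a₁ x) (pmu₂ : ∀ x, 0 < mu₂ x)
    (pa₂ : ∀ x, 0 < a₂ x) (h2 : ∀ x, 2 < a₂ x * mu₂ x)
    (hbd : ∀ x ∈ frontier Ω, mu₁ x = mu₂ x ∧ fderiv ℝ mu₁ x = fderiv ℝ mu₂ x ∧
      a₁ x = a₂ x ∧ fderiv ℝ a₁ x = fderiv ℝ a₂ x)
    {ζ : Fin 3 → ℂ} (hζ : dot ζ ζ = 0) (hζ0 : ζ ≠ 0)
    {gp al be : E3 → ℂ} (mgp : MemLp gp 2 (volume : Measure E3))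
    (mal : MemLp al 2 (volume : Measure E3)) (mbe : MemLp be 2 (volume : Measure E3))
    (zgp : ∀ x, x ∉ Ω → gp x = 0) (zal : ∀ x, x ∉ Ω → al x = 0) (zbe : ∀ x, x ∉ Ω → be x = 0)
    (hgp : ∀ᵐ x ∂(volume : Measure E3), x ∈ Ω → 1 + gp x = (√(mu₂ x / mu₁ x) : ℝ))
    (e1 : ∀ ψ : E3 → ℂ, ContDiff ℝ ∞ ψ → ∫ x, gp x * Dz ζ ψ x = ∫ x, be x / a₂ x * ψ x)
    (e2 : ∀ ψ : E3 → ℂ, ContDiff ℝ ∞ ψ →
      (∫ x, (gp x / a₁ x - al x / a₂ x) * ψ x) + ∫ x in Ω, (1 / a₁ x - 1 / a₂ x) * ψ x = 0)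
    (e3 : ∀ ψ : E3 → ℂ, ContDiff ℝ ∞ ψ → ∫ x, al x * Dz ζ ψ x = - ∫ x, be x / a₁ x * ψ x)
    (e4 : ∀ ψ : E3 → ℂ, ContDiff ℝ ∞ ψ → ∫ x, be x * Dz ζ ψ x =
      - (∫ x, (Dz ζ (Dz ζ (cc fun y => (mu₂ y)⁻¹)) x * gp x
          - al x * Dz ζ (Dz ζ (cc fun y => (mu₁ y)⁻¹)) x) * ψ x)
      - ∫ x in Ω, (Dz ζ (Dz ζ (cc fun y => (mu₂ y)⁻¹)) x
          - Dz ζ (Dz ζ (cc fun y => (mu₁ y)⁻¹)) x) * ψ x) :
    ∀ x ∈ Ω, mu₁ x = mu₂ x ∧ a₁ x = a₂ x := by
  have hm := hΩ.measurableSet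
  -- smooth functions
  set gr : E3 → ℝ := fun x => √(mu₂ x / mu₁ x) with hgr
  have pgr : ∀ x, 0 < gr x := fun x => Real.sqrt_pos.mpr (div_pos (pmu₂ x) (pmu₁ x))
  have hgrs : ContDiff ℝ ∞ gr :=
    (hmu₂.div hmu₁ fun x => (pmu₁ x).ne').sqrt fun x => (div_pos (pmu₂ x) (pmu₁ x)).ne'
  have hgr2 : ∀ x, gr x * gr x = mu₂ x / mu₁ x := fun x =>
    Real.mul_self_sqrt (div_pos (pmu₂ x) (pmu₁ x)).le
  set g : E3 → ℂ := cc gr with hg
  have hgs : ContDiff ℝ ∞ g := cc_contDiff hgrs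
  have hg0 : ∀ x, g x ≠ 0 := fun x => by
    simp only [hg, cc]; exact_mod_cast (pgr x).ne'
  set M1 : E3 → ℂ := cc fun y => (mu₁ y)⁻¹ with hM1
  set M2 : E3 → ℂ := cc fun y => (mu₂ y)⁻¹ with hM2
  have hM1s : ContDiff ℝ ∞ M1 := cc_contDiff (hmu₁.inv fun x => (pmu₁ x).ne')
  have hM2s : ContDiff ℝ ∞ M2 := cc_contDiff (hmu₂.inv fun x => (pmu₂ x).ne')
  set A1 : E3 → ℂ := cc a₁ with hA1
  set A2 : E3 → ℂ := cc a₂ with hA2
  have hA1s : ContDiff ℝ ∞ A1 := cc_contDiff ha₁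
  have hA2s : ContDiff ℝ ∞ A2 := cc_contDiff ha₂
  have hA10 : ∀ x, A1 x ≠ 0 := fun x => by
    simp only [hA1, cc]; exact_mod_cast (pa₁ x).ne'
  have hA20 : ∀ x, A2 x ≠ 0 := fun x => by
    simp only [hA2, cc]; exact_mod_cast (pa₂ x).ne'
  -- integrability
  have hint : ∀ {f c : E3 → ℂ}, MemLp f 2 (volume : Measure E3) → (∀ x, x ∉ Ω → f x = 0) →
      Continuous c → Integrable (fun x => f x * c x) (volume : Measure E3) := by
    intro f c hf h0 hc
    have h1 : LocallyIntegrable (fun x => f x * c x) (volume : Measure E3) :=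
      LocallyIntegrable.mul_continuous hc (hf.locallyIntegrable (by norm_num))
    have h2 : IntegrableOn (fun x => f x * c x) (closure Ω) volume :=
      h1.integrableOn_isCompact hb.isCompact_closure
    refine h2.integrable_of_forall_notMem_eq_zero fun x hx => ?_
    rw [h0 x fun h => hx (subset_closure h), zero_mul]
  have hintΩ : ∀ {f : E3 → ℂ}, Continuous f → Integrable (Ω.indicator f)
      (volume : Measure E3) := fun {f} hf => by
    rw [integrable_indicator_iff hm]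
    exact integrableOn_of_cont hb hf
  have hindm : ∀ (f ψ : E3 → ℂ), ∫ x, Ω.indicator f x * ψ x = ∫ x in Ω, f x * ψ x := by
    intro f ψ
    rw [← integral_indicator hm]
    refine integral_congr_ae (Eventually.of_forall fun x => ?_)
    simp only [Set.indicator]
    split_ifs <;> simp
  -- an L² function which is a.e. a smooth function on Ω
  have hrep : ∀ {f : E3 → ℂ} {h : E3 → ℂ}, (∀ x, x ∉ Ω → f x = 0) →
      (∀ᵐ x ∂(volume : Measure E3), x ∈ Ω → f x = h x) → ∀ ψ : E3 → ℂ,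
      ∫ x, f x * ψ x = ∫ x in Ω, h x * ψ x := by
    intro f h h0 hae ψ
    rw [← hindm]
    refine integral_congr_ae ?_
    filter_upwards [hae] with x hx
    by_cases hxΩ : x ∈ Ω
    · rw [hx hxΩ, Set.indicator_of_mem hxΩ]
    · rw [h0 x hxΩ, Set.indicator_of_notMem hxΩ]
  -- step 1
  have s1 : ∀ᵐ x ∂(volume : Measure E3), x ∈ Ω → al x = A2 x / A1 x * g x - 1 := by
    have c1 : Continuous fun x => (1 / A1 x : ℂ) := by
      exact continuous_const.div hA1s.continuous hA10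
    have c2 : Continuous fun x => (1 / A2 x : ℂ) := by
      exact continuous_const.div hA2s.continuous hA20
    have i1 : ∀ {c : E3 → ℂ}, Continuous c →
        Integrable (fun x => gp x * (1 / A1 x * c x)) (volume : Measure E3) :=
      fun {c} hc => hint (c := fun x => 1 / A1 x * c x) mgp zgp (c1.mul hc)
    have i2 : ∀ {c : E3 → ℂ}, Continuous c →
        Integrable (fun x => al x * (1 / A2 x * c x)) (volume : Measure E3) :=
      fun {c} hc => hint (c := fun x => 1 / A2 x * c x) mal zal (c2.mul hc)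
    have i3 : ∀ {c : E3 → ℂ}, Continuous c → Integrable (fun x =>
        Ω.indicator (fun y => 1 / A1 y - 1 / A2 y) x * c x) (volume : Measure E3) := by
      intro c hc
      refine (hintΩ ((c1.sub c2).mul hc)).congr (Eventually.of_forall fun x => ?_)
      simp only [Set.indicator]
      split_ifs <;> simp
    have hz : (fun x => gp x * (1 / A1 x) - al x * (1 / A2 x) +
        Ω.indicator (fun y => 1 / A1 y - 1 / A2 y) x) =ᵐ[volume] 0 := by
      refine ae_zero_of_weak ?_ ?_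
      · have j1 := (i1 (c := fun _ => 1) continuous_const)
        have j2 := (i2 (c := fun _ => 1) continuous_const)
        have j3 := (i3 (c := fun _ => 1) continuous_const)
        simp only [mul_one] at j1 j2 j3
        exact ((j1.sub j2).add j3).locallyIntegrable
      · intro ψ hψ _
        have j1 := i1 hψ.continuous
        have j2 := i2 hψ.continuous
        have j3 := i3 hψ.continuous
        have := e2 ψ hψ
        rw [← hindm] at this
        rw [← this, ← integral_add]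
        · refine integral_congr_ae (Eventually.of_forall fun x => ?_)
          simp only [hA1, hA2, cc]
          ring
        · refine (j1.sub j2).congr (Eventually.of_forall fun x => ?_)
          simp only [hA1, hA2, cc, Pi.sub_apply]
          ring
        · refine j3.congr (Eventually.of_forall fun x => ?_)
          simp only [hA1, hA2, cc]
    filter_upwards [hz, hgp] with x hx hxg hxΩ
    have hx2 := hxg hxΩ
    simp only [Set.indicator_of_mem hxΩ, Pi.zero_apply] at hx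
    have hx3 : gp x = g x - 1 := by
      simp only [hg, cc, hgr]
      linear_combination hx2
    rw [hx3] at hx
    have h1 := hA10 x
    have h2 := hA20 x
    field_simp at hx ⊢
    linear_combination -hx
  -- boundary values
  have hgbd : ∀ x ∈ frontier Ω, gr x = 1 := by
    intro x hx
    have := (hbd x hx).1
    simp only [hgr, this, div_self (pmu₂ x).ne', Real.sqrt_one]
  have hDgbd : ∀ x ∈ frontier Ω, Dz ζ g x = 0 := by
    intro x hx
    obtain ⟨h1, h2, -, -⟩ := hbd x hx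
    have d1 : HasFDerivAt mu₁ (fderiv ℝ mu₁ x) x :=
      (hmu₁.differentiable (by simp) x).hasFDerivAt
    have d2 : HasFDerivAt mu₂ (fderiv ℝ mu₂ x) x :=
      (hmu₂.differentiable (by simp) x).hasFDerivAt
    have d3 : HasFDerivAt gr (fderiv ℝ gr x) x :=
      (hgrs.differentiable (by simp) x).hasFDerivAt
    have d4 := (d3.mul d3).mul d1
    have d4' : (gr * gr) * mu₁ = mu₂ := by
      funext y
      simp only [Pi.mul_apply, hgr2]
      exact div_mul_cancel₀ _ (pmu₁ y).ne'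
    rw [d4'] at d4
    have d5 := d4.unique d2
    have d5' : fderiv ℝ gr x = 0 := by
      ext v
      have := congrArg (fun L => L v) d5
      simp only [Pi.mul_apply, hgbd x hx, add_apply, smul_apply, smul_eq_mul, one_mul, h2] at this
      have h3 : 2 * mu₁ x * (fderiv ℝ gr x v) = 0 := by linear_combination this
      rcases mul_eq_zero.mp h3 with h4 | h4
      · exact absurd h4 (mul_pos two_pos (pmu₁ x)).ne'
      · simpa using h4
    rw [d5'] at d3
    have d6 : HasFDerivAt g (0 : E3 →L[ℝ] ℂ) x := by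
      have := (Complex.ofRealCLM.hasFDerivAt (x := gr x)).comp x d3
      rw [ContinuousLinearMap.comp_zero] at this
      exact this
    simp only [Dz, pd, d6.fderiv, zero_apply, mul_zero, Finset.sum_const_zero]
  -- step 2
  have s2 : ∀ᵐ x ∂(volume : Measure E3), x ∈ Ω → be x = - A2 x * Dz ζ g x := by
    have c2 : Continuous fun x => (1 / A2 x : ℂ) := by
      exact continuous_const.div hA2s.continuous hA20
    have i1 : ∀ {c : E3 → ℂ}, Continuous c →
        Integrable (fun x => be x * (1 / A2 x * c x)) (volume : Measure E3) :=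
      fun {c} hc => hint (c := fun x => 1 / A2 x * c x) mbe zbe (c2.mul hc)
    have i3 : ∀ {c : E3 → ℂ}, Continuous c → Integrable (fun x =>
        Ω.indicator (Dz ζ g) x * c x) (volume : Measure E3) := by
      intro c hc
      refine (hintΩ ((Dz_contDiff (ζ := ζ) hgs).continuous.mul hc)).congr
        (Eventually.of_forall fun x => ?_)
      simp only [Set.indicator]
      split_ifs <;> simp
    have hz : (fun x => be x * (1 / A2 x) + Ω.indicator (Dz ζ g) x) =ᵐ[volume] 0 := by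
      refine ae_zero_of_weak ?_ ?_
      · have j1 := (i1 (c := fun _ => 1) continuous_const)
        have j3 := (i3 (c := fun _ => 1) continuous_const)
        simp only [mul_one] at j1 j3
        exact (j1.add j3).locallyIntegrable
      · intro ψ hψ _
        have j1 := i1 hψ.continuous
        have j3 := i3 hψ.continuous
        have k1 := e1 ψ hψ
        have k2 : ∫ x, gp x * Dz ζ ψ x = ∫ x in Ω, (g x - 1) * Dz ζ ψ x := by
          refine hrep (h := fun x => g x - 1) zgp ?_ _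
          filter_upwards [hgp] with x hx hxΩ
          have hx2 := hx hxΩ
          simp only [hg, cc, hgr]
          linear_combination hx2
        have k3 : ∫ x in Ω, (g x - 1) * Dz ζ ψ x = - ∫ x in Ω, Dz ζ g x * ψ x := by
          rw [zero_Dz hZ hΩ hb (f := fun x => g x - 1) (hgs.sub contDiff_const) ?_ hψ]
          · simp only [Dz_sub_const]
          · intro x hx
            simp only [hg, cc, hgbd x hx, Complex.ofReal_one, sub_self]
        rw [k2, k3, ← hindm] at k1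
        have k4 : ∫ x, be x * (1 / A2 x * ψ x) = ∫ x, be x / a₂ x * ψ x := by
          refine integral_congr_ae (Eventually.of_forall fun x => ?_)
          simp only [hA2, cc]
          ring
        have k5 : ∫ x, (be x * (1 / A2 x) + Ω.indicator (Dz ζ g) x) * ψ x =
            (∫ x, be x * (1 / A2 x * ψ x)) + ∫ x, Ω.indicator (Dz ζ g) x * ψ x := by
          rw [← integral_add j1 j3]
          refine integral_congr_ae (Eventually.of_forall fun x => ?_)
          simp only []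
          ring
        rw [k5, k4, ← k1]
        ring
    filter_upwards [hz] with x hx hxΩ
    simp only [Set.indicator_of_mem hxΩ, Pi.zero_apply] at hx
    have h2 := hA20 x
    field_simp at hx
    linear_combination hx
  have hratio : ContDiff ℝ ∞ (fun x => A2 x / A1 x) := by
    have h1 : (fun x => A2 x / A1 x) = cc (fun x => a₂ x / a₁ x) := by
      funext x; simp [hA1, hA2, cc]
    rw [h1]
    exact cc_contDiff (ha₂.div ha₁ fun x => (pa₁ x).ne')
  have dg : ∀ y, DifferentiableAt ℝ g y := fun y => hgs.differentiable (by simp) y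
  have dr : ∀ y, DifferentiableAt ℝ (fun x => A2 x / A1 x) y :=
    fun y => hratio.differentiable (by simp) y
  -- step 3
  have s3' : ∀ x ∈ Ω, Dz ζ (fun x => A2 x / A1 x * g x) x + A2 x / A1 x * Dz ζ g x = 0 := by
    refine eq_zero_of_weak hΩ ((Dz_contDiff (hratio.mul hgs)).continuous.add
      (hratio.continuous.mul (Dz_contDiff hgs).continuous)) ?_
    intro ψ hψ
    have k1 := e3 ψ hψ
    have k2 : ∫ x, al x * Dz ζ ψ x = ∫ x in Ω, (A2 x / A1 x * g x - 1) * Dz ζ ψ x :=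
      hrep (h := fun x => A2 x / A1 x * g x - 1) zal s1 _
    have k3 : ∫ x in Ω, (A2 x / A1 x * g x - 1) * Dz ζ ψ x =
        - ∫ x in Ω, Dz ζ (fun x => A2 x / A1 x * g x) x * ψ x := by
      rw [zero_Dz hZ hΩ hb (f := fun x => A2 x / A1 x * g x - 1)
        ((hratio.mul hgs).sub contDiff_const) ?_ hψ]
      · simp only [Dz_sub_const]
      · intro x hx
        have h3 := (hbd x hx).2.2.1
        have h4 : A2 x / A1 x = 1 := by
          simp only [hA1, hA2, cc, h3]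
          have := hA20 x
          simp only [hA2, cc] at this
          exact div_self this
        simp only [h4, hg, cc, hgbd x hx, Complex.ofReal_one, one_mul, sub_self]
    have k4 : ∫ x, be x / a₁ x * ψ x = ∫ x in Ω, (- A2 x * Dz ζ g x) * (1 / A1 x * ψ x) := by
      rw [← hrep (h := fun x => - A2 x * Dz ζ g x) zbe s2 (fun x => 1 / A1 x * ψ x)]
      refine integral_congr_ae (Eventually.of_forall fun x => ?_)
      simp only [hA1, cc]
      ring
    rw [k2, k3, k4] at k1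
    have k5 : ∫ x in Ω, (Dz ζ (fun x => A2 x / A1 x * g x) x + A2 x / A1 x * Dz ζ g x) * ψ x =
        (∫ x in Ω, Dz ζ (fun x => A2 x / A1 x * g x) x * ψ x) -
          ∫ x in Ω, (- A2 x * Dz ζ g x) * (1 / A1 x * ψ x) := by
      rw [← integral_sub]
      · refine integral_congr_ae (Eventually.of_forall fun x => ?_)
        simp only []
        ring
      · exact integrableOn_of_cont hb ((Dz_contDiff (hratio.mul hgs)).continuous.mul
          hψ.continuous)
      · refine integrableOn_of_cont hb ((hA2s.continuous.neg.mul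
          (Dz_contDiff hgs).continuous).mul ((continuous_const.div hA1s.continuous hA10).mul
          hψ.continuous))
    rw [k5]
    linear_combination -k1
  have s3 : ∀ x ∈ Ω, A2 x / A1 x * (g x * g x) - 1 = 0 := by
    refine uniq_one hU hZ hΩ hb hζ hζ0 ((hratio.mul (hgs.mul hgs)).sub contDiff_const)
      (contDiff_const (c := (0:ℂ))) ?_ ?_
    · intro x hx
      have h3 := (hbd x hx).2.2.1
      have h4 : A2 x / A1 x = 1 := by
        simp only [hA1, hA2, cc, h3]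
        have := hA20 x
        simp only [hA2, cc] at this
        exact div_self this
      simp only [h4, hg, cc, hgbd x hx, Complex.ofReal_one, one_mul, sub_self]
    · intro x hx
      have h1 : (fun x => A2 x / A1 x * (g x * g x)) = fun x => (A2 x / A1 x * g x) * g x := by
        funext y; ring
      rw [Dz_sub_const, h1, Dz_mul ((dr x).fun_mul (dg x)) (dg x), zero_mul]
      linear_combination g x * s3' x hx
  -- step 4
  have hDg : ContDiff ℝ ∞ (Dz ζ g) := Dz_contDiff hgs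
  have s4' : ∀ x ∈ Ω, Dz ζ (fun x => A2 x * Dz ζ g x) x + g x * Dz ζ (Dz ζ M2) x
      - A2 x / A1 x * g x * Dz ζ (Dz ζ M1) x = 0 := by
    have hDM1 : ContDiff ℝ ∞ (Dz ζ (Dz ζ M1)) := Dz_contDiff (Dz_contDiff hM1s)
    have hDM2 : ContDiff ℝ ∞ (Dz ζ (Dz ζ M2)) := Dz_contDiff (Dz_contDiff hM2s)
    have hAD : ContDiff ℝ ∞ (Dz ζ (fun x => A2 x * Dz ζ g x)) := Dz_contDiff (hA2s.mul hDg)
    refine eq_zero_of_weak hΩ ((hAD.continuous.add (hgs.continuous.mul hDM2.continuous)).sub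
      ((hratio.continuous.mul hgs.continuous).mul hDM1.continuous)) ?_
    intro ψ hψ
    have k1 := e4 ψ hψ
    have k2 : ∫ x, be x * Dz ζ ψ x = ∫ x in Ω, (- A2 x * Dz ζ g x) * Dz ζ ψ x :=
      hrep (h := fun x => - A2 x * Dz ζ g x) zbe s2 _
    have k3 : ∫ x in Ω, (- A2 x * Dz ζ g x) * Dz ζ ψ x =
        ∫ x in Ω, Dz ζ (fun x => A2 x * Dz ζ g x) x * ψ x := by
      have k31 := zero_Dz hZ hΩ hb (ζ := ζ) (f := fun x => A2 x * Dz ζ g x)
        (hA2s.mul hDg) (fun x hx => by simp only [hDgbd x hx, mul_zero]) hψ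
      have k32 : ∫ x in Ω, (- A2 x * Dz ζ g x) * Dz ζ ψ x =
          - ∫ x in Ω, (A2 x * Dz ζ g x) * Dz ζ ψ x := by
        rw [← integral_neg]
        refine integral_congr_ae (Eventually.of_forall fun x => ?_)
        simp only []
        ring
      rw [k32, k31, neg_neg]
    have k4 : ∫ x, (Dz ζ (Dz ζ M2) x * gp x - al x * Dz ζ (Dz ζ M1) x) * ψ x =
        ∫ x in Ω, (Dz ζ (Dz ζ M2) x * (g x - 1)
          - (A2 x / A1 x * g x - 1) * Dz ζ (Dz ζ M1) x) * ψ x := by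
      refine hrep (f := fun x => Dz ζ (Dz ζ M2) x * gp x - al x * Dz ζ (Dz ζ M1) x)
        (h := fun x => Dz ζ (Dz ζ M2) x * (g x - 1)
          - (A2 x / A1 x * g x - 1) * Dz ζ (Dz ζ M1) x) ?_ ?_ ψ
      · intro x hx
        simp only [zgp x hx, zal x hx, mul_zero, zero_mul, sub_zero]
      · filter_upwards [hgp, s1] with x hx hx' hxΩ
        have hx2 := hx hxΩ
        have hx3 : gp x = g x - 1 := by
          simp only [hg, cc, hgr]
          linear_combination hx2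
        rw [hx3, hx' hxΩ]
    rw [k2, k3, k4] at k1
    have j1 : IntegrableOn (fun x => Dz ζ (fun x => A2 x * Dz ζ g x) x * ψ x) Ω :=
      integrableOn_of_cont hb (hAD.continuous.mul hψ.continuous)
    have j2 : IntegrableOn (fun x => (Dz ζ (Dz ζ M2) x * (g x - 1)
          - (A2 x / A1 x * g x - 1) * Dz ζ (Dz ζ M1) x) * ψ x) Ω :=
      integrableOn_of_cont hb (((hDM2.continuous.mul (hgs.continuous.sub continuous_const)).sub
        (((hratio.continuous.mul hgs.continuous).sub continuous_const).mul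
          hDM1.continuous)).mul hψ.continuous)
    have j3 : IntegrableOn (fun x => (Dz ζ (Dz ζ M2) x - Dz ζ (Dz ζ M1) x) * ψ x) Ω :=
      integrableOn_of_cont hb ((hDM2.continuous.sub hDM1.continuous).mul hψ.continuous)
    have k5 : ∫ x in Ω, (Dz ζ (fun x => A2 x * Dz ζ g x) x + g x * Dz ζ (Dz ζ M2) x
        - A2 x / A1 x * g x * Dz ζ (Dz ζ M1) x) * ψ x =
        (∫ x in Ω, Dz ζ (fun x => A2 x * Dz ζ g x) x * ψ x) +
          ((∫ x in Ω, (Dz ζ (Dz ζ M2) x * (g x - 1)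
          - (A2 x / A1 x * g x - 1) * Dz ζ (Dz ζ M1) x) * ψ x) +
          ∫ x in Ω, (Dz ζ (Dz ζ M2) x - Dz ζ (Dz ζ M1) x) * ψ x) := by
      have j23 : IntegrableOn (fun x => (Dz ζ (Dz ζ M2) x * (g x - 1)
          - (A2 x / A1 x * g x - 1) * Dz ζ (Dz ζ M1) x) * ψ x +
          (Dz ζ (Dz ζ M2) x - Dz ζ (Dz ζ M1) x) * ψ x) Ω := j2.add j3
      rw [← integral_add j2 j3, ← integral_add j1 j23]
      refine integral_congr_ae (Eventually.of_forall fun x => ?_)
      simp only []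
      ring
    rw [k5]
    linear_combination k1
  have hM12 : M1 = fun x => g x * g x * M2 x := by
    funext x
    simp only [hM1, hM2, hg, cc]
    rw [← Complex.ofReal_mul, ← Complex.ofReal_mul, hgr2]
    congr 1
    have := (pmu₁ x).ne'
    have := (pmu₂ x).ne'
    field_simp
  have hden : ∀ x, A2 x - 2 * M2 x ≠ 0 := by
    intro x h
    have h3 : ((a₂ x - 2 * (mu₂ x)⁻¹ : ℝ) : ℂ) = 0 := by
      rw [← h]; simp [hA2, hM2, cc]
    have h4 : a₂ x - 2 * (mu₂ x)⁻¹ = 0 := by exact_mod_cast h3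
    have h5 := h2 x
    have h6 := pmu₂ x
    have h7 : a₂ x * mu₂ x = 2 := by
      have : a₂ x = 2 * (mu₂ x)⁻¹ := by linarith
      rw [this]; field_simp
    linarith only [h7, h5]
  have s4 : ∀ x ∈ Ω, Dz ζ g x = 0 := by
    set N : E3 → ℂ := fun x => -(Dz ζ A2 x - 4 * Dz ζ M2 x - 2 * M2 x * Dz ζ g x * (g x)⁻¹) *
      (A2 x - 2 * M2 x)⁻¹ with hN
    have hNs : ContDiff ℝ ∞ N := by
      refine ContDiff.mul (ContDiff.neg (((Dz_contDiff hA2s).sub
        (contDiff_const.mul (Dz_contDiff hM2s))).sub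
        (((contDiff_const.mul hM2s).mul hDg).mul (hgs.inv hg0)))) ?_
      exact (hA2s.sub (contDiff_const.mul hM2s)).inv hden
    refine uniq_one hU hZ hΩ hb hζ hζ0 hDg hNs hDgbd ?_
    intro x hx
    have k1 := s4' x hx
    have k2 := s3 x hx
    have dA2 : DifferentiableAt ℝ A2 x := hA2s.differentiable (by simp) x
    have dDg : DifferentiableAt ℝ (Dz ζ g) x := hDg.differentiable (by simp) x
    rw [Dz_mul dA2 dDg, hM12, Dz_Dz_sq_mul hgs hM2s x] at k1
    have k3 : (A2 x - 2 * M2 x) * Dz ζ (Dz ζ g) x =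
        -(Dz ζ A2 x - 4 * Dz ζ M2 x - 2 * M2 x * Dz ζ g x * (g x)⁻¹) * Dz ζ g x := by
      have h3 := hg0 x
      have h4 : g x * (g x)⁻¹ = 1 := mul_inv_cancel₀ h3
      have h5 : A2 x / A1 x * g x = (g x)⁻¹ := by
        apply mul_right_cancel₀ h3
        rw [inv_mul_cancel₀ h3]
        linear_combination k2
      rw [h5] at k1
      linear_combination k1 + (g x * Dz ζ (Dz ζ M2) x + 4 * Dz ζ g x * Dz ζ M2 x
        + 2 * M2 x * Dz ζ (Dz ζ g) x) * h4
    simp only [hN]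
    have h6 := hden x
    field_simp
    linear_combination k3
  have s5 : ∀ x ∈ Ω, g x - 1 = 0 := by
    refine uniq_one hU hZ hΩ hb hζ hζ0 (hgs.sub contDiff_const) (contDiff_const (c := (0:ℂ)))
      ?_ ?_
    · intro x hx
      simp only [hg, cc, hgbd x hx, Complex.ofReal_one, sub_self]
    · intro x hx
      rw [Dz_sub_const, s4 x hx, zero_mul]
  intro x hx
  have h5 : gr x = 1 := by
    have := s5 x hx
    simp only [hg, cc] at this
    exact_mod_cast sub_eq_zero.mp this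
  have h6 : mu₂ x / mu₁ x = 1 := by rw [← hgr2, h5]; ring
  have h7 : A2 x / A1 x = 1 := by
    have := s3 x hx
    rw [sub_eq_zero.mp (s5 x hx)] at this
    linear_combination this
  constructor
  · have := (div_eq_one_iff_eq (pmu₁ x).ne').mp h6
    exact this.symm
  · have := (div_eq_one_iff_eq (hA10 x)).mp h7
    simp only [hA1, hA2, cc] at this
    exact_mod_cast this.symm

end Vale.Agent.P136.CPc
end
end

section

section

open MeasureTheory Filter Topology
open scoped ContDiff InnerProductSpace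

namespace Vale.Agent.P136

open CPc

theorem ALG_of (hU : UNIQ_statement) (hZ : ZERO_statement) : ALG_statement := by
  intro Ω mu₁ a₁ mu₂ a₂ H Q hQ h12 h10 h11
  obtain ⟨hmem, hzero, hrow, heq⟩ := hQ
  have hN : ∀ (mu a : E3 → ℝ) (x : E3),
      Nm (zs 0) (zs' 0) mu a 0 0 x = 0 ∧ Nm (zs 0) (zs' 0) mu a 0 1 x = 0 ∧
      Nm (zs 0) (zs' 0) mu a 0 2 x = 0 ∧ Nm (zs 0) (zs' 0) mu a 1 1 x = 0 ∧
      Nm (zs 0) (zs' 0) mu a 1 2 x = -(1 / (a x : ℂ)) ∧
      Nm (zs 0) (zs' 0) mu a 2 1 x = Dz (zs 0) (Dz (zs 0) (cc fun y => (mu y)⁻¹)) x ∧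
      Nm (zs 0) (zs' 0) mu a 2 2 x = 0 := by
    intro mu a x
    refine ⟨?_, ?_, ?_, ?_, ?_, ?_, ?_⟩ <;> simp [Nm]
  refine CP1c hU hZ H.isOpen H.isBounded H.mu₁_smooth H.a₁_smooth H.mu₂_smooth H.a₂_smooth
    H.mu₁_pos H.a₁_pos H.mu₂_pos H.a₂_pos H.am₂ H.bdry (ζ := zs 0) (dot_zs 0) (zs_ne_zero 0)
    (gp := Q 1 1) (al := Q 2 2) (be := Q 2 1) (hmem 1 1) (hmem 2 2) (hmem 2 1)
    (hzero 1 1) (hzero 2 2) (hzero 2 1) ?_ ?_ ?_ ?_ ?_
  · filter_upwards [h11] with x hx hxΩ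
    rw [hx hxΩ, Real.sqrt_div' _ (H.mu₁_pos x).le]
  · intro ψ hψ
    rw [heq 1 1 ψ hψ]
    have e1 : ∫ x in Ω, (Nm (zs 0) (zs' 0) mu₂ a₂ 1 1 x - Nm (zs 0) (zs' 0) mu₁ a₁ 1 1 x) * ψ x
        = 0 := by
      have : ∀ x, (Nm (zs 0) (zs' 0) mu₂ a₂ 1 1 x - Nm (zs 0) (zs' 0) mu₁ a₁ 1 1 x) * ψ x = 0 :=
        fun x => by rw [(hN mu₂ a₂ x).2.2.2.1, (hN mu₁ a₁ x).2.2.2.1]; ring
      simp only [this, integral_zero]
    rw [e1, sub_zero, ← integral_neg]
    refine integral_congr_ae ?_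
    filter_upwards [h12] with x hx
    obtain ⟨n00, n01, n02, n11, n12, n21, n22⟩ := hN mu₂ a₂ x
    obtain ⟨m00, m01, m02, m11, m12, m21, m22⟩ := hN mu₁ a₁ x
    simp only [Fin.sum_univ_three, hrow, hx, n11, n12, m01, m11]
    ring
  · intro ψ hψ
    have e0 := heq 1 2 ψ hψ
    have e1 : ∫ x, Q 1 2 x * Dz (zs 0) ψ x = 0 := by
      rw [← integral_zero E3 ℂ (μ := volume)]
      refine integral_congr_ae ?_
      filter_upwards [h12] with x hx
      rw [hx, zero_mul]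
    have e2 : ∫ x, (∑ k, (Nm (zs 0) (zs' 0) mu₂ a₂ 1 k x * Q k 2 x -
        Q 1 k x * Nm (zs 0) (zs' 0) mu₁ a₁ k 2 x)) * ψ x =
        ∫ x, (Q 1 1 x / a₁ x - Q 2 2 x / a₂ x) * ψ x := by
      refine integral_congr_ae (Eventually.of_forall fun x => ?_)
      obtain ⟨n00, n01, n02, n11, n12, n21, n22⟩ := hN mu₂ a₂ x
      obtain ⟨m00, m01, m02, m11, m12, m21, m22⟩ := hN mu₁ a₁ x
      simp only [Fin.sum_univ_three, hrow, n11, n12, m02, m12, m22]
      ring
    have e3 : ∫ x in Ω, (Nm (zs 0) (zs' 0) mu₂ a₂ 1 2 x - Nm (zs 0) (zs' 0) mu₁ a₁ 1 2 x) * ψ x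
        = ∫ x in Ω, (1 / a₁ x - 1 / a₂ x) * ψ x := by
      refine integral_congr_ae (Eventually.of_forall fun x => ?_)
      simp only [(hN mu₂ a₂ x).2.2.2.2.1, (hN mu₁ a₁ x).2.2.2.2.1]
      ring
    rw [e1, e2, e3] at e0
    linear_combination e0
  · intro ψ hψ
    rw [heq 2 2 ψ hψ]
    have e1 : ∫ x in Ω, (Nm (zs 0) (zs' 0) mu₂ a₂ 2 2 x - Nm (zs 0) (zs' 0) mu₁ a₁ 2 2 x) * ψ x
        = 0 := by
      have : ∀ x, (Nm (zs 0) (zs' 0) mu₂ a₂ 2 2 x - Nm (zs 0) (zs' 0) mu₁ a₁ 2 2 x) * ψ x = 0 :=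
        fun x => by
          rw [(hN mu₂ a₂ x).2.2.2.2.2.2, (hN mu₁ a₁ x).2.2.2.2.2.2]; ring
      simp only [this, integral_zero]
    rw [e1, sub_zero]
    congr 1
    refine integral_congr_ae ?_
    filter_upwards [h12] with x hx
    obtain ⟨n00, n01, n02, n11, n12, n21, n22⟩ := hN mu₂ a₂ x
    obtain ⟨m00, m01, m02, m11, m12, m21, m22⟩ := hN mu₁ a₁ x
    simp only [Fin.sum_univ_three, hrow, hx, n21, n22, m02, m12, m22]
    ring
  · intro ψ hψ
    rw [heq 2 1 ψ hψ]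
    congr 1
    congr 1
    refine integral_congr_ae (Eventually.of_forall fun x => ?_)
    obtain ⟨n00, n01, n02, n11, n12, n21, n22⟩ := hN mu₂ a₂ x
    obtain ⟨m00, m01, m02, m11, m12, m21, m22⟩ := hN mu₁ a₁ x
    simp only [Fin.sum_univ_three, hrow, n21, n22, m01, m11, m21]
    ring

end Vale.Agent.P136
end
end
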