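import Vale.Agent.P136.Bdl.B2
import Vale.Agent.P136.Bdl.B1

set_option linter.all false

section

section

open MeasureTheory Filter Topology
open scoped ContDiff InnerProductSpace

namespace Vale.Agent.P136

theorem S1E : S1E_statement := S1E_of S1

theorem S1Es : S1Es_statement := S1Es_of S1

theorem UNIQ : UNIQ_statement := UNIQ_of S1E

theorem CP1 : CP1_statement :=
  CP1_of (EXQ_of S1E UNIQ) (GAM_of UNIQ S1Es ZERO) (ALG_of UNIQ ZERO)

end Vale.Agent.P136
end
end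

section

section

/-! # The Dirichlet problem for the Lame system: existence, bounds -/

open MeasureTheory Filter Topology
open scoped ContDiff

namespace Vale.Agent.P136.Exist

open Vale.Agent.P136

/-! ## `L²` with respect to a general measure -/

section general

variable {μ : Measure E3}

lemma sq_int {f : E3 → ℝ} (hf : MemLp f 2 μ) : Integrable (fun x => (f x) ^ 2) μ := by
  have := hf.integrable_norm_pow (by norm_num)
  simpa [Real.norm_eq_abs, sq_abs] using this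

lemma mul_int {f g : E3 → ℝ} (hf : MemLp f 2 μ) (hg : MemLp g 2 μ) :
    Integrable (fun x => f x * g x) μ := hf.integrable_mul hg

/-- Cauchy-Schwarz. -/
lemma cs {f g : E3 → ℝ} (hf : MemLp f 2 μ) (hg : MemLp g 2 μ) :
    (∫ x, f x * g x ∂μ) ^ 2 ≤ (∫ x, (f x) ^ 2 ∂μ) * ∫ x, (g x) ^ 2 ∂μ := by
  have h1 : ∀ t : ℝ, 0 ≤ (∫ x, (f x) ^ 2 ∂μ) * (t * t) + (2 * ∫ x, f x * g x ∂μ) * t
      + ∫ x, (g x) ^ 2 ∂μ := by
    intro t
    have e : (∫ x, (f x) ^ 2 ∂μ) * (t * t) + (2 * ∫ x, f x * g x ∂μ) * t + ∫ x, (g x) ^ 2 ∂μ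
        = ∫ x, (t * f x + g x) ^ 2 ∂μ := by
      have e1 : ∀ x, (t * f x + g x) ^ 2
          = (t * t) * (f x) ^ 2 + (2 * t) * (f x * g x) + (g x) ^ 2 := by
        intro x; ring
      simp_rw [e1]
      have i1 : Integrable (fun x => (t * t) * (f x) ^ 2) μ := (sq_int hf).const_mul _
      have i2 : Integrable (fun x => (2 * t) * (f x * g x)) μ := (mul_int hf hg).const_mul _
      have i3 : Integrable (fun x => (t * t) * (f x) ^ 2 + (2 * t) * (f x * g x)) μ := i1.add i2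
      rw [integral_add i3 (sq_int hg), integral_add i1 i2, integral_const_mul,
        integral_const_mul]
      ring
    rw [e]
    exact integral_nonneg fun _ => sq_nonneg _
  have h2 := discrim_le_zero h1
  unfold discrim at h2
  linarith only [h2]

lemma tendsto_int_mul {a : ℕ → E3 → ℝ} {b φ : E3 → ℝ} (ha : ∀ n, MemLp (a n) 2 μ)
    (hb : MemLp b 2 μ) (hφ : MemLp φ 2 μ)
    (h : Tendsto (fun n => ∫ x, (a n x - b x) ^ 2 ∂μ) atTop (𝓝 0)) :
    Tendsto (fun n => ∫ x, a n x * φ x ∂μ) atTop (𝓝 (∫ x, b x * φ x ∂μ)) := by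
  rw [tendsto_iff_dist_tendsto_zero]
  have h1 : Tendsto (fun n => Real.sqrt ((∫ x, (a n x - b x) ^ 2 ∂μ) * ∫ x, (φ x) ^ 2 ∂μ))
      atTop (𝓝 0) := by
    have := (h.mul_const (∫ x, (φ x) ^ 2 ∂μ)).sqrt
    simpa using this
  refine squeeze_zero (fun _ => dist_nonneg) (fun n => ?_) h1
  rw [Real.dist_eq, ← integral_sub (mul_int (ha n) hφ) (mul_int hb hφ)]
  have e : ∀ x, a n x * φ x - b x * φ x = (a n x - b x) * φ x := by intro x; ring
  simp_rw [e]
  apply Real.abs_le_sqrt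
  exact cs ((ha n).sub hb) hφ

end general

/-! ## Test functions -/

lemma IsTest.add {Ω : Set E3} {φ ψ : E3 → ℝ} (h1 : IsTest Ω φ) (h2 : IsTest Ω ψ) :
    IsTest Ω (fun x => φ x + ψ x) := by
  refine ⟨h1.1.add h2.1, h1.2.1.add h2.2.1, ?_⟩
  exact (tsupport_add φ ψ).trans (Set.union_subset h1.2.2 h2.2.2)

lemma IsTest.const_mul {Ω : Set E3} {φ : E3 → ℝ} (t : ℝ) (h : IsTest Ω φ) :
    IsTest Ω (fun x => t * φ x) :=
  ⟨contDiff_const.mul h.1, h.2.1.mul_left, (tsupport_mul_subset_right).trans h.2.2⟩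

lemma IsTest.zero (Ω : Set E3) : IsTest Ω (fun _ => (0 : ℝ)) :=
  ⟨contDiff_const, HasCompactSupport.zero, by
    simp [tsupport, Function.support_fun_zero]⟩

lemma pd_add_mul {φ ψ : E3 → ℝ} (h1 : ContDiff ℝ ∞ φ) (h2 : ContDiff ℝ ∞ ψ) (s t : ℝ)
    (i : Fin 3) (x : E3) :
    pd i (fun y => s * φ y + t * ψ y) x = s * pd i φ x + t * pd i ψ x := by
  have d1 : DifferentiableAt ℝ φ x := (h1.differentiable (by simp)) x
  have d2 : DifferentiableAt ℝ ψ x := (h2.differentiable (by simp)) x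
  unfold pd
  rw [fderiv_fun_add (d1.const_mul s) (d2.const_mul t), fderiv_const_mul d1,
    fderiv_const_mul d2]
  simp

lemma test_memLp {Ω : Set E3} {φ : E3 → ℝ} (h : IsTest Ω φ) : MemLp φ 2 volume :=
  h.1.continuous.memLp_of_hasCompactSupport h.2.1

lemma test_pd_memLp {Ω : Set E3} {φ : E3 → ℝ} (h : IsTest Ω φ) (i : Fin 3) :
    MemLp (pd i φ) 2 volume :=
  (pd_contDiff_infty h.1 i).continuous.memLp_of_hasCompactSupport (pd_hasCompactSupport h.2.1 i)

lemma test_zero {Ω : Set E3} {φ : E3 → ℝ} (h : IsTest Ω φ) {x : E3} (hx : x ∉ Ω) : φ x = 0 :=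
  image_eq_zero_of_notMem_tsupport fun h' => hx (h.2.2 h')

lemma test_pd_zero {Ω : Set E3} {φ : E3 → ℝ} (h : IsTest Ω φ) (i : Fin 3) {x : E3}
    (hx : x ∉ Ω) : pd i φ x = 0 := by
  refine image_eq_zero_of_notMem_tsupport fun h' => hx (h.2.2 ?_)
  exact tsupport_pd_subset φ i h'

lemma setIntegral_test {Ω : Set E3} {g : E3 → ℝ} (hg : ∀ x, x ∉ Ω → g x = 0) :
    ∫ x in Ω, g x = ∫ x, g x :=
  setIntegral_eq_integral_of_forall_compl_eq_zero hg


/-! ## Pointwise quadratic form -/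

/-- pointwise bilinear elastic form -/
noncomputable def qb (l m : ℝ) (A B : Fin 3 → Fin 3 → ℝ) : ℝ :=
  l * ((∑ i, A i i) * ∑ i, B i i) +
    2 * m * ∑ i, ∑ j, ((A i j + A j i) / 2) * ((B i j + B j i) / 2)

/-- squared norm of the symmetric part -/
noncomputable def sn (A : Fin 3 → Fin 3 → ℝ) : ℝ := ∑ i, ∑ j, ((A i j + A j i) / 2) ^ 2

lemma sn_nonneg (A : Fin 3 → Fin 3 → ℝ) : 0 ≤ sn A :=
  Finset.sum_nonneg fun _ _ => Finset.sum_nonneg fun _ _ => sq_nonneg _

lemma form_eq (Ω : Set E3) (lam mu : E3 → ℝ) (G H : Fin 3 → Fin 3 → E3 → ℝ) :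
    form Ω lam mu G H = ∫ x in Ω, qb (lam x) (mu x) (fun i j => G i j x) (fun i j => H i j x) :=
  rfl

lemma qb_coercive {l m c : ℝ} (h1 : c ≤ 2 * m) (h2 : c ≤ 3 * l + 2 * m)
    (A : Fin 3 → Fin 3 → ℝ) : c * sn A ≤ qb l m A A := by
  have htr : (∑ i, A i i) ^ 2 ≤ 3 * sn A := by
    unfold sn
    simp only [Fin.sum_univ_three]
    linarith only [sq_nonneg ((A 1 2 + A 2 1) / 2), sq_nonneg ((A 0 2 + A 2 0) / 2), sq_nonneg ((A 0 1 + A 1 0) / 2), sq_nonneg (A 0 0 - A 2 2), sq_nonneg (A 1 1 - A 2 2), sq_nonneg (A 0 0 - A 1 1)]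
  have hq : qb l m A A = l * (∑ i, A i i) ^ 2 + 2 * m * sn A := by
    unfold qb sn
    simp only [sq]
  rw [hq]
  have hs := sn_nonneg A
  rcases le_or_gt 0 l with hl | hl
  · linarith only [mul_le_mul_of_nonneg_right h1 hs, mul_nonneg hl (sq_nonneg (∑ i, A i i))]
  · linarith only [mul_le_mul_of_nonneg_left htr (neg_nonneg.2 hl.le), mul_le_mul_of_nonneg_right h2 hs]

lemma qb_comb (l m s t : ℝ) (A B : Fin 3 → Fin 3 → ℝ) :
    qb l m (fun i j => s * A i j + t * B i j) (fun i j => s * A i j + t * B i j) =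
      s ^ 2 * qb l m A A + 2 * s * t * qb l m A B + t ^ 2 * qb l m B B := by
  unfold qb
  simp only [Fin.sum_univ_three]
  ring

lemma qb_symm (l m : ℝ) (A B : Fin 3 → Fin 3 → ℝ) : qb l m A B = qb l m B A := by
  unfold qb
  simp only [Fin.sum_univ_three]
  ring

lemma qb_add_left (l m s t : ℝ) (A B C : Fin 3 → Fin 3 → ℝ) :
    qb l m (fun i j => s * A i j + t * B i j) C = s * qb l m A C + t * qb l m B C := by
  unfold qb
  simp only [Fin.sum_univ_three]
  ring

lemma coef_bounds {Ω : Set E3} {lam mu : E3 → ℝ} (hb : Bornology.IsBounded Ω)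
    (ha : Admissible Ω lam mu) : ∃ c M : ℝ, 0 < c ∧ 0 ≤ M ∧ ∀ x ∈ Ω,
      c ≤ 2 * mu x ∧ c ≤ 3 * lam x + 2 * mu x ∧ |lam x| ≤ M ∧ |mu x| ≤ M := by
  have hK : IsCompact (closure Ω) := hb.isCompact_closure
  have hl : Continuous lam := ha.lam_smooth.continuous
  have hm : Continuous mu := ha.mu_smooth.continuous
  obtain ⟨c₁, hc₁, h₁⟩ := hK.exists_forall_le' (f := fun x => 2 * mu x) (a := 0)
    (continuous_const.mul hm).continuousOn (fun x hx => by have := ha.mu_pos x hx; positivity)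
  obtain ⟨c₂, hc₂, h₂⟩ := hK.exists_forall_le' (f := fun x => 3 * lam x + 2 * mu x) (a := 0)
    ((continuous_const.mul hl).add (continuous_const.mul hm)).continuousOn
    (fun x hx => ha.bulk_pos x hx)
  obtain ⟨M₁, hM₁⟩ := hK.exists_bound_of_continuousOn hl.continuousOn
  obtain ⟨M₂, hM₂⟩ := hK.exists_bound_of_continuousOn hm.continuousOn
  refine ⟨min c₁ c₂, max 0 (max M₁ M₂), lt_min hc₁ hc₂, le_max_left _ _, fun x hx => ?_⟩
  have hx' := subset_closure hx
  exact ⟨(min_le_left _ _).trans (h₁ x hx'), (min_le_right _ _).trans (h₂ x hx'),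
    (hM₁ x hx').trans ((le_max_left _ _).trans (le_max_right _ _)),
    (hM₂ x hx').trans ((le_max_right _ _).trans (le_max_right _ _))⟩

/-! ## Korn and Poincare for test fields -/

lemma int_cross {Ω : Set E3} {φ ψ : E3 → ℝ} (h1 : IsTest Ω φ) (h2 : IsTest Ω ψ) (i j : Fin 3) :
    ∫ x, pd i φ x * pd j ψ x = ∫ x, pd j φ x * pd i ψ x := by
  have a1 := ibp (f := pd i φ) (g := ψ) ((pd_contDiff_infty h1.1 i).of_le (by norm_cast))
    (h2.1.of_le (by norm_cast)) h2.2.1 j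
  have a2 := ibp (f := pd j φ) (g := ψ) ((pd_contDiff_infty h1.1 j).of_le (by norm_cast))
    (h2.1.of_le (by norm_cast)) h2.2.1 i
  rw [a1, a2, pd_comm (h1.1.of_le (by norm_cast)) i j]

lemma korn_test {Ω : Set E3} {φ : Fin 3 → E3 → ℝ} (h : ∀ j, IsTest Ω (φ j)) :
    ∑ i, ∑ j, ∫ x, (pd i (φ j) x) ^ 2 ≤ 2 * ∫ x, sn (fun i j => pd i (φ j) x) := by
  have ip : ∀ i j k l, Integrable (fun x => pd i (φ j) x * pd k (φ l) x) := fun i j k l =>
    mul_int (test_pd_memLp (h j) i) (test_pd_memLp (h l) k)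
  have e1 : ∀ x, sn (fun i j => pd i (φ j) x) =
      ∑ i, ∑ j, ((1 / 2) * (pd i (φ j) x * pd i (φ j) x)
        + (1 / 2) * (pd i (φ j) x * pd j (φ i) x)) := by
    intro x
    unfold sn
    simp only [Fin.sum_univ_three]
    ring
  have ip2 : ∀ i j, Integrable (fun x => (1 / 2) * (pd i (φ j) x * pd i (φ j) x)
        + (1 / 2) * (pd i (φ j) x * pd j (φ i) x)) := fun i j =>
    ((ip i j i j).const_mul (1 / 2)).add ((ip i j j i).const_mul (1 / 2))
  have e3 : ∀ i j, ∫ x, pd i (φ j) x * pd j (φ i) x = ∫ x, pd j (φ j) x * pd i (φ i) x :=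
    fun i j => int_cross (h j) (h i) i j
  have e2 : ∫ x, sn (fun i j => pd i (φ j) x) =
      ∑ i, ∑ j, ((1 / 2) * (∫ x, (pd i (φ j) x) ^ 2)
        + (1 / 2) * ∫ x, pd j (φ j) x * pd i (φ i) x) := by
    simp_rw [e1]
    rw [integral_finsetSum _ fun i _ => integrable_finsetSum _ fun j _ => ip2 i j]
    refine Finset.sum_congr rfl fun i _ => ?_
    rw [integral_finsetSum _ fun j _ => ip2 i j]
    refine Finset.sum_congr rfl fun j _ => ?_
    rw [integral_add ((ip i j i j).const_mul _) ((ip i j j i).const_mul _),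
      integral_const_mul, integral_const_mul, e3]
    simp_rw [sq]
  have e4 : 0 ≤ ∑ i, ∑ j, ∫ x, pd j (φ j) x * pd i (φ i) x := by
    have : ∑ i, ∑ j, ∫ x, pd j (φ j) x * pd i (φ i) x = ∫ x, (∑ i, pd i (φ i) x) ^ 2 := by
      have e5 : ∀ x, (∑ i, pd i (φ i) x) ^ 2 = ∑ i, ∑ j, pd j (φ j) x * pd i (φ i) x := by
        intro x
        simp only [Fin.sum_univ_three]
        ring
      simp_rw [e5]
      rw [integral_finsetSum _ fun i _ => integrable_finsetSum _ fun j _ => ip j j i i]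
      exact Finset.sum_congr rfl fun i _ => (integral_finsetSum _ fun j _ => ip j j i i).symm
    rw [this]
    exact integral_nonneg fun _ => sq_nonneg _
  rw [e2]
  simp only [Fin.sum_univ_three] at e4 ⊢
  linarith

lemma poincare_test {Ω : Set E3} {R : ℝ} (hΩ : ∀ x ∈ Ω, ‖x‖ ≤ R) {φ : E3 → ℝ}
    (h : IsTest Ω φ) : ∫ x, (φ x) ^ 2 ≤ 4 * R ^ 2 * ∫ x, (pd 0 φ x) ^ 2 := by
  have hx0 : ContDiff ℝ ∞ (fun x : E3 => x 0) := by
    exact (EuclideanSpace.proj (0 : Fin 3) : E3 →L[ℝ] ℝ).contDiff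
  have hpd : ∀ x, pd 0 (fun x : E3 => x 0) x = 1 := by
    intro x
    unfold pd
    have : fderiv ℝ (fun x : E3 => x 0) x = (EuclideanSpace.proj (0 : Fin 3) : E3 →L[ℝ] ℝ) :=
      (EuclideanSpace.proj (0 : Fin 3) : E3 →L[ℝ] ℝ).fderiv
    rw [this]
    simp [bv]
  have k1 := ibp (f := fun x : E3 => x 0) (g := fun x => φ x * φ x) (hx0.of_le (by norm_cast))
    ((h.1.mul h.1).of_le (by norm_cast)) (h.2.1.mul_left) 0
  have k2 : ∀ x, pd 0 (fun x => φ x * φ x) x = 2 * (φ x * pd 0 φ x) := by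
    intro x
    rw [pd_mul ((h.1.differentiable (by simp)) x) ((h.1.differentiable (by simp)) x)]
    ring
  simp_rw [k2, hpd] at k1
  have k3 : ∫ x, (φ x) ^ 2 = - ∫ x, (x 0 * φ x) * (2 * pd 0 φ x) := by
    have : ∫ x, 1 * (φ x * φ x) = ∫ x, (φ x) ^ 2 := by
      congr 1; funext x; ring
    rw [this] at k1
    have e : ∫ x : E3, x 0 * (2 * (φ x * pd 0 φ x)) = ∫ x, (x 0 * φ x) * (2 * pd 0 φ x) := by
      congr 1; funext x; ring
    rw [e] at k1
    linarith
  have m1 : MemLp (fun x : E3 => x 0 * φ x) 2 volume :=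
    (hx0.continuous.mul h.1.continuous).memLp_of_hasCompactSupport h.2.1.mul_left
  have m2 : MemLp (fun x : E3 => 2 * pd 0 φ x) 2 volume := (test_pd_memLp h 0).const_mul 2
  have k4 := cs m1 m2
  have k5 : ∫ x : E3, (x 0 * φ x) ^ 2 ≤ R ^ 2 * ∫ x, (φ x) ^ 2 := by
    rw [← integral_const_mul]
    refine integral_mono (sq_int m1) ((sq_int (test_memLp h)).const_mul _) fun x => ?_
    show (x 0 * φ x) ^ 2 ≤ R ^ 2 * (φ x) ^ 2
    by_cases hx : x ∈ Ω
    · have h6 : |x 0| ≤ R := (by simpa using PiLp.norm_apply_le x 0 : |x 0| ≤ ‖x‖).trans (hΩ x hx)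
      rw [mul_pow]
      exact mul_le_mul_of_nonneg_right (sq_le_sq' (by linarith [neg_le_of_abs_le h6])
        (le_of_abs_le h6)) (sq_nonneg _)
    · rw [test_zero h hx]; simp
  have k6 : ∫ x : E3, (2 * pd 0 φ x) ^ 2 = 4 * ∫ x, (pd 0 φ x) ^ 2 := by
    rw [← integral_const_mul]
    congr 1; funext x; ring
  set a := ∫ x, (φ x) ^ 2 with ha
  set b := ∫ x, (pd 0 φ x) ^ 2 with hb
  have ha0 : 0 ≤ a := integral_nonneg fun _ => sq_nonneg _
  have hb0 : 0 ≤ b := integral_nonneg fun _ => sq_nonneg _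
  have k7 : a ^ 2 ≤ (R ^ 2 * a) * (4 * b) := by
    have : a ^ 2 = (∫ x, (x 0 * φ x) * (2 * pd 0 φ x)) ^ 2 := by rw [k3]; ring
    rw [this]
    refine k4.trans ?_
    rw [k6]
    exact mul_le_mul_of_nonneg_right k5 (by positivity)
  rcases ha0.eq_or_lt with h0 | h0
  · rw [← h0]; positivity
  · have : a * a ≤ a * (4 * R ^ 2 * b) := by linarith only [k7]
    exact le_of_mul_le_mul_left this h0


/-! ## The form as a sum of `L²` pairings -/

/-- the stress -/
noncomputable def st (l m : ℝ) (B : Fin 3 → Fin 3 → ℝ) (i j : Fin 3) : ℝ :=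
  (if i = j then l * ∑ k, B k k else 0) + m * (B i j + B j i)

lemma qb_eq_st (l m : ℝ) (A B : Fin 3 → Fin 3 → ℝ) :
    qb l m A B = ∑ i, ∑ j, A i j * st l m B i j := by
  unfold qb st
  simp [Fin.sum_univ_three]
  ring

section bounded

variable {Ω : Set E3} {lam mu : E3 → ℝ} {M : ℝ}

lemma memLp_coef (hΩ : MeasurableSet Ω) {a f : E3 → ℝ} (ha : Continuous a)
    (hM : ∀ x ∈ Ω, |a x| ≤ M) (hf : MemLp f 2 (volume.restrict Ω)) :
    MemLp (fun x => a x * f x) 2 (volume.restrict Ω) := by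
  refine MemLp.of_le_mul (c := M) hf (ha.aestronglyMeasurable.mul hf.1) ?_
  refine (ae_restrict_iff' hΩ).2 (Eventually.of_forall fun x hx => ?_)
  rw [norm_mul]
  exact mul_le_mul_of_nonneg_right (hM x hx) (norm_nonneg _)

lemma st_memLp (hΩ : MeasurableSet Ω) (hl : Continuous lam) (hm : Continuous mu)
    (hlM : ∀ x ∈ Ω, |lam x| ≤ M) (hmM : ∀ x ∈ Ω, |mu x| ≤ M) {H : Fin 3 → Fin 3 → E3 → ℝ}
    (hH : ∀ i j, MemLp (H i j) 2 (volume.restrict Ω)) (i j : Fin 3) :
    MemLp (fun x => st (lam x) (mu x) (fun i j => H i j x) i j) 2 (volume.restrict Ω) := by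
  unfold st
  refine MemLp.add ?_ ?_
  · split_ifs
    · refine memLp_coef hΩ hl hlM ?_
      exact memLp_finsetSum _ fun k _ => hH k k
    · exact MemLp.zero
  · exact memLp_coef hΩ hm hmM ((hH i j).add (hH j i))

lemma qb_int (hΩ : MeasurableSet Ω) (hl : Continuous lam) (hm : Continuous mu)
    (hlM : ∀ x ∈ Ω, |lam x| ≤ M) (hmM : ∀ x ∈ Ω, |mu x| ≤ M) {G H : Fin 3 → Fin 3 → E3 → ℝ}
    (hG : ∀ i j, MemLp (G i j) 2 (volume.restrict Ω))
    (hH : ∀ i j, MemLp (H i j) 2 (volume.restrict Ω)) :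
    Integrable (fun x => qb (lam x) (mu x) (fun i j => G i j x) (fun i j => H i j x))
      (volume.restrict Ω) := by
  simp_rw [qb_eq_st]
  exact integrable_finsetSum _ fun i _ => integrable_finsetSum _ fun j _ =>
    mul_int (hG i j) (st_memLp hΩ hl hm hlM hmM hH i j)

lemma form_eq_sum (hΩ : MeasurableSet Ω) (hl : Continuous lam) (hm : Continuous mu)
    (hlM : ∀ x ∈ Ω, |lam x| ≤ M) (hmM : ∀ x ∈ Ω, |mu x| ≤ M) {G H : Fin 3 → Fin 3 → E3 → ℝ}
    (hG : ∀ i j, MemLp (G i j) 2 (volume.restrict Ω))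
    (hH : ∀ i j, MemLp (H i j) 2 (volume.restrict Ω)) :
    form Ω lam mu G H =
      ∑ i, ∑ j, ∫ x in Ω, G i j x * st (lam x) (mu x) (fun i j => H i j x) i j := by
  rw [form_eq]
  simp_rw [qb_eq_st]
  have hi : ∀ i j, Integrable (fun x => G i j x * st (lam x) (mu x) (fun i j => H i j x) i j)
      (volume.restrict Ω) := fun i j => mul_int (hG i j) (st_memLp hΩ hl hm hlM hmM hH i j)
  rw [integral_finsetSum _ fun i _ => integrable_finsetSum _ fun j _ => hi i j]
  exact Finset.sum_congr rfl fun i _ => integral_finsetSum _ fun j _ => hi i j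

lemma form_tendsto (hΩ : MeasurableSet Ω) (hl : Continuous lam) (hm : Continuous mu)
    (hlM : ∀ x ∈ Ω, |lam x| ≤ M) (hmM : ∀ x ∈ Ω, |mu x| ≤ M)
    {Gn : ℕ → Fin 3 → Fin 3 → E3 → ℝ} {G H : Fin 3 → Fin 3 → E3 → ℝ}
    (hGn : ∀ n i j, MemLp (Gn n i j) 2 (volume.restrict Ω))
    (hG : ∀ i j, MemLp (G i j) 2 (volume.restrict Ω))
    (hH : ∀ i j, MemLp (H i j) 2 (volume.restrict Ω))
    (h : ∀ i j, Tendsto (fun n => ∫ x in Ω, (Gn n i j x - G i j x) ^ 2) atTop (𝓝 0)) :
    Tendsto (fun n => form Ω lam mu (Gn n) H) atTop (𝓝 (form Ω lam mu G H)) := by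
  rw [form_eq_sum hΩ hl hm hlM hmM hG hH]
  simp_rw [fun n => form_eq_sum hΩ hl hm hlM hmM (hGn n) hH]
  refine tendsto_finsetSum _ fun i _ => tendsto_finsetSum _ fun j _ => ?_
  exact tendsto_int_mul (fun n => hGn n i j) (hG i j) (st_memLp hΩ hl hm hlM hmM hH i j) (h i j)

lemma form_comb (hΩ : MeasurableSet Ω) (hl : Continuous lam) (hm : Continuous mu)
    (hlM : ∀ x ∈ Ω, |lam x| ≤ M) (hmM : ∀ x ∈ Ω, |mu x| ≤ M) {G H : Fin 3 → Fin 3 → E3 → ℝ}
    (hG : ∀ i j, MemLp (G i j) 2 (volume.restrict Ω))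
    (hH : ∀ i j, MemLp (H i j) 2 (volume.restrict Ω)) (s t : ℝ) :
    form Ω lam mu (fun i j x => s * G i j x + t * H i j x)
      (fun i j x => s * G i j x + t * H i j x) =
      s ^ 2 * form Ω lam mu G G + 2 * s * t * form Ω lam mu G H + t ^ 2 * form Ω lam mu H H := by
  simp_rw [form_eq]
  have i1 := qb_int hΩ hl hm hlM hmM hG hG
  have i2 := qb_int hΩ hl hm hlM hmM hG hH
  have i3 := qb_int hΩ hl hm hlM hmM hH hH
  simp_rw [qb_comb]
  have i12 : Integrable (fun x =>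
      s ^ 2 * qb (lam x) (mu x) (fun i j => G i j x) (fun i j => G i j x) +
      2 * s * t * qb (lam x) (mu x) (fun i j => G i j x) (fun i j => H i j x))
      (volume.restrict Ω) := (i1.const_mul (s ^ 2)).add (i2.const_mul (2 * s * t))
  rw [integral_add i12 (i3.const_mul _),
    integral_add (i1.const_mul _) (i2.const_mul _), integral_const_mul, integral_const_mul,
    integral_const_mul]

lemma form_comb_left (hΩ : MeasurableSet Ω) (hl : Continuous lam) (hm : Continuous mu)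
    (hlM : ∀ x ∈ Ω, |lam x| ≤ M) (hmM : ∀ x ∈ Ω, |mu x| ≤ M)
    {G H K : Fin 3 → Fin 3 → E3 → ℝ}
    (hG : ∀ i j, MemLp (G i j) 2 (volume.restrict Ω))
    (hH : ∀ i j, MemLp (H i j) 2 (volume.restrict Ω))
    (hK : ∀ i j, MemLp (K i j) 2 (volume.restrict Ω)) (s t : ℝ) :
    form Ω lam mu (fun i j x => s * G i j x + t * H i j x) K =
      s * form Ω lam mu G K + t * form Ω lam mu H K := by
  simp_rw [form_eq]
  have i1 := qb_int hΩ hl hm hlM hmM hG hK
  have i2 := qb_int hΩ hl hm hlM hmM hH hK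
  simp_rw [qb_add_left]
  rw [integral_add (i1.const_mul _) (i2.const_mul _), integral_const_mul, integral_const_mul]

lemma form_symm (Ω : Set E3) (lam mu : E3 → ℝ) (G H : Fin 3 → Fin 3 → E3 → ℝ) :
    form Ω lam mu G H = form Ω lam mu H G := by
  simp_rw [form_eq]
  exact integral_congr_ae (Eventually.of_forall fun x => qb_symm _ _ _ _)

end bounded

/-- The data of an admissible pair on a bounded open set. -/
structure Coef (Ω : Set E3) (lam mu : E3 → ℝ) (c M R : ℝ) : Prop where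
  meas : MeasurableSet Ω
  hl : Continuous lam
  hm : Continuous mu
  c_pos : 0 < c
  hlM : ∀ x ∈ Ω, |lam x| ≤ M
  hmM : ∀ x ∈ Ω, |mu x| ≤ M
  h1 : ∀ x ∈ Ω, c ≤ 2 * mu x
  h2 : ∀ x ∈ Ω, c ≤ 3 * lam x + 2 * mu x
  hR : ∀ x ∈ Ω, ‖x‖ ≤ R

lemma exists_coef {Ω : Set E3} {lam mu : E3 → ℝ} (hΩ : IsOpen Ω) (hb : Bornology.IsBounded Ω)
    (ha : Admissible Ω lam mu) : ∃ c M R, Coef Ω lam mu c M R := by
  obtain ⟨c, M, hc, -, h⟩ := coef_bounds hb ha
  obtain ⟨R, hR⟩ := hb.exists_norm_le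
  exact ⟨c, M, R, hΩ.measurableSet, ha.lam_smooth.continuous, ha.mu_smooth.continuous, hc,
    fun x hx => (h x hx).2.2.1, fun x hx => (h x hx).2.2.2, fun x hx => (h x hx).1,
    fun x hx => (h x hx).2.1, hR⟩

section coef

variable {Ω : Set E3} {lam mu : E3 → ℝ} {c M R : ℝ}

lemma Coef.form_nonneg (C : Coef Ω lam mu c M R) (G : Fin 3 → Fin 3 → E3 → ℝ) :
    0 ≤ form Ω lam mu G G := by
  rw [form_eq]
  refine setIntegral_nonneg C.meas fun x hx => ?_
  exact (mul_nonneg C.c_pos.le (sn_nonneg _)).trans (qb_coercive (C.h1 x hx) (C.h2 x hx) _)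

lemma sn_int {G : Fin 3 → Fin 3 → E3 → ℝ} (hG : ∀ i j, MemLp (G i j) 2 (volume.restrict Ω)) :
    Integrable (fun x => sn (fun i j => G i j x)) (volume.restrict Ω) := by
  unfold sn
  refine integrable_finsetSum _ fun i _ => integrable_finsetSum _ fun j _ => ?_
  have : MemLp (fun x => (G i j x + G j i x) / 2) 2 (volume.restrict Ω) := by
    have := ((hG i j).add (hG j i)).const_mul (1 / 2)
    refine this.ae_eq (Eventually.of_forall fun x => ?_)
    simp only [Pi.add_apply]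
    ring
  exact sq_int this

lemma Coef.form_coercive (C : Coef Ω lam mu c M R) {G : Fin 3 → Fin 3 → E3 → ℝ}
    (hG : ∀ i j, MemLp (G i j) 2 (volume.restrict Ω)) :
    c * ∫ x in Ω, sn (fun i j => G i j x) ≤ form Ω lam mu G G := by
  rw [form_eq, ← integral_const_mul]
  refine setIntegral_mono_on ((sn_int hG).const_mul c)
    (qb_int C.meas C.hl C.hm C.hlM C.hmM hG hG) C.meas fun x hx => ?_
  exact qb_coercive (C.h1 x hx) (C.h2 x hx) _

lemma test_grad_memLp {φ : Fin 3 → E3 → ℝ} (h : ∀ j, IsTest Ω (φ j)) (i j : Fin 3) :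
    MemLp (pd i (φ j)) 2 (volume.restrict Ω) :=
  (test_pd_memLp (h j) i).mono_measure Measure.restrict_le_self

/-- Korn: the gradient of a test field is controlled by the form. -/
lemma Coef.korn (C : Coef Ω lam mu c M R) {φ : Fin 3 → E3 → ℝ} (h : ∀ j, IsTest Ω (φ j)) :
    ∑ i, ∑ j, ∫ x, (pd i (φ j) x) ^ 2 ≤
      2 / c * form Ω lam mu (fun i j => pd i (φ j)) (fun i j => pd i (φ j)) := by
  have k1 := korn_test h
  have k2 := C.form_coercive (test_grad_memLp h)
  have k3 : ∫ x in Ω, sn (fun i j => pd i (φ j) x) = ∫ x, sn (fun i j => pd i (φ j) x) := by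
    refine setIntegral_eq_integral_of_forall_compl_eq_zero fun x hx => ?_
    unfold sn
    simp [fun i j => test_pd_zero (h j) i hx]
  rw [k3] at k2
  have hc := C.c_pos
  have : ∫ x, sn (fun i j => pd i (φ j) x) ≤
      form Ω lam mu (fun i j => pd i (φ j)) (fun i j => pd i (φ j)) / c := by
    rw [le_div_iff₀ hc]; linarith
  calc _ ≤ 2 * ∫ x, sn (fun i j => pd i (φ j) x) := k1
    _ ≤ 2 * (form Ω lam mu (fun i j => pd i (φ j)) (fun i j => pd i (φ j)) / c) := by linarith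
    _ = _ := by ring

lemma Coef.grad_le (C : Coef Ω lam mu c M R) {φ : Fin 3 → E3 → ℝ} (h : ∀ j, IsTest Ω (φ j))
    (i j : Fin 3) : ∫ x, (pd i (φ j) x) ^ 2 ≤
      2 / c * form Ω lam mu (fun i j => pd i (φ j)) (fun i j => pd i (φ j)) := by
  refine le_trans ?_ (C.korn h)
  have h0 : ∀ i j, 0 ≤ ∫ x, (pd i (φ j) x) ^ 2 := fun i j => integral_nonneg fun _ => sq_nonneg _
  exact (Finset.single_le_sum (f := fun j => ∫ x, (pd i (φ j) x) ^ 2) (fun j _ => h0 i j)
    (Finset.mem_univ j)).trans (Finset.single_le_sum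
      (f := fun i => ∑ j, ∫ x, (pd i (φ j) x) ^ 2)
      (fun i _ => Finset.sum_nonneg fun j _ => h0 i j) (Finset.mem_univ i))

lemma Coef.val_le (C : Coef Ω lam mu c M R) {φ : Fin 3 → E3 → ℝ} (h : ∀ j, IsTest Ω (φ j))
    (j : Fin 3) : ∫ x, (φ j x) ^ 2 ≤
      4 * R ^ 2 * (2 / c * form Ω lam mu (fun i j => pd i (φ j)) (fun i j => pd i (φ j))) :=
  (poincare_test C.hR (h j)).trans
    (mul_le_mul_of_nonneg_left (C.grad_le h 0 j) (by positivity))

end coef


/-! ## Real `H¹₀` fields -/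

/-- real `H¹₀(Ω; ℝ³)` fields, functions on `ℝ³` vanishing outside `Ω`. -/
structure RH10 (Ω : Set E3) (v : Fin 3 → E3 → ℝ) (dv : Fin 3 → Fin 3 → E3 → ℝ) : Prop where
  val_mem : ∀ j, MemLp (v j) 2 (volume : Measure E3)
  der_mem : ∀ i j, MemLp (dv i j) 2 (volume : Measure E3)
  val_zero : ∀ j x, x ∉ Ω → v j x = 0
  der_zero : ∀ i j x, x ∉ Ω → dv i j x = 0
  approx : ∃ φ : ℕ → Fin 3 → E3 → ℝ, (∀ n j, IsTest Ω (φ n j)) ∧
    (∀ j, Tendsto (fun n => ∫ x, (φ n j x - v j x) ^ 2) atTop (𝓝 0)) ∧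
    ∀ i j, Tendsto (fun n => ∫ x, (pd i (φ n j) x - dv i j x) ^ 2) atTop (𝓝 0)

lemma IsTest.sub {Ω : Set E3} {φ ψ : E3 → ℝ} (h1 : IsTest Ω φ) (h2 : IsTest Ω ψ) :
    IsTest Ω (fun x => φ x - ψ x) := by
  have := IsTest.add h1 (IsTest.const_mul (-1) h2)
  refine ⟨?_, ?_, ?_⟩
  · exact h1.1.sub h2.1
  · have e : (fun x => φ x - ψ x) = fun x => φ x + -1 * ψ x := by funext x; ring
    rw [e]; exact this.2.1
  · have e : (fun x => φ x - ψ x) = fun x => φ x + -1 * ψ x := by funext x; ring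
    rw [e]; exact this.2.2

lemma pd_sub' {φ ψ : E3 → ℝ} (h1 : ContDiff ℝ ∞ φ) (h2 : ContDiff ℝ ∞ ψ)
    (i : Fin 3) (x : E3) : pd i (fun y => φ y - ψ y) x = pd i φ x - pd i ψ x := by
  have := pd_add_mul h1 h2 1 (-1) i x
  have e : (fun x => φ x - ψ x) = fun x => 1 * φ x + -1 * ψ x := by funext x; ring
  rw [e, this]; ring

section lim

variable {Ω : Set E3} {lam mu : E3 → ℝ} {c M R : ℝ}

/-- completeness: test fields which are Cauchy for the form converge. -/
lemma Coef.exists_lim (C : Coef Ω lam mu c M R) {φ : ℕ → Fin 3 → E3 → ℝ}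
    (h : ∀ n j, IsTest Ω (φ n j))
    (hC : ∀ ε > 0, ∃ N, ∀ n ≥ N, ∀ k ≥ N,
      form Ω lam mu (fun i j => pd i (fun x => φ n j x - φ k j x))
        (fun i j => pd i (fun x => φ n j x - φ k j x)) < ε) :
    ∃ (v : Fin 3 → E3 → ℝ) (dv : Fin 3 → Fin 3 → E3 → ℝ), RH10 Ω v dv ∧
      (∀ j, Tendsto (fun n => ∫ x, (φ n j x - v j x) ^ 2) atTop (𝓝 0)) ∧
      (∀ i j, Tendsto (fun n => ∫ x, (pd i (φ n j) x - dv i j x) ^ 2) atTop (𝓝 0)) := by
  have hc := C.c_pos
  have hsub : ∀ n k j, IsTest Ω (fun x => φ n j x - φ k j x) := fun n k j =>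
    IsTest.sub (h n j) (h k j)
  have hv : ∀ j, ∃ g : E3 → ℝ, MemLp g 2 ∧
      Tendsto (fun n => N2 (fun x => φ n j x - g x)) atTop (𝓝 0) := by
    intro j
    refine exists_limit (fun n => test_memLp (h n j)) fun ε hε => ?_
    obtain ⟨N, hN⟩ := hC (ε / (4 * R ^ 2 * (2 / c) + 1)) (by positivity)
    refine ⟨N, fun n hn k hk => ?_⟩
    have h1 := C.val_le (φ := fun j x => φ n j x - φ k j x) (hsub n k) j
    have h2 := hN n hn k hk
    have h0 := C.form_nonneg (fun i j => pd i (fun x => φ n j x - φ k j x))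
    rw [lt_div_iff₀ (by (clear * - hc; positivity))] at h2
    show ∫ x, (φ n j x - φ k j x) ^ 2 < ε
    linarith only [h0, h2, h1]
  have hdv : ∀ i j, ∃ g : E3 → ℝ, MemLp g 2 ∧
      Tendsto (fun n => N2 (fun x => pd i (φ n j) x - g x)) atTop (𝓝 0) := by
    intro i j
    refine exists_limit (fun n => test_pd_memLp (h n j) i) fun ε hε => ?_
    obtain ⟨N, hN⟩ := hC (ε / (2 / c + 1)) (by positivity)
    refine ⟨N, fun n hn k hk => ?_⟩
    have h1 := C.grad_le (φ := fun j x => φ n j x - φ k j x) (hsub n k) i j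
    have h2 := hN n hn k hk
    have h0 := C.form_nonneg (fun i j => pd i (fun x => φ n j x - φ k j x))
    rw [lt_div_iff₀ (by positivity)] at h2
    have e : N2 (fun x => pd i (φ n j) x - pd i (φ k j) x) =
        ∫ x, (pd i (fun x => φ n j x - φ k j x) x) ^ 2 := by
      unfold N2
      congr 1; funext x
      rw [pd_sub' (h n j).1 (h k j).1]
    rw [e]
    have : ∫ x, (pd i (fun x => φ n j x - φ k j x) x) ^ 2 ≤ 2 / c *
      form Ω lam mu (fun i j => pd i (fun x => φ n j x - φ k j x))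
        (fun i j => pd i (fun x => φ n j x - φ k j x)) := h1
    linarith only [this, h0, h2]
  choose v hvm hvt using hv
  choose dv hdm hdt using hdv
  have ind : ∀ {a : ℕ → E3 → ℝ} {b : E3 → ℝ}, (∀ n, MemLp (a n) 2 volume) → MemLp b 2 volume →
      (∀ n x, x ∉ Ω → a n x = 0) → Tendsto (fun n => N2 (fun x => a n x - b x)) atTop (𝓝 0) →
      Tendsto (fun n => ∫ x, (a n x - Ω.indicator b x) ^ 2) atTop (𝓝 0) := by
    intro a b ha hb hz ht
    refine squeeze_zero (fun n => integral_nonneg fun _ => sq_nonneg _) (fun n => ?_) ht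
    refine integral_mono (sq_int ((ha n).sub (hb.indicator C.meas)))
      (sq_int ((ha n).sub hb)) fun x => ?_
    show (a n x - Ω.indicator b x) ^ 2 ≤ (a n x - b x) ^ 2
    by_cases hx : x ∈ Ω
    · rw [Set.indicator_of_mem hx]
    · rw [Set.indicator_of_notMem hx, hz n x hx]
      simp only [sub_zero, ne_eq, OfNat.ofNat_ne_zero, not_false_eq_true, zero_pow]
      exact sq_nonneg _
  have t1 : ∀ j, Tendsto (fun n => ∫ x, (φ n j x - Ω.indicator (v j) x) ^ 2) atTop (𝓝 0) :=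
    fun j => ind (fun n => test_memLp (h n j)) (hvm j) (fun n x hx => test_zero (h n j) hx) (hvt j)
  have t2 : ∀ i j, Tendsto (fun n => ∫ x, (pd i (φ n j) x - Ω.indicator (dv i j) x) ^ 2)
      atTop (𝓝 0) :=
    fun i j => ind (fun n => test_pd_memLp (h n j) i) (hdm i j)
      (fun n x hx => test_pd_zero (h n j) i hx) (hdt i j)
  refine ⟨fun j => Ω.indicator (v j), fun i j => Ω.indicator (dv i j), ⟨?_, ?_, ?_, ?_, ?_⟩,
    t1, t2⟩
  · exact fun j => (hvm j).indicator C.meas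
  · exact fun i j => (hdm i j).indicator C.meas
  · exact fun j x hx => Set.indicator_of_notMem hx _
  · exact fun i j x hx => Set.indicator_of_notMem hx _
  · exact ⟨φ, h, t1, t2⟩

end lim


section minimize

variable {Ω : Set E3} {lam mu : E3 → ℝ} {c M R : ℝ}

/-- the pairing of an `L²` matrix field with a gradient -/
noncomputable def pr (Ω : Set E3) (G H : Fin 3 → Fin 3 → E3 → ℝ) : ℝ :=
  ∑ i, ∑ j, ∫ x in Ω, G i j x * H i j x

lemma pr_comb {G H K : Fin 3 → Fin 3 → E3 → ℝ}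
    (hG : ∀ i j, MemLp (G i j) 2 (volume.restrict Ω))
    (hH : ∀ i j, MemLp (H i j) 2 (volume.restrict Ω))
    (hK : ∀ i j, MemLp (K i j) 2 (volume.restrict Ω)) (s t : ℝ) :
    pr Ω G (fun i j x => s * H i j x + t * K i j x) = s * pr Ω G H + t * pr Ω G K := by
  unfold pr
  have e : ∀ i j, ∫ x in Ω, G i j x * (s * H i j x + t * K i j x) =
      s * (∫ x in Ω, G i j x * H i j x) + t * ∫ x in Ω, G i j x * K i j x := by
    intro i j
    rw [← integral_const_mul, ← integral_const_mul,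
      ← integral_add ((mul_int (hG i j) (hH i j)).const_mul s)
        ((mul_int (hG i j) (hK i j)).const_mul t)]
    congr 1; funext x; ring
  simp_rw [e]
  simp only [Fin.sum_univ_three]
  ring

lemma pr_sq_le {G H : Fin 3 → Fin 3 → E3 → ℝ}
    (hG : ∀ i j, MemLp (G i j) 2 (volume.restrict Ω))
    (hH : ∀ i j, MemLp (H i j) 2 (volume.restrict Ω)) :
    (pr Ω G H) ^ 2 ≤ 9 * (∑ i, ∑ j, ∫ x in Ω, (G i j x) ^ 2) *
      ∑ i, ∑ j, ∫ x in Ω, (H i j x) ^ 2 := by
  have h0 : ∀ i j, 0 ≤ ∫ x in Ω, (G i j x) ^ 2 := fun i j => integral_nonneg fun _ => sq_nonneg _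
  have h0' : ∀ i j, 0 ≤ ∫ x in Ω, (H i j x) ^ 2 := fun i j => integral_nonneg fun _ => sq_nonneg _
  have hs : ∀ i j, ∫ x in Ω, (H i j x) ^ 2 ≤ ∑ i, ∑ j, ∫ x in Ω, (H i j x) ^ 2 := fun i j =>
    (Finset.single_le_sum (f := fun j => ∫ x in Ω, (H i j x) ^ 2) (fun j _ => h0' i j)
      (Finset.mem_univ j)).trans (Finset.single_le_sum
        (f := fun i => ∑ j, ∫ x in Ω, (H i j x) ^ 2)
        (fun i _ => Finset.sum_nonneg fun j _ => h0' i j) (Finset.mem_univ i))
  have h1 : (pr Ω G H) ^ 2 ≤ 9 * ∑ i, ∑ j, (∫ x in Ω, G i j x * H i j x) ^ 2 := by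
    unfold pr
    have := sq_sum_le_card_mul_sum_sq (s := (Finset.univ : Finset (Fin 3)))
      (f := fun i => ∑ j, ∫ x in Ω, G i j x * H i j x)
    have h2 : ∀ i, (∑ j, ∫ x in Ω, G i j x * H i j x) ^ 2 ≤
        3 * ∑ j, (∫ x in Ω, G i j x * H i j x) ^ 2 := by
      intro i
      have := sq_sum_le_card_mul_sum_sq (s := (Finset.univ : Finset (Fin 3)))
        (f := fun j => ∫ x in Ω, G i j x * H i j x)
      simpa using this
    have h3 : (∑ i, ∑ j, ∫ x in Ω, G i j x * H i j x) ^ 2 ≤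
        3 * ∑ i, (∑ j, ∫ x in Ω, G i j x * H i j x) ^ 2 := by simpa using this
    have h4 : ∑ i, (∑ j, ∫ x in Ω, G i j x * H i j x) ^ 2 ≤
        ∑ i, 3 * ∑ j, (∫ x in Ω, G i j x * H i j x) ^ 2 := Finset.sum_le_sum fun i _ => h2 i
    rw [← Finset.mul_sum] at h4
    linarith only [h4, h3]
  refine h1.trans ?_
  rw [mul_assoc]
  refine mul_le_mul_of_nonneg_left ?_ (by norm_num)
  rw [Finset.sum_mul]
  refine Finset.sum_le_sum fun i _ => ?_
  rw [Finset.sum_mul]
  refine Finset.sum_le_sum fun j _ => ?_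
  exact (cs (hG i j) (hH i j)).trans (mul_le_mul_of_nonneg_left (hs i j) (h0 i j))

lemma int_test_sq_eq {φ : Fin 3 → E3 → ℝ} (h : ∀ j, IsTest Ω (φ j)) (i j : Fin 3) :
    ∫ x in Ω, (pd i (φ j) x) ^ 2 = ∫ x, (pd i (φ j) x) ^ 2 :=
  setIntegral_eq_integral_of_forall_compl_eq_zero fun x hx => by
    rw [test_pd_zero (h j) i hx]; simp

/-- Existence in `H¹₀` for a right hand side in divergence form. -/
theorem Coef.exists_H10 (C : Coef Ω lam mu c M R) {G : Fin 3 → Fin 3 → E3 → ℝ}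
    (hG : ∀ i j, MemLp (G i j) 2 (volume.restrict Ω)) :
    ∃ (v : Fin 3 → E3 → ℝ) (dv : Fin 3 → Fin 3 → E3 → ℝ), RH10 Ω v dv ∧
      ∀ φ : Fin 3 → E3 → ℝ, (∀ j, IsTest Ω (φ j)) →
        form Ω lam mu dv (fun i j => pd i (φ j)) = pr Ω G (fun i j => pd i (φ j)) := by
  have hc := C.c_pos
  let X := {φ : Fin 3 → E3 → ℝ // ∀ j, IsTest Ω (φ j)}
  let gr : X → Fin 3 → Fin 3 → E3 → ℝ := fun φ i j => pd i (φ.1 j)
  have hgr : ∀ (φ : X) i j, MemLp (gr φ i j) 2 (volume.restrict Ω) := fun φ i j =>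
    test_grad_memLp φ.2 i j
  let comb : ℝ → ℝ → X → X → X := fun s t φ ψ =>
    ⟨fun j x => s * φ.1 j x + t * ψ.1 j x, fun j =>
      IsTest.add (IsTest.const_mul s (φ.2 j)) (IsTest.const_mul t (ψ.2 j))⟩
  have hcomb : ∀ s t φ ψ, gr (comb s t φ ψ) = fun i j x => s * gr φ i j x + t * gr ψ i j x := by
    intro s t φ ψ
    funext i j x
    exact pd_add_mul (φ.2 j).1 (ψ.2 j).1 s t i x
  let F : X → ℝ := fun φ => form Ω lam mu (gr φ) (gr φ)
  let J : X → ℝ := fun φ => F φ - 2 * pr Ω G (gr φ)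
  have hF0 : ∀ φ, 0 ≤ F φ := fun φ => C.form_nonneg _
  have hFc : ∀ s t φ ψ, F (comb s t φ ψ) =
      s ^ 2 * F φ + 2 * s * t * form Ω lam mu (gr φ) (gr ψ) + t ^ 2 * F ψ := by
    intro s t φ ψ
    show form Ω lam mu (gr (comb s t φ ψ)) (gr (comb s t φ ψ)) = _
    rw [hcomb]
    exact form_comb C.meas C.hl C.hm C.hlM C.hmM (hgr φ) (hgr ψ) s t
  have hPc : ∀ s t φ ψ, pr Ω G (gr (comb s t φ ψ)) = s * pr Ω G (gr φ) + t * pr Ω G (gr ψ) := by
    intro s t φ ψ
    rw [hcomb]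
    exact pr_comb hG (hgr φ) (hgr ψ) s t
  -- lower bound
  obtain ⟨K, hK0, hK⟩ : ∃ K : ℝ, 0 ≤ K ∧ ∀ φ, (pr Ω G (gr φ)) ^ 2 ≤ K * F φ := by
    have h0 : 0 ≤ ∑ i, ∑ j, ∫ x in Ω, (G i j x) ^ 2 :=
      Finset.sum_nonneg fun _ _ => Finset.sum_nonneg fun _ _ => integral_nonneg fun _ => sq_nonneg _
    refine ⟨9 * (∑ i, ∑ j, ∫ x in Ω, (G i j x) ^ 2) * (2 / c), by (clear * - hc; positivity), fun φ => ?_⟩
    refine (pr_sq_le hG (hgr φ)).trans ?_
    rw [mul_assoc (9 * _) (2 / c)]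
    refine mul_le_mul_of_nonneg_left ?_ (by (clear * -; positivity))
    have h1 := C.korn φ.2
    have h2 : ∑ i, ∑ j, ∫ x in Ω, (gr φ i j x) ^ 2 = ∑ i, ∑ j, ∫ x, (pd i (φ.1 j) x) ^ 2 :=
      Finset.sum_congr rfl fun i _ => Finset.sum_congr rfl fun j _ => int_test_sq_eq φ.2 i j
    rw [h2]
    exact h1
  have hJ : ∀ φ, -K ≤ J φ := by
    intro φ
    have h1 := hK φ
    have h2 := hF0 φ
    have h3 : (2 * pr Ω G (gr φ)) ^ 2 ≤ (F φ + K) ^ 2 := by linarith only [sq_nonneg (F φ - K), h1]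
    have h4 := (abs_le_of_sq_le_sq' h3 (by positivity)).2
    show -K ≤ F φ - 2 * pr Ω G (gr φ)
    linarith
  have hbdd : BddBelow (Set.range J) := ⟨-K, by rintro _ ⟨φ, rfl⟩; exact hJ φ⟩
  have : Nonempty X := ⟨⟨fun _ _ => 0, fun _ => IsTest.zero Ω⟩⟩
  set m := ⨅ φ, J φ with hm
  have hm_le : ∀ φ, m ≤ J φ := fun φ => ciInf_le hbdd φ
  have hex : ∀ n : ℕ, ∃ φ : X, J φ < m + 1 / ((n : ℝ) + 1) := fun n =>
    exists_lt_of_ciInf_lt (lt_add_of_pos_right m (by (clear * -; positivity)))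
  choose φ hφ using hex
  -- the sequence is Cauchy
  have hpar : ∀ a b : X, F (comb 1 (-1) a b) ≤ 2 * J a + 2 * J b - 4 * m := by
    intro a b
    have h1 := hFc 1 (-1) a b
    have h2 := hFc (1 / 2) (1 / 2) a b
    have h3 := hPc (1 / 2) (1 / 2) a b
    have h4 := hm_le (comb (1 / 2) (1 / 2) a b)
    have h5 : J (comb (1 / 2) (1 / 2) a b) =
      F (comb (1 / 2) (1 / 2) a b) - 2 * pr Ω G (gr (comb (1 / 2) (1 / 2) a b)) := rfl
    have h6 : J a = F a - 2 * pr Ω G (gr a) := rfl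
    have h7 : J b = F b - 2 * pr Ω G (gr b) := rfl
    rw [h5, h2, h3] at h4
    rw [h1, h6, h7]
    linarith only [h4]
  have hCau : ∀ ε > 0, ∃ N, ∀ n ≥ N, ∀ k ≥ N,
      form Ω lam mu (fun i j => pd i (fun x => (φ n).1 j x - (φ k).1 j x))
        (fun i j => pd i (fun x => (φ n).1 j x - (φ k).1 j x)) < ε := by
    intro ε hε
    obtain ⟨N, hN⟩ := exists_nat_gt (4 / ε)
    refine ⟨N, fun n hn k hk => ?_⟩
    have e : (fun i j => pd i (fun x => (φ n).1 j x - (φ k).1 j x)) =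
        gr (comb 1 (-1) (φ n) (φ k)) := by
      rw [hcomb]
      funext i j x
      rw [pd_sub' ((φ n).2 j).1 ((φ k).2 j).1]
      show _ = 1 * pd i ((φ n).1 j) x + -1 * pd i ((φ k).1 j) x
      ring
    rw [e]
    have h1 := hpar (φ n) (φ k)
    have h2 := hφ n
    have h3 := hφ k
    have hb : ∀ n : ℕ, N ≤ n → 1 / ((n : ℝ) + 1) ≤ ε / 4 := by
      intro n hn
      have hNn : (N : ℝ) ≤ n := by exact_mod_cast hn
      have hNp : (0 : ℝ) < N := lt_trans (by positivity) hN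
      rw [div_lt_iff₀ hε] at hN
      rw [div_le_div_iff₀ (by positivity) (by norm_num)]
      (by_contra nlg; linarith only [nlg, mul_pos (sub_pos.2 hN) (sub_pos.2 hNp), mul_nonneg (le_of_lt (sub_pos.2 hN)) (sub_nonneg.2 hNn), mul_pos (sub_pos.2 hε) (sub_pos.2 hNp), mul_pos (sub_pos.2 (not_le.1 nlg)) (sub_pos.2 hNp), hNn])
    have h4 := hb n hn
    have h5 := hb k hk
    show F (comb 1 (-1) (φ n) (φ k)) < ε
    linarith only [h5, h4, h3, h2, h1]
  obtain ⟨v, dv, hv, ht1, ht2⟩ := C.exists_lim (fun n j => (φ n).2 j) hCau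
  refine ⟨v, dv, hv, fun ψ hψ => ?_⟩
  -- the Euler equation
  have hdvm : ∀ i j, MemLp (dv i j) 2 (volume.restrict Ω) := fun i j =>
    (hv.der_mem i j).mono_measure Measure.restrict_le_self
  let ψX : X := ⟨ψ, hψ⟩
  have ht2' : ∀ i j, Tendsto (fun n => ∫ x in Ω, (gr (φ n) i j x - dv i j x) ^ 2)
      atTop (𝓝 0) := by
    intro i j
    refine squeeze_zero (fun n => integral_nonneg fun _ => sq_nonneg _) (fun n => ?_) (ht2 i j)
    exact setIntegral_le_integral (sq_int ((test_pd_memLp ((φ n).2 j) i).sub (hv.der_mem i j)))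
      (Eventually.of_forall fun _ => sq_nonneg _)
  have htf := form_tendsto C.meas C.hl C.hm C.hlM C.hmM (fun n => hgr (φ n)) hdvm (hgr ψX) ht2'
  set b := form Ω lam mu dv (gr ψX) - pr Ω G (gr ψX) with hb
  have hlim : Tendsto (fun n => form Ω lam mu (gr (φ n)) (gr ψX) - pr Ω G (gr ψX)) atTop (𝓝 b) :=
    htf.sub_const _
  have hkey : ∀ t : ℝ, 0 ≤ 2 * t * b + t ^ 2 * F ψX := by
    intro t
    have h1 : ∀ n : ℕ, -(1 / ((n : ℝ) + 1)) ≤
        2 * t * (form Ω lam mu (gr (φ n)) (gr ψX) - pr Ω G (gr ψX)) + t ^ 2 * F ψX := by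
      intro n
      have h2 := hFc 1 t (φ n) ψX
      have h3 := hPc 1 t (φ n) ψX
      have h4 := hm_le (comb 1 t (φ n) ψX)
      have h5 : J (comb 1 t (φ n) ψX) =
        F (comb 1 t (φ n) ψX) - 2 * pr Ω G (gr (comb 1 t (φ n) ψX)) := rfl
      have h6 : J (φ n) = F (φ n) - 2 * pr Ω G (gr (φ n)) := rfl
      have h7 := hφ n
      rw [h5, h2, h3] at h4
      rw [h6] at h7
      linarith
    have h8 : Tendsto (fun n : ℕ => -(1 / ((n : ℝ) + 1))) atTop (𝓝 0) := by
      have := tendsto_one_div_add_atTop_nhds_zero_nat (𝕜 := ℝ)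
      simpa using this.neg
    exact le_of_tendsto_of_tendsto' h8 ((hlim.const_mul (2 * t)).add_const _) h1
  have hb0 : b = 0 := by
    have h1 := hkey (-b / (F ψX + 1))
    have h2 := hF0 ψX
    have h3 : 2 * (-b / (F ψX + 1)) * b + (-b / (F ψX + 1)) ^ 2 * F ψX =
        -(b ^ 2 * (F ψX + 2)) / (F ψX + 1) ^ 2 := by
      field_simp
      ring
    rw [h3, neg_div, neg_nonneg] at h1
    have h4 : b ^ 2 * (F ψX + 2) ≤ 0 := by
      by_contra hcon
      push Not at hcon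
      exact absurd h1 (not_le.2 (by (clear * - hcon h2; positivity)))
    have h5 : b ^ 2 ≤ 0 := by linarith only [mul_nonneg (sub_nonneg.2 h2) (sq_nonneg b), h4]
    exact pow_eq_zero_iff (two_ne_zero) |>.1 (le_antisymm h5 (sq_nonneg b))
  have : form Ω lam mu dv (gr ψX) = pr Ω G (gr ψX) := by linarith [hb0]
  exact this

end minimize


/-! ## Consequences -/

section conseq

variable {Ω : Set E3} {lam mu : E3 → ℝ} {c M R : ℝ}

lemma memLp_restrict {f : E3 → ℝ} (hf : MemLp f 2 volume) : MemLp f 2 (volume.restrict Ω) :=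
  hf.mono_measure Measure.restrict_le_self

lemma restrict_tendsto {a : ℕ → E3 → ℝ} {b : E3 → ℝ} (ha : ∀ n, MemLp (a n) 2 volume)
    (hb : MemLp b 2 volume) (h : Tendsto (fun n => ∫ x, (a n x - b x) ^ 2) atTop (𝓝 0)) :
    Tendsto (fun n => ∫ x in Ω, (a n x - b x) ^ 2) atTop (𝓝 0) := by
  refine squeeze_zero (fun n => integral_nonneg fun _ => sq_nonneg _) (fun n => ?_) h
  exact setIntegral_le_integral (sq_int ((ha n).sub hb)) (Eventually.of_forall fun _ => sq_nonneg _)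

/-- weak derivative of an `H¹₀` field, against smooth compactly supported functions of `ℝ³`. -/
lemma RH10.weak {v : Fin 3 → E3 → ℝ} {dv : Fin 3 → Fin 3 → E3 → ℝ} (h : RH10 Ω v dv)
    (i j : Fin 3) {φ : E3 → ℝ} (hφ : ContDiff ℝ ∞ φ) (hφc : HasCompactSupport φ) :
    ∫ x, v j x * pd i φ x = - ∫ x, dv i j x * φ x := by
  obtain ⟨ψ, hψ, h1, h2⟩ := h.approx
  have m1 : MemLp φ 2 volume := hφ.continuous.memLp_of_hasCompactSupport hφc
  have m2 : MemLp (pd i φ) 2 volume :=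
    (pd_contDiff_infty hφ i).continuous.memLp_of_hasCompactSupport (pd_hasCompactSupport hφc i)
  have t1 := tendsto_int_mul (fun n => test_memLp (hψ n j)) (h.val_mem j) m2 (h1 j)
  have t2 := tendsto_int_mul (fun n => test_pd_memLp (hψ n j) i) (h.der_mem i j) m1 (h2 i j)
  have e : ∀ n, ∫ x, ψ n j x * pd i φ x = - ∫ x, pd i (ψ n j) x * φ x := fun n =>
    ibp ((hψ n j).1.of_le (by norm_cast)) (hφ.of_le (by norm_cast)) hφc i
  simp_rw [e] at t1
  exact tendsto_nhds_unique t1 t2.neg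

/-- The Dirichlet problem. -/
theorem exists_dirichlet (hΩ : IsOpen Ω) (hb : Bornology.IsBounded Ω)
    (ha : Admissible Ω lam mu) (f : H1 Ω) : ∃ u : H1 Ω, SameTrace u f ∧ WeakSol lam mu u := by
  obtain ⟨c, M, R, C⟩ := exists_coef hΩ hb ha
  have hst := fun i j => st_memLp C.meas C.hl C.hm C.hlM C.hmM f.der_mem i j
  obtain ⟨v, dv, hv, he⟩ := C.exists_H10
    (G := fun i j x => -1 * st (lam x) (mu x) (fun i j => f.der i j x) i j)
    (fun i j => (hst i j).const_mul (-1))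
  refine ⟨⟨fun j x => f.val j x + v j x, fun i j x => f.der i j x + dv i j x,
    fun j => (f.val_mem j).add (memLp_restrict (hv.val_mem j)),
    fun i j => (f.der_mem i j).add (memLp_restrict (hv.der_mem i j)), ?_⟩, ?_, ?_⟩
  · intro i j φ hφ
    have m1 : MemLp φ 2 (volume.restrict Ω) := memLp_restrict (test_memLp hφ)
    have m2 : MemLp (pd i φ) 2 (volume.restrict Ω) := memLp_restrict (test_pd_memLp hφ i)
    have e1 : ∫ x in Ω, (f.val j x + v j x) * pd i φ x =
        (∫ x in Ω, f.val j x * pd i φ x) + ∫ x in Ω, v j x * pd i φ x := by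
      rw [← integral_add (mul_int (f.val_mem j) m2) (mul_int (memLp_restrict (hv.val_mem j)) m2)]
      congr 1; funext x; ring
    have e2 : ∫ x in Ω, (f.der i j x + dv i j x) * φ x =
        (∫ x in Ω, f.der i j x * φ x) + ∫ x in Ω, dv i j x * φ x := by
      rw [← integral_add (mul_int (f.der_mem i j) m1)
        (mul_int (memLp_restrict (hv.der_mem i j)) m1)]
      congr 1; funext x; ring
    have e3 : ∫ x in Ω, v j x * pd i φ x = ∫ x, v j x * pd i φ x :=
      setIntegral_test fun x hx => by rw [hv.val_zero j x hx]; simp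
    have e4 : ∫ x in Ω, dv i j x * φ x = ∫ x, dv i j x * φ x :=
      setIntegral_test fun x hx => by rw [hv.der_zero i j x hx]; simp
    rw [e1, e2, f.weak i j φ hφ, e3, e4, hv.weak i j hφ.1 hφ.2.1]
    ring
  · obtain ⟨ψ, hψ, h1, h2⟩ := hv.approx
    refine ⟨ψ, hψ, fun j => ?_, fun i j => ?_⟩
    · have := restrict_tendsto (Ω := Ω) (fun n => test_memLp (hψ n j)) (hv.val_mem j) (h1 j)
      refine this.congr fun n => ?_
      congr 1; funext x
      simp only
      ring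
    · have := restrict_tendsto (Ω := Ω) (fun n => test_pd_memLp (hψ n j) i) (hv.der_mem i j)
        (h2 i j)
      refine this.congr fun n => ?_
      congr 1; funext x
      simp only
      ring
  · intro φ hφ
    have hg := test_grad_memLp hφ
    have hdv : ∀ i j, MemLp (dv i j) 2 (volume.restrict Ω) := fun i j =>
      memLp_restrict (hv.der_mem i j)
    have e1 : form Ω lam mu (fun i j x => f.der i j x + dv i j x) (fun i j => pd i (φ j)) =
        form Ω lam mu f.der (fun i j => pd i (φ j)) +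
          form Ω lam mu dv (fun i j => pd i (φ j)) := by
      have := form_comb_left C.meas C.hl C.hm C.hlM C.hmM f.der_mem hdv hg 1 1
      simpa using this
    show form Ω lam mu (fun i j x => f.der i j x + dv i j x) (fun i j => pd i (φ j)) = 0
    rw [e1, he φ hφ, form_symm, form_eq_sum C.meas C.hl C.hm C.hlM C.hmM hg f.der_mem]
    unfold pr
    rw [← Finset.sum_add_distrib]
    refine Finset.sum_eq_zero fun i _ => ?_
    rw [← Finset.sum_add_distrib]
    refine Finset.sum_eq_zero fun j _ => ?_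
    rw [← integral_add (mul_int (hg i j) (hst i j))
      (mul_int ((hst i j).const_mul (-1)) (hg i j))]
    rw [← integral_zero E3 ℝ (μ := volume.restrict Ω)]
    congr 1; funext x; ring

end conseq

end Vale.Agent.P136.Exist
end
end

section

section

/-! Boundary determination to first order, unconditional. -/

namespace Vale.Agent.P136

theorem BD1 : BD1_statement :=
  BD.BD1_of (fun _ _ _ ho hb h f => Exist.exists_dirichlet ho hb h f)

end Vale.Agent.P136
end
end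

section

section

open MeasureTheory Filter Topology
open scoped ContDiff InnerProductSpace

namespace Vale.Agent.P136

/-- global uniqueness from the transfer statement `TL`. -/
theorem final_of (hTL : TL_statement)
    (Ω : Set E3) (hΩ : SmoothDomain Ω) (lam₁ mu₁ lam₂ mu₂ : E3 → ℝ)
    (hA₁ : Admissible Ω lam₁ mu₁) (hA₂ : Admissible Ω lam₂ mu₂)
    (hDN : SameDN Ω lam₁ mu₁ lam₂ mu₂) :
    ∀ x ∈ Ω, lam₁ x = lam₂ x ∧ mu₁ x = mu₂ x :=
  main_of BD1 hTL CP1 Ω hΩ lam₁ mu₁ lam₂ mu₂ hA₁ hA₂ hDN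

end Vale.Agent.P136
end
end

section

section

/-!
# Carleman estimate for the adjoint system `adjP A B`
-/

open MeasureTheory Filter Topology
open scoped ContDiff InnerProductSpace

namespace Vale.Agent.P136

namespace ASW

variable {n : ℕ}

lemma adjP_contDiff {A : Fin 3 → Fin n → Fin n → E3 → ℝ} {B : Fin n → Fin n → E3 → ℝ}
    (hA : ∀ j a b, ContDiff ℝ ∞ (A j a b)) (hB : ∀ a b, ContDiff ℝ ∞ (B a b))
    {φ : Fin n → E3 → ℝ} (hφ : ∀ a, ContDiff ℝ ∞ (φ a)) (a : Fin n) :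
    ContDiff ℝ ∞ (adjP A B φ a) := by
  unfold adjP
  refine ((lap_contDiff (hφ a)).sub ?_).add ?_
  · exact ContDiff.sum fun j _ => ContDiff.sum fun b _ =>
      pd_contDiff_infty ((hA j b a).mul (hφ b)) j
  · exact ContDiff.sum fun b _ => (hB b a).mul (hφ b)

lemma lap_eq_zero_of_notMem {f : E3 → ℝ} {x : E3} (hx : x ∉ tsupport f) : lap f x = 0 := by
  have h0 : f =ᶠ[𝓝 x] fun _ => 0 := notMem_tsupport_iff_eventuallyEq.1 hx
  have h1 : ∀ (i : Fin 3), pd i f =ᶠ[𝓝 x] fun _ => 0 := by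
    intro i
    filter_upwards [h0.eventuallyEq_nhds] with y hy
    unfold pd
    rw [hy.fderiv_eq]
    simp
  unfold lap
  refine Finset.sum_eq_zero fun i _ => ?_
  unfold pd
  rw [show (fun x => fderiv ℝ f x (bv i)) = pd i f from rfl, (h1 i).fderiv_eq]
  simp

/-- locality: where all `φ b` vanish near `x`, `adjP` vanishes -/
lemma adjP_eq_zero_of_notMem {A : Fin 3 → Fin n → Fin n → E3 → ℝ} {B : Fin n → Fin n → E3 → ℝ}
    {φ : Fin n → E3 → ℝ} {x : E3} (hx : ∀ b, x ∉ tsupport (φ b)) (a : Fin n) :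
    adjP A B φ a x = 0 := by
  have h0 : ∀ b, φ b =ᶠ[𝓝 x] fun _ => 0 := fun b => notMem_tsupport_iff_eventuallyEq.1 (hx b)
  have h1 : ∀ b (i : Fin 3), pd i (φ b) =ᶠ[𝓝 x] fun _ => 0 := by
    intro b i
    filter_upwards [(h0 b).eventuallyEq_nhds] with y hy
    unfold pd
    rw [hy.fderiv_eq]
    simp
  have h2 : lap (φ a) x = 0 := by
    unfold lap
    refine Finset.sum_eq_zero fun i _ => ?_
    unfold pd
    rw [show (fun x => fderiv ℝ (φ a) x (bv i)) = pd i (φ a) from rfl, (h1 a i).fderiv_eq]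
    simp
  unfold adjP
  rw [h2]
  have h3 : ∀ j b, pd j (fun y => A j b a y * φ b y) x = 0 := by
    intro j b
    have h4 : (fun y => A j b a y * φ b y) =ᶠ[𝓝 x] fun _ => 0 := by
      filter_upwards [h0 b] with y hy
      rw [hy, mul_zero]
    unfold pd
    rw [h4.fderiv_eq]
    simp
  simp only [h3, Finset.sum_const_zero, (h0 _).self_of_nhds, mul_zero]
  simp

lemma adjP_eq {A : Fin 3 → Fin n → Fin n → E3 → ℝ} {B : Fin n → Fin n → E3 → ℝ}
    (hA : ∀ j a b, ContDiff ℝ ∞ (A j a b))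
    {φ : Fin n → E3 → ℝ} (hφ : ∀ a, ContDiff ℝ ∞ (φ a)) (a : Fin n) (x : E3) :
    adjP A B φ a x = lap (φ a) x - ∑ j, ∑ b, (pd j (A j b a) x * φ b x + A j b a x * pd j (φ b) x)
      + ∑ b, B b a x * φ b x := by
  unfold adjP
  congr 2
  refine Finset.sum_congr rfl fun j _ => Finset.sum_congr rfl fun b _ => ?_
  exact pd_mul (((hA j b a).differentiable (by simp)) x) (((hφ b).differentiable (by simp)) x) j

/-- pointwise absorption bound -/
lemma lap_sq_le {A : Fin 3 → Fin n → Fin n → E3 → ℝ} {B : Fin n → Fin n → E3 → ℝ}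
    (hA : ∀ j a b, ContDiff ℝ ∞ (A j a b))
    {φ : Fin n → E3 → ℝ} (hφ : ∀ a, ContDiff ℝ ∞ (φ a)) {M : ℝ} {x : E3}
    (hMA : ∀ j a b, |A j a b x| ≤ M) (hMdA : ∀ j a b, |pd j (A j a b) x| ≤ M)
    (hMB : ∀ a b, |B a b x| ≤ M) (a : Fin n) :
    (lap (φ a) x) ^ 2 ≤ 2 * (adjP A B φ a x) ^ 2 +
      128 * n * M ^ 2 * ∑ b, (gradSq (φ b) x + (φ b x) ^ 2) := by
  set t : Fin n → ℝ := fun b => ∑ j : Fin 3, |pd j (φ b) x| + 4 * |φ b x| with ht
  set L : ℝ := lap (φ a) x - adjP A B φ a x with hL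
  have hM0 : 0 ≤ M := (abs_nonneg _).trans (hMB a a)
  have hLe : L = ∑ j, ∑ b, (pd j (A j b a) x * φ b x + A j b a x * pd j (φ b) x)
      - ∑ b, B b a x * φ b x := by
    rw [hL, adjP_eq hA hφ]; ring
  have h1 : |L| ≤ M * ∑ b, t b := by
    rw [hLe]
    calc |∑ j, ∑ b, (pd j (A j b a) x * φ b x + A j b a x * pd j (φ b) x)
          - ∑ b, B b a x * φ b x|
        ≤ |∑ j, ∑ b, (pd j (A j b a) x * φ b x + A j b a x * pd j (φ b) x)|
          + |∑ b, B b a x * φ b x| := abs_sub _ _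
      _ ≤ ∑ j : Fin 3, ∑ b, (M * |φ b x| + M * |pd j (φ b) x|) + ∑ b, M * |φ b x| := by
          refine add_le_add ?_ ?_
          · refine (Finset.abs_sum_le_sum_abs _ _).trans (Finset.sum_le_sum fun j _ => ?_)
            refine (Finset.abs_sum_le_sum_abs _ _).trans (Finset.sum_le_sum fun b _ => ?_)
            refine (abs_add_le _ _).trans (add_le_add ?_ ?_)
            · rw [abs_mul]; exact mul_le_mul_of_nonneg_right (hMdA j b a) (abs_nonneg _)
            · rw [abs_mul]; exact mul_le_mul_of_nonneg_right (hMA j b a) (abs_nonneg _)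
          · refine (Finset.abs_sum_le_sum_abs _ _).trans (Finset.sum_le_sum fun b _ => ?_)
            rw [abs_mul]; exact mul_le_mul_of_nonneg_right (hMB b a) (abs_nonneg _)
      _ = M * ∑ b, t b := by
          rw [Finset.sum_comm, ← Finset.sum_add_distrib, Finset.mul_sum]
          refine Finset.sum_congr rfl fun b _ => ?_
          rw [ht]
          simp only [Fin.sum_univ_three]
          ring
  have h2 : ∀ b, (t b) ^ 2 ≤ 64 * (gradSq (φ b) x + (φ b x) ^ 2) := by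
    intro b
    rw [ht]
    simp only [gradSq, Fin.sum_univ_three]
    rw [← sq_abs (pd 0 (φ b) x), ← sq_abs (pd 1 (φ b) x), ← sq_abs (pd 2 (φ b) x),
      ← sq_abs (φ b x)]
    set p0 := |pd 0 (φ b) x|
    set p1 := |pd 1 (φ b) x|
    set p2 := |pd 2 (φ b) x|
    set q := |φ b x|
    linarith only [sq_nonneg q, sq_nonneg p2, sq_nonneg p1, sq_nonneg p0, sq_nonneg (4 * p2 - q), sq_nonneg (4 * p1 - q), sq_nonneg (4 * p0 - q), sq_nonneg (p1 - p2), sq_nonneg (p0 - p2), sq_nonneg (p0 - p1)]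
  have h3 : (∑ b, t b) ^ 2 ≤ n * ∑ b, (t b) ^ 2 := by
    have := sq_sum_le_card_mul_sum_sq (s := (Finset.univ : Finset (Fin n))) (f := t)
    simpa using this
  have h4 : L ^ 2 ≤ 64 * n * M ^ 2 * ∑ b, (gradSq (φ b) x + (φ b x) ^ 2) := by
    have h5 : L ^ 2 ≤ (M * ∑ b, t b) ^ 2 := by
      rw [← sq_abs L]
      exact pow_le_pow_left₀ (abs_nonneg _) h1 2
    calc L ^ 2 ≤ M ^ 2 * (∑ b, t b) ^ 2 := by rw [← mul_pow]; exact h5
      _ ≤ M ^ 2 * (n * ∑ b, (t b) ^ 2) := by gcongr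
      _ ≤ M ^ 2 * (n * ∑ b, 64 * (gradSq (φ b) x + (φ b x) ^ 2)) := by
          gcongr with b _
          exact h2 b
      _ = _ := by rw [← Finset.mul_sum]; ring
  have h6 : lap (φ a) x = adjP A B φ a x + L := by rw [hL]; ring
  rw [h6]
  linarith only [sq_nonneg (adjP A B φ a x - L), h4]

/-- a common bound of finitely many continuous functions on a closed ball -/
lemma exists_bound {ι : Type*} [Fintype ι] (f : ι → E3 → ℝ) (hf : ∀ i, Continuous (f i)) (r : ℝ) :
    ∃ M : ℝ, 0 ≤ M ∧ ∀ i x, x ∈ Metric.closedBall (0 : E3) r → |f i x| ≤ M := by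
  have h : ∀ i, ∃ M : ℝ, ∀ x ∈ Metric.closedBall (0 : E3) r, ‖f i x‖ ≤ M := fun i =>
    (isCompact_closedBall (0 : E3) r).exists_bound_of_continuousOn (hf i).continuousOn
  choose M hM using h
  refine ⟨∑ i, |M i|, Finset.sum_nonneg fun i _ => abs_nonneg _, fun i x hx => ?_⟩
  calc |f i x| ≤ M i := hM i x hx
    _ ≤ |M i| := le_abs_self _
    _ ≤ ∑ i, |M i| := Finset.single_le_sum (f := fun i => |M i|) (fun i _ => abs_nonneg _)
        (Finset.mem_univ i)

/-- **Carleman estimate for the adjoint system.** -/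
theorem sys_carleman (A : Fin 3 → Fin n → Fin n → E3 → ℝ) (B : Fin n → Fin n → E3 → ℝ) {R : ℝ}
    (hR : 0 < R) (hA : ∀ j a b, ContDiff ℝ ∞ (A j a b)) (hB : ∀ a b, ContDiff ℝ ∞ (B a b)) :
    ∃ C τ₀ : ℝ, 0 < C ∧ 0 < τ₀ ∧ ∀ (α : E3), τ₀ ≤ ‖α‖ → ∀ φ : Fin n → E3 → ℝ,
      (∀ a, IsTest (Metric.ball (0 : E3) (2 * R)) (φ a)) →
      ‖α‖ ^ 2 * (∑ a, ∫ x, Real.exp (2 * ⟪α, x⟫_ℝ) * (φ a x) ^ 2) +
        (∑ a, ∫ x, Real.exp (2 * ⟪α, x⟫_ℝ) * gradSq (φ a) x) ≤
        C * ∑ a, ∫ x, Real.exp (2 * ⟪α, x⟫_ℝ) * (adjP A B φ a x) ^ 2 := by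
  obtain ⟨M1, hM1, hMA⟩ := exists_bound (fun p : Fin 3 × Fin n × Fin n => A p.1 p.2.1 p.2.2)
    (fun p => (hA _ _ _).continuous) (2 * R)
  obtain ⟨M2, hM2, hMdA⟩ := exists_bound
    (fun p : Fin 3 × Fin n × Fin n => pd p.1 (A p.1 p.2.1 p.2.2))
    (fun p => (pd_contDiff_infty (hA _ _ _) _).continuous) (2 * R)
  obtain ⟨M3, hM3, hMB⟩ := exists_bound (fun p : Fin n × Fin n => B p.1 p.2)
    (fun p => (hB _ _).continuous) (2 * R)
  set M : ℝ := M1 + M2 + M3 with hMdef
  set K : ℝ := 128 * n * M ^ 2 with hK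
  have hK0 : 0 ≤ K := by (clear * -; positivity)
  set s : ℝ := 1 + 8 * n * K with hs
  have hs1 : 1 ≤ s := by
    have : 0 ≤ 8 * (n : ℝ) * K := by (clear * -; positivity)
    linarith
  have hs0 : 0 < s := by linarith
  refine ⟨16 * Real.exp (4 * s * R ^ 2), s + 4 * s * R, by positivity, by (clear * - hR; positivity), ?_⟩
  intro α hα φ hφ
  have hφs : ∀ a, ContDiff ℝ ∞ (φ a) := fun a => (hφ a).1
  have hφc : ∀ a, HasCompactSupport (φ a) := fun a => (hφ a).2.1
  set τ : ℝ := ‖α‖ with hτ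
  have hτs : s ≤ τ := by
    have : 0 ≤ 4 * s * R := by (clear * - hR; positivity)
    linarith
  have hτ1 : 1 ≤ τ := hs1.trans hτs
  have hτ0 : 0 < τ := by linarith
  set e : E3 := τ⁻¹ • α with he
  have hen : ‖e‖ = 1 := by
    rw [he, norm_smul, norm_inv, norm_norm, ← hτ]
    exact inv_mul_cancel₀ hτ0.ne'
  have hte : ∀ x : E3, τ * ⟪e, x⟫_ℝ = ⟪α, x⟫_ℝ := by
    intro x
    rw [he, real_inner_smul_left, ← mul_assoc, mul_inv_cancel₀ hτ0.ne', one_mul]
  have hball : ∀ x : E3, x ∈ Metric.ball (0 : E3) (2 * R) → |⟪e, x⟫_ℝ| ≤ 2 * R := by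
    intro x hx
    have h1 := abs_real_inner_le_norm e x
    rw [hen, one_mul] at h1
    exact h1.trans (by simpa using (mem_ball_zero_iff.1 hx).le)
  have hsupp : ∀ a x, φ a x ≠ 0 → x ∈ Metric.ball (0 : E3) (2 * R) := fun a x hx =>
    (hφ a).2.2 (subset_tsupport _ hx)
  have hcar : ∀ a, τ ^ 2 * (∫ x, Real.exp (2 * phase e τ s x) * (φ a x) ^ 2)
      + (∫ x, Real.exp (2 * phase e τ s x) * gradSq (φ a) x)
      ≤ (4 / s) * ∫ x, Real.exp (2 * phase e τ s x) * (lap (φ a) x) ^ 2 := by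
    intro a
    refine carleman_smooth (R := 2 * R) (hφs a) (hφc a) e hen hs0 hτ0.le ?_ ?_ ?_
    · (by_contra nlg; linarith only [nlg, mul_nonneg (sub_nonneg.2 hτs) (le_of_lt (sub_pos.2 hτ0)), mul_pos (sub_pos.2 (not_le.1 nlg)) (sub_pos.2 hτ0), mul_nonneg (sq_nonneg (τ : ℝ)) (sub_nonneg.2 hτ1)])
    · calc 2 * s * (2 * R) = 4 * s * R := by ring
        _ ≤ τ := by linarith
    · intro x hx
      exact hball x (hsupp a x hx)
  -- weight comparison
  have hec : Continuous (fun x => Real.exp (2 * phase e τ s x)) :=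
    Real.continuous_exp.comp (continuous_const.mul (phase_contDiff e τ s).continuous)
  have hec' : Continuous (fun x : E3 => Real.exp (2 * ⟪α, x⟫_ℝ)) :=
    Real.continuous_exp.comp (continuous_const.mul (inner_contDiff α).continuous)
  have hw1 : ∀ x : E3, Real.exp (2 * ⟪α, x⟫_ℝ) ≤ Real.exp (2 * phase e τ s x) := by
    intro x
    apply Real.exp_le_exp.2
    unfold phase
    rw [hte]
    have : 0 ≤ s * ⟪e, x⟫_ℝ ^ 2 / 2 := by (clear * -; positivity)
    linarith only [this]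
  have hw2 : ∀ x : E3, x ∈ Metric.ball (0 : E3) (2 * R) →
      Real.exp (2 * phase e τ s x) ≤ Real.exp (4 * s * R ^ 2) * Real.exp (2 * ⟪α, x⟫_ℝ) := by
    intro x hx
    rw [← Real.exp_add]
    apply Real.exp_le_exp.2
    unfold phase
    rw [hte]
    have h1 := hball x hx
    have h2 : ⟪e, x⟫_ℝ ^ 2 ≤ (2 * R) ^ 2 := sq_le_sq' (by linarith [(abs_le.1 h1).1]) (abs_le.1 h1).2
    linarith only [mul_nonneg (le_of_lt (sub_pos.2 hs0)) (sub_nonneg.2 h2)]
  -- supports
  have hts : ∀ x : E3, x ∉ Metric.ball (0 : E3) (2 * R) → ∀ b, x ∉ tsupport (φ b) :=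
    fun x hx b hxb => hx ((hφ b).2.2 hxb)
  have hadj0 : ∀ a x, x ∉ Metric.ball (0 : E3) (2 * R) → adjP A B φ a x = 0 :=
    fun a x hx => adjP_eq_zero_of_notMem (hts x hx) a
  have hadjc : ∀ a, HasCompactSupport (adjP A B φ a) := by
    intro a
    refine HasCompactSupport.of_support_subset_isCompact
      (isCompact_closedBall (0 : E3) (2 * R)) fun x hx => ?_
    by_contra h
    exact hx (hadj0 a x fun h2 => h (Metric.ball_subset_closedBall h2))
  have hadjs : ∀ a, ContDiff ℝ ∞ (adjP A B φ a) := fun a => adjP_contDiff hA hB hφs a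
  -- integrability
  have i0 : ∀ a, Integrable (fun x => Real.exp (2 * phase e τ s x) * (φ a x) ^ 2) := fun a =>
    int_cc (hec.mul ((hφs a).continuous.pow 2)) (HasCompactSupport.mul_left (cs_sq (hφc a)))
  have i1 : ∀ a, Integrable (fun x => Real.exp (2 * phase e τ s x) * gradSq (φ a) x) := fun a =>
    int_cc (hec.mul (gradSq_continuous (hφs a)))
      (HasCompactSupport.mul_left (gradSq_hasCompactSupport (hφc a)))
  have i2 : ∀ a, Integrable (fun x => Real.exp (2 * phase e τ s x) * (adjP A B φ a x) ^ 2) :=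
    fun a => int_cc (hec.mul ((hadjs a).continuous.pow 2))
      (HasCompactSupport.mul_left (cs_sq (hadjc a)))
  have i3 : ∀ a, Integrable (fun x => Real.exp (2 * phase e τ s x) * (lap (φ a) x) ^ 2) :=
    fun a => int_cc (hec.mul ((lap_contDiff (hφs a)).continuous.pow 2))
      (HasCompactSupport.mul_left (cs_sq (lap_hasCompactSupport (hφc a))))
  have i0' : ∀ a, Integrable (fun x => Real.exp (2 * ⟪α, x⟫_ℝ) * (φ a x) ^ 2) := fun a =>
    int_cc (hec'.mul ((hφs a).continuous.pow 2)) (HasCompactSupport.mul_left (cs_sq (hφc a)))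
  have i1' : ∀ a, Integrable (fun x => Real.exp (2 * ⟪α, x⟫_ℝ) * gradSq (φ a) x) := fun a =>
    int_cc (hec'.mul (gradSq_continuous (hφs a)))
      (HasCompactSupport.mul_left (gradSq_hasCompactSupport (hφc a)))
  have i2' : ∀ a, Integrable (fun x => Real.exp (2 * ⟪α, x⟫_ℝ) * (adjP A B φ a x) ^ 2) :=
    fun a => int_cc (hec'.mul ((hadjs a).continuous.pow 2))
      (HasCompactSupport.mul_left (cs_sq (hadjc a)))
  -- pointwise bound
  have hpt : ∀ a x, (lap (φ a) x) ^ 2 ≤ 2 * (adjP A B φ a x) ^ 2 +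
      K * ∑ b, (gradSq (φ b) x + (φ b x) ^ 2) := by
    intro a x
    by_cases hx : x ∈ Metric.closedBall (0 : E3) (2 * R)
    · refine lap_sq_le hA hφs (M := M) ?_ ?_ ?_ a
      · intro j a b
        exact (hMA (j, a, b) x hx).trans (by linarith)
      · intro j a b
        exact (hMdA (j, a, b) x hx).trans (by linarith)
      · intro a b
        exact (hMB (a, b) x hx).trans (by linarith)
    · have h1 : x ∉ Metric.ball (0 : E3) (2 * R) := fun h => hx (Metric.ball_subset_closedBall h)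
      rw [lap_eq_zero_of_notMem (hts x h1 a)]
      have h2 : 0 ≤ ∑ b, (gradSq (φ b) x + (φ b x) ^ 2) :=
        Finset.sum_nonneg fun b _ => add_nonneg (Finset.sum_nonneg fun i _ => sq_nonneg _)
          (sq_nonneg _)
      have h3 : 0 ≤ K * ∑ b, (gradSq (φ b) x + (φ b x) ^ 2) := mul_nonneg hK0 h2
      have h4 : 0 ≤ 2 * (adjP A B φ a x) ^ 2 := by positivity
      simpa using add_nonneg h4 h3
  set I0 : ℝ := ∑ a, ∫ x, Real.exp (2 * phase e τ s x) * (φ a x) ^ 2 with hI0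
  set I1 : ℝ := ∑ a, ∫ x, Real.exp (2 * phase e τ s x) * gradSq (φ a) x with hI1
  set J : ℝ := ∑ a, ∫ x, Real.exp (2 * phase e τ s x) * (adjP A B φ a x) ^ 2 with hJ
  have hI0n : 0 ≤ I0 := Finset.sum_nonneg fun a _ => integral_nonneg fun x => by positivity
  have hI1n : 0 ≤ I1 := Finset.sum_nonneg fun a _ => integral_nonneg fun x =>
    mul_nonneg (Real.exp_pos _).le (Finset.sum_nonneg fun i _ => sq_nonneg _)
  have hJn : 0 ≤ J := Finset.sum_nonneg fun a _ => integral_nonneg fun x => by (clear * -; positivity)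
  have hlap : ∀ a, ∫ x, Real.exp (2 * phase e τ s x) * (lap (φ a) x) ^ 2 ≤
      2 * (∫ x, Real.exp (2 * phase e τ s x) * (adjP A B φ a x) ^ 2) + K * (I1 + I0) := by
    intro a
    have i01 : ∀ b, Integrable (fun x => Real.exp (2 * phase e τ s x) * gradSq (φ b) x +
        Real.exp (2 * phase e τ s x) * (φ b x) ^ 2) := fun b => (i1 b).add (i0 b)
    have hsum : K * (I1 + I0) = ∫ x, K * ∑ b, (Real.exp (2 * phase e τ s x) * gradSq (φ b) x +
        Real.exp (2 * phase e τ s x) * (φ b x) ^ 2) := by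
      rw [integral_const_mul, integral_finsetSum _ fun b _ => i01 b]
      congr 1
      rw [hI1, hI0, ← Finset.sum_add_distrib]
      refine Finset.sum_congr rfl fun b _ => ?_
      exact (integral_add (i1 b) (i0 b)).symm
    have hint : Integrable (fun x => K * ∑ b, (Real.exp (2 * phase e τ s x) * gradSq (φ b) x +
        Real.exp (2 * phase e τ s x) * (φ b x) ^ 2)) :=
      (integrable_finsetSum _ fun b _ => i01 b).const_mul K
    rw [hsum, ← integral_const_mul, ← integral_add ((i2 a).const_mul 2) hint]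
    refine integral_mono (i3 a) (((i2 a).const_mul 2).add hint) fun x => ?_
    simp only
    have h1 := mul_le_mul_of_nonneg_left (hpt a x) (Real.exp_pos (2 * phase e τ s x)).le
    refine h1.trans_eq ?_
    simp only [← mul_add, ← Finset.mul_sum]
    ring
  have hmain : τ ^ 2 * I0 + I1 ≤ (4 / s) * (2 * J + n * (K * (I1 + I0))) := by
    calc τ ^ 2 * I0 + I1
        = ∑ a, (τ ^ 2 * (∫ x, Real.exp (2 * phase e τ s x) * (φ a x) ^ 2)
      + (∫ x, Real.exp (2 * phase e τ s x) * gradSq (φ a) x)) := by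
          rw [Finset.sum_add_distrib, ← Finset.mul_sum]
      _ ≤ ∑ a : Fin n, (4 / s) * (2 * (∫ x, Real.exp (2 * phase e τ s x) *
            (adjP A B φ a x) ^ 2) + K * (I1 + I0)) := by
          refine Finset.sum_le_sum fun a _ => (hcar a).trans ?_
          exact mul_le_mul_of_nonneg_left (hlap a) (by (clear * -; positivity))
      _ = _ := by
          rw [← Finset.mul_sum, Finset.sum_add_distrib, ← Finset.mul_sum, ← hJ]
          simp
  have hfin : τ ^ 2 * I0 + I1 ≤ 16 * J := by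
    have h1 : (4 / s) * (n * (K * (I1 + I0))) ≤ (1 / 2) * (I1 + I0) := by
      have h2 : (4 / s) * (n * K) ≤ 1 / 2 := by
        rw [div_mul_eq_mul_div, div_le_iff₀ hs0]
        linarith only []
      calc (4 / s) * (n * (K * (I1 + I0))) = ((4 / s) * (n * K)) * (I1 + I0) := by ring
        _ ≤ _ := mul_le_mul_of_nonneg_right h2 (by (clear * - hI1n; positivity))
    have h3 : (4 / s) * (2 * J) ≤ 8 * J := by
      have h4 : 4 / s ≤ 4 := div_le_self (by norm_num) hs1
      linarith only [mul_nonneg (sub_nonneg.2 hJn) (sub_nonneg.2 h4)]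
    have h5 : I0 ≤ τ ^ 2 * I0 := by
      have : 1 ≤ τ ^ 2 := one_le_pow₀ hτ1
      linarith only [mul_nonneg (sub_nonneg.2 hI0n) (sub_nonneg.2 this)]
    have h6 : (4 / s) * (2 * J + n * (K * (I1 + I0))) =
        (4 / s) * (2 * J) + (4 / s) * (n * (K * (I1 + I0))) := by ring
    rw [h6] at hmain
    linarith only [h5, h3, h1, hmain]
  -- pass to the linear weight
  have hL0 : ∑ a, ∫ x, Real.exp (2 * ⟪α, x⟫_ℝ) * (φ a x) ^ 2 ≤ I0 := by
    refine Finset.sum_le_sum fun a _ => integral_mono (i0' a) (i0 a) fun x => ?_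
    exact mul_le_mul_of_nonneg_right (hw1 x) (sq_nonneg _)
  have hL1 : ∑ a, ∫ x, Real.exp (2 * ⟪α, x⟫_ℝ) * gradSq (φ a) x ≤ I1 := by
    refine Finset.sum_le_sum fun a _ => integral_mono (i1' a) (i1 a) fun x => ?_
    exact mul_le_mul_of_nonneg_right (hw1 x) (Finset.sum_nonneg fun i _ => sq_nonneg _)
  have hL2 : J ≤ Real.exp (4 * s * R ^ 2) *
      ∑ a, ∫ x, Real.exp (2 * ⟪α, x⟫_ℝ) * (adjP A B φ a x) ^ 2 := by
    rw [Finset.mul_sum]
    refine Finset.sum_le_sum fun a _ => ?_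
    rw [← integral_const_mul]
    refine integral_mono (i2 a) ((i2' a).const_mul _) fun x => ?_
    simp only
    by_cases hx : x ∈ Metric.ball (0 : E3) (2 * R)
    · rw [← mul_assoc]
      exact mul_le_mul_of_nonneg_right (hw2 x hx) (sq_nonneg _)
    · rw [hadj0 a x hx]; simp
  calc τ ^ 2 * (∑ a, ∫ x, Real.exp (2 * ⟪α, x⟫_ℝ) * (φ a x) ^ 2) +
        (∑ a, ∫ x, Real.exp (2 * ⟪α, x⟫_ℝ) * gradSq (φ a) x)
      ≤ τ ^ 2 * I0 + I1 := add_le_add (mul_le_mul_of_nonneg_left hL0 (sq_nonneg _)) hL1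
    _ ≤ 16 * J := hfin
    _ ≤ 16 * (Real.exp (4 * s * R ^ 2) *
      ∑ a, ∫ x, Real.exp (2 * ⟪α, x⟫_ℝ) * (adjP A B φ a x) ^ 2) :=
        mul_le_mul_of_nonneg_left hL2 (by norm_num)
    _ = _ := by ring

end ASW

end Vale.Agent.P136
end
end

section

section

/-!
# Weighted weak solvability (Carleman + Riesz)
-/

open MeasureTheory Filter Topology
open scoped ContDiff InnerProductSpace

namespace Vale.Agent.P136

namespace ASW

/-- abstract duality lemma -/
theorem exists_riesz {X H : Type*} [AddCommGroup X] [Module ℝ X] [NormedAddCommGroup H]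
    [InnerProductSpace ℝ H] [CompleteSpace H] (T : X →ₗ[ℝ] H) (l : X →ₗ[ℝ] ℝ) {K : ℝ}
    (hK : 0 ≤ K) (h : ∀ x, |l x| ≤ K * ‖T x‖) :
    ∃ y : H, ‖y‖ ≤ K ∧ ∀ x, l x = ⟪y, T x⟫_ℝ := by
  have hker : LinearMap.ker T ≤ LinearMap.ker l := by
    intro x hx
    rw [LinearMap.mem_ker] at hx ⊢
    have := h x
    rw [hx, norm_zero, mul_zero] at this
    exact abs_eq_zero.1 (le_antisymm this (abs_nonneg _))
  let g : LinearMap.range T →ₗ[ℝ] ℝ :=
    ((LinearMap.ker T).liftQ l hker).comp (T.quotKerEquivRange.symm : LinearMap.range T →ₗ[ℝ] _)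
  have hg : ∀ x, g ⟨T x, LinearMap.mem_range_self T x⟩ = l x := by
    intro x
    have h1 : T.quotKerEquivRange.symm ⟨T x, LinearMap.mem_range_self T x⟩ =
        (LinearMap.ker T).mkQ x := by
      rw [LinearEquiv.symm_apply_eq]
      rfl
    show (LinearMap.ker T).liftQ l hker (T.quotKerEquivRange.symm _) = _
    rw [h1]
    simp
  have hgb : ∀ y : LinearMap.range T, ‖g y‖ ≤ K * ‖y‖ := by
    rintro ⟨y, x, rfl⟩
    rw [hg]
    exact h x
  let g' : StrongDual ℝ (LinearMap.range T) := g.mkContinuous K hgb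
  obtain ⟨G, hG1, hG2⟩ := exists_extension_norm_eq (LinearMap.range T) g'
  refine ⟨(InnerProductSpace.toDual ℝ H).symm G, ?_, ?_⟩
  · rw [LinearIsometryEquiv.norm_map, hG2]
    exact LinearMap.mkContinuous_norm_le _ hK _
  · intro x
    rw [InnerProductSpace.toDual_symm_apply, ← hg x]
    have := hG1 ⟨T x, LinearMap.mem_range_self T x⟩
    rw [this]
    rfl

variable {n : ℕ}

lemma pd_add_fun {f g : E3 → ℝ} (hf : ContDiff ℝ ∞ f) (hg : ContDiff ℝ ∞ g) (i : Fin 3) :
    pd i (f + g) = pd i f + pd i g := by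
  funext x
  unfold pd
  rw [fderiv_add ((hf.differentiable (by simp)) x) ((hg.differentiable (by simp)) x)]
  rfl

lemma pd_smul_fun (c : ℝ) {f : E3 → ℝ} (hf : ContDiff ℝ ∞ f) (i : Fin 3) :
    pd i (c • f) = c • pd i f := by
  funext x
  unfold pd
  rw [fderiv_const_smul ((hf.differentiable (by simp)) x)]
  rfl

lemma lap_add_fun {f g : E3 → ℝ} (hf : ContDiff ℝ ∞ f) (hg : ContDiff ℝ ∞ g) (x : E3) :
    lap (f + g) x = lap f x + lap g x := by
  unfold lap
  rw [← Finset.sum_add_distrib]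
  refine Finset.sum_congr rfl fun i _ => ?_
  rw [pd_add_fun hf hg, pd_add_fun (pd_contDiff_infty hf i) (pd_contDiff_infty hg i)]
  rfl

lemma lap_smul_fun (c : ℝ) {f : E3 → ℝ} (hf : ContDiff ℝ ∞ f) (x : E3) :
    lap (c • f) x = c * lap f x := by
  unfold lap
  rw [Finset.mul_sum]
  refine Finset.sum_congr rfl fun i _ => ?_
  rw [pd_smul_fun c hf, pd_smul_fun c (pd_contDiff_infty hf i)]
  rfl

lemma adjP_add {A : Fin 3 → Fin n → Fin n → E3 → ℝ} {B : Fin n → Fin n → E3 → ℝ}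
    (hA : ∀ j a b, ContDiff ℝ ∞ (A j a b)) {φ ψ : Fin n → E3 → ℝ}
    (hφ : ∀ a, ContDiff ℝ ∞ (φ a)) (hψ : ∀ a, ContDiff ℝ ∞ (ψ a)) (a : Fin n) (x : E3) :
    adjP A B (φ + ψ) a x = adjP A B φ a x + adjP A B ψ a x := by
  have hs : ∀ a, ContDiff ℝ ∞ ((φ + ψ) a) := fun a => (hφ a).add (hψ a)
  rw [adjP_eq hA hφ, adjP_eq hA hψ, adjP_eq hA hs]
  have h1 : lap ((φ + ψ) a) x = lap (φ a) x + lap (ψ a) x := lap_add_fun (hφ a) (hψ a) x
  have h2 : ∀ (j : Fin 3) b, pd j ((φ + ψ) b) x = pd j (φ b) x + pd j (ψ b) x := fun j b =>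
    congrFun (pd_add_fun (hφ b) (hψ b) j) x
  have h3 : ∀ b, (φ + ψ) b x = φ b x + ψ b x := fun b => rfl
  simp only [h1, h2, h3, mul_add, Finset.sum_add_distrib]
  ring

lemma adjP_smul {A : Fin 3 → Fin n → Fin n → E3 → ℝ} {B : Fin n → Fin n → E3 → ℝ}
    (hA : ∀ j a b, ContDiff ℝ ∞ (A j a b)) (c : ℝ) {φ : Fin n → E3 → ℝ}
    (hφ : ∀ a, ContDiff ℝ ∞ (φ a)) (a : Fin n) (x : E3) :
    adjP A B (c • φ) a x = c * adjP A B φ a x := by
  have hs : ∀ a, ContDiff ℝ ∞ ((c • φ) a) := fun a => (hφ a).const_smul c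
  rw [adjP_eq hA hφ, adjP_eq hA hs]
  have h1 : lap ((c • φ) a) x = c * lap (φ a) x := lap_smul_fun c (hφ a) x
  have h2 : ∀ (j : Fin 3) b, pd j ((c • φ) b) x = c * pd j (φ b) x := fun j b =>
    congrFun (pd_smul_fun c (hφ b) j) x
  have h3 : ∀ b, (c • φ) b x = c * φ b x := fun b => rfl
  simp only [h1, h2, h3, mul_add, mul_sub, Finset.mul_sum]
  congr 1
  · congr 1
    refine Finset.sum_congr rfl fun j _ => Finset.sum_congr rfl fun b _ => ?_
    ring
  · refine Finset.sum_congr rfl fun b _ => ?_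
    ring

/-- the space of test fields -/
def testSpace (n : ℕ) (U : Set E3) : Submodule ℝ (Fin n → E3 → ℝ) where
  carrier := {φ | ∀ a, IsTest U (φ a)}
  add_mem' := by
    intro φ ψ hφ hψ a
    refine ⟨(hφ a).1.add (hψ a).1, (hφ a).2.1.add (hψ a).2.1, ?_⟩
    refine (tsupport_add (φ a) (ψ a)).trans (Set.union_subset (hφ a).2.2 (hψ a).2.2)
  zero_mem' := by
    intro a
    refine ⟨contDiff_const, HasCompactSupport.zero, ?_⟩
    show tsupport (0 : E3 → ℝ) ⊆ U
    simp [tsupport]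
  smul_mem' := by
    intro c φ hφ a
    have h1 : (c • φ) a = fun x => c * φ a x := rfl
    refine ⟨?_, ?_, ?_⟩
    · rw [h1]; exact contDiff_const.mul (hφ a).1
    · rw [h1]; exact HasCompactSupport.mul_left (hφ a).2.1
    · rw [h1]
      refine Set.Subset.trans (closure_mono fun x hx => ?_) (hφ a).2.2
      rw [Function.mem_support] at hx ⊢
      exact right_ne_zero_of_mul hx

lemma exp_cont (α : E3) (t : ℝ) : Continuous (fun x : E3 => Real.exp (t * ⟪α, x⟫_ℝ)) :=
  Real.continuous_exp.comp (continuous_const.mul (inner_contDiff α).continuous)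

lemma exp_adj_memLp {A : Fin 3 → Fin n → Fin n → E3 → ℝ} {B : Fin n → Fin n → E3 → ℝ}
    (hA : ∀ j a b, ContDiff ℝ ∞ (A j a b)) (hB : ∀ a b, ContDiff ℝ ∞ (B a b)) (α : E3) {r : ℝ}
    {φ : Fin n → E3 → ℝ} (hφ : ∀ a, IsTest (Metric.ball (0 : E3) r) (φ a)) (a : Fin n) :
    MemLp (fun x => Real.exp (1 * ⟪α, x⟫_ℝ) * adjP A B φ a x) 2 (volume : Measure E3) := by
  have h0 : ∀ x, x ∉ Metric.ball (0 : E3) r → adjP A B φ a x = 0 :=
    fun x hx => adjP_eq_zero_of_notMem (fun b hb => hx ((hφ b).2.2 hb)) a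
  have hc : HasCompactSupport (adjP A B φ a) := by
    refine HasCompactSupport.of_support_subset_isCompact
      (isCompact_closedBall (0 : E3) r) fun x hx => ?_
    by_contra h
    exact hx (h0 x fun h2 => h (Metric.ball_subset_closedBall h2))
  exact ((exp_cont α 1).mul (adjP_contDiff hA hB (fun a => (hφ a).1) a).continuous
    ).memLp_of_hasCompactSupport (HasCompactSupport.mul_left hc)

lemma norm_toLp_sq {f : E3 → ℝ} (hf : MemLp f 2 (volume : Measure E3)) :
    ‖hf.toLp f‖ ^ 2 = ∫ x, (f x) ^ 2 := by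
  rw [Lp.norm_toLp, ← ENNReal.toReal_pow, ← N2_eq hf, ENNReal.toReal_ofReal (N2_nonneg _)]
  rfl

lemma norm_Lp_sq (f : Lp ℝ 2 (volume : Measure E3)) : ‖f‖ ^ 2 = ∫ x, (f x) ^ 2 := by
  have h := norm_toLp_sq (Lp.memLp f)
  rwa [Lp.toLp_coeFn] at h

lemma exp_sq (t : ℝ) : (Real.exp (1 * t)) ^ 2 = Real.exp (2 * t) := by
  rw [← Real.exp_nat_mul]; congr 1; push_cast; ring

/-- **Weighted weak solvability.** -/
theorem _root_.Vale.Agent.P136.ASweak : ASweak_statement := by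
  intro n A B R hR hA hB
  obtain ⟨C, τ₀, hC, hτ₀, hcar⟩ := sys_carleman A B hR hA hB
  refine ⟨C, τ₀, hC, hτ₀, ?_⟩
  intro α F Q hα hF hQ
  have hα0 : 0 < ‖α‖ := hτ₀.trans_le hα
  set U : Set E3 := Metric.ball (0 : E3) (2 * R) with hU
  let X := testSpace n U
  let H := PiLp 2 (fun _ : Fin n => Lp ℝ 2 (volume : Measure E3))
  have hm : ∀ (φ : X) (a : Fin n),
      MemLp (fun x => Real.exp (1 * ⟪α, x⟫_ℝ) * adjP A B φ.1 a x) 2 (volume : Measure E3) :=
    fun φ a => exp_adj_memLp hA hB α φ.2 a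
  have hφs : ∀ (φ : X) (a : Fin n), ContDiff ℝ ∞ (φ.1 a) := fun φ a => (φ.2 a).1
  have hφm : ∀ (φ : X) (a : Fin n), MemLp (φ.1 a) 2 (volume : Measure E3) := fun φ a =>
    (φ.2 a).1.continuous.memLp_of_hasCompactSupport (φ.2 a).2.1
  let T : X →ₗ[ℝ] H :=
    { toFun := fun φ => WithLp.toLp 2 fun a => (hm φ a).toLp _
      map_add' := by
        intro φ ψ
        apply PiLp.ext
        intro a
        show (hm (φ + ψ) a).toLp _ = (hm φ a).toLp _ + (hm ψ a).toLp _
        rw [← MemLp.toLp_add]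
        apply MemLp.toLp_congr
        filter_upwards with x
        have h1 := adjP_add (B := B) hA (hφs φ) (hφs ψ) a x
        show Real.exp (1 * ⟪α, x⟫_ℝ) * adjP A B (φ.1 + ψ.1) a x = _
        rw [h1, mul_add]
        rfl
      map_smul' := by
        intro c φ
        apply PiLp.ext
        intro a
        show (hm (c • φ) a).toLp _ = c • (hm φ a).toLp _
        rw [← MemLp.toLp_const_smul]
        apply MemLp.toLp_congr
        filter_upwards with x
        have h1 := adjP_smul (B := B) hA c (hφs φ) a x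
        show Real.exp (1 * ⟪α, x⟫_ℝ) * adjP A B (c • φ.1) a x = _
        rw [h1]
        simp only [Pi.smul_apply, smul_eq_mul]
        ring }
  let l : X →ₗ[ℝ] ℝ :=
    { toFun := fun φ => ∑ a, ∫ x, F a x * φ.1 a x
      map_add' := by
        intro φ ψ
        rw [← Finset.sum_add_distrib]
        refine Finset.sum_congr rfl fun a _ => ?_
        rw [← integral_add (mul_int (hF a) (hφm φ a)) (mul_int (hF a) (hφm ψ a))]
        congr 1
        funext x
        show F a x * (φ.1 a x + ψ.1 a x) = _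
        ring
      map_smul' := by
        intro c φ
        simp only [RingHom.id_apply, smul_eq_mul]
        rw [Finset.mul_sum]
        refine Finset.sum_congr rfl fun a _ => ?_
        rw [← integral_const_mul]
        congr 1
        funext x
        show F a x * (c * φ.1 a x) = _
        ring }
  have hTn : ∀ φ : X, ‖T φ‖ ^ 2 = ∑ a, ∫ x, Real.exp (2 * ⟪α, x⟫_ℝ) * (adjP A B φ.1 a x) ^ 2 := by
    intro φ
    rw [PiLp.norm_sq_eq_of_L2]
    refine Finset.sum_congr rfl fun a _ => ?_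
    show ‖(hm φ a).toLp _‖ ^ 2 = _
    rw [norm_toLp_sq]
    congr 1
    funext x
    rw [mul_pow, exp_sq]
  have hUm : MeasurableSet U := measurableSet_ball
  set v : E3 → ℝ := U.indicator (fun x => Real.exp (-1 * ⟪α, x⟫_ℝ)) with hv
  have hvm : AEStronglyMeasurable v (volume : Measure E3) :=
    ((exp_cont α (-1)).aestronglyMeasurable).indicator hUm
  have hvb : ∀ x, |v x| ≤ Real.exp (‖α‖ * (2 * R)) := by
    intro x
    rw [hv]
    by_cases hx : x ∈ U
    · rw [Set.indicator_of_mem hx, abs_of_pos (Real.exp_pos _)]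
      apply Real.exp_le_exp.2
      rw [neg_one_mul]
      refine (neg_le_abs _).trans ((abs_real_inner_le_norm α x).trans ?_)
      exact mul_le_mul_of_nonneg_left (mem_ball_zero_iff.1 hx).le (norm_nonneg _)
    · rw [Set.indicator_of_notMem hx, abs_zero]
      exact (Real.exp_pos _).le
  have hvF : ∀ a, MemLp (fun x => v x * F a x) 2 (volume : Measure E3) := fun a =>
    memLp_bdd_mul hvm (Eventually.of_forall hvb) (hF a)
  have hN2v : ∀ a, N2 (fun x => v x * F a x) =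
      ∫ x in U, Real.exp (-2 * ⟪α, x⟫_ℝ) * (F a x) ^ 2 := by
    intro a
    unfold N2
    rw [← integral_indicator hUm]
    congr 1
    funext x
    simp only [hv]
    by_cases hx : x ∈ U
    · rw [Set.indicator_of_mem hx, Set.indicator_of_mem hx, mul_pow, ← Real.exp_nat_mul]
      congr 2
      push_cast
      ring
    · rw [Set.indicator_of_notMem hx, Set.indicator_of_notMem hx]
      ring
  have hQ0 : 0 ≤ Q := (Finset.sum_nonneg fun a _ => integral_nonneg fun x => by positivity).trans hQ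
  have hbound : ∀ φ : X, |l φ| ≤ √(C * Q / ‖α‖ ^ 2) * ‖T φ‖ := by
    intro φ
    have hge : ∀ a, MemLp (fun x => Real.exp (1 * ⟪α, x⟫_ℝ) * φ.1 a x) 2 (volume : Measure E3) :=
      fun a => ((exp_cont α 1).mul (φ.2 a).1.continuous).memLp_of_hasCompactSupport
        (HasCompactSupport.mul_left (φ.2 a).2.1)
    have hsplit : ∀ a, ∫ x, F a x * φ.1 a x =
        ∫ x, (v x * F a x) * (Real.exp (1 * ⟪α, x⟫_ℝ) * φ.1 a x) := by
      intro a
      congr 1
      funext x
      simp only [hv]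
      by_cases hx : x ∈ U
      · rw [Set.indicator_of_mem hx]
        have h1 : Real.exp (-1 * ⟪α, x⟫_ℝ) * Real.exp (1 * ⟪α, x⟫_ℝ) = 1 := by
          rw [← Real.exp_add]; simp
        calc F a x * φ.1 a x = (Real.exp (-1 * ⟪α, x⟫_ℝ) * Real.exp (1 * ⟪α, x⟫_ℝ)) *
              (F a x * φ.1 a x) := by rw [h1, one_mul]
          _ = _ := by ring
      · have h0 : φ.1 a x = 0 := by
          by_contra h
          exact hx ((φ.2 a).2.2 (subset_tsupport _ h))
        rw [h0]; simp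
    have hgsum : ∑ a, N2 (fun x => Real.exp (1 * ⟪α, x⟫_ℝ) * φ.1 a x) ≤
        C * ‖T φ‖ ^ 2 / ‖α‖ ^ 2 := by
      rw [le_div_iff₀ (by positivity), hTn]
      have h1 := hcar α hα φ.1 φ.2
      have h2 : 0 ≤ ∑ a, ∫ x, Real.exp (2 * ⟪α, x⟫_ℝ) * gradSq (φ.1 a) x :=
        Finset.sum_nonneg fun a _ => integral_nonneg fun x =>
          mul_nonneg (Real.exp_pos _).le (Finset.sum_nonneg fun i _ => sq_nonneg _)
      have h3 : ∀ a, N2 (fun x => Real.exp (1 * ⟪α, x⟫_ℝ) * φ.1 a x) =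
          ∫ x, Real.exp (2 * ⟪α, x⟫_ℝ) * (φ.1 a x) ^ 2 := by
        intro a
        unfold N2
        congr 1
        funext x
        rw [mul_pow, exp_sq]
      simp only [h3]
      linarith
    calc |l φ| = |∑ a, ∫ x, F a x * φ.1 a x| := rfl
      _ ≤ ∑ a, |∫ x, F a x * φ.1 a x| := Finset.abs_sum_le_sum_abs _ _
      _ ≤ ∑ a, √(N2 (fun x => v x * F a x)) *
          √(N2 (fun x => Real.exp (1 * ⟪α, x⟫_ℝ) * φ.1 a x)) := by
          refine Finset.sum_le_sum fun a _ => ?_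
          rw [← Real.sqrt_mul (N2_nonneg _), hsplit]
          exact Real.abs_le_sqrt (cs_int (hvF a) (hge a))
      _ ≤ √(∑ a, N2 (fun x => v x * F a x)) *
          √(∑ a, N2 (fun x => Real.exp (1 * ⟪α, x⟫_ℝ) * φ.1 a x)) :=
          Real.sum_sqrt_mul_sqrt_le _ (fun _ => N2_nonneg _) (fun _ => N2_nonneg _)
      _ ≤ √Q * √(C * ‖T φ‖ ^ 2 / ‖α‖ ^ 2) := by
          refine mul_le_mul (Real.sqrt_le_sqrt ?_) (Real.sqrt_le_sqrt hgsum)
            (Real.sqrt_nonneg _) (Real.sqrt_nonneg _)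
          simp only [hN2v]
          exact hQ
      _ = √(C * Q / ‖α‖ ^ 2) * ‖T φ‖ := by
          rw [← Real.sqrt_mul hQ0]
          have h4 : Q * (C * ‖T φ‖ ^ 2 / ‖α‖ ^ 2) = (C * Q / ‖α‖ ^ 2) * ‖T φ‖ ^ 2 := by ring
          rw [h4, Real.sqrt_mul (by positivity), Real.sqrt_sq (norm_nonneg _)]
  obtain ⟨y, hy1, hy2⟩ := exists_riesz T l (Real.sqrt_nonneg _) hbound
  set w : E3 → ℝ := U.indicator (fun x => Real.exp (1 * ⟪α, x⟫_ℝ)) with hw
  have hwm : AEStronglyMeasurable w (volume : Measure E3) :=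
    ((exp_cont α 1).aestronglyMeasurable).indicator hUm
  have hwb : ∀ x, |w x| ≤ Real.exp (‖α‖ * (2 * R)) := by
    intro x
    rw [hw]
    by_cases hx : x ∈ U
    · rw [Set.indicator_of_mem hx, abs_of_pos (Real.exp_pos _)]
      apply Real.exp_le_exp.2
      rw [one_mul]
      refine (real_inner_le_norm α x).trans ?_
      exact mul_le_mul_of_nonneg_left (mem_ball_zero_iff.1 hx).le (norm_nonneg _)
    · rw [Set.indicator_of_notMem hx, abs_zero]
      exact (Real.exp_pos _).le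
  refine ⟨fun a x => w x * y a x, ?_, ?_, ?_, ?_⟩
  · intro a
    exact memLp_bdd_mul hwm (Eventually.of_forall hwb) (Lp.memLp (y a))
  · intro a x hx
    simp only [hw]
    rw [Set.indicator_of_notMem hx, zero_mul]
  · have h1 : ∀ a, ∫ x, Real.exp (-2 * ⟪α, x⟫_ℝ) * (w x * y a x) ^ 2 ≤ ‖y a‖ ^ 2 := by
      intro a
      rw [norm_Lp_sq]
      refine integral_mono_of_nonneg (Eventually.of_forall fun x => by (clear * -; positivity))
        (memLp_sq_int (Lp.memLp (y a))) (Eventually.of_forall fun x => ?_)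
      simp only [hw]
      by_cases hx : x ∈ U
      · rw [Set.indicator_of_mem hx, mul_pow, exp_sq, ← mul_assoc, ← Real.exp_add]
        simp
      · rw [Set.indicator_of_notMem hx]
        simp only [zero_mul, ne_eq, OfNat.ofNat_ne_zero, not_false_eq_true, zero_pow, mul_zero]
        positivity
    have h2 : ∑ a, ∫ x, Real.exp (-2 * ⟪α, x⟫_ℝ) * (w x * y a x) ^ 2 ≤ C * Q / ‖α‖ ^ 2 := by
      calc _ ≤ ∑ a, ‖y a‖ ^ 2 := Finset.sum_le_sum fun a _ => h1 a
        _ = ‖y‖ ^ 2 := (PiLp.norm_sq_eq_of_L2 _ y).symm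
        _ ≤ (√(C * Q / ‖α‖ ^ 2)) ^ 2 := pow_le_pow_left₀ (norm_nonneg _) hy1 2
        _ = _ := Real.sq_sqrt (by (clear * - hC hQ0 hα0; positivity))
    calc ‖α‖ ^ 2 * ∑ a, ∫ x, Real.exp (-2 * ⟪α, x⟫_ℝ) * (w x * y a x) ^ 2
        ≤ ‖α‖ ^ 2 * (C * Q / ‖α‖ ^ 2) := mul_le_mul_of_nonneg_left h2 (sq_nonneg _)
      _ = C * Q := by field_simp
  · intro φ hφ
    have h1 := hy2 ⟨φ, hφ⟩
    have h2 : l ⟨φ, hφ⟩ = ∑ a, ∫ x, F a x * φ a x := rfl
    rw [← h2, h1, PiLp.inner_apply]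
    refine Finset.sum_congr rfl fun a _ => ?_
    rw [L2.inner_def]
    have h3 : ∀ᵐ x, (T ⟨φ, hφ⟩) a x = Real.exp (1 * ⟪α, x⟫_ℝ) * adjP A B φ a x :=
      MemLp.coeFn_toLp (hm ⟨φ, hφ⟩ a)
    refine integral_congr_ae ?_
    filter_upwards [h3] with x hx
    rw [hx]
    by_cases hxU : x ∈ U
    · simp only [hw]
      rw [Set.indicator_of_mem hxU]
      simp
      ring
    · have h0 : adjP A B φ a x = 0 :=
        adjP_eq_zero_of_notMem (fun b hb => hxU ((hφ b).2.2 hb)) a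
      rw [h0]
      simp

end ASW

end Vale.Agent.P136
end
end

section

section

open MeasureTheory Filter Topology
open scoped ContDiff InnerProductSpace

namespace Vale.Agent.P136

namespace ASR

/-- The exponential weight. -/
noncomputable def wt (α : E3) (x : E3) : ℝ := Real.exp (-⟪α, x⟫_ℝ)

lemma wt_pos (α x : E3) : 0 < wt α x := Real.exp_pos _

lemma wt_sq (α x : E3) : (wt α x) ^ 2 = Real.exp (-2 * ⟪α, x⟫_ℝ) := by
  unfold wt
  rw [← Real.exp_nat_mul]
  congr 1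
  push_cast
  ring

lemma wt_contDiff (α : E3) : ContDiff ℝ ∞ (wt α) :=
  Real.contDiff_exp.comp (inner_contDiff α).neg

lemma pd_wt (α : E3) (i : Fin 3) (x : E3) : pd i (wt α) x = - α i * wt α x := by
  have h := (hasFDerivAt_inner α x).neg.exp
  unfold pd
  have e : wt α = fun y => Real.exp (-⟪α, y⟫_ℝ) := rfl
  rw [e]
  have h' : HasFDerivAt (fun y : E3 => Real.exp (-⟪α, y⟫_ℝ))
    (Real.exp (-⟪α, x⟫_ℝ) • -(innerSL ℝ α)) x := by simpa using h
  rw [h'.fderiv]
  simp [inner_bv]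
  ring

lemma abs_coord_le (α : E3) (i : Fin 3) : |α i| ≤ ‖α‖ := by
  have := EuclideanSpace.norm_eq α
  have h2 : (α i) ^ 2 ≤ ‖α‖ ^ 2 := by
    rw [EuclideanSpace.norm_sq_eq]
    have := Finset.single_le_sum (f := fun j => ‖α j‖ ^ 2) (fun _ _ => sq_nonneg _)
      (Finset.mem_univ i)
    simpa using this
  exact abs_le_of_sq_le_sq h2 (norm_nonneg _)

lemma contDiff_infty_differentiable {f : E3 → ℝ} (hf : ContDiff ℝ ∞ f) : Differentiable ℝ f :=
  hf.differentiable (by simp)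

/-- Caccioppoli type inequality. -/
lemma cacc {u η : E3 → ℝ} (hu : ContDiff ℝ ∞ u) (hη : ContDiff ℝ ∞ η)
    (hc : HasCompactSupport η) :
    ∫ x, (η x) ^ 2 * gradSq u x ≤ ∫ x, (-2 * ((η x) ^ 2 * (u x * lap u x))
      + 4 * ((u x) ^ 2 * gradSq η x)) := by
  have hcu : Continuous u := hu.continuous
  have hcη : Continuous η := hη.continuous
  have hcpu : ∀ i, Continuous (pd i u) := fun i => (pd_contDiff_infty hu i).continuous
  have hcppu : ∀ i, Continuous (pd i (pd i u)) := fun i =>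
    (pd_contDiff_infty (pd_contDiff_infty hu i) i).continuous
  have hcpη : ∀ i, Continuous (pd i η) := fun i => (pd_contDiff_infty hη i).continuous
  have hc2 : HasCompactSupport (fun x => (η x) ^ 2) := cs_sq hc
  -- integrability
  have J1 : ∀ i, Integrable (fun x => (η x) ^ 2 * (pd i u x) ^ 2) := fun i =>
    int_cc ((hcη.pow 2).mul ((hcpu i).pow 2)) hc2.mul_right
  have J2 : ∀ i, Integrable (fun x => (η x) ^ 2 * (u x * pd i (pd i u) x)) := fun i =>
    int_cc ((hcη.pow 2).mul (hcu.mul (hcppu i))) hc2.mul_right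
  have J3 : ∀ i, Integrable (fun x => η x * (u x * pd i η x * pd i u x)) := fun i =>
    int_cc (hcη.mul ((hcu.mul (hcpη i)).mul (hcpu i))) hc.mul_right
  have J4 : ∀ i, Integrable (fun x => (u x) ^ 2 * (pd i η x) ^ 2) := fun i =>
    int_cc ((hcu.pow 2).mul ((hcpη i).pow 2)) (cs_sq (pd_hasCompactSupport hc i)).mul_left
  have key : ∀ i, ∫ x, (η x) ^ 2 * (pd i u x) ^ 2
      = - (∫ x, (η x) ^ 2 * (u x * pd i (pd i u) x))
        - 2 * ∫ x, η x * (u x * pd i η x * pd i u x) := by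
    intro i
    have hg : ContDiff ℝ ∞ (fun x => (η x) ^ 2 * u x) := (hη.pow 2).mul hu
    have h := ibp (f := pd i u) (g := fun x => (η x) ^ 2 * u x)
      ((pd_contDiff_infty hu i).of_le (by norm_cast)) (hg.of_le (by norm_cast)) hc2.mul_right i
    have e : ∀ x, pd i (fun y => (η y) ^ 2 * u y) x
        = 2 * (η x * pd i η x * u x) + (η x) ^ 2 * pd i u x := by
      intro x
      have d1 : DifferentiableAt ℝ η x := contDiff_infty_differentiable hη x
      have d2 : DifferentiableAt ℝ u x := contDiff_infty_differentiable hu x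
      have e1 : (fun y => (η y) ^ 2) = fun y => η y * η y := by funext y; ring
      have d3 : DifferentiableAt ℝ (fun y => (η y) ^ 2) x := d1.pow 2
      rw [pd_mul (f := fun y => (η y) ^ 2) d3 d2, e1, pd_mul d1 d1]
      ring
    simp_rw [e] at h
    have h2 : ∫ x, pd i u x * (2 * (η x * pd i η x * u x) + (η x) ^ 2 * pd i u x)
        = 2 * (∫ x, η x * (u x * pd i η x * pd i u x)) + ∫ x, (η x) ^ 2 * (pd i u x) ^ 2 := by
      rw [← integral_const_mul, ← integral_add ((J3 i).const_mul 2) (J1 i)]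
      congr 1
      funext x
      ring
    have h3 : ∫ x, pd i (pd i u) x * ((η x) ^ 2 * u x)
        = ∫ x, (η x) ^ 2 * (u x * pd i (pd i u) x) := by
      congr 1
      funext x
      ring
    rw [h2, h3] at h
    linarith
  have key2 : ∀ i, ∫ x, (η x) ^ 2 * (pd i u x) ^ 2
      ≤ ∫ x, (-2 * ((η x) ^ 2 * (u x * pd i (pd i u) x)) + 4 * ((u x) ^ 2 * (pd i η x) ^ 2)) := by
    intro i
    have h1 : - 2 * (∫ x, η x * (u x * pd i η x * pd i u x))
        ≤ ∫ x, ((1/2) * ((η x) ^ 2 * (pd i u x) ^ 2) + 2 * ((u x) ^ 2 * (pd i η x) ^ 2)) := by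
      rw [← integral_const_mul]
      apply integral_mono ((J3 i).const_mul _) (((J1 i).const_mul _).add ((J4 i).const_mul _))
      intro x
      simp only [Pi.add_apply]
      linarith only [sq_nonneg (η x * pd i u x + 2 * (u x * pd i η x))]
    rw [integral_add ((J1 i).const_mul _) ((J4 i).const_mul _), integral_const_mul,
      integral_const_mul] at h1
    rw [integral_add ((J2 i).const_mul _) ((J4 i).const_mul _), integral_const_mul,
      integral_const_mul]
    have := key i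
    linarith
  have e1 : ∫ x, (η x) ^ 2 * gradSq u x = ∑ i, ∫ x, (η x) ^ 2 * (pd i u x) ^ 2 := by
    rw [← integral_finsetSum _ fun i _ => J1 i]
    congr 1
    funext x
    simp only [gradSq, Finset.mul_sum]
  have e2 : ∫ x, (-2 * ((η x) ^ 2 * (u x * lap u x)) + 4 * ((u x) ^ 2 * gradSq η x))
      = ∑ i, ∫ x, (-2 * ((η x) ^ 2 * (u x * pd i (pd i u) x)) + 4 * ((u x) ^ 2 * (pd i η x) ^ 2)) := by
    have J5 : ∀ i, Integrable (fun x => (-2 * ((η x) ^ 2 * (u x * pd i (pd i u) x))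
        + 4 * ((u x) ^ 2 * (pd i η x) ^ 2))) := fun i =>
      ((J2 i).const_mul _).add ((J4 i).const_mul _)
    rw [← integral_finsetSum _ fun i _ => J5 i]
    congr 1
    funext x
    simp only [gradSq, lap, Finset.mul_sum, Finset.sum_add_distrib]
  rw [e1, e2]
  exact Finset.sum_le_sum fun i _ => key2 i

lemma hess_eq {v : E3 → ℝ} (hv : ContDiff ℝ ∞ v) (hc : HasCompactSupport v) :
    ∫ x, ∑ i, ∑ j, (pd i (pd j v) x) ^ 2 = ∫ x, (lap v x) ^ 2 := by
  have c1 : ∀ i, ContDiff ℝ ∞ (pd i v) := fun i => pd_contDiff_infty hv i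
  have c2 : ∀ i j, ContDiff ℝ ∞ (pd i (pd j v)) := fun i j => pd_contDiff_infty (c1 j) i
  have s1 : ∀ i, HasCompactSupport (pd i v) := fun i => pd_hasCompactSupport hc i
  have s2 : ∀ i j, HasCompactSupport (pd i (pd j v)) := fun i j => pd_hasCompactSupport (s1 j) i
  have key : ∀ i j, ∫ x, (pd i (pd j v) x) ^ 2 = ∫ x, pd i (pd i v) x * pd j (pd j v) x := by
    intro i j
    have h1 := ibp (f := pd i (pd j v)) (g := pd j v) ((c2 i j).of_le (by norm_cast))
      ((c1 j).of_le (by norm_cast)) (s1 j) i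
    have h2 := ibp (f := pd i (pd i v)) (g := pd j v) ((c2 i i).of_le (by norm_cast))
      ((c1 j).of_le (by norm_cast)) (s1 j) j
    have e : pd i (pd i (pd j v)) = pd j (pd i (pd i v)) := by
      rw [pd_comm ((hv).of_le (by norm_cast)) i j, pd_comm ((c1 i).of_le (by norm_cast)) i j]
    have e2 : ∀ x, (pd i (pd j v) x) ^ 2 = pd i (pd j v) x * pd i (pd j v) x := fun x => sq _
    simp_rw [e2]
    rw [h1, e, ← h2]
  have I1 : ∀ i j, Integrable (fun x => (pd i (pd j v) x) ^ 2) := fun i j =>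
    int_cc ((c2 i j).continuous.pow 2) (cs_sq (s2 i j))
  have I2 : ∀ i j, Integrable (fun x => pd i (pd i v) x * pd j (pd j v) x) := fun i j =>
    int_cc ((c2 i i).continuous.mul (c2 j j).continuous) (s2 j j).mul_left
  rw [integral_finsetSum _ fun i _ => integrable_finsetSum _ fun j _ => I1 i j]
  simp_rw [integral_finsetSum _ fun j _ => I1 _ j, key]
  have e3 : ∀ x, (lap v x) ^ 2 = ∑ i, ∑ j, pd i (pd i v) x * pd j (pd j v) x := by
    intro x
    unfold lap
    rw [sq, Finset.sum_mul_sum]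
  simp_rw [e3]
  rw [integral_finsetSum _ fun i _ => integrable_finsetSum _ fun j _ => I2 i j]
  simp_rw [integral_finsetSum _ fun j _ => I2 _ j]

end ASR

end Vale.Agent.P136
end
end

section

section

open MeasureTheory Filter Topology
open scoped ContDiff InnerProductSpace

namespace Vale.Agent.P136

namespace ASR

/-- A cutoff function with bounded derivatives. -/
lemma exists_cut {r s : ℝ} (hr : 0 < r) (hrs : r < s) :
    ∃ (χ : E3 → ℝ) (M : ℝ), 1 ≤ M ∧ ContDiff ℝ ∞ χ ∧ HasCompactSupport χ ∧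
      (∀ x, 0 ≤ χ x ∧ χ x ≤ 1) ∧ (∀ x ∈ Metric.ball (0 : E3) r, χ x = 1) ∧
      (∀ x, x ∉ Metric.ball (0 : E3) s → χ x = 0) ∧
      (∀ i x, |pd i χ x| ≤ M) ∧ (∀ i j x, |pd i (pd j χ) x| ≤ M) ∧
      (∀ i x, x ∉ Metric.ball (0 : E3) s → pd i χ x = 0) ∧
      (∀ i j x, x ∉ Metric.ball (0 : E3) s → pd i (pd j χ) x = 0) := by
  let b : ContDiffBump (0 : E3) := ⟨r, (r + s) / 2, hr, by linarith⟩
  have hb : ContDiff ℝ ∞ (b : E3 → ℝ) := b.contDiff
  have hc : HasCompactSupport (b : E3 → ℝ) := b.hasCompactSupport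
  have hts : tsupport (b : E3 → ℝ) = Metric.closedBall 0 ((r + s) / 2) := b.tsupport_eq
  have hbd : ∀ {f : E3 → ℝ}, Continuous f → HasCompactSupport f → ∃ M : ℝ, ∀ x, |f x| ≤ M := by
    intro f hf hcf
    obtain ⟨M, hM⟩ := hcf.exists_bound_of_continuous hf
    exact ⟨M, fun x => hM x⟩
  have h1 : ∀ i, ∃ M : ℝ, ∀ x, |pd i (b : E3 → ℝ) x| ≤ M := fun i =>
    hbd (pd_contDiff_infty hb i).continuous (pd_hasCompactSupport hc i)
  have h2 : ∀ i j, ∃ M : ℝ, ∀ x, |pd i (pd j (b : E3 → ℝ)) x| ≤ M := fun i j =>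
    hbd (pd_contDiff_infty (pd_contDiff_infty hb j) i).continuous
      (pd_hasCompactSupport (pd_hasCompactSupport hc j) i)
  choose M1 hM1 using h1
  choose M2 hM2 using h2
  have hM1' : ∀ i, 0 ≤ M1 i := fun i => (abs_nonneg _).trans (hM1 i 0)
  have hM2' : ∀ i j, 0 ≤ M2 i j := fun i j => (abs_nonneg _).trans (hM2 i j 0)
  have hz : ∀ x, x ∉ Metric.ball (0 : E3) s → x ∉ tsupport (b : E3 → ℝ) := by
    intro x hx hx2
    rw [hts] at hx2
    rw [Metric.mem_ball, not_lt] at hx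
    rw [Metric.mem_closedBall] at hx2
    linarith
  have z1 : ∀ i x, x ∉ Metric.ball (0 : E3) s → pd i (b : E3 → ℝ) x = 0 := by
    intro i x hx
    exact image_eq_zero_of_notMem_tsupport fun h => hz x hx (tsupport_pd_subset _ i h)
  have z2 : ∀ i j x, x ∉ Metric.ball (0 : E3) s → pd i (pd j (b : E3 → ℝ)) x = 0 := by
    intro i j x hx
    exact image_eq_zero_of_notMem_tsupport fun h =>
      hz x hx (tsupport_pd_subset _ j (tsupport_pd_subset _ i h))
  refine ⟨b, 1 + ∑ i, M1 i + ∑ i, ∑ j, M2 i j, ?_, hb, hc, fun x => ⟨b.nonneg, b.le_one⟩, ?_, ?_,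
    ?_, ?_, z1, z2⟩
  · have a1 : 0 ≤ ∑ i, M1 i := Finset.sum_nonneg fun i _ => hM1' i
    have a2 : 0 ≤ ∑ i, ∑ j, M2 i j :=
      Finset.sum_nonneg fun i _ => Finset.sum_nonneg fun j _ => hM2' i j
    linarith
  · intro x hx
    exact b.one_of_mem_closedBall (Metric.ball_subset_closedBall hx)
  · intro x hx
    exact image_eq_zero_of_notMem_tsupport (hz x hx)
  · intro i x
    have a2 : 0 ≤ ∑ i, ∑ j, M2 i j :=
      Finset.sum_nonneg fun i _ => Finset.sum_nonneg fun j _ => hM2' i j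
    have := Finset.single_le_sum (f := M1) (fun i _ => hM1' i) (Finset.mem_univ i)
    linarith [hM1 i x]
  · intro i j x
    have a1 : 0 ≤ ∑ i, M1 i := Finset.sum_nonneg fun i _ => hM1' i
    have h3 := Finset.single_le_sum (f := fun j => M2 i j) (fun j _ => hM2' i j)
      (Finset.mem_univ j)
    have h4 := Finset.single_le_sum (f := fun i => ∑ j, M2 i j)
      (fun i _ => Finset.sum_nonneg fun j _ => hM2' i j) (Finset.mem_univ i)
    have h5 : M2 i j ≤ ∑ i, ∑ j, M2 i j := h3.trans h4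
    linarith [hM2 i j x]

/-- Properties of the weighted cutoff `η = χ · wt α`. -/
structure Cut (r s : ℝ) (α : E3) (M : ℝ) (η : E3 → ℝ) : Prop where
  smooth : ContDiff ℝ ∞ η
  cs : HasCompactSupport η
  le_wt : ∀ x, (η x) ^ 2 ≤ (wt α x) ^ 2
  eq_wt : ∀ x ∈ Metric.ball (0 : E3) r, η x = wt α x
  zero : ∀ x, x ∉ Metric.ball (0 : E3) s → η x = 0
  d1 : ∀ i x, |pd i η x| ≤ M * ‖α‖ * wt α x
  d2 : ∀ i j x, |pd i (pd j η) x| ≤ M * ‖α‖ ^ 2 * wt α x
  z1 : ∀ i x, x ∉ Metric.ball (0 : E3) s → pd i η x = 0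
  z2 : ∀ i j x, x ∉ Metric.ball (0 : E3) s → pd i (pd j η) x = 0

lemma exists_Cut {r s : ℝ} (hr : 0 < r) (hrs : r < s) :
    ∃ M : ℝ, 1 ≤ M ∧ ∀ α : E3, 1 ≤ ‖α‖ → ∃ η, Cut r s α M η := by
  obtain ⟨χ, M, hM, hχ, hc, h01, h1, h0, hd1, hd2, hz1, hz2⟩ := exists_cut hr hrs
  refine ⟨4 * M, by linarith, fun α hα => ⟨fun x => χ x * wt α x, ?_⟩⟩
  have hw := wt_contDiff α
  have e1 : ∀ i x, pd i (fun y => χ y * wt α y) x = (pd i χ x - α i * χ x) * wt α x := by
    intro i x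
    rw [pd_mul (contDiff_infty_differentiable hχ x) (contDiff_infty_differentiable hw x), pd_wt]
    ring
  have e2 : ∀ i j x, pd i (pd j (fun y => χ y * wt α y)) x
      = (pd i (pd j χ) x - α j * pd i χ x - α i * pd j χ x + α i * α j * χ x) * wt α x := by
    intro i j x
    have e3 : pd j (fun y => χ y * wt α y) = fun x => (pd j χ x - α j * χ x) * wt α x := by
      funext x; exact e1 j x
    have hcj : ContDiff ℝ ∞ (pd j χ) := pd_contDiff_infty hχ j
    have hcc : ContDiff ℝ ∞ (fun y => α j * χ y) := contDiff_const.mul hχ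
    rw [e3, pd_mul (f := fun y => pd j χ y - α j * χ y)
      (contDiff_infty_differentiable (hcj.sub hcc) x) (contDiff_infty_differentiable hw x), pd_wt,
      pd_sub hcj hcc, pd_mul (f := fun _ => α j) (differentiableAt_const _)
      (contDiff_infty_differentiable hχ x)]
    have : pd i (fun _ : E3 => α j) x = 0 := by unfold pd; simp
    rw [this]
    ring
  have ha : 0 ≤ ‖α‖ := norm_nonneg _
  have hwp : ∀ x, 0 < wt α x := wt_pos α
  have hai := abs_coord_le α
  refine ⟨hχ.mul hw, hc.mul_right, ?_, ?_, ?_, ?_, ?_, ?_, ?_⟩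
  · intro x
    rw [mul_pow]
    have : (χ x) ^ 2 ≤ 1 := by linarith only [mul_nonneg (sub_nonneg.2 ((h01 x).2)) (sub_nonneg.2 ((h01 x).2)), mul_nonneg (sub_nonneg.2 ((h01 x).1)) (sub_nonneg.2 ((h01 x).2))]
    linarith only [mul_nonneg (sub_nonneg.2 this) (sq_nonneg (wt α x))]
  · intro x hx
    simp [h1 x hx]
  · intro x hx
    simp [h0 x hx]
  · intro i x
    rw [e1, abs_mul, abs_of_pos (hwp x)]
    apply mul_le_mul_of_nonneg_right _ (hwp x).le
    have a1 : |pd i χ x - α i * χ x| ≤ |pd i χ x| + |α i| * |χ x| := by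
      rw [← abs_mul]; exact abs_sub _ _
    have a2 : |χ x| ≤ 1 := by rw [abs_of_nonneg (h01 x).1]; exact (h01 x).2
    have a3 : |α i| * |χ x| ≤ ‖α‖ * 1 := mul_le_mul (hai i) a2 (abs_nonneg _) ha
    have a4 := hd1 i x
    linarith only [mul_nonneg (sub_nonneg.2 hM) (sub_nonneg.2 ha), mul_nonneg (sub_nonneg.2 hM) (sub_nonneg.2 hα), a4, a3, a1, hα]
  · intro i j x
    rw [e2, abs_mul, abs_of_pos (hwp x)]
    apply mul_le_mul_of_nonneg_right _ (hwp x).le
    have a2 : |χ x| ≤ 1 := by rw [abs_of_nonneg (h01 x).1]; exact (h01 x).2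
    have b1 : |α j * pd i χ x| ≤ ‖α‖ * M := by
      rw [abs_mul]; exact mul_le_mul (hai j) (hd1 i x) (abs_nonneg _) ha
    have b2 : |α i * pd j χ x| ≤ ‖α‖ * M := by
      rw [abs_mul]; exact mul_le_mul (hai i) (hd1 j x) (abs_nonneg _) ha
    have b3 : |α i * α j * χ x| ≤ ‖α‖ * ‖α‖ * 1 := by
      rw [abs_mul, abs_mul]
      exact mul_le_mul (mul_le_mul (hai i) (hai j) (abs_nonneg _) ha) a2 (abs_nonneg _)
        (mul_nonneg ha ha)
    have b4 := hd2 i j x
    have b5 : |pd i (pd j χ) x - α j * pd i χ x - α i * pd j χ x + α i * α j * χ x|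
        ≤ |pd i (pd j χ) x| + |α j * pd i χ x| + |α i * pd j χ x| + |α i * α j * χ x| := by
      refine (abs_add_le _ _).trans ?_
      refine add_le_add ((abs_sub _ _).trans (add_le_add (abs_sub _ _) le_rfl)) le_rfl
    have b0 : 1 ≤ ‖α‖ ^ 2 := by (by_contra nlg; linarith only [nlg, mul_nonneg (sub_nonneg.2 hα) (sub_nonneg.2 ha), mul_nonneg (le_of_lt (sub_pos.2 (not_le.1 nlg))) (sub_nonneg.2 hα), mul_pos (sub_pos.2 (not_le.1 nlg)) (sub_pos.2 (not_le.1 nlg)), mul_nonneg (sq_nonneg (‖α‖ : ℝ)) (sub_nonneg.2 hα), mul_nonneg (sq_nonneg (‖α‖ : ℝ)) (le_of_lt (sub_pos.2 (not_le.1 nlg)))])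
    have b6 : M ≤ M * ‖α‖ ^ 2 := le_mul_of_one_le_right (by linarith) b0
    have b7 : ‖α‖ * M ≤ M * ‖α‖ ^ 2 := by (by_contra nlg; linarith only [nlg, mul_nonneg (sub_nonneg.2 b6) (sub_nonneg.2 b6), mul_nonneg (sub_nonneg.2 b0) (sub_nonneg.2 b6), mul_nonneg (sub_nonneg.2 hM) (sub_nonneg.2 b6), mul_nonneg (sub_nonneg.2 hM) (sub_nonneg.2 hα), mul_nonneg (le_of_lt (sub_pos.2 (not_le.1 nlg))) (sub_nonneg.2 b6), mul_nonneg (le_of_lt (sub_pos.2 (not_le.1 nlg))) (sub_nonneg.2 ha), mul_nonneg (le_of_lt (sub_pos.2 (not_le.1 nlg))) (sub_nonneg.2 hM), mul_pos (sub_pos.2 (not_le.1 nlg)) (sub_pos.2 (not_le.1 nlg)), mul_nonneg (sq_nonneg (‖α‖ : ℝ)) (le_of_lt (sub_pos.2 (not_le.1 nlg))), hα])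
    have b8 : ‖α‖ * ‖α‖ * 1 ≤ M * ‖α‖ ^ 2 := by linarith only [mul_nonneg (sq_nonneg (‖α‖ : ℝ)) (sub_nonneg.2 hM)]
    linarith
  · intro i x hx
    rw [e1, hz1 i x hx, h0 x hx]
    ring
  · intro i j x hx
    rw [e2, hz1 i x hx, hz1 j x hx, hz2 i j x hx, h0 x hx]
    ring

lemma cont_intOn {f : E3 → ℝ} (hf : Continuous f) (r : ℝ) :
    IntegrableOn f (Metric.ball (0 : E3) r) :=
  (hf.continuousOn.integrableOn_compact (isCompact_closedBall (0 : E3) r)).mono_set
    Metric.ball_subset_closedBall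

lemma int_le_ball {f g : E3 → ℝ} {s : ℝ} (hf : Integrable f) (hg : Continuous g)
    (h1 : ∀ x ∈ Metric.ball (0 : E3) s, f x ≤ g x)
    (h2 : ∀ x, x ∉ Metric.ball (0 : E3) s → f x ≤ 0) :
    ∫ x, f x ≤ ∫ x in Metric.ball (0 : E3) s, g x := by
  rw [← integral_indicator Metric.isOpen_ball.measurableSet]
  apply integral_mono hf ((cont_intOn hg s).integrable_indicator Metric.isOpen_ball.measurableSet)
  intro x
  by_cases hx : x ∈ Metric.ball (0 : E3) s
  · simp only [Set.indicator_of_mem hx]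
    exact h1 x hx
  · simp only [Set.indicator_of_notMem hx]
    exact h2 x hx

lemma ball_le_int {f g : E3 → ℝ} {s : ℝ} (hf : Continuous f) (hg : Integrable g)
    (h0 : ∀ x, 0 ≤ g x) (h1 : ∀ x ∈ Metric.ball (0 : E3) s, f x ≤ g x) :
    ∫ x in Metric.ball (0 : E3) s, f x ≤ ∫ x, g x := by
  calc ∫ x in Metric.ball (0 : E3) s, f x ≤ ∫ x in Metric.ball (0 : E3) s, g x := by
        apply setIntegral_mono_on (cont_intOn hf s) hg.integrableOn
          Metric.isOpen_ball.measurableSet h1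
    _ ≤ ∫ x, g x := setIntegral_le_integral hg (Eventually.of_forall h0)

/-- sums of squares -/
noncomputable def nX {n : ℕ} (X : Fin n → E3 → ℝ) (x : E3) : ℝ := ∑ a, (X a x) ^ 2
noncomputable def gX {n : ℕ} (X : Fin n → E3 → ℝ) (x : E3) : ℝ := ∑ a, gradSq (X a) x
noncomputable def lX {n : ℕ} (X : Fin n → E3 → ℝ) (x : E3) : ℝ := ∑ a, (lap (X a) x) ^ 2
noncomputable def hX {n : ℕ} (X : Fin n → E3 → ℝ) (x : E3) : ℝ :=
  ∑ a, ∑ i, ∑ j, (pd i (pd j (X a)) x) ^ 2
noncomputable def pX {n : ℕ} (A : Fin 3 → Fin n → Fin n → E3 → ℝ)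
    (B : Fin n → Fin n → E3 → ℝ) (X : Fin n → E3 → ℝ) (x : E3) : ℝ :=
  ∑ a, (sysP A B X a x) ^ 2

section

variable {n : ℕ} {A : Fin 3 → Fin n → Fin n → E3 → ℝ} {B : Fin n → Fin n → E3 → ℝ}
  {X : Fin n → E3 → ℝ}

lemma nX_nonneg (X : Fin n → E3 → ℝ) (x : E3) : 0 ≤ nX X x :=
  Finset.sum_nonneg fun _ _ => sq_nonneg _

lemma gradSq_nonneg (u : E3 → ℝ) (x : E3) : 0 ≤ gradSq u x :=
  Finset.sum_nonneg fun _ _ => sq_nonneg _

lemma gX_nonneg (X : Fin n → E3 → ℝ) (x : E3) : 0 ≤ gX X x :=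
  Finset.sum_nonneg fun _ _ => gradSq_nonneg _ _

lemma hX_nonneg (X : Fin n → E3 → ℝ) (x : E3) : 0 ≤ hX X x :=
  Finset.sum_nonneg fun _ _ => Finset.sum_nonneg fun _ _ => Finset.sum_nonneg fun _ _ =>
    sq_nonneg _

lemma pX_nonneg (X : Fin n → E3 → ℝ) (x : E3) : 0 ≤ pX A B X x :=
  Finset.sum_nonneg fun _ _ => sq_nonneg _

lemma nX_cont (hX : ∀ a, ContDiff ℝ ∞ (X a)) : Continuous (nX X) :=
  continuous_finsetSum _ fun a _ => (hX a).continuous.pow 2

lemma gX_cont (hX : ∀ a, ContDiff ℝ ∞ (X a)) : Continuous (gX X) :=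
  continuous_finsetSum _ fun a _ => gradSq_continuous (hX a)

lemma lX_cont (hX : ∀ a, ContDiff ℝ ∞ (X a)) : Continuous (lX X) :=
  continuous_finsetSum _ fun a _ => (lap_contDiff (hX a)).continuous.pow 2

lemma hX_cont (h : ∀ a, ContDiff ℝ ∞ (X a)) : Continuous (hX X) :=
  continuous_finsetSum _ fun a _ => continuous_finsetSum _ fun i _ =>
    continuous_finsetSum _ fun j _ =>
      (pd_contDiff_infty (pd_contDiff_infty (h a) j) i).continuous.pow 2

lemma sysP_contDiff (hA : ∀ j a b, ContDiff ℝ ∞ (A j a b)) (hB : ∀ a b, ContDiff ℝ ∞ (B a b))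
    (hX : ∀ a, ContDiff ℝ ∞ (X a)) (a : Fin n) : ContDiff ℝ ∞ (sysP A B X a) := by
  unfold sysP
  refine ((lap_contDiff (hX a)).add ?_).add ?_
  · exact ContDiff.sum fun j _ => ContDiff.sum fun b _ =>
      (hA j a b).mul (pd_contDiff_infty (hX b) j)
  · exact ContDiff.sum fun b _ => (hB a b).mul (hX b)

lemma pX_cont (hA : ∀ j a b, ContDiff ℝ ∞ (A j a b)) (hB : ∀ a b, ContDiff ℝ ∞ (B a b))
    (hX : ∀ a, ContDiff ℝ ∞ (X a)) : Continuous (pX A B X) :=
  continuous_finsetSum _ fun a _ => (sysP_contDiff hA hB hX a).continuous.pow 2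

/-- pointwise bound of the Laplacians. -/
lemma lX_le {K : ℝ} {x : E3} (hA : ∀ j a b, |A j a b x| ≤ K)
    (hB : ∀ a b, |B a b x| ≤ K) (X : Fin n → E3 → ℝ) :
    lX X x ≤ (9 * n ^ 2 * K ^ 2 + 3) * (pX A B X x + gX X x + nX X x) := by
  have h1 : ∀ a, (lap (X a) x) ^ 2 ≤ 3 * (sysP A B X a x) ^ 2
      + 9 * n * K ^ 2 * gX X x + 3 * n * K ^ 2 * nX X x := by
    intro a
    have e : lap (X a) x = sysP A B X a x - (∑ j, ∑ b, A j a b x * pd j (X b) x)
        - ∑ b, B a b x * X b x := by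
      unfold sysP; ring
    have b1 : (∑ j, ∑ b, A j a b x * pd j (X b) x) ^ 2 ≤ 3 * n * K ^ 2 * gX X x := by
      calc (∑ j, ∑ b, A j a b x * pd j (X b) x) ^ 2
          ≤ 3 * ∑ j, (∑ b, A j a b x * pd j (X b) x) ^ 2 := by
            have := sq_sum_le_card_mul_sum_sq (s := (Finset.univ : Finset (Fin 3)))
              (f := fun j => ∑ b, A j a b x * pd j (X b) x)
            simpa using this
        _ ≤ 3 * ∑ j, (n * ∑ b, (A j a b x * pd j (X b) x) ^ 2) := by
            gcongr with j _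
            have := sq_sum_le_card_mul_sum_sq (s := (Finset.univ : Finset (Fin n)))
              (f := fun b => A j a b x * pd j (X b) x)
            simpa using this
        _ ≤ 3 * ∑ j : Fin 3, (n * ∑ b, K ^ 2 * (pd j (X b) x) ^ 2) := by
            gcongr with j _ b _
            rw [mul_pow]
            have : (A j a b x) ^ 2 ≤ K ^ 2 := by
              rw [← sq_abs]
              exact pow_le_pow_left₀ (abs_nonneg _) (hA j a b) 2
            exact mul_le_mul_of_nonneg_right this (sq_nonneg _)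
        _ = 3 * n * K ^ 2 * gX X x := by
            unfold gX gradSq
            rw [Finset.sum_comm]
            simp only [Finset.mul_sum]
            refine Finset.sum_congr rfl fun b _ => Finset.sum_congr rfl fun j _ => ?_
            ring
    have b2 : (∑ b, B a b x * X b x) ^ 2 ≤ n * K ^ 2 * nX X x := by
      calc (∑ b, B a b x * X b x) ^ 2 ≤ n * ∑ b, (B a b x * X b x) ^ 2 := by
            have := sq_sum_le_card_mul_sum_sq (s := (Finset.univ : Finset (Fin n)))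
              (f := fun b => B a b x * X b x)
            simpa using this
        _ ≤ n * ∑ b, K ^ 2 * (X b x) ^ 2 := by
            gcongr with b _
            rw [mul_pow]
            have : (B a b x) ^ 2 ≤ K ^ 2 := by
              rw [← sq_abs]
              exact pow_le_pow_left₀ (abs_nonneg _) (hB a b) 2
            exact mul_le_mul_of_nonneg_right this (sq_nonneg _)
        _ = n * K ^ 2 * nX X x := by
            unfold nX
            rw [← Finset.mul_sum]
            ring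
    rw [e]
    set p := sysP A B X a x
    set q := ∑ j, ∑ b, A j a b x * pd j (X b) x
    set r := ∑ b, B a b x * X b x
    have : (p - q - r) ^ 2 ≤ 3 * p ^ 2 + 3 * q ^ 2 + 3 * r ^ 2 := by
      linarith only [sq_nonneg (q - r), sq_nonneg (p + r), sq_nonneg (p + q)]
    linarith only [this, b2, b1]
  calc lX X x ≤ ∑ a, (3 * (sysP A B X a x) ^ 2
      + 9 * n * K ^ 2 * gX X x + 3 * n * K ^ 2 * nX X x) := Finset.sum_le_sum fun a _ => h1 a
    _ = 3 * pX A B X x + 9 * n ^ 2 * K ^ 2 * gX X x + 3 * n ^ 2 * K ^ 2 * nX X x := by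
        rw [Finset.sum_add_distrib, Finset.sum_add_distrib, ← Finset.mul_sum]
        simp only [Finset.sum_const, Finset.card_univ, Fintype.card_fin, nsmul_eq_mul, pX]
        ring
    _ ≤ _ := by
        have g0 := gX_nonneg X x
        have n0 := nX_nonneg X x
        have p0 := pX_nonneg (A := A) (B := B) X x
        have c0 : 0 ≤ (n : ℝ) ^ 2 * K ^ 2 := by (clear * -; positivity)
        linarith only [mul_nonneg c0 p0, mul_nonneg c0 n0, n0, g0]

lemma coeff_bound (hA : ∀ j a b, ContDiff ℝ ∞ (A j a b)) (hB : ∀ a b, ContDiff ℝ ∞ (B a b))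
    (s : ℝ) : ∃ K : ℝ, 0 ≤ K ∧ (∀ x ∈ Metric.ball (0 : E3) s,
      ∀ j a b, |A j a b x| ≤ K) ∧ (∀ x ∈ Metric.ball (0 : E3) s, ∀ a b, |B a b x| ≤ K) := by
  have hcpt := isCompact_closedBall (0 : E3) s
  have h1 : ∀ j a b, ∃ K : ℝ, ∀ x ∈ Metric.closedBall (0 : E3) s, |A j a b x| ≤ K := fun j a b =>
    hcpt.exists_bound_of_continuousOn (hA j a b).continuous.continuousOn
  have h2 : ∀ a b, ∃ K : ℝ, ∀ x ∈ Metric.closedBall (0 : E3) s, |B a b x| ≤ K := fun a b =>
    hcpt.exists_bound_of_continuousOn (hB a b).continuous.continuousOn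
  choose K1 hK1 using h1
  choose K2 hK2 using h2
  refine ⟨(∑ j, ∑ a, ∑ b, |K1 j a b|) + ∑ a, ∑ b, |K2 a b|, by (clear * -; positivity), ?_, ?_⟩
  · intro x hx j a b
    have q1 := hK1 j a b x (Metric.ball_subset_closedBall hx)
    have q2 := Finset.single_le_sum (f := fun b => |K1 j a b|) (fun _ _ => abs_nonneg _)
      (Finset.mem_univ b)
    have q3 := Finset.single_le_sum (f := fun a => ∑ b, |K1 j a b|)
      (fun _ _ => Finset.sum_nonneg fun _ _ => abs_nonneg _) (Finset.mem_univ a)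
    have q4 := Finset.single_le_sum (f := fun j => ∑ a, ∑ b, |K1 j a b|)
      (fun _ _ => Finset.sum_nonneg fun _ _ => Finset.sum_nonneg fun _ _ => abs_nonneg _)
      (Finset.mem_univ j)
    have q5 : 0 ≤ ∑ a, ∑ b, |K2 a b| := by (clear * -; positivity)
    have q6 : |K1 j a b| ≤ ∑ j, ∑ a, ∑ b, |K1 j a b| := (q2.trans q3).trans q4
    linarith [le_abs_self (K1 j a b)]
  · intro x hx a b
    have q1 := hK2 a b x (Metric.ball_subset_closedBall hx)
    have q2 := Finset.single_le_sum (f := fun b => |K2 a b|) (fun _ _ => abs_nonneg _)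
      (Finset.mem_univ b)
    have q3 := Finset.single_le_sum (f := fun a => ∑ b, |K2 a b|)
      (fun _ _ => Finset.sum_nonneg fun _ _ => abs_nonneg _) (Finset.mem_univ a)
    have q5 : 0 ≤ ∑ j, ∑ a, ∑ b, |K1 j a b| := by (clear * -; positivity)
    have q6 : |K2 a b| ≤ ∑ a, ∑ b, |K2 a b| := q2.trans q3
    linarith [le_abs_self (K2 a b)]

lemma gradSq_cut {r s M : ℝ} {α : E3} {η : E3 → ℝ} (hη : Cut r s α M η) (x : E3) :
    gradSq η x ≤ 3 * (M ^ 2 * ‖α‖ ^ 2 * (wt α x) ^ 2) := by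
  unfold gradSq
  calc ∑ i, (pd i η x) ^ 2 ≤ ∑ _i : Fin 3, (M * ‖α‖ * wt α x) ^ 2 := by
        apply Finset.sum_le_sum
        intro i _
        rw [← sq_abs]
        exact pow_le_pow_left₀ (abs_nonneg _) (hη.d1 i x) 2
    _ = 3 * (M ^ 2 * ‖α‖ ^ 2 * (wt α x) ^ 2) := by
        simp only [Finset.sum_const, Finset.card_univ, Fintype.card_fin, nsmul_eq_mul]
        push_cast
        ring

lemma sum_young (X : Fin n → E3 → ℝ) {D e g x : _} (hD : 0 < D) (e0 : 0 ≤ e) :
    ∑ a, (-2 * (e * (X a x * lap (X a) x)) + 4 * ((X a x) ^ 2 * g))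
      ≤ e * ((1 / (2 * D)) * lX X x + 2 * D * nX X x) + 4 * (nX X x * g) := by
  have : e * ((1 / (2 * D)) * lX X x + 2 * D * nX X x) + 4 * (nX X x * g)
      = ∑ a, (e * ((1 / (2 * D)) * (lap (X a) x) ^ 2 + 2 * D * (X a x) ^ 2)
        + 4 * ((X a x) ^ 2 * g)) := by
    simp only [lX, nX, Finset.mul_sum, Finset.sum_mul, ← Finset.sum_add_distrib, mul_add]
  rw [this]
  apply Finset.sum_le_sum
  intro a _
  have q : -2 * (X a x * lap (X a) x) ≤ (1 / (2 * D)) * (lap (X a) x) ^ 2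
      + 2 * D * (X a x) ^ 2 := by
    have hD0 : 0 < 2 * D := by linarith
    have e : (1 / (2 * D)) * (lap (X a) x + 2 * D * X a x) ^ 2
        = (1 / (2 * D)) * (lap (X a) x) ^ 2 + 2 * (X a x * lap (X a) x)
          + 2 * D * (X a x) ^ 2 := by
      field_simp
      ring
    have : 0 ≤ (1 / (2 * D)) * (lap (X a) x + 2 * D * X a x) ^ 2 := by positivity
    linarith
  have := mul_le_mul_of_nonneg_left q e0
  linarith only [this]

lemma pw1 {D e w p g n' l a m gη : ℝ} (hD : 3 ≤ D) (e0 : 0 ≤ e) (ew : e ≤ w) (p0 : 0 ≤ p)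
    (n0 : 0 ≤ n') (hl : l ≤ D * (p + g + n')) (ha : 1 ≤ a)
    (hg : gη ≤ 3 * (m * a * w)) {S : ℝ} (hS' : S ≤ e * ((1 / (2 * D)) * l + 2 * D * n') + 4 * (n' * gη)) :
    S - (1 / 2) * (e * g) ≤ (1 / 2) * (w * p) + (1 / 2 + 2 * D + 12 * m) * a * (w * n') := by
  have t2 : (1 / (2 * D)) * l ≤ (1 / 2) * (p + g + n') := by
    have hD0 : 0 < D := by linarith
    rw [div_mul_eq_mul_div, one_mul, div_le_iff₀ (by positivity)]
    linarith only [hl]
  have w0 : 0 ≤ w := e0.trans ew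
  have s1 : e * ((1 / (2 * D)) * l + 2 * D * n')
      ≤ e * ((1 / 2) * (p + g + n') + 2 * D * n') :=
    mul_le_mul_of_nonneg_left (by linarith only [t2]) e0
  have s2 : e * ((1 / 2) * p) ≤ w * ((1 / 2) * p) :=
    mul_le_mul_of_nonneg_right ew (by positivity)
  have s3 : e * ((1 / 2 + 2 * D) * n') ≤ w * ((1 / 2 + 2 * D) * n') :=
    mul_le_mul_of_nonneg_right ew (by positivity)
  have s4 : (1 / 2 + 2 * D) * (w * n') ≤ a * ((1 / 2 + 2 * D) * (w * n')) :=
    le_mul_of_one_le_left (by positivity) ha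
  have s5 : n' * gη ≤ n' * (3 * (m * a * w)) := mul_le_mul_of_nonneg_left hg n0
  linarith

/-- interior gradient estimate -/
lemma IE1 (hA : ∀ j a b, ContDiff ℝ ∞ (A j a b)) (hB : ∀ a b, ContDiff ℝ ∞ (B a b))
    {r s : ℝ} (hr : 0 < r) (hrs : r < s) :
    ∃ C : ℝ, 0 < C ∧ ∀ (α : E3) (X : Fin n → E3 → ℝ), 1 ≤ ‖α‖ → (∀ a, ContDiff ℝ ∞ (X a)) →
      ∫ x in Metric.ball (0 : E3) r, (wt α x) ^ 2 * gX X x ≤
        C * ((∫ x in Metric.ball (0 : E3) s, (wt α x) ^ 2 * pX A B X x)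
          + ‖α‖ ^ 2 * ∫ x in Metric.ball (0 : E3) s, (wt α x) ^ 2 * nX X x) := by
  obtain ⟨K, hK0, hKA, hKB⟩ := coeff_bound hA hB s
  obtain ⟨M, hM, hcut⟩ := exists_Cut hr hrs
  set D : ℝ := 9 * n ^ 2 * K ^ 2 + 3 with hD
  have hD3 : 3 ≤ D := by rw [hD]; linarith only [sq_nonneg ((n : ℝ) * K)]
  refine ⟨1 + 4 * D + 24 * M ^ 2, by positivity, ?_⟩
  intro α X hα hX
  obtain ⟨η, hη⟩ := hcut α hα
  have cw : Continuous (fun x => (wt α x) ^ 2) := (wt_contDiff α).continuous.pow 2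
  have cη : Continuous (fun x => (η x) ^ 2) := hη.smooth.continuous.pow 2
  have sη : HasCompactSupport (fun x => (η x) ^ 2) := cs_sq hη.cs
  -- the Caccioppoli inequality summed over components
  have J1 : ∀ a, Integrable (fun x => (η x) ^ 2 * gradSq (X a) x) := fun a =>
    int_cc (cη.mul (gradSq_continuous (hX a))) sη.mul_right
  have J2 : ∀ a, Integrable (fun x => -2 * ((η x) ^ 2 * (X a x * lap (X a) x))
      + 4 * ((X a x) ^ 2 * gradSq η x)) := by
    intro a
    have i1 : Integrable (fun x => (η x) ^ 2 * (X a x * lap (X a) x)) :=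
      int_cc (cη.mul ((hX a).continuous.mul (lap_contDiff (hX a)).continuous)) sη.mul_right
    have i2 : Integrable (fun x => (X a x) ^ 2 * gradSq η x) :=
      int_cc (((hX a).continuous.pow 2).mul (gradSq_continuous hη.smooth))
        (gradSq_hasCompactSupport hη.cs).mul_left
    exact (i1.const_mul _).add (i2.const_mul _)
  have K1 : Integrable (fun x => (η x) ^ 2 * gX X x) :=
    int_cc (cη.mul (gX_cont hX)) sη.mul_right
  have J3 : Integrable (fun x => ∑ a, (-2 * ((η x) ^ 2 * (X a x * lap (X a) x))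
      + 4 * ((X a x) ^ 2 * gradSq η x))) := integrable_finsetSum _ fun a _ => J2 a
  have h1 : ∫ x, (η x) ^ 2 * gX X x ≤ ∫ x, ∑ a, (-2 * ((η x) ^ 2 * (X a x * lap (X a) x))
      + 4 * ((X a x) ^ 2 * gradSq η x)) := by
    have e1 : ∫ x, (η x) ^ 2 * gX X x = ∑ a, ∫ x, (η x) ^ 2 * gradSq (X a) x := by
      rw [← integral_finsetSum _ fun a _ => J1 a]
      congr 1
      funext x
      simp only [gX, Finset.mul_sum]
    rw [e1, integral_finsetSum _ fun a _ => J2 a]
    exact Finset.sum_le_sum fun a _ => cacc (hX a) hη.smooth hη.cs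
  -- pointwise estimates
  have L1 : IntegrableOn (fun x => (wt α x) ^ 2 * pX A B X x) (Metric.ball (0 : E3) s) :=
    cont_intOn (cw.mul (pX_cont hA hB hX)) s
  have L2 : IntegrableOn (fun x => (wt α x) ^ 2 * nX X x) (Metric.ball (0 : E3) s) :=
    cont_intOn (cw.mul (nX_cont hX)) s
  have h2 : ∫ x, ((∑ a, (-2 * ((η x) ^ 2 * (X a x * lap (X a) x))
      + 4 * ((X a x) ^ 2 * gradSq η x))) - (1 / 2) * ((η x) ^ 2 * gX X x)) ≤
      ∫ x in Metric.ball (0 : E3) s, ((1 / 2) * ((wt α x) ^ 2 * pX A B X x)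
        + (1 / 2 + 2 * D + 12 * M ^ 2) * ‖α‖ ^ 2 * ((wt α x) ^ 2 * nX X x)) := by
    apply int_le_ball
    · exact J3.sub (K1.const_mul _)
    · exact (continuous_const.mul (cw.mul (pX_cont hA hB hX))).add
        (continuous_const.mul (cw.mul (nX_cont hX)))
    · intro x hx
      exact pw1 hD3 (sq_nonneg _) (hη.le_wt x) (pX_nonneg X x) (nX_nonneg X x)
        (lX_le (hKA x hx) (hKB x hx) X) (by (by_contra nlg; linarith only [nlg, mul_nonneg (sub_nonneg.2 hα) (sub_nonneg.2 hα), mul_nonneg (le_of_lt (sub_pos.2 (not_le.1 nlg))) (sub_nonneg.2 hα), mul_pos (sub_pos.2 (not_le.1 nlg)) (sub_pos.2 (not_le.1 nlg)), mul_nonneg (sq_nonneg (‖α‖ : ℝ)) (sub_nonneg.2 hα), mul_nonneg (sq_nonneg (‖α‖ : ℝ)) (le_of_lt (sub_pos.2 (not_le.1 nlg)))])) (gradSq_cut hη x)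
        (sum_young X (by linarith) (sq_nonneg _))
    · intro x hx
      have z0 := hη.zero x hx
      have z1 : gradSq η x = 0 := by
        unfold gradSq
        simp [hη.z1 _ x hx]
      simp [z0, z1]
  have h3 : ∫ x in Metric.ball (0 : E3) r, (wt α x) ^ 2 * gX X x ≤ ∫ x, (η x) ^ 2 * gX X x := by
    apply ball_le_int (cw.mul (gX_cont hX)) K1
    · intro x
      exact mul_nonneg (sq_nonneg _) (gX_nonneg _ _)
    · intro x hx
      rw [hη.eq_wt x hx]
      exact le_rfl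
  rw [integral_sub J3 (K1.const_mul _), integral_const_mul,
    integral_add (L1.const_mul _) (L2.const_mul _), integral_const_mul,
    integral_const_mul] at h2
  set P := ∫ x in Metric.ball (0 : E3) s, (wt α x) ^ 2 * pX A B X x with hP
  set N := ∫ x in Metric.ball (0 : E3) s, (wt α x) ^ 2 * nX X x with hN
  have P0 : 0 ≤ P := setIntegral_nonneg Metric.isOpen_ball.measurableSet fun x _ =>
    mul_nonneg (sq_nonneg _) (pX_nonneg _ _)
  have N0 : 0 ≤ N := setIntegral_nonneg Metric.isOpen_ball.measurableSet fun x _ =>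
    mul_nonneg (sq_nonneg _) (nX_nonneg _ _)
  have M0 : 0 ≤ M ^ 2 := sq_nonneg _
  have aN : 0 ≤ ‖α‖ ^ 2 * N := by (clear * - hα N0; positivity)
  have P1 : P ≤ (1 + 4 * D + 24 * M ^ 2) * P := le_mul_of_one_le_left P0 (by linarith only [M0, hD3])
  linarith only [P1, h2, h3, h1]

lemma pd_pd_mul {η u : E3 → ℝ} (hη : ContDiff ℝ ∞ η) (hu : ContDiff ℝ ∞ u) (i j : Fin 3)
    (x : E3) : pd i (pd j (fun y => η y * u y)) x
      = η x * pd i (pd j u) x + pd i η x * pd j u x + pd j η x * pd i u x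
        + u x * pd i (pd j η) x := by
  have e : pd j (fun y => η y * u y) = fun x => pd j η x * u x + η x * pd j u x := by
    funext x
    exact pd_mul (contDiff_infty_differentiable hη x) (contDiff_infty_differentiable hu x) j
  have c1 := pd_contDiff_infty hη j
  have c2 := pd_contDiff_infty hu j
  have e2 : pd i (fun x => pd j η x * u x + η x * pd j u x) x
      = pd i (fun x => pd j η x * u x) x + pd i (fun x => η x * pd j u x) x := by
    unfold pd
    have d1 : DifferentiableAt ℝ (fun x => pd j η x * u x) x :=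
      contDiff_infty_differentiable (c1.mul hu) x
    have d2 : DifferentiableAt ℝ (fun x => η x * pd j u x) x :=
      contDiff_infty_differentiable (hη.mul c2) x
    have := fderiv_fun_add d1 d2
    unfold pd at this
    rw [this]
    rfl
  rw [e, e2, pd_mul (contDiff_infty_differentiable c1 x) (contDiff_infty_differentiable hu x),
    pd_mul (contDiff_infty_differentiable hη x) (contDiff_infty_differentiable c2 x)]
  ring

lemma sq4 (a b c d : ℝ) : (a - (b + c + d)) ^ 2 ≤ 4 * (a ^ 2 + b ^ 2 + c ^ 2 + d ^ 2) := by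
  linarith only [sq_nonneg (c - d), sq_nonneg (b - d), sq_nonneg (b - c), sq_nonneg (a + d), sq_nonneg (a + c), sq_nonneg (a + b)]

lemma sq3 (a b c : ℝ) : (a + b + c) ^ 2 ≤ 3 * (a ^ 2 + b ^ 2 + c ^ 2) := by
  linarith only [sq_nonneg (b - c), sq_nonneg (a - c), sq_nonneg (a - b)]

lemma hess_pw {r s M : ℝ} {α : E3} {η u : E3 → ℝ} (hη : Cut r s α M η) (hu : ContDiff ℝ ∞ u)
    {x : E3} (hx : x ∈ Metric.ball (0 : E3) r) :
    (wt α x) ^ 2 * ∑ i, ∑ j, (pd i (pd j u) x) ^ 2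
      ≤ 4 * (∑ i, ∑ j, (pd i (pd j (fun y => η y * u y)) x) ^ 2)
        + (24 * M ^ 2 * ‖α‖ ^ 2 * ((wt α x) ^ 2 * gradSq u x)
          + 36 * M ^ 2 * ‖α‖ ^ 4 * ((wt α x) ^ 2 * (u x) ^ 2)) := by
  have h1 : ∀ i j, (wt α x) ^ 2 * (pd i (pd j u) x) ^ 2
      ≤ 4 * (pd i (pd j (fun y => η y * u y)) x) ^ 2
        + (4 * M ^ 2 * ‖α‖ ^ 2 * (wt α x) ^ 2 * ((pd j u x) ^ 2 + (pd i u x) ^ 2)
          + 4 * M ^ 2 * ‖α‖ ^ 4 * ((wt α x) ^ 2 * (u x) ^ 2)) := by
    intro i j
    have e := pd_pd_mul hη.smooth hu i j x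
    rw [hη.eq_wt x hx] at e
    have e2 : wt α x * pd i (pd j u) x = pd i (pd j (fun y => η y * u y)) x
        - (pd i η x * pd j u x + pd j η x * pd i u x + u x * pd i (pd j η) x) := by
      rw [e]; ring
    have e3 : (wt α x) ^ 2 * (pd i (pd j u) x) ^ 2 = (wt α x * pd i (pd j u) x) ^ 2 := by ring
    rw [e3, e2]
    refine (sq4 _ _ _ _).trans ?_
    have b1 : ∀ i, (pd i η x) ^ 2 ≤ M ^ 2 * ‖α‖ ^ 2 * (wt α x) ^ 2 := by
      intro i
      have := pow_le_pow_left₀ (abs_nonneg _) (hη.d1 i x) 2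
      rw [sq_abs] at this
      linarith [this, (by ring : (M * ‖α‖ * wt α x) ^ 2 = M ^ 2 * ‖α‖ ^ 2 * (wt α x) ^ 2)]
    have b2 : (pd i (pd j η) x) ^ 2 ≤ M ^ 2 * ‖α‖ ^ 4 * (wt α x) ^ 2 := by
      have := pow_le_pow_left₀ (abs_nonneg _) (hη.d2 i j x) 2
      rw [sq_abs] at this
      linarith [this, (by ring : (M * ‖α‖ ^ 2 * wt α x) ^ 2 = M ^ 2 * ‖α‖ ^ 4 * (wt α x) ^ 2)]
    rw [mul_pow, mul_pow, mul_pow]
    have c1 := mul_le_mul_of_nonneg_right (b1 i) (sq_nonneg (pd j u x))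
    have c2 := mul_le_mul_of_nonneg_right (b1 j) (sq_nonneg (pd i u x))
    have c3 := mul_le_mul_of_nonneg_right b2 (sq_nonneg (u x))
    linarith only [c3, c2, c1]
  calc (wt α x) ^ 2 * ∑ i, ∑ j, (pd i (pd j u) x) ^ 2
      = ∑ i, ∑ j, (wt α x) ^ 2 * (pd i (pd j u) x) ^ 2 := by
        simp only [Finset.mul_sum]
    _ ≤ ∑ i, ∑ j, (4 * (pd i (pd j (fun y => η y * u y)) x) ^ 2
        + (4 * M ^ 2 * ‖α‖ ^ 2 * (wt α x) ^ 2 * ((pd j u x) ^ 2 + (pd i u x) ^ 2)
          + 4 * M ^ 2 * ‖α‖ ^ 4 * ((wt α x) ^ 2 * (u x) ^ 2))) :=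
        Finset.sum_le_sum fun i _ => Finset.sum_le_sum fun j _ => h1 i j
    _ = _ := by
        simp only [gradSq, Fin.sum_univ_three]
        ring

lemma lap_pw {r s M : ℝ} {α : E3} {η u : E3 → ℝ} (hη : Cut r s α M η) (hu : ContDiff ℝ ∞ u)
    (x : E3) :
    (lap (fun y => η y * u y) x) ^ 2 ≤ 3 * ((wt α x) ^ 2 * (lap u x) ^ 2)
      + (36 * M ^ 2 * ‖α‖ ^ 2 * ((wt α x) ^ 2 * gradSq u x)
        + 27 * M ^ 2 * ‖α‖ ^ 4 * ((wt α x) ^ 2 * (u x) ^ 2)) := by
  have e : lap (fun y => η y * u y) x = η x * lap u x + 2 * (∑ i, pd i η x * pd i u x)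
      + u x * lap η x := by
    unfold lap
    simp only [pd_pd_mul hη.smooth hu, Fin.sum_univ_three]
    ring
  rw [e]
  refine (sq3 _ _ _).trans ?_
  have b1 : ∀ i, (pd i η x) ^ 2 ≤ M ^ 2 * ‖α‖ ^ 2 * (wt α x) ^ 2 := by
    intro i
    have := pow_le_pow_left₀ (abs_nonneg _) (hη.d1 i x) 2
    rw [sq_abs] at this
    linarith [this, (by ring : (M * ‖α‖ * wt α x) ^ 2 = M ^ 2 * ‖α‖ ^ 2 * (wt α x) ^ 2)]
  have b2 : ∀ i j, (pd i (pd j η) x) ^ 2 ≤ M ^ 2 * ‖α‖ ^ 4 * (wt α x) ^ 2 := by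
    intro i j
    have := pow_le_pow_left₀ (abs_nonneg _) (hη.d2 i j x) 2
    rw [sq_abs] at this
    linarith [this, (by ring : (M * ‖α‖ ^ 2 * wt α x) ^ 2 = M ^ 2 * ‖α‖ ^ 4 * (wt α x) ^ 2)]
  have c1 : (η x * lap u x) ^ 2 ≤ (wt α x) ^ 2 * (lap u x) ^ 2 := by
    rw [mul_pow]
    exact mul_le_mul_of_nonneg_right (hη.le_wt x) (sq_nonneg _)
  have c2 : (2 * (∑ i, pd i η x * pd i u x)) ^ 2
      ≤ 12 * (M ^ 2 * ‖α‖ ^ 2 * (wt α x) ^ 2) * gradSq u x := by
    have h1 : (∑ i, pd i η x * pd i u x) ^ 2 ≤ 3 * ∑ i, (pd i η x * pd i u x) ^ 2 := by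
      have := sq_sum_le_card_mul_sum_sq (s := (Finset.univ : Finset (Fin 3)))
        (f := fun i => pd i η x * pd i u x)
      simpa using this
    have h2 : ∑ i, (pd i η x * pd i u x) ^ 2
        ≤ ∑ i, (M ^ 2 * ‖α‖ ^ 2 * (wt α x) ^ 2) * (pd i u x) ^ 2 := by
      apply Finset.sum_le_sum
      intro i _
      rw [mul_pow]
      exact mul_le_mul_of_nonneg_right (b1 i) (sq_nonneg _)
    rw [← Finset.mul_sum] at h2
    unfold gradSq
    rw [mul_pow]
    linarith
  have c3 : (u x * lap η x) ^ 2 ≤ 9 * (M ^ 2 * ‖α‖ ^ 4 * (wt α x) ^ 2) * (u x) ^ 2 := by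
    have h1 : (lap η x) ^ 2 ≤ 3 * ∑ i, (pd i (pd i η) x) ^ 2 := by
      have := sq_sum_le_card_mul_sum_sq (s := (Finset.univ : Finset (Fin 3)))
        (f := fun i => pd i (pd i η) x)
      simpa [lap] using this
    have h2 : ∑ i, (pd i (pd i η) x) ^ 2 ≤ ∑ _i : Fin 3, (M ^ 2 * ‖α‖ ^ 4 * (wt α x) ^ 2) :=
      Finset.sum_le_sum fun i _ => b2 i i
    simp only [Finset.sum_const, Finset.card_univ, Fintype.card_fin, nsmul_eq_mul] at h2
    push_cast at h2
    rw [mul_pow]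
    have h3 : (lap η x) ^ 2 ≤ 9 * (M ^ 2 * ‖α‖ ^ 4 * (wt α x) ^ 2) := by linarith
    have := mul_le_mul_of_nonneg_left h3 (sq_nonneg (u x))
    linarith
  linarith

lemma hess_loc {r s M : ℝ} {α : E3} {η u : E3 → ℝ} (hrs : r < s) (hη : Cut r s α M η)
    (hu : ContDiff ℝ ∞ u) :
    ∫ x in Metric.ball (0 : E3) r, (wt α x) ^ 2 * ∑ i, ∑ j, (pd i (pd j u) x) ^ 2
      ≤ 12 * (∫ x in Metric.ball (0 : E3) s, (wt α x) ^ 2 * (lap u x) ^ 2)
        + 168 * M ^ 2 * ‖α‖ ^ 2 * (∫ x in Metric.ball (0 : E3) s, (wt α x) ^ 2 * gradSq u x)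
        + 144 * M ^ 2 * ‖α‖ ^ 4 * ∫ x in Metric.ball (0 : E3) s, (wt α x) ^ 2 * (u x) ^ 2 := by
  have cw : Continuous (fun x => (wt α x) ^ 2) := (wt_contDiff α).continuous.pow 2
  have hv : ContDiff ℝ ∞ (fun y => η y * u y) := hη.smooth.mul hu
  have hvc : HasCompactSupport (fun y => η y * u y) := hη.cs.mul_right
  have cH : Continuous (fun x => ∑ i, ∑ j, (pd i (pd j u) x) ^ 2) :=
    continuous_finsetSum _ fun i _ => continuous_finsetSum _ fun j _ =>
      (pd_contDiff_infty (pd_contDiff_infty hu j) i).continuous.pow 2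
  have c1 : Continuous (fun x => (wt α x) ^ 2 * gradSq u x) := cw.mul (gradSq_continuous hu)
  have c2 : Continuous (fun x => (wt α x) ^ 2 * (u x) ^ 2) := cw.mul (hu.continuous.pow 2)
  have c3 : Continuous (fun x => (wt α x) ^ 2 * (lap u x) ^ 2) :=
    cw.mul ((lap_contDiff hu).continuous.pow 2)
  have cV : Continuous (fun x => ∑ i, ∑ j, (pd i (pd j (fun y => η y * u y)) x) ^ 2) :=
    continuous_finsetSum _ fun i _ => continuous_finsetSum _ fun j _ =>
      (pd_contDiff_infty (pd_contDiff_infty hv j) i).continuous.pow 2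
  have iV : Integrable (fun x => ∑ i, ∑ j, (pd i (pd j (fun y => η y * u y)) x) ^ 2) :=
    integrable_finsetSum _ fun i _ => integrable_finsetSum _ fun j _ =>
      int_cc ((pd_contDiff_infty (pd_contDiff_infty hv j) i).continuous.pow 2)
        (cs_sq (pd_hasCompactSupport (pd_hasCompactSupport hvc j) i))
  have I1 : ∀ t, IntegrableOn (fun x => (wt α x) ^ 2 * gradSq u x) (Metric.ball (0 : E3) t) :=
    fun t => cont_intOn c1 t
  have I2 : ∀ t, IntegrableOn (fun x => (wt α x) ^ 2 * (u x) ^ 2) (Metric.ball (0 : E3) t) :=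
    fun t => cont_intOn c2 t
  have I3 : ∀ t, IntegrableOn (fun x => (wt α x) ^ 2 * (lap u x) ^ 2) (Metric.ball (0 : E3) t) :=
    fun t => cont_intOn c3 t
  have h1 : ∫ x in Metric.ball (0 : E3) r, (wt α x) ^ 2 * ∑ i, ∑ j, (pd i (pd j u) x) ^ 2
      ≤ ∫ x in Metric.ball (0 : E3) r, (4 * (∑ i, ∑ j, (pd i (pd j (fun y => η y * u y)) x) ^ 2)
        + (24 * M ^ 2 * ‖α‖ ^ 2 * ((wt α x) ^ 2 * gradSq u x)
          + 36 * M ^ 2 * ‖α‖ ^ 4 * ((wt α x) ^ 2 * (u x) ^ 2))) := by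
    apply setIntegral_mono_on (cont_intOn (cw.mul cH) r) _ Metric.isOpen_ball.measurableSet
      fun x hx => hess_pw hη hu hx
    exact cont_intOn ((continuous_const.mul cV).add ((continuous_const.mul c1).add
      (continuous_const.mul c2))) r
  have J1 : IntegrableOn (fun x => 24 * M ^ 2 * ‖α‖ ^ 2 * ((wt α x) ^ 2 * gradSq u x)
      + 36 * M ^ 2 * ‖α‖ ^ 4 * ((wt α x) ^ 2 * (u x) ^ 2)) (Metric.ball (0 : E3) r) :=
    ((I1 r).const_mul _).add ((I2 r).const_mul _)
  rw [integral_add (iV.integrableOn.const_mul _) J1,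
    integral_add ((I1 r).const_mul _) ((I2 r).const_mul _), integral_const_mul,
    integral_const_mul, integral_const_mul] at h1
  have h2 : ∫ x in Metric.ball (0 : E3) r, ∑ i, ∑ j, (pd i (pd j (fun y => η y * u y)) x) ^ 2
      ≤ ∫ x, (lap (fun y => η y * u y) x) ^ 2 := by
    rw [← hess_eq hv hvc]
    exact setIntegral_le_integral iV (Eventually.of_forall fun x =>
      Finset.sum_nonneg fun i _ => Finset.sum_nonneg fun j _ => sq_nonneg _)
  have iL : Integrable (fun x => (lap (fun y => η y * u y) x) ^ 2) :=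
    int_cc ((lap_contDiff hv).continuous.pow 2) (cs_sq (lap_hasCompactSupport hvc))
  have h3 : ∫ x, (lap (fun y => η y * u y) x) ^ 2
      ≤ ∫ x in Metric.ball (0 : E3) s, (3 * ((wt α x) ^ 2 * (lap u x) ^ 2)
        + (36 * M ^ 2 * ‖α‖ ^ 2 * ((wt α x) ^ 2 * gradSq u x)
          + 27 * M ^ 2 * ‖α‖ ^ 4 * ((wt α x) ^ 2 * (u x) ^ 2))) := by
    apply int_le_ball iL
    · exact (continuous_const.mul c3).add ((continuous_const.mul c1).add
        (continuous_const.mul c2))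
    · intro x _
      exact lap_pw hη hu x
    · intro x hx
      have e : lap (fun y => η y * u y) x = 0 := by
        unfold lap
        apply Finset.sum_eq_zero
        intro i _
        rw [pd_pd_mul hη.smooth hu, hη.zero x hx, hη.z1 i x hx, hη.z2 i i x hx]
        ring
      rw [e]
      simp
  have J2 : IntegrableOn (fun x => 36 * M ^ 2 * ‖α‖ ^ 2 * ((wt α x) ^ 2 * gradSq u x)
      + 27 * M ^ 2 * ‖α‖ ^ 4 * ((wt α x) ^ 2 * (u x) ^ 2)) (Metric.ball (0 : E3) s) :=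
    ((I1 s).const_mul _).add ((I2 s).const_mul _)
  rw [integral_add ((I3 s).const_mul _) J2, integral_add ((I1 s).const_mul _) ((I2 s).const_mul _),
    integral_const_mul, integral_const_mul, integral_const_mul] at h3
  have m1 : ∫ x in Metric.ball (0 : E3) r, (wt α x) ^ 2 * gradSq u x
      ≤ ∫ x in Metric.ball (0 : E3) s, (wt α x) ^ 2 * gradSq u x :=
    setIntegral_mono_set (I1 s) (Eventually.of_forall fun x =>
      mul_nonneg (sq_nonneg _) (gradSq_nonneg _ _)) (Metric.ball_subset_ball hrs.le).eventuallyLE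
  have m2 : ∫ x in Metric.ball (0 : E3) r, (wt α x) ^ 2 * (u x) ^ 2
      ≤ ∫ x in Metric.ball (0 : E3) s, (wt α x) ^ 2 * (u x) ^ 2 :=
    setIntegral_mono_set (I2 s) (Eventually.of_forall fun x =>
      mul_nonneg (sq_nonneg _) (sq_nonneg _)) (Metric.ball_subset_ball hrs.le).eventuallyLE
  have q1 := mul_le_mul_of_nonneg_left m1 (by positivity : 0 ≤ 24 * M ^ 2 * ‖α‖ ^ 2)
  have q2 := mul_le_mul_of_nonneg_left m2 (by (clear * -; positivity) : 0 ≤ 36 * M ^ 2 * ‖α‖ ^ 4)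
  linarith

/-- interior Hessian estimate -/
lemma IE2 (hA : ∀ j a b, ContDiff ℝ ∞ (A j a b)) (hB : ∀ a b, ContDiff ℝ ∞ (B a b))
    {r s : ℝ} (hr : 0 < r) (hrs : r < s) :
    ∃ C : ℝ, 0 < C ∧ ∀ (α : E3) (X : Fin n → E3 → ℝ), 1 ≤ ‖α‖ → (∀ a, ContDiff ℝ ∞ (X a)) →
      ∫ x in Metric.ball (0 : E3) r, (wt α x) ^ 2 * hX X x ≤
        C * ((∫ x in Metric.ball (0 : E3) s, (wt α x) ^ 2 * pX A B X x)
          + ‖α‖ ^ 2 * (∫ x in Metric.ball (0 : E3) s, (wt α x) ^ 2 * gX X x)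
          + ‖α‖ ^ 4 * ∫ x in Metric.ball (0 : E3) s, (wt α x) ^ 2 * nX X x) := by
  obtain ⟨K, hK0, hKA, hKB⟩ := coeff_bound hA hB s
  obtain ⟨M, hM, hcut⟩ := exists_Cut hr hrs
  set D : ℝ := 9 * n ^ 2 * K ^ 2 + 3 with hD
  have hD3 : 3 ≤ D := by rw [hD]; linarith only [sq_nonneg ((n : ℝ) * K)]
  refine ⟨12 * D + 168 * M ^ 2, by positivity, ?_⟩
  intro α X hα hXs
  obtain ⟨η, hη⟩ := hcut α hα
  have cw : Continuous (fun x => (wt α x) ^ 2) := (wt_contDiff α).continuous.pow 2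
  have LP : IntegrableOn (fun x => (wt α x) ^ 2 * pX A B X x) (Metric.ball (0 : E3) s) :=
    cont_intOn (cw.mul (pX_cont hA hB hXs)) s
  have LN : IntegrableOn (fun x => (wt α x) ^ 2 * nX X x) (Metric.ball (0 : E3) s) :=
    cont_intOn (cw.mul (nX_cont hXs)) s
  have LG : IntegrableOn (fun x => (wt α x) ^ 2 * gX X x) (Metric.ball (0 : E3) s) :=
    cont_intOn (cw.mul (gX_cont hXs)) s
  have LL : IntegrableOn (fun x => (wt α x) ^ 2 * lX X x) (Metric.ball (0 : E3) s) :=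
    cont_intOn (cw.mul (lX_cont hXs)) s
  have e1 : ∫ x in Metric.ball (0 : E3) r, (wt α x) ^ 2 * hX X x
      = ∑ a, ∫ x in Metric.ball (0 : E3) r, (wt α x) ^ 2 * ∑ i, ∑ j, (pd i (pd j (X a)) x) ^ 2 := by
    rw [← integral_finsetSum _ fun a _ => ?_]
    · congr 1
      funext x
      simp only [hX, Finset.mul_sum]
    · exact cont_intOn (cw.mul (continuous_finsetSum _ fun i _ => continuous_finsetSum _ fun j _ =>
        (pd_contDiff_infty (pd_contDiff_infty (hXs a) j) i).continuous.pow 2)) r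
  have e2 : ∑ a, ∫ x in Metric.ball (0 : E3) s, (wt α x) ^ 2 * (lap (X a) x) ^ 2
      = ∫ x in Metric.ball (0 : E3) s, (wt α x) ^ 2 * lX X x := by
    rw [← integral_finsetSum _ fun a _ => ?_]
    · congr 1
      funext x
      simp only [lX, Finset.mul_sum]
    · exact cont_intOn (cw.mul ((lap_contDiff (hXs a)).continuous.pow 2)) s
  have e3 : ∑ a, ∫ x in Metric.ball (0 : E3) s, (wt α x) ^ 2 * gradSq (X a) x
      = ∫ x in Metric.ball (0 : E3) s, (wt α x) ^ 2 * gX X x := by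
    rw [← integral_finsetSum _ fun a _ => ?_]
    · congr 1
      funext x
      simp only [gX, Finset.mul_sum]
    · exact cont_intOn (cw.mul (gradSq_continuous (hXs a))) s
  have e4 : ∑ a, ∫ x in Metric.ball (0 : E3) s, (wt α x) ^ 2 * (X a x) ^ 2
      = ∫ x in Metric.ball (0 : E3) s, (wt α x) ^ 2 * nX X x := by
    rw [← integral_finsetSum _ fun a _ => ?_]
    · congr 1
      funext x
      simp only [nX, Finset.mul_sum]
    · exact cont_intOn (cw.mul ((hXs a).continuous.pow 2)) s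
  have h1 : ∫ x in Metric.ball (0 : E3) r, (wt α x) ^ 2 * hX X x
      ≤ 12 * (∫ x in Metric.ball (0 : E3) s, (wt α x) ^ 2 * lX X x)
        + 168 * M ^ 2 * ‖α‖ ^ 2 * (∫ x in Metric.ball (0 : E3) s, (wt α x) ^ 2 * gX X x)
        + 144 * M ^ 2 * ‖α‖ ^ 4 * ∫ x in Metric.ball (0 : E3) s, (wt α x) ^ 2 * nX X x := by
    rw [e1, ← e2, ← e3, ← e4, Finset.mul_sum, Finset.mul_sum, Finset.mul_sum,
      ← Finset.sum_add_distrib, ← Finset.sum_add_distrib]
    exact Finset.sum_le_sum fun a _ => hess_loc hrs hη (hXs a)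
  have h2 : ∫ x in Metric.ball (0 : E3) s, (wt α x) ^ 2 * lX X x
      ≤ ∫ x in Metric.ball (0 : E3) s, (D * ((wt α x) ^ 2 * pX A B X x)
        + (D * ((wt α x) ^ 2 * gX X x) + D * ((wt α x) ^ 2 * nX X x))) := by
    apply setIntegral_mono_on LL ((LP.const_mul _).add ((LG.const_mul _).add (LN.const_mul _)))
      Metric.isOpen_ball.measurableSet
    intro x hx
    have := mul_le_mul_of_nonneg_left (lX_le (hKA x hx) (hKB x hx) X) (sq_nonneg (wt α x))
    rw [← hD] at this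
    refine this.trans (le_of_eq ?_)
    simp only [Pi.add_apply]
    ring
  have J : IntegrableOn (fun x => D * ((wt α x) ^ 2 * gX X x) + D * ((wt α x) ^ 2 * nX X x))
      (Metric.ball (0 : E3) s) := (LG.const_mul _).add (LN.const_mul _)
  rw [integral_add (LP.const_mul _) J, integral_add (LG.const_mul _) (LN.const_mul _),
    integral_const_mul, integral_const_mul, integral_const_mul] at h2
  set P := ∫ x in Metric.ball (0 : E3) s, (wt α x) ^ 2 * pX A B X x with hP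
  set G := ∫ x in Metric.ball (0 : E3) s, (wt α x) ^ 2 * gX X x with hG
  set N := ∫ x in Metric.ball (0 : E3) s, (wt α x) ^ 2 * nX X x with hN
  have P0 : 0 ≤ P := setIntegral_nonneg Metric.isOpen_ball.measurableSet fun x _ =>
    mul_nonneg (sq_nonneg _) (pX_nonneg _ _)
  have N0 : 0 ≤ N := setIntegral_nonneg Metric.isOpen_ball.measurableSet fun x _ =>
    mul_nonneg (sq_nonneg _) (nX_nonneg _ _)
  have G0 : 0 ≤ G := setIntegral_nonneg Metric.isOpen_ball.measurableSet fun x _ =>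
    mul_nonneg (sq_nonneg _) (gX_nonneg _ _)
  have a1 : 1 ≤ ‖α‖ ^ 2 := by (by_contra nlg; linarith only [nlg, mul_nonneg (sub_nonneg.2 hα) (sub_nonneg.2 hα), mul_nonneg (le_of_lt (sub_pos.2 (not_le.1 nlg))) (sub_nonneg.2 hα), mul_pos (sub_pos.2 (not_le.1 nlg)) (sub_pos.2 (not_le.1 nlg)), mul_nonneg (sq_nonneg (‖α‖ : ℝ)) (sub_nonneg.2 hα), mul_nonneg (sq_nonneg (‖α‖ : ℝ)) (le_of_lt (sub_pos.2 (not_le.1 nlg)))])
  have a2 : 1 ≤ ‖α‖ ^ 4 := one_le_pow₀ hα
  have r1 : D * G ≤ D * (‖α‖ ^ 2 * G) :=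
    mul_le_mul_of_nonneg_left (le_mul_of_one_le_left G0 a1) (by linarith)
  have r2 : D * N ≤ D * (‖α‖ ^ 4 * N) :=
    mul_le_mul_of_nonneg_left (le_mul_of_one_le_left N0 a2) (by linarith)
  have r3 : 0 ≤ M ^ 2 * P := by (clear * - hM P0; positivity)
  have r4 : 0 ≤ M ^ 2 * (‖α‖ ^ 4 * N) := by (clear * - hM hα N0; positivity)
  linarith

end

end ASR

end Vale.Agent.P136
end
end

section

section

open MeasureTheory Filter Topology
open scoped ContDiff InnerProductSpace ENNReal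

namespace Vale.Agent.P136

namespace ASR

lemma bump_scale (k : ℕ) (z : E3) : bump k z = bump 0 (((k : ℝ) + 1) • z) := by
  rw [ContDiffBump.apply, ContDiffBump.apply]
  have hk : (0 : ℝ) < (k : ℝ) + 1 := by positivity
  have e1 : (bump k).rOut / (bump k).rIn = 2 := by
    change (1 / ((k : ℝ) + 1)) / (1 / (2 * ((k : ℝ) + 1))) = 2
    field_simp
  have e2 : (bump 0).rOut / (bump 0).rIn = 2 := by
    change (1 / (((0 : ℕ) : ℝ) + 1)) / (1 / (2 * (((0 : ℕ) : ℝ) + 1))) = 2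
    norm_num
  rw [e1, e2]
  congr 1
  have e3 : (bump k).rIn⁻¹ = 2 * ((k : ℝ) + 1) := by
    change (1 / (2 * ((k : ℝ) + 1)))⁻¹ = 2 * ((k : ℝ) + 1)
    simp
  have e4 : (bump 0).rIn⁻¹ = 2 := by
    change (1 / (2 * (((0 : ℕ) : ℝ) + 1)))⁻¹ = 2
    simp
  rw [e3, e4, sub_zero, sub_zero, smul_smul]

lemma ker_scale (k : ℕ) (z : E3) :
    ker k z = ((k : ℝ) + 1) ^ 3 * ker 0 (((k : ℝ) + 1) • z) := by
  have hk : (0 : ℝ) < (k : ℝ) + 1 := by positivity
  unfold ker
  rw [ContDiffBump.normed_def, ContDiffBump.normed_def, bump_scale k z]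
  have e : ∫ x, bump k x = (((k : ℝ) + 1) ^ 3)⁻¹ * ∫ x, bump 0 x := by
    simp_rw [bump_scale k]
    rw [Measure.integral_comp_smul_of_nonneg (μ := volume) (hR := hk.le)]
    simp
  rw [e]
  have h0 : ∫ x, bump 0 x ≠ 0 := ((bump 0).integral_pos).ne'
  field_simp

lemma pd_ker_scale (k : ℕ) (i : Fin 3) (z : E3) :
    pd i (ker k) z = ((k : ℝ) + 1) ^ 4 * pd i (ker 0) (((k : ℝ) + 1) • z) := by
  have e : ker k = fun z => ((k : ℝ) + 1) ^ 3 * ker 0 (((k : ℝ) + 1) • z) :=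
    funext fun z => ker_scale k z
  have h1 : HasFDerivAt (fun z : E3 => ((k : ℝ) + 1) • z)
      (((k : ℝ) + 1) • ContinuousLinearMap.id ℝ E3) z :=
    (((k : ℝ) + 1) • ContinuousLinearMap.id ℝ E3).hasFDerivAt
  have h2 : HasFDerivAt (ker 0) (fderiv ℝ (ker 0) (((k : ℝ) + 1) • z)) (((k : ℝ) + 1) • z) :=
    (((ker_contDiff 0).differentiable (by simp)) _).hasFDerivAt
  have h3 := (h2.comp z h1).const_mul (((k : ℝ) + 1) ^ 3)
  unfold pd
  rw [e]
  have h4 : HasFDerivAt (fun z => ((k : ℝ) + 1) ^ 3 * ker 0 (((k : ℝ) + 1) • z))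
    (((k : ℝ) + 1) ^ 3 • (fderiv ℝ (ker 0) (((k : ℝ) + 1) • z)).comp
      (((k : ℝ) + 1) • ContinuousLinearMap.id ℝ E3)) z := h3
  rw [h4.fderiv]
  simp
  ring

/-- The majorizing kernel. -/
noncomputable def Kk (k : ℕ) (z : E3) : ℝ := ker k z + ∑ i, |pd i (ker k) z| * ‖z‖

lemma Kk_nonneg (k : ℕ) (z : E3) : 0 ≤ Kk k z :=
  add_nonneg (ker_nonneg k z) (Finset.sum_nonneg fun _ _ =>
    mul_nonneg (abs_nonneg _) (norm_nonneg _))

lemma Kk_cont (k : ℕ) : Continuous (Kk k) :=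
  (ker_contDiff k).continuous.add (continuous_finsetSum _ fun i _ =>
    (pd_contDiff_infty (ker_contDiff k) i).continuous.abs.mul continuous_norm)

lemma pd_ker_zero {k : ℕ} {i : Fin 3} {z : E3} (hz : 1 / ((k : ℝ) + 1) < ‖z‖) :
    pd i (ker k) z = 0 := by
  have hu : (fun x : E3 => ker k x) =ᶠ[𝓝 z] fun _ => (0 : ℝ) := by
    have ho : IsOpen {x : E3 | 1 / ((k : ℝ) + 1) < ‖x‖} := isOpen_lt continuous_const continuous_norm
    filter_upwards [ho.mem_nhds hz] with x hx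
    exact ker_zero hx
  unfold pd
  have : fderiv ℝ (ker k) z = fderiv ℝ (fun _ : E3 => (0 : ℝ)) z := hu.fderiv_eq
  rw [this]
  simp

lemma Kk_zero {k : ℕ} {z : E3} (hz : 1 / ((k : ℝ) + 1) < ‖z‖) : Kk k z = 0 := by
  unfold Kk
  simp [ker_zero hz, pd_ker_zero hz]

lemma Kk_scale (k : ℕ) (z : E3) : Kk k z = ((k : ℝ) + 1) ^ 3 * Kk 0 (((k : ℝ) + 1) • z) := by
  have hk : (0 : ℝ) < (k : ℝ) + 1 := by positivity
  unfold Kk
  rw [ker_scale k z, mul_add, Finset.mul_sum]
  congr 1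
  apply Finset.sum_congr rfl
  intro i _
  rw [pd_ker_scale, norm_smul, Real.norm_of_nonneg hk.le, abs_mul, abs_of_pos (pow_pos hk 4)]
  ring

lemma Kk_int (k : ℕ) : ∫ z, Kk k z = ∫ z, Kk 0 z := by
  have hk : (0 : ℝ) < (k : ℝ) + 1 := by positivity
  simp_rw [Kk_scale k]
  rw [integral_const_mul, Measure.integral_comp_smul_of_nonneg (μ := volume) (hR := hk.le)]
  simp only [finrank_euclideanSpace, Fintype.card_fin, smul_eq_mul]
  field_simp

lemma Kk_integrable (k : ℕ) : Integrable (Kk k) := by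
  apply (Kk_cont k).integrable_of_hasCompactSupport
  apply HasCompactSupport.intro (isCompact_closedBall (0 : E3) (1 / ((k : ℝ) + 1)))
  intro x hx
  rw [Metric.mem_closedBall, dist_zero_right, not_le] at hx
  exact Kk_zero hx

lemma Kk_lint (k : ℕ) : ∫⁻ z, ‖Kk k z‖ₑ = ENNReal.ofReal (∫ z, Kk 0 z) := by
  rw [← Kk_int k, ← ofReal_integral_norm_eq_lintegral_enorm (Kk_integrable k)]
  simp_rw [Real.norm_of_nonneg (Kk_nonneg k _)]

/-- Young's inequality. -/
lemma youngE {K g : E3 → ℝ≥0∞} (hK : Measurable K) (hg : AEMeasurable g) :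
    ∫⁻ x, (∫⁻ y, K (x - y) * g y) ^ 2 ≤ (∫⁻ z, K z) ^ 2 * ∫⁻ y, (g y) ^ 2 := by
  have hKx : ∀ x : E3, Measurable (fun y => K (x - y)) := fun x =>
    hK.comp (measurable_const.sub measurable_id)
  calc ∫⁻ x, (∫⁻ y, K (x - y) * g y) ^ 2
      ≤ ∫⁻ x, (∫⁻ z, K z) * ∫⁻ y, K (x - y) * (g y) ^ 2 := by
        apply lintegral_mono
        intro x
        refine (cs_lintegral (hKx x).aemeasurable hg).trans ?_
        rw [lintegral_sub_left_eq_self (fun y => K y) x]
    _ = (∫⁻ z, K z) * ∫⁻ x, ∫⁻ y, K (x - y) * (g y) ^ 2 := by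
        apply lintegral_const_mul''
        apply AEMeasurable.lintegral_prod_right'
          (f := fun p : E3 × E3 => K (p.1 - p.2) * (g p.2) ^ 2)
        exact ((hK.comp (measurable_fst.sub measurable_snd)).aemeasurable).mul
          ((hg.pow_const 2).comp_snd)
    _ = (∫⁻ z, K z) * ∫⁻ y, ∫⁻ x, K (x - y) * (g y) ^ 2 := by
        congr 1
        apply lintegral_lintegral_swap
        exact ((hK.comp (measurable_fst.sub measurable_snd)).aemeasurable).mul
          ((hg.pow_const 2).comp_snd)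
    _ = (∫⁻ z, K z) * ∫⁻ y, (∫⁻ z, K z) * (g y) ^ 2 := by
        congr 2
        funext y
        have hKy : Measurable (fun x => K (x - y)) := hK.comp (measurable_id.sub measurable_const)
        rw [lintegral_mul_const _ hKy, lintegral_sub_right_eq_self (fun x => K x) y]
    _ = (∫⁻ z, K z) ^ 2 * ∫⁻ y, (g y) ^ 2 := by
        rw [lintegral_const_mul'' _ (hg.pow_const 2), sq, mul_assoc]

lemma wt_le {α x y : E3} {δ : ℝ} (h : ‖x - y‖ ≤ δ) (hδ : ‖α‖ * δ ≤ 1) :
    wt α x ≤ Real.exp 1 * wt α y := by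
  unfold wt
  rw [← Real.exp_add]
  apply Real.exp_le_exp.mpr
  have h1 : ⟪α, y - x⟫_ℝ ≤ ‖α‖ * ‖y - x‖ := real_inner_le_norm _ _
  rw [inner_sub_right] at h1
  have h2 : ‖α‖ * ‖y - x‖ ≤ ‖α‖ * δ := by
    rw [norm_sub_rev]
    exact mul_le_mul_of_nonneg_left h (norm_nonneg _)
  linarith

/-- weighted local Young inequality -/
lemma youngW {k : ℕ} {α : E3} {r s : ℝ} {f T : E3 → ℝ} (hf : MemLp f 2)
    (hδ : ‖α‖ * (1 / ((k : ℝ) + 1)) ≤ 1) (hrs : r + 1 / ((k : ℝ) + 1) ≤ s)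
    (hT : ContinuousOn T (Metric.closedBall (0 : E3) r)) {L : ℝ} (hL : 0 ≤ L)
    (hb : ∀ x ∈ Metric.ball (0 : E3) r,
      ‖T x‖ₑ ≤ ∫⁻ y, ENNReal.ofReal L * ‖Kk k (x - y)‖ₑ * ‖f y‖ₑ) :
    ∫ x in Metric.ball (0 : E3) r, (wt α x) ^ 2 * (T x) ^ 2
      ≤ (Real.exp 1 * L * ∫ z, Kk 0 z) ^ 2 *
        ∫ y in Metric.ball (0 : E3) s, (wt α y) ^ 2 * (f y) ^ 2 := by
  have hκ : 0 ≤ ∫ z, Kk 0 z := integral_nonneg fun z => Kk_nonneg 0 z
  set G : E3 → ℝ≥0∞ := (Metric.ball (0 : E3) s).indicator (fun y => ‖wt α y * f y‖ₑ) with hG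
  have hwf : AEStronglyMeasurable (fun y => wt α y * f y) volume :=
    (wt_contDiff α).continuous.aestronglyMeasurable.mul hf.1
  have hGm : AEMeasurable G := hwf.enorm.indicator Metric.isOpen_ball.measurableSet
  have hKm : Measurable (fun z => ‖Kk k z‖ₑ) := (Kk_cont k).enorm.measurable
  have hpt : ∀ x ∈ Metric.ball (0 : E3) r, ‖wt α x * T x‖ₑ
      ≤ ENNReal.ofReal (Real.exp 1 * L) * ∫⁻ y, ‖Kk k (x - y)‖ₑ * G y := by
    intro x hx
    have hKx : Measurable (fun y => ‖Kk k (x - y)‖ₑ) :=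
      hKm.comp (measurable_const.sub measurable_id)
    have hKG : AEMeasurable (fun y => ‖Kk k (x - y)‖ₑ * G y) := hKx.aemeasurable.mul hGm
    rw [enorm_mul, ← lintegral_const_mul'' _ hKG]
    calc ‖wt α x‖ₑ * ‖T x‖ₑ ≤ ‖wt α x‖ₑ * ∫⁻ y, ENNReal.ofReal L * ‖Kk k (x - y)‖ₑ * ‖f y‖ₑ := by
          gcongr
          exact hb x hx
      _ = ∫⁻ y, ‖wt α x‖ₑ * (ENNReal.ofReal L * ‖Kk k (x - y)‖ₑ * ‖f y‖ₑ) := by
          have hh : AEMeasurable (fun y => ENNReal.ofReal L * ‖Kk k (x - y)‖ₑ * ‖f y‖ₑ) :=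
            (hKx.aemeasurable.const_mul _).mul hf.1.enorm
          rw [lintegral_const_mul'' _ hh]
      _ ≤ _ := by
          apply lintegral_mono
          intro y
          simp only
          by_cases hz : 1 / ((k : ℝ) + 1) < ‖x - y‖
          · simp [Kk_zero hz]
          · rw [not_lt] at hz
            have hy : y ∈ Metric.ball (0 : E3) s := by
              rw [Metric.mem_ball, dist_zero_right] at hx ⊢
              have : ‖y‖ ≤ ‖x‖ + ‖x - y‖ := by
                have := norm_sub_le x (x - y)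
                simpa using this
              linarith
            have hw := wt_le hz hδ
            have hw' : ‖wt α x‖ₑ ≤ ENNReal.ofReal (Real.exp 1) * ‖wt α y‖ₑ := by
              rw [Real.enorm_of_nonneg (wt_pos α x).le, Real.enorm_of_nonneg (wt_pos α y).le,
                ← ENNReal.ofReal_mul (Real.exp_pos _).le]
              exact ENNReal.ofReal_le_ofReal hw
            rw [hG, Set.indicator_of_mem hy, enorm_mul, ENNReal.ofReal_mul (Real.exp_pos _).le]
            calc ‖wt α x‖ₑ * (ENNReal.ofReal L * ‖Kk k (x - y)‖ₑ * ‖f y‖ₑ)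
                ≤ (ENNReal.ofReal (Real.exp 1) * ‖wt α y‖ₑ) *
                  (ENNReal.ofReal L * ‖Kk k (x - y)‖ₑ * ‖f y‖ₑ) := by gcongr
              _ = _ := by ring
  have hmain : ∫⁻ x in Metric.ball (0 : E3) r, ‖wt α x * T x‖ₑ ^ 2
      ≤ ENNReal.ofReal ((Real.exp 1 * L * ∫ z, Kk 0 z) ^ 2) *
        ∫⁻ y in Metric.ball (0 : E3) s, ‖wt α y * f y‖ₑ ^ 2 := by
    calc ∫⁻ x in Metric.ball (0 : E3) r, ‖wt α x * T x‖ₑ ^ 2
        ≤ ∫⁻ x in Metric.ball (0 : E3) r,
          (ENNReal.ofReal (Real.exp 1 * L)) ^ 2 * (∫⁻ y, ‖Kk k (x - y)‖ₑ * G y) ^ 2 := by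
          apply setLIntegral_mono_ae'  Metric.isOpen_ball.measurableSet
          refine Eventually.of_forall fun x hx => ?_
          rw [← mul_pow]
          gcongr
          exact hpt x hx
      _ ≤ ∫⁻ x, (ENNReal.ofReal (Real.exp 1 * L)) ^ 2 * (∫⁻ y, ‖Kk k (x - y)‖ₑ * G y) ^ 2 :=
          setLIntegral_le_lintegral _ _
      _ = (ENNReal.ofReal (Real.exp 1 * L)) ^ 2 * ∫⁻ x, (∫⁻ y, ‖Kk k (x - y)‖ₑ * G y) ^ 2 := by
          apply lintegral_const_mul''
          refine AEMeasurable.pow_const ?_ 2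
          apply AEMeasurable.lintegral_prod_right'
            (f := fun p : E3 × E3 => ‖Kk k (p.1 - p.2)‖ₑ * G p.2)
          exact ((hKm.comp (measurable_fst.sub measurable_snd)).aemeasurable).mul hGm.comp_snd
      _ ≤ (ENNReal.ofReal (Real.exp 1 * L)) ^ 2 *
          ((∫⁻ z, ‖Kk k z‖ₑ) ^ 2 * ∫⁻ y, (G y) ^ 2) := by
          gcongr
          exact youngE hKm hGm
      _ = ENNReal.ofReal ((Real.exp 1 * L * ∫ z, Kk 0 z) ^ 2) *
        ∫⁻ y in Metric.ball (0 : E3) s, ‖wt α y * f y‖ₑ ^ 2 := by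
          rw [Kk_lint, ← mul_assoc, ← mul_pow, ← ENNReal.ofReal_mul (by positivity),
            ENNReal.ofReal_pow (by positivity), ← lintegral_indicator
              Metric.isOpen_ball.measurableSet]
          congr 2
          funext y
          rw [hG]
          by_cases hy : y ∈ Metric.ball (0 : E3) s
          · simp [Set.indicator_of_mem hy]
          · simp [Set.indicator_of_notMem hy]
  have e1 : ENNReal.ofReal (∫ x in Metric.ball (0 : E3) r, (wt α x) ^ 2 * (T x) ^ 2)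
      = ∫⁻ x in Metric.ball (0 : E3) r, ‖wt α x * T x‖ₑ ^ 2 := by
    have hi : IntegrableOn (fun x => (wt α x) ^ 2 * (T x) ^ 2) (Metric.ball (0 : E3) r) := by
      have : ContinuousOn (fun x => (wt α x) ^ 2 * (T x) ^ 2) (Metric.closedBall (0 : E3) r) :=
        ((wt_contDiff α).continuous.continuousOn.pow 2).mul (hT.pow 2)
      exact (this.integrableOn_compact (isCompact_closedBall (0 : E3) r)).mono_set
        Metric.ball_subset_closedBall
    rw [ofReal_integral_eq_lintegral_ofReal hi (Eventually.of_forall fun x => by positivity)]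
    congr 1
    funext x
    rw [← mul_pow, ← sq_abs, ENNReal.ofReal_pow (abs_nonneg _), ← Real.norm_eq_abs,
      ofReal_norm]
  have hfi : Integrable (fun x => (f x) ^ 2) := memLp_sq_int hf
  have hi2 : IntegrableOn (fun x => (wt α x) ^ 2 * (f x) ^ 2) (Metric.ball (0 : E3) s) := by
    have hc : ContinuousOn (fun x => (wt α x) ^ 2) (Metric.closedBall (0 : E3) s) :=
      ((wt_contDiff α).continuous.pow 2).continuousOn
    exact (hfi.integrableOn.continuousOn_mul hc (isCompact_closedBall (0 : E3) s)).mono_set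
      Metric.ball_subset_closedBall
  have e2 : ENNReal.ofReal (∫ x in Metric.ball (0 : E3) s, (wt α x) ^ 2 * (f x) ^ 2)
      = ∫⁻ x in Metric.ball (0 : E3) s, ‖wt α x * f x‖ₑ ^ 2 := by
    rw [ofReal_integral_eq_lintegral_ofReal hi2 (Eventually.of_forall fun x => by positivity)]
    congr 1
    funext x
    rw [← mul_pow, ← sq_abs, ENNReal.ofReal_pow (abs_nonneg _), ← Real.norm_eq_abs,
      ofReal_norm]
  rw [← e1, ← e2, ← ENNReal.ofReal_mul (sq_nonneg _)] at hmain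
  have hn : 0 ≤ (Real.exp 1 * L * ∫ z, Kk 0 z) ^ 2 *
        ∫ y in Metric.ball (0 : E3) s, (wt α y) ^ 2 * (f y) ^ 2 := by
    apply mul_nonneg (sq_nonneg _)
    exact setIntegral_nonneg Metric.isOpen_ball.measurableSet fun x _ => by positivity
  exact (ENNReal.ofReal_le_ofReal_iff hn).mp hmain

end ASR

end Vale.Agent.P136
end
end

section

section

open MeasureTheory Filter Topology
open scoped ContDiff InnerProductSpace ENNReal

namespace Vale.Agent.P136

namespace ASR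

lemma cv_int {K f : E3 → ℝ} (hK : Continuous K) (hKc : HasCompactSupport K)
    (hf : LocallyIntegrable f) (x : E3) : Integrable (fun y => K (x - y) * f y) := by
  have h1 : Continuous (fun y => K (x - y)) := hK.comp (continuous_const.sub continuous_id)
  have h2 : HasCompactSupport (fun y => K (x - y)) := sub_cs hKc x
  have := hf.integrable_smul_left_of_hasCompactSupport h1 h2
  simpa using this

lemma cv_contDiff {K f : E3 → ℝ} (hK : ContDiff ℝ ∞ K) (hKc : HasCompactSupport K)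
    (hf : LocallyIntegrable f) : ContDiff ℝ ∞ (cv K f) := by
  rw [cv_eq_conv]
  exact hKc.contDiff_convolution_right _ hf hK

lemma cv_sub {K f g : E3 → ℝ} (hK : Continuous K) (hKc : HasCompactSupport K)
    (hf : LocallyIntegrable f) (hg : LocallyIntegrable g) (x : E3) :
    cv K (fun y => f y - g y) x = cv K f x - cv K g x := by
  unfold cv
  rw [← integral_sub (cv_int hK hKc hf x) (cv_int hK hKc hg x)]
  congr 1
  funext y
  ring

lemma li_mul {c f : E3 → ℝ} (hc : Continuous c) (hf : LocallyIntegrable f) :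
    LocallyIntegrable (fun y => c y * f y) := by
  have := hf.smul_continuous hc
  refine (locallyIntegrable_congr ?_).mp this
  exact Eventually.of_forall fun y => by simp [mul_comm]

lemma sq_intOn {f : E3 → ℝ} (hf : Continuous f) (r : ℝ) :
    IntegrableOn (fun x => (f x) ^ 2) (Metric.ball (0 : E3) r) := cont_intOn (hf.pow 2) r

/-- first order commutator -/
noncomputable def C1 (k : ℕ) (j : Fin 3) (c f : E3 → ℝ) (x : E3) : ℝ :=
  c x * cv (pd j (ker k)) f x - cv (pd j (ker k)) (fun y => c y * f y) x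
    + cv (ker k) (fun y => pd j c y * f y) x

/-- zeroth order commutator -/
noncomputable def C0 (k : ℕ) (c f : E3 → ℝ) (x : E3) : ℝ :=
  c x * cv (ker k) f x - cv (ker k) (fun y => c y * f y) x

lemma C1_cont {k : ℕ} {j : Fin 3} {c f : E3 → ℝ} (hc : ContDiff ℝ ∞ c)
    (hf : LocallyIntegrable f) : Continuous (C1 k j c f) := by
  have h1 := pd_contDiff_infty (ker_contDiff k) j
  have h2 := pd_hasCompactSupport (ker_cs k) j
  have h3 := pd_contDiff_infty hc j
  exact ((hc.continuous.mul (cv_contDiff h1 h2 hf).continuous).sub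
    (cv_contDiff h1 h2 (li_mul hc.continuous hf)).continuous).add
    (cv_contDiff (ker_contDiff k) (ker_cs k) (li_mul h3.continuous hf)).continuous

lemma C0_cont {k : ℕ} {c f : E3 → ℝ} (hc : ContDiff ℝ ∞ c)
    (hf : LocallyIntegrable f) : Continuous (C0 k c f) :=
  (hc.continuous.mul (cv_contDiff (ker_contDiff k) (ker_cs k) hf).continuous).sub
    (cv_contDiff (ker_contDiff k) (ker_cs k) (li_mul hc.continuous hf)).continuous

lemma lip_ball {c : E3 → ℝ} (hc : ContDiff ℝ ∞ c) {s L : ℝ}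
    (hL : ∀ y ∈ Metric.closedBall (0 : E3) s, ‖fderiv ℝ c y‖ ≤ L) {x y : E3}
    (hx : x ∈ Metric.closedBall (0 : E3) s) (hy : y ∈ Metric.closedBall (0 : E3) s) :
    |c x - c y| ≤ L * ‖x - y‖ := by
  have := (convex_closedBall (0 : E3) s).norm_image_sub_le_of_norm_fderiv_le
    (fun z _ => (contDiff_infty_differentiable hc) z) hL hy hx
  simpa [Real.norm_eq_abs] using this

lemma norm_bv (j : Fin 3) : ‖bv j‖ = 1 := by
  unfold bv
  simp

lemma pd_le {c : E3 → ℝ} {j : Fin 3} {y : E3} {L : ℝ} (h : ‖fderiv ℝ c y‖ ≤ L) :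
    |pd j c y| ≤ L := by
  unfold pd
  have := (fderiv ℝ c y).le_opNorm (bv j)
  rw [norm_bv, mul_one, Real.norm_eq_abs] at this
  exact this.trans h

lemma mem_of_near {k : ℕ} {r s : ℝ} (hrs : r + 1 / ((k : ℝ) + 1) ≤ s) {x y : E3}
    (hx : x ∈ Metric.ball (0 : E3) r) (hxy : ‖x - y‖ ≤ 1 / ((k : ℝ) + 1)) :
    x ∈ Metric.closedBall (0 : E3) s ∧ y ∈ Metric.closedBall (0 : E3) s := by
  have hp : (0 : ℝ) < 1 / ((k : ℝ) + 1) := by positivity
  rw [Metric.mem_ball, dist_zero_right] at hx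
  rw [Metric.mem_closedBall, Metric.mem_closedBall, dist_zero_right, dist_zero_right]
  have : ‖y‖ ≤ ‖x‖ + ‖x - y‖ := by
    have := norm_sub_le x (x - y)
    simpa using this
  constructor <;> linarith

lemma C1_bound {k : ℕ} {j : Fin 3} {c f : E3 → ℝ} (hc : ContDiff ℝ ∞ c)
    (hf : LocallyIntegrable f) {r s L : ℝ} (hrs : r + 1 / ((k : ℝ) + 1) ≤ s)
    (hL : ∀ y ∈ Metric.closedBall (0 : E3) s, ‖fderiv ℝ c y‖ ≤ L) :
    ∀ x ∈ Metric.ball (0 : E3) r,
      ‖C1 k j c f x‖ₑ ≤ ∫⁻ y, ENNReal.ofReal L * ‖Kk k (x - y)‖ₑ * ‖f y‖ₑ := by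
  intro x hx
  have h1 := pd_contDiff_infty (ker_contDiff k) j
  have h2 := pd_hasCompactSupport (ker_cs k) j
  have h3 := pd_contDiff_infty hc j
  have i1 := cv_int h1.continuous h2 hf x
  have i2 := cv_int h1.continuous h2 (li_mul hc.continuous hf) x
  have i3 := cv_int (ker_contDiff k).continuous (ker_cs k) (li_mul h3.continuous hf) x
  have e : C1 k j c f x = ∫ y, (pd j (ker k) (x - y) * (c x - c y)
      + ker k (x - y) * pd j c y) * f y := by
    unfold C1 cv
    rw [← integral_const_mul, ← integral_sub (i1.const_mul _) i2, ← integral_add _ i3]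
    · congr 1
      funext y
      ring
    · exact (i1.const_mul _).sub i2
  rw [e]
  refine (enorm_integral_le_lintegral_enorm _).trans ?_
  apply lintegral_mono
  intro y
  simp only
  rw [enorm_mul]
  gcongr
  by_cases hz : 1 / ((k : ℝ) + 1) < ‖x - y‖
  · simp [ker_zero hz, pd_ker_zero hz]
  · rw [not_lt] at hz
    obtain ⟨hxs, hys⟩ := mem_of_near hrs hx hz
    have hL0 : 0 ≤ L := (norm_nonneg _).trans (hL x hxs)
    rw [Real.enorm_of_nonneg (Kk_nonneg k _), ← ENNReal.ofReal_mul hL0,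
      ← ofReal_norm, Real.norm_eq_abs]
    apply ENNReal.ofReal_le_ofReal
    have a1 := lip_ball hc hL hxs hys
    have a2 := pd_le (j := j) (hL y hys)
    calc |pd j (ker k) (x - y) * (c x - c y) + ker k (x - y) * pd j c y|
        ≤ |pd j (ker k) (x - y)| * |c x - c y| + ker k (x - y) * |pd j c y| := by
          refine (abs_add_le _ _).trans ?_
          rw [abs_mul, abs_mul, abs_of_nonneg (ker_nonneg k (x - y))]
      _ ≤ |pd j (ker k) (x - y)| * (L * ‖x - y‖) + ker k (x - y) * L := by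
          have := ker_nonneg k (x - y)
          gcongr
      _ ≤ L * Kk k (x - y) := by
          unfold Kk
          have := Finset.single_le_sum (f := fun i => |pd i (ker k) (x - y)| * ‖x - y‖)
            (fun i _ => mul_nonneg (abs_nonneg _) (norm_nonneg _)) (Finset.mem_univ j)
          have h5 : L * (|pd j (ker k) (x - y)| * ‖x - y‖)
              ≤ L * ∑ i, |pd i (ker k) (x - y)| * ‖x - y‖ := mul_le_mul_of_nonneg_left this hL0
          linarith

lemma C0_bound {k : ℕ} {c f : E3 → ℝ} (hc : ContDiff ℝ ∞ c)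
    (hf : LocallyIntegrable f) {r s L : ℝ} (hrs : r + 1 / ((k : ℝ) + 1) ≤ s)
    (hL : ∀ y ∈ Metric.closedBall (0 : E3) s, ‖fderiv ℝ c y‖ ≤ L) :
    ∀ x ∈ Metric.ball (0 : E3) r,
      ‖C0 k c f x‖ₑ ≤ ∫⁻ y, ENNReal.ofReal L * ‖Kk k (x - y)‖ₑ * ‖f y‖ₑ := by
  intro x hx
  have i1 := cv_int (ker_contDiff k).continuous (ker_cs k) hf x
  have i2 := cv_int (ker_contDiff k).continuous (ker_cs k) (li_mul hc.continuous hf) x
  have e : C0 k c f x = ∫ y, (ker k (x - y) * (c x - c y)) * f y := by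
    unfold C0 cv
    rw [← integral_const_mul, ← integral_sub (i1.const_mul _) i2]
    congr 1
    funext y
    ring
  rw [e]
  refine (enorm_integral_le_lintegral_enorm _).trans ?_
  apply lintegral_mono
  intro y
  simp only
  rw [enorm_mul]
  gcongr
  by_cases hz : 1 / ((k : ℝ) + 1) < ‖x - y‖
  · simp [ker_zero hz]
  · rw [not_lt] at hz
    obtain ⟨hxs, hys⟩ := mem_of_near hrs hx hz
    have hL0 : 0 ≤ L := (norm_nonneg _).trans (hL x hxs)
    rw [Real.enorm_of_nonneg (Kk_nonneg k _), ← ENNReal.ofReal_mul hL0,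
      ← ofReal_norm, Real.norm_eq_abs]
    apply ENNReal.ofReal_le_ofReal
    have a1 := lip_ball hc hL hxs hys
    have h1 : ‖x - y‖ ≤ 1 := by
      refine hz.trans ?_
      rw [div_le_one (by positivity)]
      have : (0:ℝ) ≤ k := by positivity
      linarith
    have kn := ker_nonneg k (x - y)
    calc |ker k (x - y) * (c x - c y)| = ker k (x - y) * |c x - c y| := by
          rw [abs_mul, abs_of_nonneg kn]
      _ ≤ ker k (x - y) * (L * ‖x - y‖) := by gcongr
      _ ≤ ker k (x - y) * (L * 1) := by gcongr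
      _ ≤ L * Kk k (x - y) := by
          unfold Kk
          have : 0 ≤ ∑ i, |pd i (ker k) (x - y)| * ‖x - y‖ :=
            Finset.sum_nonneg fun i _ => mul_nonneg (abs_nonneg _) (norm_nonneg _)
          linarith only [mul_nonneg (sub_nonneg.2 hL0) (sub_nonneg.2 this)]

lemma moll_bound {k : ℕ} {f : E3 → ℝ} (x : E3) :
    ‖moll k f x‖ₑ ≤ ∫⁻ y, ENNReal.ofReal 1 * ‖Kk k (x - y)‖ₑ * ‖f y‖ₑ := by
  unfold moll
  refine (enorm_integral_le_lintegral_enorm _).trans ?_
  apply lintegral_mono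
  intro y
  simp only
  rw [enorm_mul, ENNReal.ofReal_one, one_mul]
  gcongr
  rw [Real.enorm_of_nonneg (Kk_nonneg k _), Real.enorm_of_nonneg (ker_nonneg k _)]
  apply ENNReal.ofReal_le_ofReal
  unfold Kk
  have : 0 ≤ ∑ i, |pd i (ker k) (x - y)| * ‖x - y‖ :=
    Finset.sum_nonneg fun i _ => mul_nonneg (abs_nonneg _) (norm_nonneg _)
  linarith

lemma wt_zero (x : E3) : wt 0 x = 1 := by unfold wt; simp

/-- unweighted version -/
lemma youngU {k : ℕ} {r s : ℝ} {f T : E3 → ℝ} (hf : MemLp f 2) (hrs : r + 1 / ((k : ℝ) + 1) ≤ s)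
    (hT : ContinuousOn T (Metric.closedBall (0 : E3) r)) {L : ℝ} (hL : 0 ≤ L)
    (hb : ∀ x ∈ Metric.ball (0 : E3) r,
      ‖T x‖ₑ ≤ ∫⁻ y, ENNReal.ofReal L * ‖Kk k (x - y)‖ₑ * ‖f y‖ₑ) :
    ∫ x in Metric.ball (0 : E3) r, (T x) ^ 2
      ≤ (Real.exp 1 * L * ∫ z, Kk 0 z) ^ 2 * N2 f := by
  have h := youngW (α := 0) hf (by simp) hrs hT hL hb
  simp only [wt_zero, one_pow, one_mul] at h
  refine h.trans ?_
  apply mul_le_mul_of_nonneg_left _ (sq_nonneg _)
  exact setIntegral_le_integral (memLp_sq_int hf) (Eventually.of_forall fun _ => sq_nonneg _)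

lemma wd_smooth {g : E3 → ℝ} (hg : ContDiff ℝ ∞ g) (i : Fin 3) : WD i g (pd i g) := by
  intro φ h1 h2
  exact ibp (hg.of_le (by norm_cast)) (h1.of_le (by norm_cast)) h2 i

lemma cv_pd_ker {k : ℕ} {j : Fin 3} {g : E3 → ℝ} (hg : ContDiff ℝ ∞ g) (x : E3) :
    cv (pd j (ker k)) g x = moll k (pd j g) x := by
  rw [← moll_pd k hg.continuous.locallyIntegrable (wd_smooth hg j), moll_eq_cv,
    pd_cv (ker_contDiff k) (ker_cs k) hg.continuous.locallyIntegrable]

/-- convergence on test functions. -/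
lemma C1_test {j : Fin 3} {c g : E3 → ℝ} (hc : ContDiff ℝ ∞ c) (hg : ContDiff ℝ ∞ g)
    (hgc : HasCompactSupport g) (r : ℝ) :
    Tendsto (fun k => ∫ x in Metric.ball (0 : E3) r, (C1 k j c g x) ^ 2) atTop (𝓝 0) := by
  obtain ⟨M, hM⟩ : ∃ M : ℝ, ∀ x ∈ Metric.closedBall (0 : E3) r, |c x| ≤ M :=
    (isCompact_closedBall (0 : E3) r).exists_bound_of_continuousOn hc.continuous.continuousOn
  have hj := pd_contDiff_infty hc j
  have hgj := pd_contDiff_infty hg j
  have hcg : ContDiff ℝ ∞ (fun y => c y * g y) := hc.mul hg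
  have hcgc : HasCompactSupport (fun y => c y * g y) := hgc.mul_left
  have m1 : MemLp (pd j g) 2 := hgj.continuous.memLp_of_hasCompactSupport
    (pd_hasCompactSupport hgc j)
  have m2 : MemLp (pd j (fun y => c y * g y)) 2 :=
    (pd_contDiff_infty hcg j).continuous.memLp_of_hasCompactSupport (pd_hasCompactSupport hcgc j)
  have m3 : MemLp (fun y => pd j c y * g y) 2 :=
    (hj.continuous.mul hg.continuous).memLp_of_hasCompactSupport hgc.mul_left
  have t1 := moll_N2_tendsto m1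
  have t2 := moll_N2_tendsto m2
  have t3 := moll_N2_tendsto m3
  have tt : Tendsto (fun k => 3 * (M ^ 2 * N2 (fun x => moll k (pd j g) x - pd j g x)
      + N2 (fun x => moll k (pd j (fun y => c y * g y)) x - pd j (fun y => c y * g y) x)
      + N2 (fun x => moll k (fun y => pd j c y * g y) x - pd j c x * g x))) atTop (𝓝 0) := by
    have := (((t1.const_mul (M ^ 2)).add t2).add t3).const_mul 3
    simpa using this
  refine squeeze_zero (fun k => setIntegral_nonneg Metric.isOpen_ball.measurableSet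
    fun x _ => sq_nonneg _) (fun k => ?_) tt
  have e : ∀ x, C1 k j c g x = c x * (moll k (pd j g) x - pd j g x)
      + (-(moll k (pd j (fun y => c y * g y)) x - pd j (fun y => c y * g y) x))
      + (moll k (fun y => pd j c y * g y) x - pd j c x * g x) := by
    intro x
    unfold C1
    rw [cv_pd_ker hg, cv_pd_ker hcg, ← moll_eq_cv,
      pd_mul (contDiff_infty_differentiable hc x) (contDiff_infty_differentiable hg x)]
    ring
  have s1 := memLp_sq_int (memLp_sub' (moll_memLp k m1) m1)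
  have s2 := memLp_sq_int (memLp_sub' (moll_memLp k m2) m2)
  have s3 := memLp_sq_int (memLp_sub' (moll_memLp k m3) m3)
  calc ∫ x in Metric.ball (0 : E3) r, (C1 k j c g x) ^ 2
      ≤ ∫ x in Metric.ball (0 : E3) r, 3 * (M ^ 2 * (moll k (pd j g) x - pd j g x) ^ 2
        + (moll k (pd j (fun y => c y * g y)) x - pd j (fun y => c y * g y) x) ^ 2
        + (moll k (fun y => pd j c y * g y) x - pd j c x * g x) ^ 2) := by
        apply setIntegral_mono_on
          (sq_intOn (C1_cont hc hg.continuous.locallyIntegrable) r) _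
          Metric.isOpen_ball.measurableSet
        · intro x hx
          rw [e]
          refine (sq3 _ _ _).trans ?_
          have h1 : (c x) ^ 2 ≤ M ^ 2 := by
            rw [← sq_abs]
            exact pow_le_pow_left₀ (abs_nonneg _) (hM x (Metric.ball_subset_closedBall hx)) 2
          have := mul_le_mul_of_nonneg_right h1 (sq_nonneg (moll k (pd j g) x - pd j g x))
          rw [mul_pow, neg_sq]
          linarith
        · exact ((((s1.const_mul _).add s2).add s3).const_mul 3).integrableOn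
    _ ≤ ∫ x, 3 * (M ^ 2 * (moll k (pd j g) x - pd j g x) ^ 2
        + (moll k (pd j (fun y => c y * g y)) x - pd j (fun y => c y * g y) x) ^ 2
        + (moll k (fun y => pd j c y * g y) x - pd j c x * g x) ^ 2) := by
        have S : Integrable (fun x => 3 * (M ^ 2 * (moll k (pd j g) x - pd j g x) ^ 2
          + (moll k (pd j (fun y => c y * g y)) x - pd j (fun y => c y * g y) x) ^ 2
          + (moll k (fun y => pd j c y * g y) x - pd j c x * g x) ^ 2)) :=
          (((s1.const_mul _).add s2).add s3).const_mul 3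
        apply setIntegral_le_integral S
        exact Eventually.of_forall fun x => by
          simp only [Pi.zero_apply]
          (clear * -; positivity)
    _ = _ := by
        have s12 : Integrable (fun x => M ^ 2 * (moll k (pd j g) x - pd j g x) ^ 2
          + (moll k (pd j (fun y => c y * g y)) x - pd j (fun y => c y * g y) x) ^ 2) :=
          (s1.const_mul _).add s2
        rw [integral_const_mul, integral_add s12 s3, integral_add (s1.const_mul _) s2,
          integral_const_mul]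
        rfl

lemma C0_test {c g : E3 → ℝ} (hc : ContDiff ℝ ∞ c) (hg : ContDiff ℝ ∞ g)
    (hgc : HasCompactSupport g) (r : ℝ) :
    Tendsto (fun k => ∫ x in Metric.ball (0 : E3) r, (C0 k c g x) ^ 2) atTop (𝓝 0) := by
  obtain ⟨M, hM⟩ : ∃ M : ℝ, ∀ x ∈ Metric.closedBall (0 : E3) r, |c x| ≤ M :=
    (isCompact_closedBall (0 : E3) r).exists_bound_of_continuousOn hc.continuous.continuousOn
  have m1 : MemLp g 2 := hg.continuous.memLp_of_hasCompactSupport hgc
  have m2 : MemLp (fun y => c y * g y) 2 :=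
    (hc.continuous.mul hg.continuous).memLp_of_hasCompactSupport hgc.mul_left
  have t1 := moll_N2_tendsto m1
  have t2 := moll_N2_tendsto m2
  have tt : Tendsto (fun k => 3 * (M ^ 2 * N2 (fun x => moll k g x - g x)
      + N2 (fun x => moll k (fun y => c y * g y) x - c x * g x))) atTop (𝓝 0) := by
    have := ((t1.const_mul (M ^ 2)).add t2).const_mul 3
    simpa using this
  refine squeeze_zero (fun k => setIntegral_nonneg Metric.isOpen_ball.measurableSet
    fun x _ => sq_nonneg _) (fun k => ?_) tt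
  have e : ∀ x, C0 k c g x = c x * (moll k g x - g x)
      + (-(moll k (fun y => c y * g y) x - c x * g x)) + 0 := by
    intro x
    unfold C0
    rw [← moll_eq_cv, ← moll_eq_cv]
    ring
  have s1 := memLp_sq_int (memLp_sub' (moll_memLp k m1) m1)
  have s2 := memLp_sq_int (memLp_sub' (moll_memLp k m2) m2)
  calc ∫ x in Metric.ball (0 : E3) r, (C0 k c g x) ^ 2
      ≤ ∫ x in Metric.ball (0 : E3) r, 3 * (M ^ 2 * (moll k g x - g x) ^ 2
        + (moll k (fun y => c y * g y) x - c x * g x) ^ 2) := by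
        apply setIntegral_mono_on
          (sq_intOn (C0_cont hc hg.continuous.locallyIntegrable) r) _
          Metric.isOpen_ball.measurableSet
        · intro x hx
          rw [e]
          refine (sq3 _ _ _).trans ?_
          have h1 : (c x) ^ 2 ≤ M ^ 2 := by
            rw [← sq_abs]
            exact pow_le_pow_left₀ (abs_nonneg _) (hM x (Metric.ball_subset_closedBall hx)) 2
          have := mul_le_mul_of_nonneg_right h1 (sq_nonneg (moll k g x - g x))
          rw [mul_pow, neg_sq]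
          linarith
        · exact (((s1.const_mul _).add s2).const_mul 3).integrableOn
    _ ≤ ∫ x, 3 * (M ^ 2 * (moll k g x - g x) ^ 2
        + (moll k (fun y => c y * g y) x - c x * g x) ^ 2) := by
        have S : Integrable (fun x => 3 * (M ^ 2 * (moll k g x - g x) ^ 2
          + (moll k (fun y => c y * g y) x - c x * g x) ^ 2)) :=
          ((s1.const_mul _).add s2).const_mul 3
        apply setIntegral_le_integral S
        exact Eventually.of_forall fun x => by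
          simp only [Pi.zero_apply]
          (clear * -; positivity)
    _ = _ := by
        rw [integral_const_mul, integral_add (s1.const_mul _) s2, integral_const_mul]
        rfl

lemma exists_L {c : E3 → ℝ} (hc : ContDiff ℝ ∞ c) (s : ℝ) :
    ∃ L : ℝ, 0 ≤ L ∧ ∀ y ∈ Metric.closedBall (0 : E3) s, ‖fderiv ℝ c y‖ ≤ L := by
  have h1 : Continuous (fderiv ℝ c) := hc.continuous_fderiv (by simp)
  obtain ⟨L, hL⟩ := (isCompact_closedBall (0 : E3) s).exists_bound_of_continuousOn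
    h1.continuousOn
  exact ⟨max L 0, le_max_right _ _, fun y hy => (hL y hy).trans (le_max_left _ _)⟩

/-- density argument, abstract form. -/
lemma tendsto_of_dense {T : ℕ → (E3 → ℝ) → E3 → ℝ} {r C : ℝ} (hC : 0 ≤ C) {k₀ : ℕ}
    (hcont : ∀ k f, LocallyIntegrable f → Continuous (T k f))
    (hlin : ∀ k f g, LocallyIntegrable f → LocallyIntegrable g → ∀ x,
      T k (fun y => f y - g y) x = T k f x - T k g x)
    (hbd : ∀ k ≥ k₀, ∀ f, MemLp f 2 → ∫ x in Metric.ball (0 : E3) r, (T k f x) ^ 2 ≤ C * N2 f)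
    (htest : ∀ g, ContDiff ℝ ∞ g → HasCompactSupport g →
      Tendsto (fun k => ∫ x in Metric.ball (0 : E3) r, (T k g x) ^ 2) atTop (𝓝 0))
    {f : E3 → ℝ} (hf : MemLp f 2) :
    Tendsto (fun k => ∫ x in Metric.ball (0 : E3) r, (T k f x) ^ 2) atTop (𝓝 0) := by
  rw [Metric.tendsto_atTop]
  intro ε hε
  obtain ⟨δ, hδ, hδ2⟩ : ∃ δ : ℝ, 0 < δ ∧ 2 * (C * δ ^ 2) < ε / 2 := by
    refine ⟨min 1 (ε / (8 * (C + 1))), by positivity, ?_⟩
    set δ := min 1 (ε / (8 * (C + 1))) with hd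
    have d0 : 0 < δ := by positivity
    have d1 : δ ≤ 1 := min_le_left _ _
    have d2 : δ ≤ ε / (8 * (C + 1)) := min_le_right _ _
    rw [le_div_iff₀ (by positivity)] at d2
    have : δ ^ 2 ≤ δ := by (by_contra nlg; linarith only [nlg, mul_nonneg (le_of_lt (sub_pos.2 d0)) (sub_nonneg.2 d1), mul_nonneg (le_of_lt (sub_pos.2 (not_le.1 nlg))) (sub_nonneg.2 d1), mul_pos (sub_pos.2 (not_le.1 nlg)) (sub_pos.2 d0)])
    have : C * δ ^ 2 ≤ C * δ := mul_le_mul_of_nonneg_left this hC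
    linarith only [this, d2, d0, hε]
  obtain ⟨g, hgc, hgs, hg⟩ := hf.exist_eLpNorm_sub_le (by norm_num) (by norm_num) hδ
  have hgm : MemLp g 2 := hgs.continuous.memLp_of_hasCompactSupport hgc
  have hfg : MemLp (fun y => f y - g y) 2 := memLp_sub' hf hgm
  have hN : N2 (fun y => f y - g y) ≤ δ ^ 2 := by
    have h1 := N2_eq hfg
    have h2 : (eLpNorm (fun y => f y - g y) 2 volume) ^ 2 ≤ ENNReal.ofReal (δ ^ 2) := by
      rw [ENNReal.ofReal_pow hδ.le]
      gcongr
      exact hg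
    rw [← h1] at h2
    exact (ENNReal.ofReal_le_ofReal_iff (sq_nonneg _)).mp h2
  have ht := htest g hgs hgc
  rw [Metric.tendsto_atTop] at ht
  obtain ⟨k₁, hk₁⟩ := ht (ε / 4) (by positivity)
  refine ⟨max k₀ k₁, fun k hk => ?_⟩
  have hlf := hf.locallyIntegrable (by norm_num : (1 : ℝ≥0∞) ≤ 2)
  have hlg := hgm.locallyIntegrable (by norm_num : (1 : ℝ≥0∞) ≤ 2)
  have hlfg := hfg.locallyIntegrable (by norm_num : (1 : ℝ≥0∞) ≤ 2)
  have n0 : 0 ≤ ∫ x in Metric.ball (0 : E3) r, (T k f x) ^ 2 :=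
    setIntegral_nonneg Metric.isOpen_ball.measurableSet fun x _ => sq_nonneg _
  have n1 : 0 ≤ ∫ x in Metric.ball (0 : E3) r, (T k g x) ^ 2 :=
    setIntegral_nonneg Metric.isOpen_ball.measurableSet fun x _ => sq_nonneg _
  have hk1 := hk₁ k (le_of_max_le_right hk)
  rw [Real.dist_eq, sub_zero, abs_of_nonneg n1] at hk1
  rw [Real.dist_eq, sub_zero, abs_of_nonneg n0]
  have hb := hbd k (le_of_max_le_left hk) _ hfg
  have c1 := sq_intOn (hcont k g hlg) r
  have c2 := sq_intOn (hcont k _ hlfg) r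
  calc ∫ x in Metric.ball (0 : E3) r, (T k f x) ^ 2
      ≤ ∫ x in Metric.ball (0 : E3) r,
          (2 * (T k g x) ^ 2 + 2 * (T k (fun y => f y - g y) x) ^ 2) := by
        apply setIntegral_mono_on (sq_intOn (hcont k f hlf) r)
          ((c1.const_mul 2).add (c2.const_mul 2)) Metric.isOpen_ball.measurableSet
        intro x _
        simp only [Pi.add_apply]
        rw [hlin k f g hlf hlg x]
        linarith only [sq_nonneg (T k g x - (T k f x - T k g x))]
    _ = 2 * (∫ x in Metric.ball (0 : E3) r, (T k g x) ^ 2)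
        + 2 * ∫ x in Metric.ball (0 : E3) r, (T k (fun y => f y - g y) x) ^ 2 := by
        rw [integral_add (c1.const_mul 2) (c2.const_mul 2), integral_const_mul,
          integral_const_mul]
    _ < ε := by
        have : C * N2 (fun y => f y - g y) ≤ C * δ ^ 2 := mul_le_mul_of_nonneg_left hN hC
        linarith

lemma C1_lin {k : ℕ} {j : Fin 3} {c : E3 → ℝ} (hc : ContDiff ℝ ∞ c) {f g : E3 → ℝ}
    (hf : LocallyIntegrable f) (hg : LocallyIntegrable g) (x : E3) :
    C1 k j c (fun y => f y - g y) x = C1 k j c f x - C1 k j c g x := by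
  have h1 := pd_contDiff_infty (ker_contDiff k) j
  have h2 := pd_hasCompactSupport (ker_cs k) j
  have h3 := pd_contDiff_infty hc j
  unfold C1
  rw [cv_sub h1.continuous h2 hf hg]
  have e1 : (fun y => c y * (f y - g y)) = fun y => c y * f y - c y * g y := by
    funext y; ring
  have e2 : (fun y => pd j c y * (f y - g y)) = fun y => pd j c y * f y - pd j c y * g y := by
    funext y; ring
  rw [e1, e2, cv_sub h1.continuous h2 (li_mul hc.continuous hf) (li_mul hc.continuous hg),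
    cv_sub (ker_contDiff k).continuous (ker_cs k) (li_mul h3.continuous hf)
      (li_mul h3.continuous hg)]
  ring

lemma C0_lin {k : ℕ} {c : E3 → ℝ} (hc : ContDiff ℝ ∞ c) {f g : E3 → ℝ}
    (hf : LocallyIntegrable f) (hg : LocallyIntegrable g) (x : E3) :
    C0 k c (fun y => f y - g y) x = C0 k c f x - C0 k c g x := by
  unfold C0
  rw [cv_sub (ker_contDiff k).continuous (ker_cs k) hf hg]
  have e1 : (fun y => c y * (f y - g y)) = fun y => c y * f y - c y * g y := by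
    funext y; ring
  rw [e1, cv_sub (ker_contDiff k).continuous (ker_cs k) (li_mul hc.continuous hf)
    (li_mul hc.continuous hg)]
  ring

lemma C1_tendsto {j : Fin 3} {c f : E3 → ℝ} (hc : ContDiff ℝ ∞ c) (hf : MemLp f 2) (r : ℝ) :
    Tendsto (fun k => ∫ x in Metric.ball (0 : E3) r, (C1 k j c f x) ^ 2) atTop (𝓝 0) := by
  obtain ⟨L, hL0, hL⟩ := exists_L hc (r + 1)
  have hk1 : ∀ k : ℕ, r + 1 / ((k : ℝ) + 1) ≤ r + 1 := by
    intro k
    have : 1 / ((k : ℝ) + 1) ≤ 1 := by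
      rw [div_le_one (by positivity)]
      have : (0:ℝ) ≤ k := by positivity
      linarith
    linarith
  exact tendsto_of_dense (T := fun k f => C1 k j c f) (k₀ := 0)
    (C := (Real.exp 1 * L * ∫ z, Kk 0 z) ^ 2) (sq_nonneg _)
    (fun k f hf => C1_cont hc hf) (fun k f g hf hg x => C1_lin hc hf hg x)
    (fun k _ f hf => youngU hf (hk1 k)
      (C1_cont hc (hf.locallyIntegrable (by norm_num))).continuousOn hL0
      (C1_bound hc (hf.locallyIntegrable (by norm_num)) (hk1 k) hL))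
    (fun g hg hgc => C1_test hc hg hgc r) hf

lemma C0_tendsto {c f : E3 → ℝ} (hc : ContDiff ℝ ∞ c) (hf : MemLp f 2) (r : ℝ) :
    Tendsto (fun k => ∫ x in Metric.ball (0 : E3) r, (C0 k c f x) ^ 2) atTop (𝓝 0) := by
  obtain ⟨L, hL0, hL⟩ := exists_L hc (r + 1)
  have hk1 : ∀ k : ℕ, r + 1 / ((k : ℝ) + 1) ≤ r + 1 := by
    intro k
    have : 1 / ((k : ℝ) + 1) ≤ 1 := by
      rw [div_le_one (by positivity)]
      have : (0:ℝ) ≤ k := by positivity
      linarith
    linarith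
  exact tendsto_of_dense (T := fun k f => C0 k c f) (k₀ := 0)
    (C := (Real.exp 1 * L * ∫ z, Kk 0 z) ^ 2) (sq_nonneg _)
    (fun k f hf => C0_cont hc hf) (fun k f g hf hg x => C0_lin hc hf hg x)
    (fun k _ f hf => youngU hf (hk1 k)
      (C0_cont hc (hf.locallyIntegrable (by norm_num))).continuousOn hL0
      (C0_bound hc (hf.locallyIntegrable (by norm_num)) (hk1 k) hL))
    (fun g hg hgc => C0_test hc hg hgc r) hf

end ASR

end Vale.Agent.P136
end
end

section

section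

open MeasureTheory Filter Topology
open scoped ContDiff InnerProductSpace ENNReal

namespace Vale.Agent.P136

namespace ASR

lemma setInt_mono {f g : E3 → ℝ} {s : Set E3} (hs : MeasurableSet s) (h0 : ∀ x ∈ s, 0 ≤ f x)
    (hg : IntegrableOn g s) (h : ∀ x ∈ s, f x ≤ g x) : ∫ x in s, f x ≤ ∫ x in s, g x := by
  apply integral_mono_of_nonneg _ hg
  · exact (ae_restrict_iff' hs).mpr (Eventually.of_forall h)
  · exact (ae_restrict_iff' hs).mpr (Eventually.of_forall h0)

lemma sub_sq_intOn {a b : E3 → ℝ} (ha : Continuous a) (hb : MemLp b 2) (r : ℝ) :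
    IntegrableOn (fun x => (a x - b x) ^ 2) (Metric.ball (0 : E3) r) := by
  have h1 : IntegrableOn (fun x => (a x) ^ 2) (Metric.ball (0 : E3) r) := sq_intOn ha r
  have h2 : IntegrableOn (fun x => (b x) ^ 2) (Metric.ball (0 : E3) r) :=
    (memLp_sq_int hb).integrableOn
  have h3 : IntegrableOn (fun x => a x * b x) (Metric.ball (0 : E3) r) := by
    have hb1 : IntegrableOn b (Metric.closedBall (0 : E3) r) :=
      (hb.locallyIntegrable (by norm_num)).integrableOn_isCompact (isCompact_closedBall _ _)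
    exact (hb1.continuousOn_mul ha.continuousOn (isCompact_closedBall (0 : E3) r)).mono_set
      Metric.ball_subset_closedBall
  have e : (fun x => (a x - b x) ^ 2) = fun x => (a x) ^ 2 - 2 * (a x * b x) + (b x) ^ 2 := by
    funext x; ring
  rw [e]
  exact (h1.sub (h3.const_mul 2)).add h2

variable {n : ℕ} {A : Fin 3 → Fin n → Fin n → E3 → ℝ} {B : Fin n → Fin n → E3 → ℝ}

/-- total commutator -/
noncomputable def Ek (A : Fin 3 → Fin n → Fin n → E3 → ℝ) (B : Fin n → Fin n → E3 → ℝ)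
    (Ψ : Fin n → E3 → ℝ) (m : ℕ) (a : Fin n) (x : E3) : ℝ :=
  (∑ j, ∑ b, C1 m j (A j a b) (Ψ b) x) + ∑ b, C0 m (B a b) (Ψ b) x

lemma int_test_mul {f K : E3 → ℝ} (hf : LocallyIntegrable f) (hK : Continuous K)
    (hKc : HasCompactSupport K) : Integrable (fun y => f y * K y) := by
  have := hf.integrable_smul_left_of_hasCompactSupport hK hKc
  refine (integrable_congr ?_).mp this
  exact Eventually.of_forall fun y => by simp [mul_comm]

lemma pd_zero_fun (i : Fin 3) (x : E3) : pd i (fun _ : E3 => (0 : ℝ)) x = 0 := by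
  unfold pd; simp

lemma lap_zero_fun (x : E3) : lap (fun _ : E3 => (0 : ℝ)) x = 0 := by
  unfold lap
  apply Finset.sum_eq_zero
  intro i _
  have e : pd i (fun _ : E3 => (0 : ℝ)) = fun _ => 0 := funext fun x => pd_zero_fun i x
  rw [e, pd_zero_fun]

lemma sysP_moll (hA : ∀ j a b, ContDiff ℝ ∞ (A j a b)) (hB : ∀ a b, ContDiff ℝ ∞ (B a b))
    {R : ℝ} {F Ψ : Fin n → E3 → ℝ}
    (hΨ : ∀ a, LocallyIntegrable (Ψ a))
    (hw : ∀ φ : Fin n → E3 → ℝ, (∀ a, IsTest (Metric.ball (0 : E3) (2 * R)) (φ a)) →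
          ∑ a, ∫ x, Ψ a x * adjP A B φ a x = ∑ a, ∫ x, F a x * φ a x)
    {m : ℕ} (hm : 1 / ((m : ℝ) + 1) ≤ R / 2) {x : E3} (hx : x ∈ Metric.ball (0 : E3) (3 * R / 2))
    (a : Fin n) :
    sysP A B (fun b => moll m (Ψ b)) a x = moll m (F a) x + Ek A B Ψ m a x := by
  classical
  set κ : E3 → ℝ := fun y => ker m (x - y) with hκ
  have κs : ContDiff ℝ ∞ κ := sub_cd (ker_contDiff m) x
  have κc : HasCompactSupport κ := sub_cs (ker_cs m) x
  have κt : tsupport κ ⊆ Metric.ball (0 : E3) (2 * R) := by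
    have h1 : tsupport κ ⊆ Metric.closedBall x (1 / ((m : ℝ) + 1)) := by
      apply closure_minimal _ Metric.isClosed_closedBall
      intro y hy
      rw [Function.mem_support] at hy
      by_contra hne
      apply hy
      rw [Metric.mem_closedBall, not_le, dist_eq_norm, norm_sub_rev] at hne
      exact ker_zero hne
    refine h1.trans ?_
    intro y hy
    rw [Metric.mem_closedBall, dist_eq_norm] at hy
    rw [Metric.mem_ball, dist_zero_right] at hx ⊢
    have : ‖y‖ ≤ ‖x‖ + ‖y - x‖ := by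
      have := norm_add_le x (y - x)
      simpa using this
    linarith only [this, hy, hx, hm]
  set φ : Fin n → E3 → ℝ := fun b => if b = a then κ else fun _ => 0 with hφ
  have φa : φ a = κ := by simp [hφ]
  have φb : ∀ b, b ≠ a → φ b = fun _ => 0 := by
    intro b hb
    simp [hφ, hb]
  have hφt : ∀ b, IsTest (Metric.ball (0 : E3) (2 * R)) (φ b) := by
    intro b
    by_cases hb : b = a
    · subst hb
      rw [φa]
      exact ⟨κs, κc, κt⟩
    · rw [φb b hb]
      refine ⟨contDiff_const, HasCompactSupport.zero, ?_⟩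
      simp [tsupport, Function.support]
  have h := hw φ hφt
  -- right side
  have hr : ∑ b, ∫ y, F b y * φ b y = moll m (F a) x := by
    rw [Finset.sum_eq_single a]
    · rw [φa]
      unfold moll
      congr 1
      funext y
      rw [hκ]
      ring
    · intro b _ hb
      rw [φb b hb]
      simp
    · simp
  -- adjoint
  have hadj : ∀ c y, adjP A B φ c y = (if c = a then lap κ y else 0)
      - (∑ j, pd j (fun z => A j a c z * κ z) y) + B a c y * κ y := by
    intro c y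
    unfold adjP
    congr 1
    · congr 1
      · by_cases hc : c = a
        · subst hc
          simp [φa]
        · rw [φb c hc, lap_zero_fun]
          simp [hc]
      · apply Finset.sum_congr rfl
        intro j _
        rw [Finset.sum_eq_single a]
        · rw [φa]
        · intro b _ hb
          rw [φb b hb]
          simp only [mul_zero]
          exact pd_zero_fun j y
        · simp
    · rw [Finset.sum_eq_single a]
      · rw [φa]
      · intro b _ hb
        rw [φb b hb]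
        simp
      · simp
  have hpd : ∀ (j : Fin 3) (c : Fin n) (y : E3), pd j (fun z => A j a c z * κ z) y
      = pd j (A j a c) y * ker m (x - y) - A j a c y * pd j (ker m) (x - y) := by
    intro j c y
    rw [pd_mul (contDiff_infty_differentiable (hA j a c) y) (contDiff_infty_differentiable κs y),
      pd_sub_left (ker_contDiff m)]
    ring
  have i0 : ∀ c, Integrable (fun y => Ψ c y * (if c = a then lap κ y else 0)) := by
    intro c
    by_cases hc : c = a
    · simp only [hc, if_true]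
      exact int_test_mul (hΨ a) (lap_contDiff κs).continuous (lap_hasCompactSupport κc)
    · simp [hc]
  have i1 : ∀ c j, Integrable (fun y => Ψ c y * pd j (fun z => A j a c z * κ z) y) := by
    intro c j
    exact int_test_mul (hΨ c) (pd_contDiff_infty ((hA j a c).mul κs) j).continuous
      (pd_hasCompactSupport κc.mul_left j)
  have i2 : ∀ c, Integrable (fun y => Ψ c y * (B a c y * κ y)) := by
    intro c
    exact int_test_mul (hΨ c) ((hB a c).continuous.mul κs.continuous) κc.mul_left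
  have hpk := pd_contDiff_infty (ker_contDiff m)
  have hpkc := pd_hasCompactSupport (ker_cs m)
  have hl : ∑ c, ∫ y, Ψ c y * adjP A B φ c y = lap (moll m (Ψ a)) x
      - (∑ c, ∑ j, (cv (ker m) (fun y => pd j (A j a c) y * Ψ c y) x
        - cv (pd j (ker m)) (fun y => A j a c y * Ψ c y) x))
      + ∑ c, cv (ker m) (fun y => B a c y * Ψ c y) x := by
    have e1 : ∀ c, ∫ y, Ψ c y * adjP A B φ c y
        = (if c = a then lap (moll m (Ψ a)) x else 0)
          - (∑ j, (cv (ker m) (fun y => pd j (A j a c) y * Ψ c y) x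
            - cv (pd j (ker m)) (fun y => A j a c y * Ψ c y) x))
          + cv (ker m) (fun y => B a c y * Ψ c y) x := by
      intro c
      have e2 : ∀ y, Ψ c y * adjP A B φ c y = Ψ c y * (if c = a then lap κ y else 0)
          - (∑ j, Ψ c y * pd j (fun z => A j a c z * κ z) y) + Ψ c y * (B a c y * κ y) := by
        intro y
        rw [hadj, ← Finset.mul_sum]
        ring
      simp_rw [e2]
      have i3 : Integrable (fun y => ∑ j, Ψ c y * pd j (fun z => A j a c z * κ z) y) :=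
        integrable_finsetSum _ fun j _ => i1 c j
      have i4 : Integrable (fun y => Ψ c y * (if c = a then lap κ y else 0)
          - ∑ j, Ψ c y * pd j (fun z => A j a c z * κ z) y) := (i0 c).sub i3
      rw [integral_add i4 (i2 c), integral_sub (i0 c) i3,
        integral_finsetSum _ fun j _ => i1 c j]
      congr 1
      · congr 1
        · by_cases hc : c = a
          · subst hc
            simp only [if_true]
            rw [lap_moll (hΨ c)]
            congr 1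
            funext y
            rw [hκ, lap_sub_left (ker_contDiff m)]
            ring
          · simp [hc]
        · apply Finset.sum_congr rfl
          intro j _
          unfold cv
          rw [← integral_sub]
          · congr 1
            funext y
            rw [hpd]
            ring
          · exact cv_int (ker_contDiff m).continuous (ker_cs m)
              (li_mul (pd_contDiff_infty (hA j a c) j).continuous (hΨ c)) x
          · exact cv_int (hpk j).continuous (hpkc j) (li_mul (hA j a c).continuous (hΨ c)) x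
      · unfold cv
        congr 1
        funext y
        rw [hκ]
        ring
    simp_rw [e1]
    rw [Finset.sum_add_distrib, Finset.sum_sub_distrib]
    congr 2
    rw [Finset.sum_eq_single a]
    · simp
    · intro b _ hb
      simp [hb]
    · simp
  rw [hr, hl] at h
  have hpm : ∀ j b, pd j (moll m (Ψ b)) x = cv (pd j (ker m)) (Ψ b) x := by
    intro j b
    rw [moll_eq_cv, pd_cv (ker_contDiff m) (ker_cs m) (hΨ b)]
  unfold sysP Ek C1 C0
  simp_rw [hpm]
  have hmc : ∀ b, moll m (Ψ b) x = cv (ker m) (Ψ b) x := fun b => rfl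
  simp_rw [hmc]
  have h' : lap (moll m (Ψ a)) x = moll m (F a) x
      + (∑ c, ∑ j, (cv (ker m) (fun y => pd j (A j a c) y * Ψ c y) x
        - cv (pd j (ker m)) (fun y => A j a c y * Ψ c y) x))
      - ∑ c, cv (ker m) (fun y => B a c y * Ψ c y) x := by linarith
  rw [h', Finset.sum_comm]
  simp only [Finset.sum_add_distrib, Finset.sum_sub_distrib]
  ring

lemma Ek_sq (Ψ : Fin n → E3 → ℝ) (m : ℕ) (a : Fin n) (x : E3) :
    (Ek A B Ψ m a x) ^ 2 ≤ 6 * n * (∑ j, ∑ b, (C1 m j (A j a b) (Ψ b) x) ^ 2)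
      + 2 * n * ∑ b, (C0 m (B a b) (Ψ b) x) ^ 2 := by
  unfold Ek
  have h1 : (∑ j, ∑ b, C1 m j (A j a b) (Ψ b) x) ^ 2
      ≤ 3 * ∑ j, (n * ∑ b, (C1 m j (A j a b) (Ψ b) x) ^ 2) := by
    calc (∑ j, ∑ b, C1 m j (A j a b) (Ψ b) x) ^ 2
        ≤ 3 * ∑ j, (∑ b, C1 m j (A j a b) (Ψ b) x) ^ 2 := by
          have := sq_sum_le_card_mul_sum_sq (s := (Finset.univ : Finset (Fin 3)))
            (f := fun j => ∑ b, C1 m j (A j a b) (Ψ b) x)
          simpa using this
      _ ≤ _ := by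
          gcongr with j _
          have := sq_sum_le_card_mul_sum_sq (s := (Finset.univ : Finset (Fin n)))
            (f := fun b => C1 m j (A j a b) (Ψ b) x)
          simpa using this
  have h2 : (∑ b, C0 m (B a b) (Ψ b) x) ^ 2 ≤ n * ∑ b, (C0 m (B a b) (Ψ b) x) ^ 2 := by
    have := sq_sum_le_card_mul_sum_sq (s := (Finset.univ : Finset (Fin n)))
      (f := fun b => C0 m (B a b) (Ψ b) x)
    simpa using this
  rw [← Finset.mul_sum] at h1
  linarith only [sq_nonneg ((∑ j, ∑ b, C1 m j (A j a b) (Ψ b) x) - ∑ b, C0 m (B a b) (Ψ b) x), h2, h1]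

lemma Ek_cont (hA : ∀ j a b, ContDiff ℝ ∞ (A j a b)) (hB : ∀ a b, ContDiff ℝ ∞ (B a b))
    {Ψ : Fin n → E3 → ℝ} (hΨ : ∀ a, LocallyIntegrable (Ψ a)) (m : ℕ) (a : Fin n) :
    Continuous (Ek A B Ψ m a) := by
  unfold Ek
  exact (continuous_finsetSum _ fun j _ => continuous_finsetSum _ fun b _ =>
    C1_cont (hA j a b) (hΨ b)).add (continuous_finsetSum _ fun b _ => C0_cont (hB a b) (hΨ b))

/-- integral form of `Ek_sq` with a continuous nonnegative weight. -/
lemma Ek_int (hA : ∀ j a b, ContDiff ℝ ∞ (A j a b)) (hB : ∀ a b, ContDiff ℝ ∞ (B a b))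
    {Ψ : Fin n → E3 → ℝ} (hΨ : ∀ a, LocallyIntegrable (Ψ a)) (m : ℕ) (a : Fin n) {w : E3 → ℝ}
    (hw : Continuous w) (r : ℝ) :
    ∫ x in Metric.ball (0 : E3) r, (w x) ^ 2 * (Ek A B Ψ m a x) ^ 2
      ≤ 6 * n * (∑ j, ∑ b, ∫ x in Metric.ball (0 : E3) r,
          (w x) ^ 2 * (C1 m j (A j a b) (Ψ b) x) ^ 2)
        + 2 * n * ∑ b, ∫ x in Metric.ball (0 : E3) r, (w x) ^ 2 * (C0 m (B a b) (Ψ b) x) ^ 2 := by
  have i1 : ∀ j b, IntegrableOn (fun x => (w x) ^ 2 * (C1 m j (A j a b) (Ψ b) x) ^ 2)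
      (Metric.ball (0 : E3) r) := fun j b =>
    cont_intOn ((hw.pow 2).mul ((C1_cont (hA j a b) (hΨ b)).pow 2)) r
  have i2 : ∀ b, IntegrableOn (fun x => (w x) ^ 2 * (C0 m (B a b) (Ψ b) x) ^ 2)
      (Metric.ball (0 : E3) r) := fun b =>
    cont_intOn ((hw.pow 2).mul ((C0_cont (hB a b) (hΨ b)).pow 2)) r
  have i3 : IntegrableOn (fun x => ∑ j, ∑ b, (w x) ^ 2 * (C1 m j (A j a b) (Ψ b) x) ^ 2)
      (Metric.ball (0 : E3) r) :=
    integrable_finsetSum _ fun j _ => integrable_finsetSum _ fun b _ => i1 j b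
  have i4 : IntegrableOn (fun x => ∑ b, (w x) ^ 2 * (C0 m (B a b) (Ψ b) x) ^ 2)
      (Metric.ball (0 : E3) r) := integrable_finsetSum _ fun b _ => i2 b
  calc ∫ x in Metric.ball (0 : E3) r, (w x) ^ 2 * (Ek A B Ψ m a x) ^ 2
      ≤ ∫ x in Metric.ball (0 : E3) r,
        (6 * n * (∑ j, ∑ b, (w x) ^ 2 * (C1 m j (A j a b) (Ψ b) x) ^ 2)
          + 2 * n * ∑ b, (w x) ^ 2 * (C0 m (B a b) (Ψ b) x) ^ 2) := by
        apply setInt_mono Metric.isOpen_ball.measurableSet (fun x _ => by positivity)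
          ((i3.const_mul _).add (i4.const_mul _))
        intro x _
        have := mul_le_mul_of_nonneg_left (Ek_sq (A := A) (B := B) Ψ m a x) (sq_nonneg (w x))
        refine this.trans (le_of_eq ?_)
        simp only [Pi.add_apply, ← Finset.mul_sum]
        ring
    _ = _ := by
        rw [integral_add (i3.const_mul _) (i4.const_mul _), integral_const_mul,
          integral_const_mul, integral_finsetSum _ fun b _ => i2 b,
          integral_finsetSum _ fun j _ => integrable_finsetSum _ fun b _ => i1 j b]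
        simp_rw [integral_finsetSum _ fun b _ => i1 _ b]

lemma Ek_tendsto (hA : ∀ j a b, ContDiff ℝ ∞ (A j a b)) (hB : ∀ a b, ContDiff ℝ ∞ (B a b))
    {Ψ : Fin n → E3 → ℝ} (hΨ : ∀ a, MemLp (Ψ a) 2) (a : Fin n) (r : ℝ) :
    Tendsto (fun m => ∫ x in Metric.ball (0 : E3) r, (Ek A B Ψ m a x) ^ 2) atTop (𝓝 0) := by
  have hl : ∀ a, LocallyIntegrable (Ψ a) := fun a => (hΨ a).locallyIntegrable (by norm_num)
  have t : Tendsto (fun m => 6 * n * (∑ j, ∑ b, ∫ x in Metric.ball (0 : E3) r,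
          (C1 m j (A j a b) (Ψ b) x) ^ 2)
        + 2 * n * ∑ b, ∫ x in Metric.ball (0 : E3) r, (C0 m (B a b) (Ψ b) x) ^ 2)
      atTop (𝓝 0) := by
    have t1 : Tendsto (fun m => ∑ j, ∑ b, ∫ x in Metric.ball (0 : E3) r,
          (C1 m j (A j a b) (Ψ b) x) ^ 2) atTop (𝓝 (∑ _j : Fin 3, ∑ _b : Fin n, (0 : ℝ))) :=
      tendsto_finsetSum _ fun j _ => tendsto_finsetSum _ fun b _ =>
        C1_tendsto (hA j a b) (hΨ b) r
    have t2 : Tendsto (fun m => ∑ b, ∫ x in Metric.ball (0 : E3) r,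
          (C0 m (B a b) (Ψ b) x) ^ 2) atTop (𝓝 (∑ _b : Fin n, (0 : ℝ))) :=
      tendsto_finsetSum _ fun b _ => C0_tendsto (hB a b) (hΨ b) r
    have := (t1.const_mul (6 * (n : ℝ))).add (t2.const_mul (2 * (n : ℝ)))
    simpa using this
  refine squeeze_zero (fun m => setIntegral_nonneg Metric.isOpen_ball.measurableSet
    fun x _ => sq_nonneg _) (fun m => ?_) t
  have := Ek_int hA hB hl m a (w := fun _ => 1) continuous_const r
  simpa using this

lemma exists_L_all (hA : ∀ j a b, ContDiff ℝ ∞ (A j a b)) (hB : ∀ a b, ContDiff ℝ ∞ (B a b))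
    (s : ℝ) : ∃ L : ℝ, 0 ≤ L ∧ (∀ j a b, ∀ y ∈ Metric.closedBall (0 : E3) s,
      ‖fderiv ℝ (A j a b) y‖ ≤ L) ∧ (∀ a b, ∀ y ∈ Metric.closedBall (0 : E3) s,
      ‖fderiv ℝ (B a b) y‖ ≤ L) := by
  have h1 := fun j a b => exists_L (hA j a b) s
  have h2 := fun a b => exists_L (hB a b) s
  choose L1 h10 h1L using h1
  choose L2 h20 h2L using h2
  have n1 : 0 ≤ ∑ j, ∑ a, ∑ b, L1 j a b := Finset.sum_nonneg fun j _ =>
    Finset.sum_nonneg fun a _ => Finset.sum_nonneg fun b _ => h10 j a b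
  have n2 : 0 ≤ ∑ a, ∑ b, L2 a b := Finset.sum_nonneg fun a _ =>
    Finset.sum_nonneg fun b _ => h20 a b
  refine ⟨(∑ j, ∑ a, ∑ b, L1 j a b) + ∑ a, ∑ b, L2 a b, by linarith, ?_, ?_⟩
  · intro j a b y hy
    have q1 := h1L j a b y hy
    have q2 : L1 j a b ≤ ∑ j, ∑ a, ∑ b, L1 j a b :=
      (Finset.single_le_sum (f := fun b => L1 j a b) (fun b _ => h10 j a b)
        (Finset.mem_univ b)).trans
      ((Finset.single_le_sum (f := fun a => ∑ b, L1 j a b)
        (fun a _ => Finset.sum_nonneg fun b _ => h10 j a b) (Finset.mem_univ a)).trans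
      (Finset.single_le_sum (f := fun j => ∑ a, ∑ b, L1 j a b)
        (fun j _ => Finset.sum_nonneg fun a _ => Finset.sum_nonneg fun b _ => h10 j a b)
        (Finset.mem_univ j)))
    linarith
  · intro a b y hy
    have q1 := h2L a b y hy
    have q2 : L2 a b ≤ ∑ a, ∑ b, L2 a b :=
      (Finset.single_le_sum (f := fun b => L2 a b) (fun b _ => h20 a b)
        (Finset.mem_univ b)).trans
      (Finset.single_le_sum (f := fun a => ∑ b, L2 a b)
        (fun a _ => Finset.sum_nonneg fun b _ => h20 a b) (Finset.mem_univ a))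
    linarith

lemma sysP_sub {X Y : Fin n → E3 → ℝ} (hX : ∀ a, ContDiff ℝ ∞ (X a))
    (hY : ∀ a, ContDiff ℝ ∞ (Y a)) (a : Fin n) (x : E3) :
    sysP A B (fun b y => X b y - Y b y) a x = sysP A B X a x - sysP A B Y a x := by
  unfold sysP
  rw [lap_sub (hX a) (hY a)]
  simp_rw [fun j b => pd_sub (hX b) (hY b) j x]
  simp only [mul_sub, Finset.sum_sub_distrib]
  ring

lemma pd_pd_sub {f g : E3 → ℝ} (hf : ContDiff ℝ ∞ f) (hg : ContDiff ℝ ∞ g) (i j : Fin 3)
    (x : E3) : pd i (pd j (fun y => f y - g y)) x = pd i (pd j f) x - pd i (pd j g) x := by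
  have e : pd j (fun y => f y - g y) = fun y => pd j f y - pd j g y := by
    funext y; exact pd_sub hf hg j y
  rw [e, pd_sub (pd_contDiff_infty hf j) (pd_contDiff_infty hg j)]

end ASR

end Vale.Agent.P136
end
end

section

section

open MeasureTheory Filter Topology
open scoped ContDiff InnerProductSpace ENNReal

namespace Vale.Agent.P136

namespace ASR

variable {n : ℕ} {A : Fin 3 → Fin n → Fin n → E3 → ℝ} {B : Fin n → Fin n → E3 → ℝ}

/-- weighted bounds on `sysP` of the mollified solution. -/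
lemma sysP_W (hA : ∀ j a b, ContDiff ℝ ∞ (A j a b)) (hB : ∀ a b, ContDiff ℝ ∞ (B a b))
    (R : ℝ) : ∃ C : ℝ, 0 < C ∧ ∀ (α : E3) (F Ψ : Fin n → E3 → ℝ) (Q Q₀ : ℝ) (m : ℕ),
      (∀ a, MemLp (F a) 2 (volume : Measure E3)) →
      (∑ a, ∫ x in Metric.ball (0 : E3) (2 * R), (wt α x) ^ 2 * (F a x) ^ 2 ≤ Q) →
      (∀ a, MemLp (Ψ a) 2 (volume : Measure E3)) →
      (∑ a, ∫ x in Metric.ball (0 : E3) (2 * R), (wt α x) ^ 2 * (Ψ a x) ^ 2 ≤ Q₀) →
      (∀ φ : Fin n → E3 → ℝ, (∀ a, IsTest (Metric.ball (0 : E3) (2 * R)) (φ a)) →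
          ∑ a, ∫ x, Ψ a x * adjP A B φ a x = ∑ a, ∫ x, F a x * φ a x) →
      1 / ((m : ℝ) + 1) ≤ R / 2 → ‖α‖ * (1 / ((m : ℝ) + 1)) ≤ 1 →
      (∫ x in Metric.ball (0 : E3) (3 * R / 2), (wt α x) ^ 2 *
        pX A B (fun b => moll m (Ψ b)) x ≤ C * (Q + Q₀)) ∧
      (∫ x in Metric.ball (0 : E3) (3 * R / 2), (wt α x) ^ 2 *
        nX (fun b => moll m (Ψ b)) x ≤ C * Q₀) := by
  obtain ⟨L, hL0, hLA, hLB⟩ := exists_L_all hA hB (2 * R)
  have hκ : 0 ≤ ∫ z, Kk 0 z := integral_nonneg fun z => Kk_nonneg 0 z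
  set E1 := (Real.exp 1 * 1 * ∫ z, Kk 0 z) ^ 2 with hE1
  set EL := (Real.exp 1 * L * ∫ z, Kk 0 z) ^ 2 with hEL
  have hE1' : 0 ≤ E1 := sq_nonneg _
  have hEL' : 0 ≤ EL := sq_nonneg _
  refine ⟨1 + 2 * E1 + 40 * n ^ 2 * EL, by (clear * -; positivity), ?_⟩
  intro α F Ψ Q Q₀ m hF hQ hΨ hQ₀ hw hm hα
  have hlF : ∀ a, LocallyIntegrable (F a) := fun a => (hF a).locallyIntegrable (by norm_num)
  have hlΨ : ∀ a, LocallyIntegrable (Ψ a) := fun a => (hΨ a).locallyIntegrable (by norm_num)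
  have hrs : 3 * R / 2 + 1 / ((m : ℝ) + 1) ≤ 2 * R := by linarith only [hm]
  have cw : Continuous (wt α) := (wt_contDiff α).continuous
  have cw2 : Continuous (fun x => (wt α x) ^ 2) := cw.pow 2
  -- individual bounds
  have nn : ∀ (f : E3 → ℝ), 0 ≤ ∫ x in Metric.ball (0 : E3) (2 * R), (wt α x) ^ 2 * (f x) ^ 2 :=
    fun f => setIntegral_nonneg Metric.isOpen_ball.measurableSet fun x _ => by (clear * -; positivity)
  have Q0n : 0 ≤ Q₀ := (Finset.sum_nonneg fun a _ => nn (Ψ a)).trans hQ₀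
  have Qn : 0 ≤ Q := (Finset.sum_nonneg fun a _ => nn (F a)).trans hQ
  have bm : ∀ f : E3 → ℝ, MemLp f 2 →
      ∫ x in Metric.ball (0 : E3) (3 * R / 2), (wt α x) ^ 2 * (moll m f x) ^ 2
        ≤ E1 * ∫ x in Metric.ball (0 : E3) (2 * R), (wt α x) ^ 2 * (f x) ^ 2 := by
    intro f hf
    exact youngW hf hα hrs (moll_contDiff m
      (hf.locallyIntegrable (by norm_num))).continuous.continuousOn zero_le_one
      (fun x _ => moll_bound x)
  have b1 : ∀ j a b, ∫ x in Metric.ball (0 : E3) (3 * R / 2),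
      (wt α x) ^ 2 * (C1 m j (A j a b) (Ψ b) x) ^ 2
        ≤ EL * ∫ x in Metric.ball (0 : E3) (2 * R), (wt α x) ^ 2 * (Ψ b x) ^ 2 := by
    intro j a b
    exact youngW (hΨ b) hα hrs (C1_cont (hA j a b) (hlΨ b)).continuousOn hL0
      (C1_bound (hA j a b) (hlΨ b) hrs (hLA j a b))
  have b0 : ∀ a b, ∫ x in Metric.ball (0 : E3) (3 * R / 2),
      (wt α x) ^ 2 * (C0 m (B a b) (Ψ b) x) ^ 2
        ≤ EL * ∫ x in Metric.ball (0 : E3) (2 * R), (wt α x) ^ 2 * (Ψ b x) ^ 2 := by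
    intro a b
    exact youngW (hΨ b) hα hrs (C0_cont (hB a b) (hlΨ b)).continuousOn hL0
      (C0_bound (hB a b) (hlΨ b) hrs (hLB a b))
  have bE : ∀ a, ∫ x in Metric.ball (0 : E3) (3 * R / 2), (wt α x) ^ 2 *
      (Ek A B Ψ m a x) ^ 2 ≤ 20 * n * EL * Q₀ := by
    intro a
    refine (Ek_int hA hB hlΨ m a cw (3 * R / 2)).trans ?_
    have s1 : ∑ j, ∑ b, ∫ x in Metric.ball (0 : E3) (3 * R / 2),
          (wt α x) ^ 2 * (C1 m j (A j a b) (Ψ b) x) ^ 2 ≤ 3 * (EL * Q₀) := by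
      calc _ ≤ ∑ _j : Fin 3, ∑ b, EL * ∫ x in Metric.ball (0 : E3) (2 * R),
            (wt α x) ^ 2 * (Ψ b x) ^ 2 :=
            Finset.sum_le_sum fun j _ => Finset.sum_le_sum fun b _ => b1 j a b
        _ = 3 * (EL * ∑ b, ∫ x in Metric.ball (0 : E3) (2 * R),
            (wt α x) ^ 2 * (Ψ b x) ^ 2) := by
            rw [← Finset.mul_sum]
            simp
        _ ≤ 3 * (EL * Q₀) := by gcongr
    have s2 : ∑ b, ∫ x in Metric.ball (0 : E3) (3 * R / 2),
          (wt α x) ^ 2 * (C0 m (B a b) (Ψ b) x) ^ 2 ≤ EL * Q₀ := by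
      calc _ ≤ ∑ b, EL * ∫ x in Metric.ball (0 : E3) (2 * R),
            (wt α x) ^ 2 * (Ψ b x) ^ 2 := Finset.sum_le_sum fun b _ => b0 a b
        _ = EL * ∑ b, ∫ x in Metric.ball (0 : E3) (2 * R),
            (wt α x) ^ 2 * (Ψ b x) ^ 2 := by rw [← Finset.mul_sum]
        _ ≤ EL * Q₀ := by gcongr
    have n0 : (0 : ℝ) ≤ n := Nat.cast_nonneg n
    have t1 := mul_le_mul_of_nonneg_left s1 (by (clear * -; positivity) : (0 : ℝ) ≤ 6 * n)
    have t2 := mul_le_mul_of_nonneg_left s2 (by positivity : (0 : ℝ) ≤ 2 * n)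
    linarith only [t2, t1]
  have hsm : ∀ b, ContDiff ℝ ∞ (moll m (Ψ b)) := fun b => moll_contDiff m (hlΨ b)
  constructor
  · have i1 : ∀ a, IntegrableOn (fun x => (wt α x) ^ 2 * (moll m (F a) x) ^ 2)
        (Metric.ball (0 : E3) (3 * R / 2)) := fun a =>
      cont_intOn (cw2.mul ((moll_contDiff m (hlF a)).continuous.pow 2)) _
    have i2 : ∀ a, IntegrableOn (fun x => (wt α x) ^ 2 * (Ek A B Ψ m a x) ^ 2)
        (Metric.ball (0 : E3) (3 * R / 2)) := fun a =>
      cont_intOn (cw2.mul ((Ek_cont hA hB hlΨ m a).pow 2)) _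
    have i3 : ∀ a, IntegrableOn (fun x => 2 * ((wt α x) ^ 2 * (moll m (F a) x) ^ 2)
        + 2 * ((wt α x) ^ 2 * (Ek A B Ψ m a x) ^ 2)) (Metric.ball (0 : E3) (3 * R / 2)) :=
      fun a => ((i1 a).const_mul 2).add ((i2 a).const_mul 2)
    calc ∫ x in Metric.ball (0 : E3) (3 * R / 2), (wt α x) ^ 2 *
          pX A B (fun b => moll m (Ψ b)) x
        ≤ ∫ x in Metric.ball (0 : E3) (3 * R / 2),
          ∑ a, (2 * ((wt α x) ^ 2 * (moll m (F a) x) ^ 2)
            + 2 * ((wt α x) ^ 2 * (Ek A B Ψ m a x) ^ 2)) := by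
          apply setInt_mono Metric.isOpen_ball.measurableSet
            (fun x _ => mul_nonneg (sq_nonneg _) (pX_nonneg _ _))
            (integrable_finsetSum _ fun a _ => i3 a)
          intro x hx
          unfold pX
          rw [Finset.mul_sum]
          apply Finset.sum_le_sum
          intro a _
          rw [sysP_moll hA hB hlΨ hw hm hx a]
          linarith only [mul_nonneg (sq_nonneg (wt α x)) (sq_nonneg (moll m (F a) x - Ek A B Ψ m a x))]
      _ = ∑ a, (2 * (∫ x in Metric.ball (0 : E3) (3 * R / 2),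
            (wt α x) ^ 2 * (moll m (F a) x) ^ 2)
            + 2 * ∫ x in Metric.ball (0 : E3) (3 * R / 2),
              (wt α x) ^ 2 * (Ek A B Ψ m a x) ^ 2) := by
          rw [integral_finsetSum _ fun a _ => i3 a]
          apply Finset.sum_congr rfl
          intro a _
          rw [integral_add ((i1 a).const_mul 2) ((i2 a).const_mul 2), integral_const_mul,
            integral_const_mul]
      _ ≤ ∑ a, (2 * (E1 * ∫ x in Metric.ball (0 : E3) (2 * R), (wt α x) ^ 2 * (F a x) ^ 2)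
            + 2 * (20 * n * EL * Q₀)) := by
          apply Finset.sum_le_sum
          intro a _
          have := bm (F a) (hF a)
          have := bE a
          linarith
      _ = 2 * E1 * (∑ a, ∫ x in Metric.ball (0 : E3) (2 * R), (wt α x) ^ 2 * (F a x) ^ 2)
            + 40 * n ^ 2 * EL * Q₀ := by
          rw [Finset.sum_add_distrib, Finset.mul_sum]
          simp only [Finset.sum_const, Finset.card_univ, Fintype.card_fin, nsmul_eq_mul]
          congr 1
          · apply Finset.sum_congr rfl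
            intro a _
            ring
          · ring
      _ ≤ 2 * E1 * Q + 40 * n ^ 2 * EL * Q₀ := by gcongr
      _ ≤ (1 + 2 * E1 + 40 * n ^ 2 * EL) * (Q + Q₀) := by
          have h1 : 0 ≤ E1 * Q₀ := by (clear * - Q0n; positivity)
          have h2 : 0 ≤ (n : ℝ) ^ 2 * EL * Q := by (clear * - Qn; positivity)
          linarith only [h2, h1, Qn, Q0n]
  · have i1 : ∀ a, IntegrableOn (fun x => (wt α x) ^ 2 * (moll m (Ψ a) x) ^ 2)
        (Metric.ball (0 : E3) (3 * R / 2)) := fun a =>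
      cont_intOn (cw2.mul ((hsm a).continuous.pow 2)) _
    calc ∫ x in Metric.ball (0 : E3) (3 * R / 2), (wt α x) ^ 2 * nX (fun b => moll m (Ψ b)) x
        = ∑ a, ∫ x in Metric.ball (0 : E3) (3 * R / 2),
            (wt α x) ^ 2 * (moll m (Ψ a) x) ^ 2 := by
          rw [← integral_finsetSum _ fun a _ => i1 a]
          congr 1
          funext x
          simp only [nX, Finset.mul_sum]
      _ ≤ ∑ a, E1 * ∫ x in Metric.ball (0 : E3) (2 * R), (wt α x) ^ 2 * (Ψ a x) ^ 2 :=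
          Finset.sum_le_sum fun a _ => bm (Ψ a) (hΨ a)
      _ = E1 * ∑ a, ∫ x in Metric.ball (0 : E3) (2 * R), (wt α x) ^ 2 * (Ψ a x) ^ 2 := by
          rw [← Finset.mul_sum]
      _ ≤ E1 * Q₀ := by gcongr
      _ ≤ (1 + 2 * E1 + 40 * n ^ 2 * EL) * Q₀ := by
          have h1 : 0 ≤ E1 * Q₀ := by (clear * - Q0n; positivity)
          have h2 : 0 ≤ (n : ℝ) ^ 2 * EL * Q₀ := by (clear * - Q0n; positivity)
          linarith only [h2, h1, Q0n]

lemma sysP_tendsto (hA : ∀ j a b, ContDiff ℝ ∞ (A j a b)) (hB : ∀ a b, ContDiff ℝ ∞ (B a b))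
    {R : ℝ} {F Ψ : Fin n → E3 → ℝ}
    (hF : ∀ a, MemLp (F a) 2 (volume : Measure E3))
    (hΨ : ∀ a, MemLp (Ψ a) 2 (volume : Measure E3))
    (hw : ∀ φ : Fin n → E3 → ℝ, (∀ a, IsTest (Metric.ball (0 : E3) (2 * R)) (φ a)) →
          ∑ a, ∫ x, Ψ a x * adjP A B φ a x = ∑ a, ∫ x, F a x * φ a x)
    {k₀ : ℕ} (hk₀ : ∀ k : ℕ, 1 / (((k + k₀ : ℕ) : ℝ) + 1) ≤ R / 2) (a : Fin n) :
    Tendsto (fun k => ∫ x in Metric.ball (0 : E3) (3 * R / 2),
      (sysP A B (fun b => moll (k + k₀) (Ψ b)) a x - F a x) ^ 2) atTop (𝓝 0) := by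
  have hlΨ : ∀ a, LocallyIntegrable (Ψ a) := fun a => (hΨ a).locallyIntegrable (by norm_num)
  have t1 := moll_N2_tendsto (hF a)
  have t2 := Ek_tendsto hA hB hΨ a (3 * R / 2)
  have t : Tendsto (fun m => 2 * N2 (fun x => moll m (F a) x - F a x)
      + 2 * ∫ x in Metric.ball (0 : E3) (3 * R / 2), (Ek A B Ψ m a x) ^ 2) atTop (𝓝 0) := by
    have := (t1.const_mul 2).add (t2.const_mul 2)
    simpa using this
  have t' := t.comp (tendsto_add_atTop_nat k₀)
  refine squeeze_zero (fun m => setIntegral_nonneg Metric.isOpen_ball.measurableSet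
    fun x _ => sq_nonneg _) (fun k => ?_) t'
  simp only [Function.comp_apply]
  have i1 : Integrable (fun x => (moll (k + k₀) (F a) x - F a x) ^ 2) :=
    memLp_sq_int (memLp_sub' (moll_memLp (k + k₀) (hF a)) (hF a))
  have i2 : IntegrableOn (fun x => (Ek A B Ψ (k + k₀) a x) ^ 2)
      (Metric.ball (0 : E3) (3 * R / 2)) := sq_intOn (Ek_cont hA hB hlΨ _ a) _
  calc ∫ x in Metric.ball (0 : E3) (3 * R / 2),
      (sysP A B (fun b => moll (k + k₀) (Ψ b)) a x - F a x) ^ 2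
      ≤ ∫ x in Metric.ball (0 : E3) (3 * R / 2),
        (2 * (moll (k + k₀) (F a) x - F a x) ^ 2 + 2 * (Ek A B Ψ (k + k₀) a x) ^ 2) := by
        apply setInt_mono Metric.isOpen_ball.measurableSet (fun x _ => sq_nonneg _)
          ((i1.integrableOn.const_mul 2).add (i2.const_mul 2))
        intro x hx
        rw [sysP_moll hA hB hlΨ hw (hk₀ k) hx a]
        simp only [Pi.add_apply]
        linarith only [sq_nonneg ((moll (k + k₀) (F a) x - F a x) - Ek A B Ψ (k + k₀) a x)]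
    _ = 2 * (∫ x in Metric.ball (0 : E3) (3 * R / 2), (moll (k + k₀) (F a) x - F a x) ^ 2)
        + 2 * ∫ x in Metric.ball (0 : E3) (3 * R / 2), (Ek A B Ψ (k + k₀) a x) ^ 2 := by
        rw [integral_add (i1.integrableOn.const_mul 2) (i2.const_mul 2), integral_const_mul,
          integral_const_mul]
    _ ≤ _ := by
        have : ∫ x in Metric.ball (0 : E3) (3 * R / 2), (moll (k + k₀) (F a) x - F a x) ^ 2
            ≤ N2 (fun x => moll (k + k₀) (F a) x - F a x) :=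
          setIntegral_le_integral i1 (Eventually.of_forall fun _ => sq_nonneg _)
        linarith

lemma wt_bounds (α : E3) {r : ℝ} {x : E3} (hx : x ∈ Metric.ball (0 : E3) r) :
    1 ≤ Real.exp (2 * ‖α‖ * r) * (wt α x) ^ 2 ∧ (wt α x) ^ 2 ≤ Real.exp (2 * ‖α‖ * r) := by
  rw [Metric.mem_ball, dist_zero_right] at hx
  have h1 := abs_real_inner_le_norm α x
  have h2 : ‖α‖ * ‖x‖ ≤ ‖α‖ * r := mul_le_mul_of_nonneg_left hx.le (norm_nonneg _)
  have h3 := abs_le.mp h1
  rw [wt_sq, ← Real.exp_add]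
  constructor
  · rw [← Real.exp_zero]
    apply Real.exp_le_exp.mpr
    linarith
  · apply Real.exp_le_exp.mpr
    linarith

lemma ball_mono_int {f : E3 → ℝ} (hf : Continuous f) (h0 : ∀ x, 0 ≤ f x) {r s : ℝ} (hrs : r ≤ s) :
    ∫ x in Metric.ball (0 : E3) r, f x ≤ ∫ x in Metric.ball (0 : E3) s, f x :=
  setIntegral_mono_set (cont_intOn hf s) (Eventually.of_forall h0)
    (Metric.ball_subset_ball hrs).eventuallyLE

end ASR

open ASR in
/-- from a weak solution in `L²` to smooth approximations. -/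
theorem ASreg : ASreg_statement := by
  intro n A B R hR hA hB
  obtain ⟨CP, hCP, hP⟩ := sysP_W hA hB R
  obtain ⟨D1, hD1, hI1⟩ := IE1 hA hB (r := 5 * R / 4) (s := 3 * R / 2) (by linarith) (by linarith)
  obtain ⟨D2, hD2, hI2⟩ := IE2 hA hB (r := R) (s := 5 * R / 4) hR (by linarith)
  refine ⟨CP + D1 * (2 * CP) + D2 * (2 * CP + D1 * (2 * CP) + CP), by positivity, ?_⟩
  intro α F Ψ Q Q₀ hα hF hQ hΨ hQ₀ hw
  simp_rw [← wt_sq] at hQ hQ₀ ⊢
  have hlΨ : ∀ a, LocallyIntegrable (Ψ a) := fun a => (hΨ a).locallyIntegrable (by norm_num)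
  have cw2 : Continuous (fun x => (wt α x) ^ 2) := (wt_contDiff α).continuous.pow 2
  have nn : ∀ (f : E3 → ℝ), 0 ≤ ∫ x in Metric.ball (0 : E3) (2 * R), (wt α x) ^ 2 * (f x) ^ 2 :=
    fun f => setIntegral_nonneg Metric.isOpen_ball.measurableSet fun x _ => by positivity
  have Q0n : 0 ≤ Q₀ := (Finset.sum_nonneg fun a _ => nn (Ψ a)).trans hQ₀
  have Qn : 0 ≤ Q := (Finset.sum_nonneg fun a _ => nn (F a)).trans hQ
  have hα2 : 1 ≤ ‖α‖ ^ 2 := by (by_contra nlg; linarith only [nlg, mul_nonneg (sub_nonneg.2 hα) (sub_nonneg.2 hα), mul_nonneg (le_of_lt (sub_pos.2 (not_le.1 nlg))) (sub_nonneg.2 hα), mul_pos (sub_pos.2 (not_le.1 nlg)) (sub_pos.2 (not_le.1 nlg)), mul_nonneg (sq_nonneg (‖α‖ : ℝ)) (sub_nonneg.2 hα), mul_nonneg (sq_nonneg (‖α‖ : ℝ)) (le_of_lt (sub_pos.2 (not_le.1 nlg)))])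
  have hα0 : 0 < ‖α‖ := by linarith
  -- choice of the scale
  obtain ⟨k₀, hk₀⟩ : ∃ k₀ : ℕ, 1 / ((k₀ : ℝ) + 1) < min (R / 2) (1 / ‖α‖) := by
    obtain ⟨k₀, hk₀⟩ := exists_nat_one_div_lt (lt_min (by linarith : 0 < R / 2)
      (by positivity : 0 < 1 / ‖α‖))
    exact ⟨k₀, hk₀⟩
  have hkk : ∀ k : ℕ, 1 / (((k + k₀ : ℕ) : ℝ) + 1) ≤ 1 / ((k₀ : ℝ) + 1) := by
    intro k
    apply one_div_le_one_div_of_le (by positivity)
    push_cast
    have : (0 : ℝ) ≤ k := Nat.cast_nonneg k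
    linarith
  have hk1 : ∀ k : ℕ, 1 / (((k + k₀ : ℕ) : ℝ) + 1) ≤ R / 2 := fun k =>
    (hkk k).trans (hk₀.le.trans (min_le_left _ _))
  have hk2 : ∀ k : ℕ, ‖α‖ * (1 / (((k + k₀ : ℕ) : ℝ) + 1)) ≤ 1 := by
    intro k
    have h1 : 1 / (((k + k₀ : ℕ) : ℝ) + 1) ≤ 1 / ‖α‖ :=
      (hkk k).trans (hk₀.le.trans (min_le_right _ _))
    calc ‖α‖ * (1 / (((k + k₀ : ℕ) : ℝ) + 1)) ≤ ‖α‖ * (1 / ‖α‖) :=
          mul_le_mul_of_nonneg_left h1 hα0.le
      _ = 1 := by field_simp
  set Φ : ℕ → Fin n → E3 → ℝ := fun k a => moll (k + k₀) (Ψ a) with hΦ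
  have hs : ∀ k a, ContDiff ℝ ∞ (Φ k a) := fun k a => moll_contDiff _ (hlΨ a)
  -- bounds
  have hB12 : ∀ k, (∫ x in Metric.ball (0 : E3) (3 * R / 2), (wt α x) ^ 2 * pX A B (Φ k) x
      ≤ CP * (Q + Q₀)) ∧ (∫ x in Metric.ball (0 : E3) (3 * R / 2), (wt α x) ^ 2 * nX (Φ k) x
      ≤ CP * Q₀) := fun k => hP α F Ψ Q Q₀ (k + k₀) hF hQ hΨ hQ₀ hw (hk1 k) (hk2 k)
  have m1 : ∀ k, ∫ x in Metric.ball (0 : E3) (5 * R / 4), (wt α x) ^ 2 * pX A B (Φ k) x
      ≤ CP * (Q + Q₀) := fun k =>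
    (ball_mono_int (cw2.mul (pX_cont hA hB (hs k)))
      (fun x => mul_nonneg (sq_nonneg _) (pX_nonneg _ _)) (by linarith only [hR])).trans (hB12 k).1
  have m2 : ∀ k, ∀ r ≤ 3 * R / 2, ∫ x in Metric.ball (0 : E3) r, (wt α x) ^ 2 * nX (Φ k) x
      ≤ CP * Q₀ := fun k r hr =>
    (ball_mono_int (cw2.mul (nX_cont (hs k)))
      (fun x => mul_nonneg (sq_nonneg _) (nX_nonneg _ _)) hr).trans (hB12 k).2
  have m3 : ∀ k, ∀ r ≤ 5 * R / 4, ∫ x in Metric.ball (0 : E3) r, (wt α x) ^ 2 * gX (Φ k) x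
      ≤ D1 * (2 * CP) * (‖α‖ ^ 2 * Q₀ + Q) := by
    intro k r hr
    refine (ball_mono_int (cw2.mul (gX_cont (hs k)))
      (fun x => mul_nonneg (sq_nonneg _) (gX_nonneg _ _)) hr).trans ?_
    refine (hI1 α (Φ k) hα (hs k)).trans ?_
    have h1 := (hB12 k).1
    have h2 := mul_le_mul_of_nonneg_left (hB12 k).2 (sq_nonneg ‖α‖)
    have h3 : Q₀ ≤ ‖α‖ ^ 2 * Q₀ := le_mul_of_one_le_left Q0n hα2
    have h4 : CP * Q₀ ≤ CP * (‖α‖ ^ 2 * Q₀) := mul_le_mul_of_nonneg_left h3 hCP.le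
    have h5 : 0 ≤ CP * Q := by positivity
    rw [mul_assoc]
    apply mul_le_mul_of_nonneg_left _ hD1.le
    linarith only [h5, h4, h2, h1]
  have m4 : ∀ k, ∫ x in Metric.ball (0 : E3) R, (wt α x) ^ 2 * hX (Φ k) x
      ≤ D2 * (2 * CP + D1 * (2 * CP) + CP) * ‖α‖ ^ 2 * (‖α‖ ^ 2 * Q₀ + Q) := by
    intro k
    refine (hI2 α (Φ k) hα (hs k)).trans ?_
    have h1 := m1 k
    have h2 := mul_le_mul_of_nonneg_left (m3 k (5 * R / 4) le_rfl) (sq_nonneg ‖α‖)
    have h3 := mul_le_mul_of_nonneg_left (m2 k (5 * R / 4) (by linarith only [hR]))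
      (by positivity : 0 ≤ ‖α‖ ^ 4)
    have h4 : Q₀ ≤ ‖α‖ ^ 2 * Q₀ := le_mul_of_one_le_left Q0n hα2
    have h6 : Q + Q₀ ≤ ‖α‖ ^ 2 * (‖α‖ ^ 2 * Q₀ + Q) := by
      have : ‖α‖ ^ 2 * Q₀ + Q ≤ ‖α‖ ^ 2 * (‖α‖ ^ 2 * Q₀ + Q) :=
        le_mul_of_one_le_left (by (clear * - hα Q0n Qn; positivity)) hα2
      linarith only [this, h4]
    have h7 : CP * (Q + Q₀) ≤ CP * (‖α‖ ^ 2 * (‖α‖ ^ 2 * Q₀ + Q)) :=
      mul_le_mul_of_nonneg_left h6 hCP.le
    have h8 : 0 ≤ CP * (‖α‖ ^ 2 * (‖α‖ ^ 2 * Q₀ + Q)) := by (clear * - hCP hα Q0n Qn; positivity)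
    have h9 : ‖α‖ ^ 4 * (CP * Q₀) ≤ CP * (‖α‖ ^ 2 * (‖α‖ ^ 2 * Q₀ + Q)) := by
      have : 0 ≤ CP * (‖α‖ ^ 2 * Q) := by positivity
      linarith only [this]
    rw [mul_assoc, mul_assoc]
    apply mul_le_mul_of_nonneg_left _ hD2.le
    linarith only [h9, h8, h7, h3, h2, h1]
  -- convergence of sysP on the larger ball
  have tP : ∀ a, Tendsto (fun k => ∫ x in Metric.ball (0 : E3) (3 * R / 2),
      (sysP A B (Φ k) a x - F a x) ^ 2) atTop (𝓝 0) := fun a =>
    sysP_tendsto hA hB hF hΨ hw hk1 a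
  have tN : ∀ a, Tendsto (fun k => N2 (fun x => Φ k a x - Ψ a x)) atTop (𝓝 0) := fun a =>
    (moll_N2_tendsto (hΨ a)).comp (tendsto_add_atTop_nat k₀)
  -- Cauchy estimates
  set V := Real.exp (2 * ‖α‖ * (3 * R / 2)) with hV
  have hV0 : 0 < V := Real.exp_pos _
  -- bound of the weighted quantities of differences
  have hdiff : Tendsto (fun p : ℕ × ℕ =>
      (∫ x in Metric.ball (0 : E3) (3 * R / 2), (wt α x) ^ 2 *
        pX A B (fun a y => Φ p.1 a y - Φ p.2 a y) x) +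
      ∫ x in Metric.ball (0 : E3) (3 * R / 2), (wt α x) ^ 2 *
        nX (fun a y => Φ p.1 a y - Φ p.2 a y) x) atTop (𝓝 0) := by
    have u1 : Tendsto (fun k => ∑ a, ∫ x in Metric.ball (0 : E3) (3 * R / 2),
        (sysP A B (Φ k) a x - F a x) ^ 2) atTop (𝓝 0) := by
      have := tendsto_finsetSum (Finset.univ : Finset (Fin n)) (fun a _ => tP a)
      simpa using this
    have u2 : Tendsto (fun k => ∑ a, N2 (fun x => Φ k a x - Ψ a x)) atTop (𝓝 0) := by
      have := tendsto_finsetSum (Finset.univ : Finset (Fin n)) (fun a _ => tN a)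
      simpa using this
    have v1 : Tendsto (fun p : ℕ × ℕ => p.1) atTop atTop := by
      rw [← prod_atTop_atTop_eq]; exact tendsto_fst
    have v2 : Tendsto (fun p : ℕ × ℕ => p.2) atTop atTop := by
      rw [← prod_atTop_atTop_eq]; exact tendsto_snd
    have u3 : Tendsto (fun p : ℕ × ℕ =>
        V * (2 * (∑ a, ∫ x in Metric.ball (0 : E3) (3 * R / 2),
          (sysP A B (Φ p.1) a x - F a x) ^ 2) + 2 * ∑ a, ∫ x in Metric.ball (0 : E3) (3 * R / 2),
          (sysP A B (Φ p.2) a x - F a x) ^ 2) +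
        V * (2 * (∑ a, N2 (fun x => Φ p.1 a x - Ψ a x))
          + 2 * ∑ a, N2 (fun x => Φ p.2 a x - Ψ a x))) atTop (𝓝 0) := by
      have := ((((u1.comp v1).const_mul 2).add ((u1.comp v2).const_mul 2)).const_mul V).add
        ((((u2.comp v1).const_mul 2).add ((u2.comp v2).const_mul 2)).const_mul V)
      simpa using this
    refine squeeze_zero (fun p => ?_) (fun p => ?_) u3
    · apply add_nonneg
      · exact setIntegral_nonneg Metric.isOpen_ball.measurableSet fun x _ =>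
          mul_nonneg (sq_nonneg _) (pX_nonneg _ _)
      · exact setIntegral_nonneg Metric.isOpen_ball.measurableSet fun x _ =>
          mul_nonneg (sq_nonneg _) (nX_nonneg _ _)
    · apply add_le_add
      · have j1 : ∀ k a, IntegrableOn (fun x => (sysP A B (Φ k) a x - F a x) ^ 2)
            (Metric.ball (0 : E3) (3 * R / 2)) := fun k a =>
          sub_sq_intOn (sysP_contDiff hA hB (hs k) a).continuous (hF a) _
        have j2 : ∀ a, IntegrableOn (fun x => V * (2 * (sysP A B (Φ p.1) a x - F a x) ^ 2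
            + 2 * (sysP A B (Φ p.2) a x - F a x) ^ 2)) (Metric.ball (0 : E3) (3 * R / 2)) :=
          fun a => (((j1 p.1 a).const_mul 2).add ((j1 p.2 a).const_mul 2)).const_mul V
        calc ∫ x in Metric.ball (0 : E3) (3 * R / 2), (wt α x) ^ 2 *
              pX A B (fun a y => Φ p.1 a y - Φ p.2 a y) x
            ≤ ∫ x in Metric.ball (0 : E3) (3 * R / 2),
              ∑ a, V * (2 * (sysP A B (Φ p.1) a x - F a x) ^ 2
                + 2 * (sysP A B (Φ p.2) a x - F a x) ^ 2) := by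
              apply setInt_mono Metric.isOpen_ball.measurableSet
                (fun x _ => mul_nonneg (sq_nonneg _) (pX_nonneg _ _))
                (integrable_finsetSum _ fun a _ => j2 a)
              intro x hx
              unfold pX
              rw [Finset.mul_sum]
              apply Finset.sum_le_sum
              intro a _
              rw [sysP_sub (hs p.1) (hs p.2)]
              have hb := (wt_bounds α hx).2
              rw [← hV] at hb
              have h1 : (sysP A B (Φ p.1) a x - sysP A B (Φ p.2) a x) ^ 2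
                  ≤ 2 * (sysP A B (Φ p.1) a x - F a x) ^ 2
                    + 2 * (sysP A B (Φ p.2) a x - F a x) ^ 2 := by
                linarith only [sq_nonneg ((sysP A B (Φ p.1) a x - F a x) + (sysP A B (Φ p.2) a x - F a x))]
              exact mul_le_mul hb h1 (sq_nonneg _) hV0.le
          _ = _ := by
              rw [integral_finsetSum _ fun a _ => j2 a, Finset.mul_sum, Finset.mul_sum,
                ← Finset.sum_add_distrib, Finset.mul_sum]
              apply Finset.sum_congr rfl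
              intro a _
              rw [integral_const_mul, integral_add ((j1 p.1 a).const_mul 2)
                ((j1 p.2 a).const_mul 2), integral_const_mul, integral_const_mul]
      · have j1 : ∀ k a, Integrable (fun x => (Φ k a x - Ψ a x) ^ 2) := fun k a =>
          memLp_sq_int (memLp_sub' (moll_memLp _ (hΨ a)) (hΨ a))
        have j2 : ∀ a, Integrable (fun x => V * (2 * (Φ p.1 a x - Ψ a x) ^ 2
            + 2 * (Φ p.2 a x - Ψ a x) ^ 2)) :=
          fun a => (((j1 p.1 a).const_mul 2).add ((j1 p.2 a).const_mul 2)).const_mul V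
        have j3 : Integrable (fun x => ∑ a, V * (2 * (Φ p.1 a x - Ψ a x) ^ 2
            + 2 * (Φ p.2 a x - Ψ a x) ^ 2)) := integrable_finsetSum _ fun a _ => j2 a
        calc ∫ x in Metric.ball (0 : E3) (3 * R / 2), (wt α x) ^ 2 *
              nX (fun a y => Φ p.1 a y - Φ p.2 a y) x
            ≤ ∫ x in Metric.ball (0 : E3) (3 * R / 2),
              ∑ a, V * (2 * (Φ p.1 a x - Ψ a x) ^ 2 + 2 * (Φ p.2 a x - Ψ a x) ^ 2) := by
              apply setInt_mono Metric.isOpen_ball.measurableSet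
                (fun x _ => mul_nonneg (sq_nonneg _) (nX_nonneg _ _)) j3.integrableOn
              intro x hx
              unfold nX
              rw [Finset.mul_sum]
              apply Finset.sum_le_sum
              intro a _
              have hb := (wt_bounds α hx).2
              rw [← hV] at hb
              have h1 : (Φ p.1 a x - Φ p.2 a x) ^ 2
                  ≤ 2 * (Φ p.1 a x - Ψ a x) ^ 2 + 2 * (Φ p.2 a x - Ψ a x) ^ 2 := by
                linarith only [sq_nonneg ((Φ p.1 a x - Ψ a x) + (Φ p.2 a x - Ψ a x))]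
              exact mul_le_mul hb h1 (sq_nonneg _) hV0.le
          _ ≤ ∫ x, ∑ a, V * (2 * (Φ p.1 a x - Ψ a x) ^ 2 + 2 * (Φ p.2 a x - Ψ a x) ^ 2) :=
              setIntegral_le_integral j3 (Eventually.of_forall fun x =>
                Finset.sum_nonneg fun a _ => by (clear * -; positivity))
          _ = _ := by
              rw [integral_finsetSum _ fun a _ => j2 a, Finset.mul_sum, Finset.mul_sum,
                ← Finset.sum_add_distrib, Finset.mul_sum]
              apply Finset.sum_congr rfl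
              intro a _
              rw [integral_const_mul, integral_add ((j1 p.1 a).const_mul 2)
                ((j1 p.2 a).const_mul 2), integral_const_mul, integral_const_mul]
              rfl
  have hsd : ∀ p : ℕ × ℕ, ∀ a, ContDiff ℝ ∞ (fun y => Φ p.1 a y - Φ p.2 a y) := fun p a =>
    (hs p.1 a).sub (hs p.2 a)
  have pn : ∀ p : ℕ × ℕ, 0 ≤ ∫ x in Metric.ball (0 : E3) (3 * R / 2), (wt α x) ^ 2 *
        pX A B (fun a y => Φ p.1 a y - Φ p.2 a y) x := fun p =>
    setIntegral_nonneg Metric.isOpen_ball.measurableSet fun x _ =>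
      mul_nonneg (sq_nonneg _) (pX_nonneg _ _)
  have nnn : ∀ p : ℕ × ℕ, 0 ≤ ∫ x in Metric.ball (0 : E3) (3 * R / 2), (wt α x) ^ 2 *
        nX (fun a y => Φ p.1 a y - Φ p.2 a y) x := fun p =>
    setIntegral_nonneg Metric.isOpen_ball.measurableSet fun x _ =>
      mul_nonneg (sq_nonneg _) (nX_nonneg _ _)
  have hgd : ∀ p : ℕ × ℕ, ∫ x in Metric.ball (0 : E3) (5 * R / 4), (wt α x) ^ 2 *
        gX (fun a y => Φ p.1 a y - Φ p.2 a y) x ≤ D1 * ‖α‖ ^ 2 *
      ((∫ x in Metric.ball (0 : E3) (3 * R / 2), (wt α x) ^ 2 *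
        pX A B (fun a y => Φ p.1 a y - Φ p.2 a y) x) +
      ∫ x in Metric.ball (0 : E3) (3 * R / 2), (wt α x) ^ 2 *
        nX (fun a y => Φ p.1 a y - Φ p.2 a y) x) := by
    intro p
    refine (hI1 α _ hα (hsd p)).trans ?_
    rw [mul_assoc]
    apply mul_le_mul_of_nonneg_left _ hD1.le
    have := le_mul_of_one_le_left (pn p) hα2
    linarith only [this]
  have hhd : ∀ p : ℕ × ℕ, ∫ x in Metric.ball (0 : E3) R, (wt α x) ^ 2 *
        hX (fun a y => Φ p.1 a y - Φ p.2 a y) x ≤ D2 * (1 + D1) * ‖α‖ ^ 4 *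
      ((∫ x in Metric.ball (0 : E3) (3 * R / 2), (wt α x) ^ 2 *
        pX A B (fun a y => Φ p.1 a y - Φ p.2 a y) x) +
      ∫ x in Metric.ball (0 : E3) (3 * R / 2), (wt α x) ^ 2 *
        nX (fun a y => Φ p.1 a y - Φ p.2 a y) x) := by
    intro p
    refine (hI2 α _ hα (hsd p)).trans ?_
    have h1 := ball_mono_int (r := 5 * R / 4) (s := 3 * R / 2)
      (cw2.mul (pX_cont hA hB (hsd p)))
      (fun x => mul_nonneg (sq_nonneg (wt α x))
        (pX_nonneg (A := A) (B := B) (fun a y => Φ p.1 a y - Φ p.2 a y) x)) (by linarith)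
    have h2 := ball_mono_int (r := 5 * R / 4) (s := 3 * R / 2)
      (cw2.mul (nX_cont (hsd p)))
      (fun x => mul_nonneg (sq_nonneg (wt α x))
        (nX_nonneg (fun a y => Φ p.1 a y - Φ p.2 a y) x)) (by linarith)
    have h3 := mul_le_mul_of_nonneg_left (hgd p) (sq_nonneg ‖α‖)
    have h4 := mul_le_mul_of_nonneg_left h2 (by positivity : 0 ≤ ‖α‖ ^ 4)
    have p0 := pn p
    have n0 := nnn p
    set P := ∫ x in Metric.ball (0 : E3) (3 * R / 2), (wt α x) ^ 2 *
        pX A B (fun a y => Φ p.1 a y - Φ p.2 a y) x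
    set N := ∫ x in Metric.ball (0 : E3) (3 * R / 2), (wt α x) ^ 2 *
        nX (fun a y => Φ p.1 a y - Φ p.2 a y) x
    have a4 : 1 ≤ ‖α‖ ^ 4 := one_le_pow₀ hα
    have h5 : P ≤ ‖α‖ ^ 4 * P := le_mul_of_one_le_left p0 a4
    have e : D2 * (1 + D1) * ‖α‖ ^ 4 * (P + N) = D2 * (‖α‖ ^ 4 * P
        + ‖α‖ ^ 2 * (D1 * ‖α‖ ^ 2 * (P + N)) + ‖α‖ ^ 4 * N) := by ring
    rw [e]
    apply mul_le_mul_of_nonneg_left _ hD2.le
    have h1' : ∫ x in Metric.ball (0 : E3) (5 * R / 4), (wt α x) ^ 2 *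
        pX A B (fun a y => Φ p.1 a y - Φ p.2 a y) x ≤ P := h1
    have h4' : ‖α‖ ^ 4 * ∫ x in Metric.ball (0 : E3) (5 * R / 4), (wt α x) ^ 2 *
        nX (fun a y => Φ p.1 a y - Φ p.2 a y) x ≤ ‖α‖ ^ 4 * N := h4
    linarith only [h4', h1', h5, h3]
  refine ⟨Φ, hs, ?_, ?_, ?_, ?_, ?_, ?_, ?_⟩
  · -- sysP
    intro a
    refine squeeze_zero (fun k => setIntegral_nonneg Metric.isOpen_ball.measurableSet
      fun x _ => sq_nonneg _) (fun k => ?_) (tP a)
    exact setIntegral_mono_set (sub_sq_intOn (sysP_contDiff hA hB (hs k) a).continuous (hF a) _)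
      (Eventually.of_forall fun x => sq_nonneg _)
      (Metric.ball_subset_ball (by linarith)).eventuallyLE
  · intro a
    refine squeeze_zero (fun k => setIntegral_nonneg Metric.isOpen_ball.measurableSet
      fun x _ => sq_nonneg _) (fun k => ?_) (tN a)
    exact setIntegral_le_integral (memLp_sq_int (memLp_sub' (moll_memLp _ (hΨ a)) (hΨ a)))
      (Eventually.of_forall fun x => sq_nonneg _)
  · intro k a
    calc ∫ x in Metric.ball (0 : E3) R, (wt α x) ^ 2 * (Φ k a x) ^ 2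
        ≤ ∫ x in Metric.ball (0 : E3) R, (wt α x) ^ 2 * nX (Φ k) x := by
          apply setInt_mono Metric.isOpen_ball.measurableSet (fun x _ => by (clear * -; positivity))
            (cont_intOn (cw2.mul (nX_cont (hs k))) _)
          intro x _
          apply mul_le_mul_of_nonneg_left _ (sq_nonneg _)
          exact Finset.single_le_sum (f := fun a => (Φ k a x) ^ 2) (fun _ _ => sq_nonneg _)
            (Finset.mem_univ a)
      _ ≤ CP * Q₀ := m2 k R (by linarith)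
      _ ≤ _ := by
          apply mul_le_mul_of_nonneg_right _ Q0n
          have : 0 ≤ D1 * (2 * CP) + D2 * (2 * CP + D1 * (2 * CP) + CP) := by positivity
          linarith
  · intro k a i
    calc ∫ x in Metric.ball (0 : E3) R, (wt α x) ^ 2 * (pd i (Φ k a) x) ^ 2
        ≤ ∫ x in Metric.ball (0 : E3) R, (wt α x) ^ 2 * gX (Φ k) x := by
          apply setInt_mono Metric.isOpen_ball.measurableSet (fun x _ => by (clear * -; positivity))
            (cont_intOn (cw2.mul (gX_cont (hs k))) _)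
          intro x _
          apply mul_le_mul_of_nonneg_left _ (sq_nonneg _)
          exact (Finset.single_le_sum (f := fun i => (pd i (Φ k a) x) ^ 2)
            (fun _ _ => sq_nonneg _) (Finset.mem_univ i)).trans
            (Finset.single_le_sum (f := fun a => gradSq (Φ k a) x)
              (fun _ _ => gradSq_nonneg _ _) (Finset.mem_univ a))
      _ ≤ D1 * (2 * CP) * (‖α‖ ^ 2 * Q₀ + Q) := m3 k R (by linarith)
      _ ≤ _ := by
          apply mul_le_mul_of_nonneg_right _ (by (clear * - hα Q0n Qn; positivity))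
          have : 0 ≤ CP + D2 * (2 * CP + D1 * (2 * CP) + CP) := by positivity
          linarith
  · intro k a i j
    calc ∫ x in Metric.ball (0 : E3) R, (wt α x) ^ 2 * (pd i (pd j (Φ k a)) x) ^ 2
        ≤ ∫ x in Metric.ball (0 : E3) R, (wt α x) ^ 2 * hX (Φ k) x := by
          apply setInt_mono Metric.isOpen_ball.measurableSet (fun x _ => by (clear * -; positivity))
            (cont_intOn (cw2.mul (hX_cont (hs k))) _)
          intro x _
          apply mul_le_mul_of_nonneg_left _ (sq_nonneg _)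
          exact (Finset.single_le_sum (f := fun j => (pd i (pd j (Φ k a)) x) ^ 2)
            (fun _ _ => sq_nonneg _) (Finset.mem_univ j)).trans
            ((Finset.single_le_sum (f := fun i => ∑ j, (pd i (pd j (Φ k a)) x) ^ 2)
              (fun _ _ => Finset.sum_nonneg fun _ _ => sq_nonneg _) (Finset.mem_univ i)).trans
            (Finset.single_le_sum (f := fun a => ∑ i, ∑ j, (pd i (pd j (Φ k a)) x) ^ 2)
              (fun _ _ => Finset.sum_nonneg fun _ _ => Finset.sum_nonneg fun _ _ => sq_nonneg _)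
              (Finset.mem_univ a)))
      _ ≤ D2 * (2 * CP + D1 * (2 * CP) + CP) * ‖α‖ ^ 2 * (‖α‖ ^ 2 * Q₀ + Q) := m4 k
      _ ≤ _ := by
          apply mul_le_mul_of_nonneg_right _ (by (clear * - hα Q0n Qn; positivity))
          apply mul_le_mul_of_nonneg_right _ (by positivity)
          have : 0 ≤ CP + D1 * (2 * CP) := by positivity
          linarith
  · intro a i
    have h0 : Tendsto (fun p : ℕ × ℕ => V * (D1 * ‖α‖ ^ 2 *
      ((∫ x in Metric.ball (0 : E3) (3 * R / 2), (wt α x) ^ 2 *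
        pX A B (fun a y => Φ p.1 a y - Φ p.2 a y) x) +
      ∫ x in Metric.ball (0 : E3) (3 * R / 2), (wt α x) ^ 2 *
        nX (fun a y => Φ p.1 a y - Φ p.2 a y) x))) atTop (𝓝 0) := by
      have := (hdiff.const_mul (D1 * ‖α‖ ^ 2)).const_mul V
      simpa using this
    refine squeeze_zero (fun p => setIntegral_nonneg Metric.isOpen_ball.measurableSet
      fun x _ => sq_nonneg _) (fun p => ?_) h0
    refine le_trans ?_ (mul_le_mul_of_nonneg_left (hgd p) hV0.le)
    rw [← integral_const_mul]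
    calc ∫ x in Metric.ball (0 : E3) R, (pd i (Φ p.1 a) x - pd i (Φ p.2 a) x) ^ 2
        ≤ ∫ x in Metric.ball (0 : E3) R,
          V * ((wt α x) ^ 2 * gX (fun a y => Φ p.1 a y - Φ p.2 a y) x) := by
          apply setInt_mono Metric.isOpen_ball.measurableSet (fun x _ => sq_nonneg _)
            (cont_intOn (continuous_const.mul (cw2.mul (gX_cont (hsd p)))) _)
          intro x hx
          rw [← pd_sub (hs p.1 a) (hs p.2 a)]
          have hb := (wt_bounds α (Metric.ball_subset_ball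
            (by linarith : R ≤ 3 * R / 2) hx)).1
          rw [← hV] at hb
          have hg : (pd i (fun y => Φ p.1 a y - Φ p.2 a y) x) ^ 2
              ≤ gX (fun a y => Φ p.1 a y - Φ p.2 a y) x :=
            (Finset.single_le_sum (f := fun i => (pd i (fun y => Φ p.1 a y - Φ p.2 a y) x) ^ 2)
              (fun _ _ => sq_nonneg _) (Finset.mem_univ i)).trans
            (Finset.single_le_sum (f := fun a => gradSq (fun y => Φ p.1 a y - Φ p.2 a y) x)
              (fun _ _ => gradSq_nonneg _ _) (Finset.mem_univ a))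
          rw [← mul_assoc]
          calc (pd i (fun y => Φ p.1 a y - Φ p.2 a y) x) ^ 2
              ≤ gX (fun a y => Φ p.1 a y - Φ p.2 a y) x := hg
            _ ≤ _ := le_mul_of_one_le_left (gX_nonneg _ _) hb
      _ ≤ _ := ball_mono_int (continuous_const.mul (cw2.mul (gX_cont (hsd p))))
          (fun x => mul_nonneg hV0.le (mul_nonneg (sq_nonneg _) (gX_nonneg _ _)))
          (by linarith)
  · intro a i j
    have h0 : Tendsto (fun p : ℕ × ℕ => V * (D2 * (1 + D1) * ‖α‖ ^ 4 *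
      ((∫ x in Metric.ball (0 : E3) (3 * R / 2), (wt α x) ^ 2 *
        pX A B (fun a y => Φ p.1 a y - Φ p.2 a y) x) +
      ∫ x in Metric.ball (0 : E3) (3 * R / 2), (wt α x) ^ 2 *
        nX (fun a y => Φ p.1 a y - Φ p.2 a y) x))) atTop (𝓝 0) := by
      have := (hdiff.const_mul (D2 * (1 + D1) * ‖α‖ ^ 4)).const_mul V
      simpa using this
    refine squeeze_zero (fun p => setIntegral_nonneg Metric.isOpen_ball.measurableSet
      fun x _ => sq_nonneg _) (fun p => ?_) h0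
    refine le_trans ?_ (mul_le_mul_of_nonneg_left (hhd p) hV0.le)
    rw [← integral_const_mul]
    apply setInt_mono Metric.isOpen_ball.measurableSet (fun x _ => sq_nonneg _)
      (cont_intOn (continuous_const.mul (cw2.mul (hX_cont (hsd p)))) _)
    intro x hx
    rw [← pd_pd_sub (hs p.1 a) (hs p.2 a)]
    have hb := (wt_bounds α (Metric.ball_subset_ball (by linarith : R ≤ 3 * R / 2) hx)).1
    rw [← hV] at hb
    have hg : (pd i (pd j (fun y => Φ p.1 a y - Φ p.2 a y)) x) ^ 2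
        ≤ hX (fun a y => Φ p.1 a y - Φ p.2 a y) x :=
      (Finset.single_le_sum
        (f := fun j => (pd i (pd j (fun y => Φ p.1 a y - Φ p.2 a y)) x) ^ 2)
        (fun _ _ => sq_nonneg _) (Finset.mem_univ j)).trans
      ((Finset.single_le_sum
        (f := fun i => ∑ j, (pd i (pd j (fun y => Φ p.1 a y - Φ p.2 a y)) x) ^ 2)
        (fun _ _ => Finset.sum_nonneg fun _ _ => sq_nonneg _) (Finset.mem_univ i)).trans
      (Finset.single_le_sum
        (f := fun a => ∑ i, ∑ j, (pd i (pd j (fun y => Φ p.1 a y - Φ p.2 a y)) x) ^ 2)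
        (fun _ _ => Finset.sum_nonneg fun _ _ => Finset.sum_nonneg fun _ _ => sq_nonneg _)
        (Finset.mem_univ a)))
    rw [← mul_assoc]
    exact hg.trans (le_mul_of_one_le_left (hX_nonneg _ _) hb)

end Vale.Agent.P136
end
end

section

section

open MeasureTheory Filter Topology
open scoped ContDiff InnerProductSpace

namespace Vale.Agent.P136

theorem AS : AS_statement := by
  intro n A B R hR hA hB
  obtain ⟨C₁, τ₁, hC₁, hτ₁, h1⟩ := ASweak n A B R hR hA hB
  obtain ⟨C₂, hC₂, h2⟩ := ASreg n A B R hR hA hB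
  refine ⟨C₂ * (C₁ + 1), max τ₁ 1, by positivity, lt_of_lt_of_le hτ₁ (le_max_left _ _), ?_⟩
  intro α F Q hα hF hQ
  have hα1 : τ₁ ≤ ‖α‖ := (le_max_left _ _).trans hα
  have hα2 : 1 ≤ ‖α‖ := (le_max_right _ _).trans hα
  have hαp : 0 < ‖α‖ ^ 2 := by positivity
  have hQ0 : 0 ≤ Q := le_trans (Finset.sum_nonneg fun a _ => integral_nonneg fun x => by
    positivity) hQ
  obtain ⟨Ψ, hΨ, hΨ0, hΨb, hΨw⟩ := h1 α F Q hα1 hF hQ
  have hb : ∑ a, ∫ x in Metric.ball (0 : E3) (2 * R),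
      Real.exp (-2 * ⟪α, x⟫_ℝ) * (Ψ a x) ^ 2 ≤ C₁ * Q / ‖α‖ ^ 2 := by
    rw [le_div_iff₀ hαp, mul_comm]
    refine le_trans (le_of_eq ?_) hΨb
    congr 1
    refine Finset.sum_congr rfl fun a _ => ?_
    refine setIntegral_eq_integral_of_forall_compl_eq_zero fun x hx => ?_
    rw [hΨ0 a x hx]
    ring
  obtain ⟨Φ, p1, p2, p3, p4, p5, p6, p7, p8⟩ := h2 α F Ψ Q (C₁ * Q / ‖α‖ ^ 2) hα2 hF hQ hΨ hb hΨw
  have e1 : ‖α‖ ^ 2 * (C₁ * Q / ‖α‖ ^ 2) = C₁ * Q := by
    field_simp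
  refine ⟨Φ, p1, p2, fun k a => ?_, fun k a i => ?_, fun k a i j => ?_, fun a => ?_, p7, p8⟩
  · calc ‖α‖ ^ 2 * ∫ x in Metric.ball (0 : E3) R, Real.exp (-2 * ⟪α, x⟫_ℝ) * (Φ k a x) ^ 2
        ≤ ‖α‖ ^ 2 * (C₂ * (C₁ * Q / ‖α‖ ^ 2)) := mul_le_mul_of_nonneg_left (p4 k a) hαp.le
      _ = C₂ * (‖α‖ ^ 2 * (C₁ * Q / ‖α‖ ^ 2)) := by ring
      _ = C₂ * (C₁ * Q) := by rw [e1]
      _ ≤ C₂ * (C₁ + 1) * Q := by linarith only [mul_nonneg hC₂.le hQ0]
  · refine (p5 k a i).trans (le_of_eq ?_)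
    rw [e1]
    ring
  · refine (p6 k a i j).trans (le_of_eq ?_)
    rw [e1]
    ring
  · have hm : ∀ k, MemLp (fun x => Φ k a x - Ψ a x) 2
        (volume.restrict (Metric.ball (0 : E3) R)) := fun k =>
      (memLp_smooth measurableSet_ball Metric.isBounded_ball (p1 k a).continuous).sub ((hΨ a).restrict _)
    have hle : ∀ p : ℕ × ℕ, ∫ x in Metric.ball (0 : E3) R, (Φ p.1 a x - Φ p.2 a x) ^ 2 ≤
        2 * (∫ x in Metric.ball (0 : E3) R, (Φ p.1 a x - Ψ a x) ^ 2) +
        2 * (∫ x in Metric.ball (0 : E3) R, (Φ p.2 a x - Ψ a x) ^ 2) := by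
      intro p
      have i1 : Integrable (fun x => 2 * (Φ p.1 a x - Ψ a x) ^ 2)
          (volume.restrict (Metric.ball (0 : E3) R)) := (hm p.1).integrable_sq.const_mul 2
      have i2 : Integrable (fun x => 2 * (Φ p.2 a x - Ψ a x) ^ 2)
          (volume.restrict (Metric.ball (0 : E3) R)) := (hm p.2).integrable_sq.const_mul 2
      rw [← integral_const_mul, ← integral_const_mul, ← integral_add i1 i2]
      refine integral_mono_of_nonneg (ae_of_all _ fun x => sq_nonneg _) (i1.add i2)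
        (ae_of_all _ fun x => ?_)
      simp only
      linarith only [sq_nonneg ((Φ p.1 a x - Ψ a x) + (Φ p.2 a x - Ψ a x))]
    have hlim : Tendsto (fun p : ℕ × ℕ =>
        2 * (∫ x in Metric.ball (0 : E3) R, (Φ p.1 a x - Ψ a x) ^ 2) +
        2 * (∫ x in Metric.ball (0 : E3) R, (Φ p.2 a x - Ψ a x) ^ 2)) atTop (𝓝 0) := by
      have t := p3 a
      have t1 : Tendsto (fun p : ℕ × ℕ => p.1) atTop atTop := by
        rw [← prod_atTop_atTop_eq]
        exact tendsto_fst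
      have t2 : Tendsto (fun p : ℕ × ℕ => p.2) atTop atTop := by
        rw [← prod_atTop_atTop_eq]
        exact tendsto_snd
      simpa using ((t.comp t1).const_mul 2).add ((t.comp t2).const_mul 2)
    exact squeeze_zero (fun p => integral_nonneg fun x => sq_nonneg _) hle hlim

end Vale.Agent.P136
end
end

section

section

/-! Calculus of partial derivatives of complex functions on `E3`. -/

open MeasureTheory Filter Topology
open scoped ContDiff

namespace Vale.Agent.P136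

section
variable {f g : E3 → ℂ} {x : E3}

lemma sm_diff {F : Type*} [NormedAddCommGroup F] [NormedSpace ℝ F] {f : E3 → F}
    (hf : ContDiff ℝ ∞ f) (x : E3) : DifferentiableAt ℝ f x :=
  (hf.differentiable (by simp)) x

lemma pdc_add (hf : ContDiff ℝ ∞ f) (hg : ContDiff ℝ ∞ g) (i : Fin 3) (x : E3) :
    pd i (fun y => f y + g y) x = pd i f x + pd i g x := by
  unfold pd
  rw [fderiv_fun_add (sm_diff hf x) (sm_diff hg x)]
  rfl

lemma pdc_sub (hf : ContDiff ℝ ∞ f) (hg : ContDiff ℝ ∞ g) (i : Fin 3) (x : E3) :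
    pd i (fun y => f y - g y) x = pd i f x - pd i g x := by
  unfold pd
  rw [fderiv_fun_sub (sm_diff hf x) (sm_diff hg x)]
  rfl

lemma pdc_mul (hf : ContDiff ℝ ∞ f) (hg : ContDiff ℝ ∞ g) (i : Fin 3) (x : E3) :
    pd i (fun y => f y * g y) x = pd i f x * g x + f x * pd i g x := by
  unfold pd
  rw [fderiv_fun_mul (sm_diff hf x) (sm_diff hg x)]
  simp
  ring

lemma pdc_const_mul (c : ℂ) (hf : ContDiff ℝ ∞ f) (i : Fin 3) (x : E3) :
    pd i (fun y => c * f y) x = c * pd i f x := by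
  unfold pd
  rw [fderiv_const_mul (sm_diff hf x)]
  simp

lemma pdc_const (c : ℂ) (i : Fin 3) (x : E3) : pd i (fun _ => c) x = 0 := by
  unfold pd
  simp

lemma pdc_sum {ι : Type*} (s : Finset ι) {f : ι → E3 → ℂ} (hf : ∀ a ∈ s, ContDiff ℝ ∞ (f a))
    (i : Fin 3) (x : E3) : pd i (fun y => ∑ a ∈ s, f a y) x = ∑ a ∈ s, pd i (f a) x := by
  unfold pd
  rw [fderiv_fun_sum (fun a ha => sm_diff (hf a ha) x)]
  simp

lemma pd_congr_open {F : Type*} [NormedAddCommGroup F] [NormedSpace ℝ F] {f g : E3 → F}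
    {s : Set E3} (hs : IsOpen s) (h : ∀ y ∈ s, f y = g y) {x : E3} (hx : x ∈ s) (i : Fin 3) :
    pd i f x = pd i g x := by
  unfold pd
  have : f =ᶠ[𝓝 x] g := Filter.eventually_of_mem (hs.mem_nhds hx) h
  rw [this.fderiv_eq]

lemma pd_cc {f : E3 → ℝ} (hf : ContDiff ℝ ∞ f) (i : Fin 3) (x : E3) :
    pd i (cc f) x = ((pd i f x : ℝ) : ℂ) := by
  unfold pd cc
  have h := (sm_diff hf x).hasFDerivAt
  have h2 := Complex.ofRealCLM.hasFDerivAt.comp x h
  have h3 : fderiv ℝ (fun y => ((f y : ℝ) : ℂ)) x = Complex.ofRealCLM.comp (fderiv ℝ f x) :=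
    h2.fderiv
  rw [h3]
  simp

lemma pd_cc' {f : E3 → ℝ} (hf : ContDiff ℝ ∞ f) (i : Fin 3) :
    pd i (cc f) = cc (pd i f) := by
  funext x
  rw [pd_cc hf]
  rfl

lemma cc_contDiff {f : E3 → ℝ} (hf : ContDiff ℝ ∞ f) : ContDiff ℝ ∞ (cc f) :=
  Complex.ofRealCLM.contDiff.comp hf

lemma zx_contDiff (ζ : Fin 3 → ℂ) : ContDiff ℝ ∞ (zx ζ) := by
  unfold zx
  apply ContDiff.sum
  intro i _
  apply contDiff_const.mul
  have : ContDiff ℝ ∞ (fun x : E3 => x i) := by fun_prop
  exact Complex.ofRealCLM.contDiff.comp this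

lemma pd_zx (ζ : Fin 3 → ℂ) (i : Fin 3) (x : E3) : pd i (zx ζ) x = ζ i := by
  have h : ∀ j : Fin 3, ContDiff ℝ ∞ (fun x : E3 => ((x j : ℝ) : ℂ)) := by
    intro j
    have : ContDiff ℝ ∞ (fun x : E3 => x j) := by fun_prop
    exact Complex.ofRealCLM.contDiff.comp this
  unfold zx
  rw [pdc_sum _ (fun j _ => contDiff_const.mul (h j))]
  have h2 : ∀ j, pd i (fun x : E3 => ζ j * ((x j : ℝ) : ℂ)) x = if j = i then ζ j else 0 := by
    intro j
    rw [pdc_const_mul _ (h j)]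
    have h3 : pd i (fun x : E3 => ((x j : ℝ) : ℂ)) x = ((pd i (fun x : E3 => x j) x : ℝ) : ℂ) :=
      pd_cc (f := fun x : E3 => x j) (by fun_prop) i x
    rw [h3]
    have h4 : pd i (fun x : E3 => x j) x = if j = i then 1 else 0 := by
      unfold pd
      have h5 : HasFDerivAt (fun x : E3 => x j) (EuclideanSpace.proj j : E3 →L[ℝ] ℝ) x :=
        (EuclideanSpace.proj j : E3 →L[ℝ] ℝ).hasFDerivAt
      rw [h5.fderiv]
      simp [bv]
    rw [h4]
    split_ifs <;> simp
  simp_rw [h2]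
  simp

/-- the exponential weight `exp (t ζ·x)`. -/
noncomputable def ez (t : ℂ) (ζ : Fin 3 → ℂ) (x : E3) : ℂ := Complex.exp (t * zx ζ x)

lemma ez_contDiff (t : ℂ) (ζ : Fin 3 → ℂ) : ContDiff ℝ ∞ (ez t ζ) := by
  unfold ez
  exact (contDiff_const.mul (zx_contDiff ζ)).cexp

lemma pd_ez (t : ℂ) (ζ : Fin 3 → ℂ) (i : Fin 3) (x : E3) :
    pd i (ez t ζ) x = t * ζ i * ez t ζ x := by
  have h1 : HasFDerivAt (fun y => t * zx ζ y) (t • fderiv ℝ (zx ζ) x) x :=
    (sm_diff (zx_contDiff ζ) x).hasFDerivAt.const_mul t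
  have h2 : HasFDerivAt (ez t ζ) (Complex.exp (t * zx ζ x) • (t • fderiv ℝ (zx ζ) x)) x :=
    h1.cexp
  have h3 := pd_zx ζ i x
  unfold pd at h3 ⊢
  rw [h2.fderiv]
  simp only [FunLike.coe_smul, Pi.smul_apply, smul_eq_mul]
  rw [h3]
  unfold ez
  ring

end

end Vale.Agent.P136
end
end

section

section

/-! Coefficients of the potential system for the Lame operator, complex version of `sysP`. -/

open MeasureTheory Filter Topology
open scoped ContDiff

namespace Vale.Agent.P136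

/-- `m = 1/μ`. -/
noncomputable def mf (mu : E3 → ℝ) : E3 → ℝ := fun y => (mu y)⁻¹

/-- `k = (λ + 2μ)/μ`. -/
noncomputable def kf (lam mu : E3 → ℝ) : E3 → ℝ := fun y => (lam y + 2 * mu y) / mu y

lemma mf_contDiff {mu : E3 → ℝ} (h : ContDiff ℝ ∞ mu) (h0 : ∀ x, 0 < mu x) :
    ContDiff ℝ ∞ (mf mu) := h.inv fun x => (h0 x).ne'

lemma kf_contDiff {lam mu : E3 → ℝ} (hl : ContDiff ℝ ∞ lam) (h : ContDiff ℝ ∞ mu)
    (h0 : ∀ x, 0 < mu x) : ContDiff ℝ ∞ (kf lam mu) :=
  (hl.add (contDiff_const.mul h)).div h fun x => (h0 x).ne'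

/-- first order coefficients -/
noncomputable def cA (lam mu : E3 → ℝ) (j : Fin 3) (a b : Fin 4) (x : E3) : ℝ :=
  Fin.snoc (α := fun _ => ℝ)
    (fun i : Fin 3 => Fin.snoc (α := fun _ => ℝ)
      (fun l : Fin 3 => (mu x)⁻¹ * ((if l = i then pd j mu x else 0) +
        (if j = i then pd l mu x else 0) - (if j = l then pd i mu x else 0)))
      (-2 * pd i (pd j (mf mu)) x) b)
    (Fin.snoc (α := fun _ => ℝ)
      (fun l : Fin 3 => if j = l then (lam x + mu x) / kf lam mu x else 0) 0 b) a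

/-- zeroth order coefficients -/
noncomputable def cB (lam mu : E3 → ℝ) (a b : Fin 4) (x : E3) : ℝ :=
  Fin.snoc (α := fun _ => ℝ)
    (fun i : Fin 3 => Fin.snoc (α := fun _ => ℝ) (fun _ : Fin 3 => 0)
      (-(2 * (mu x)⁻¹ * ∑ j, (pd j mu x * pd i (pd j (mf mu)) x +
        mu x * pd j (pd i (pd j (mf mu))) x))) b)
    (Fin.snoc (α := fun _ => ℝ) (fun _ : Fin 3 => 0)
      (-(lam x * lap (mf mu) x / kf lam mu x)) b) a

lemma cA_smooth {lam mu : E3 → ℝ} (hl : ContDiff ℝ ∞ lam) (h : ContDiff ℝ ∞ mu)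
    (h0 : ∀ x, 0 < mu x) (h1 : ∀ x, 0 < lam x + 2 * mu x) (j : Fin 3) (a b : Fin 4) :
    ContDiff ℝ ∞ (cA lam mu j a b) := by
  have hm := mf_contDiff h h0
  have hk := kf_contDiff hl h h0
  have hk0 : ∀ x, kf lam mu x ≠ 0 := fun x => (div_pos (h1 x) (h0 x)).ne'
  refine Fin.lastCases ?_ (fun i => ?_) a
  · refine Fin.lastCases ?_ (fun l => ?_) b
    · have e : cA lam mu j (Fin.last 3) (Fin.last 3) = fun _ => 0 := by
        funext x; simp only [cA, Fin.snoc_last]
      rw [e]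
      exact contDiff_const
    · have e : cA lam mu j (Fin.last 3) (Fin.castSucc l) = fun x =>
          if j = l then (lam x + mu x) / kf lam mu x else 0 := by
        funext x; simp only [cA, Fin.snoc_last, Fin.snoc_castSucc]
      rw [e]
      by_cases hj : j = l
      · simp only [hj, if_true]
        exact (hl.add h).div hk hk0
      · simp only [hj, if_false]
        exact contDiff_const
  · refine Fin.lastCases ?_ (fun l => ?_) b
    · have e : cA lam mu j (Fin.castSucc i) (Fin.last 3) = fun x =>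
          -2 * pd i (pd j (mf mu)) x := by
        funext x; simp only [cA, Fin.snoc_last, Fin.snoc_castSucc]
      rw [e]
      exact contDiff_const.mul (pd_contDiff_infty (pd_contDiff_infty hm j) i)
    · have e : cA lam mu j (Fin.castSucc i) (Fin.castSucc l) = fun x =>
          (mu x)⁻¹ * ((if l = i then pd j mu x else 0) +
        (if j = i then pd l mu x else 0) - (if j = l then pd i mu x else 0)) := by
        funext x; simp only [cA, Fin.snoc_castSucc]
      rw [e]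
      refine hm.mul ?_
      refine (ContDiff.add ?_ ?_).sub ?_
      · split_ifs
        · exact pd_contDiff_infty h j
        · exact contDiff_const
      · split_ifs
        · exact pd_contDiff_infty h l
        · exact contDiff_const
      · split_ifs
        · exact pd_contDiff_infty h i
        · exact contDiff_const

lemma lap_sm {F : Type*} [NormedAddCommGroup F] [NormedSpace ℝ F] {f : E3 → F}
    (hf : ContDiff ℝ ∞ f) : ContDiff ℝ ∞ (lap f) := by
  unfold lap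
  exact ContDiff.sum fun i _ => pd_contDiff_infty (pd_contDiff_infty hf i) i

lemma cB_smooth {lam mu : E3 → ℝ} (hl : ContDiff ℝ ∞ lam) (h : ContDiff ℝ ∞ mu)
    (h0 : ∀ x, 0 < mu x) (h1 : ∀ x, 0 < lam x + 2 * mu x) (a b : Fin 4) :
    ContDiff ℝ ∞ (cB lam mu a b) := by
  have hm := mf_contDiff h h0
  have hk := kf_contDiff hl h h0
  have hk0 : ∀ x, kf lam mu x ≠ 0 := fun x => (div_pos (h1 x) (h0 x)).ne'
  refine Fin.lastCases ?_ (fun i => ?_) a
  · refine Fin.lastCases ?_ (fun l => ?_) b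
    · have e : cB lam mu (Fin.last 3) (Fin.last 3) = fun x =>
          (-(lam x * lap (mf mu) x / kf lam mu x)) := by
        funext x; simp only [cB, Fin.snoc_last]
      rw [e]
      exact ((hl.mul (lap_sm hm)).div hk hk0).neg
    · have e : cB lam mu (Fin.last 3) (Fin.castSucc l) = fun x => 0 := by
        funext x; simp only [cB, Fin.snoc_last, Fin.snoc_castSucc]
      rw [e]
      exact contDiff_const
  · refine Fin.lastCases ?_ (fun l => ?_) b
    · have e : cB lam mu (Fin.castSucc i) (Fin.last 3) = fun x =>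
          (-(2 * (mu x)⁻¹ * ∑ j, (pd j mu x * pd i (pd j (mf mu)) x +
        mu x * pd j (pd i (pd j (mf mu))) x))) := by
        funext x; simp only [cB, Fin.snoc_last, Fin.snoc_castSucc]
      rw [e]
      refine ((contDiff_const.mul hm).mul (ContDiff.sum fun j _ => ?_)).neg
      exact ((pd_contDiff_infty h j).mul (pd_contDiff_infty (pd_contDiff_infty hm j) i)).add
        (h.mul (pd_contDiff_infty (pd_contDiff_infty (pd_contDiff_infty hm j) i) j))
    · have e : cB lam mu (Fin.castSucc i) (Fin.castSucc l) = fun x => 0 := by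
        funext x; simp only [cB, Fin.snoc_castSucc]
      rw [e]
      exact contDiff_const

/-- complex version of `sysP`. -/
noncomputable def csysP {n : ℕ} (A : Fin 3 → Fin n → Fin n → E3 → ℝ)
    (B : Fin n → Fin n → E3 → ℝ) (Ψ : Fin n → E3 → ℂ) (a : Fin n) (x : E3) : ℂ :=
  lap (Ψ a) x + ∑ j, ∑ b, (A j a b x : ℂ) * pd j (Ψ b) x + ∑ b, (B a b x : ℂ) * Ψ b x

lemma lap_add' {f g : E3 → ℂ} (hf : ContDiff ℝ ∞ f) (hg : ContDiff ℝ ∞ g) (x : E3) :
    lap (fun y => f y + g y) x = lap f x + lap g x := by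
  unfold lap
  rw [← Finset.sum_add_distrib]
  refine Finset.sum_congr rfl fun i _ => ?_
  have : pd i (fun y => f y + g y) = fun y => pd i f y + pd i g y := by
    funext y; exact pdc_add hf hg i y
  rw [this]
  exact pdc_add (pd_contDiff_infty hf i) (pd_contDiff_infty hg i) i x

lemma lap_const_mul' (c : ℂ) {f : E3 → ℂ} (hf : ContDiff ℝ ∞ f) (x : E3) :
    lap (fun y => c * f y) x = c * lap f x := by
  unfold lap
  rw [Finset.mul_sum]
  refine Finset.sum_congr rfl fun i _ => ?_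
  have : pd i (fun y => c * f y) = fun y => c * pd i f y := by
    funext y; exact pdc_const_mul c hf i y
  rw [this]
  exact pdc_const_mul c (pd_contDiff_infty hf i) i x

lemma csysP_add {n : ℕ} (A : Fin 3 → Fin n → Fin n → E3 → ℝ) (B : Fin n → Fin n → E3 → ℝ)
    {Ψ Φ : Fin n → E3 → ℂ} (h1 : ∀ a, ContDiff ℝ ∞ (Ψ a)) (h2 : ∀ a, ContDiff ℝ ∞ (Φ a))
    (a : Fin n) (x : E3) :
    csysP A B (fun b y => Ψ b y + Φ b y) a x = csysP A B Ψ a x + csysP A B Φ a x := by
  unfold csysP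
  rw [lap_add' (h1 a) (h2 a)]
  have e1 : ∀ j b, (A j a b x : ℂ) * pd j (fun y => Ψ b y + Φ b y) x
      = (A j a b x : ℂ) * pd j (Ψ b) x + (A j a b x : ℂ) * pd j (Φ b) x := by
    intro j b
    rw [pdc_add (h1 b) (h2 b)]; ring
  have e2 : ∀ b, (B a b x : ℂ) * (Ψ b x + Φ b x)
      = (B a b x : ℂ) * Ψ b x + (B a b x : ℂ) * Φ b x := by
    intro b; ring
  simp_rw [e1, e2, Finset.sum_add_distrib]
  ring

lemma csysP_const_mul {n : ℕ} (A : Fin 3 → Fin n → Fin n → E3 → ℝ)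
    (B : Fin n → Fin n → E3 → ℝ) (c : ℂ)
    {Ψ : Fin n → E3 → ℂ} (h1 : ∀ a, ContDiff ℝ ∞ (Ψ a)) (a : Fin n) (x : E3) :
    csysP A B (fun b y => c * Ψ b y) a x = c * csysP A B Ψ a x := by
  unfold csysP
  rw [lap_const_mul' c (h1 a)]
  have e1 : ∀ j b, (A j a b x : ℂ) * pd j (fun y => c * Ψ b y) x
      = c * ((A j a b x : ℂ) * pd j (Ψ b) x) := by
    intro j b
    rw [pdc_const_mul c (h1 b)]; ring
  have e2 : ∀ b, (B a b x : ℂ) * (c * Ψ b x) = c * ((B a b x : ℂ) * Ψ b x) := by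
    intro b; ring
  simp_rw [e1, e2, ← Finset.mul_sum]
  ring

lemma lap_cc {f : E3 → ℝ} (hf : ContDiff ℝ ∞ f) (x : E3) : lap (cc f) x = ((lap f x : ℝ) : ℂ) := by
  unfold lap
  push_cast
  refine Finset.sum_congr rfl fun i _ => ?_
  rw [pd_cc' hf, pd_cc (pd_contDiff_infty hf i)]

lemma csysP_cc {n : ℕ} (A : Fin 3 → Fin n → Fin n → E3 → ℝ) (B : Fin n → Fin n → E3 → ℝ)
    {Ψ : Fin n → E3 → ℝ} (h1 : ∀ a, ContDiff ℝ ∞ (Ψ a)) (a : Fin n) (x : E3) :
    csysP A B (fun b => cc (Ψ b)) a x = ((sysP A B Ψ a x : ℝ) : ℂ) := by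
  unfold csysP sysP
  rw [lap_cc (h1 a)]
  push_cast
  congr 1
  congr 1
  refine Finset.sum_congr rfl fun j _ => Finset.sum_congr rfl fun b _ => ?_
  rw [pd_cc (h1 b)]

/-- Conjugation by the exponential. -/
lemma csysP_ez {n : ℕ} (A : Fin 3 → Fin n → Fin n → E3 → ℝ) (B : Fin n → Fin n → E3 → ℝ)
    {f : Fin n → E3 → ℂ} (h1 : ∀ a, ContDiff ℝ ∞ (f a)) (t : ℂ) (ζ : Fin 3 → ℂ)
    (hζ : dot ζ ζ = 0) (a : Fin n) (x : E3) :
    csysP A B (fun b y => ez t ζ y * f b y) a x = ez t ζ x *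
      (t * (2 * Dz ζ (f a) x + ∑ j, ∑ b, (A j a b x : ℂ) * ζ j * f b x) + csysP A B f a x) := by
  have hE := ez_contDiff t ζ
  have e1 : ∀ (b : Fin n) (j : Fin 3) (y : E3), pd j (fun y => ez t ζ y * f b y) y
      = ez t ζ y * (t * ζ j * f b y + pd j (f b) y) := by
    intro b j y
    rw [pdc_mul hE (h1 b), pd_ez]
    ring
  have e2 : lap (fun y => ez t ζ y * f a y) x
      = ez t ζ x * (t * (2 * Dz ζ (f a) x) + lap (f a) x) := by
    unfold lap
    have e3 : ∀ i : Fin 3, pd i (pd i (fun y => ez t ζ y * f a y)) x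
        = ez t ζ x * ((t * ζ i) * (t * ζ i) * f a x + 2 * (t * ζ i) * pd i (f a) x
          + pd i (pd i (f a)) x) := by
      intro i
      have e4 : pd i (fun y => ez t ζ y * f a y)
          = fun y => ez t ζ y * (t * ζ i * f a y + pd i (f a) y) := by
        funext y; exact e1 a i y
      rw [e4, pdc_mul hE ((contDiff_const.mul (h1 a)).add (pd_contDiff_infty (h1 a) i)), pd_ez,
        pdc_add (contDiff_const.mul (h1 a)) (pd_contDiff_infty (h1 a) i),
        pdc_const_mul _ (h1 a)]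
      ring
    simp_rw [e3]
    rw [← Finset.mul_sum]
    congr 1
    have e5 : ∑ i : Fin 3, ((t * ζ i) * (t * ζ i) * f a x + 2 * (t * ζ i) * pd i (f a) x
          + pd i (pd i (f a)) x)
        = t ^ 2 * f a x * dot ζ ζ + t * (2 * Dz ζ (f a) x) + ∑ i : Fin 3, pd i (pd i (f a)) x := by
      unfold dot Dz
      simp only [Fin.sum_univ_three]
      ring
    rw [e5, hζ]
    ring
  unfold csysP
  rw [e2]
  simp_rw [e1]
  have e6 : ∀ j b, (A j a b x : ℂ) * (ez t ζ x * (t * ζ j * f b x + pd j (f b) x))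
      = ez t ζ x * (t * ((A j a b x : ℂ) * ζ j * f b x) + (A j a b x : ℂ) * pd j (f b) x) := by
    intro j b; ring
  have e7 : ∀ b, (B a b x : ℂ) * (ez t ζ x * f b x) = ez t ζ x * ((B a b x : ℂ) * f b x) := by
    intro b; ring
  simp_rw [e6, e7, ← Finset.mul_sum, Finset.sum_add_distrib, ← Finset.mul_sum]
  ring

/-- The first three components of the potential system. -/
lemma csysP_castSucc {lam mu : E3 → ℝ} (W : Fin 3 → E3 → ℂ) (g : E3 → ℂ) (i : Fin 3) (x : E3) :
    csysP (cA lam mu) (cB lam mu) (Fin.snoc (α := fun _ => E3 → ℂ) W g) (Fin.castSucc i) x =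
      lap (W i) x + ((mu x)⁻¹ : ℝ) * (∑ j, ((pd j mu x : ℝ) : ℂ) * pd j (W i) x
        + ∑ l, ((pd l mu x : ℝ) : ℂ) * pd i (W l) x - ((pd i mu x : ℝ) : ℂ) * ∑ j, pd j (W j) x)
      - 2 * ∑ j, ((pd i (pd j (mf mu)) x : ℝ) : ℂ) * pd j g x
      - 2 * ((mu x)⁻¹ : ℝ) * (∑ j, (((pd j mu x : ℝ) : ℂ) * ((pd i (pd j (mf mu)) x : ℝ) : ℂ) +
        (mu x : ℂ) * ((pd j (pd i (pd j (mf mu))) x : ℝ) : ℂ))) * g x := by
  unfold csysP
  simp only [Fin.sum_univ_castSucc (n := 3), Fin.snoc_castSucc, Fin.snoc_last, cA, cB]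
  have e1 : ∀ j : Fin 3, ∑ l : Fin 3, (((mu x)⁻¹ * ((if l = i then pd j mu x else 0) +
        (if j = i then pd l mu x else 0) - (if j = l then pd i mu x else 0)) : ℝ) : ℂ)
          * pd j (W l) x = ((mu x)⁻¹ : ℝ) * (((pd j mu x : ℝ) : ℂ) * pd j (W i) x
          + (if j = i then ∑ l, ((pd l mu x : ℝ) : ℂ) * pd i (W l) x else 0)
          - ((pd i mu x : ℝ) : ℂ) * pd j (W j) x) := by
    intro j
    have e2 : ∀ l : Fin 3, (((mu x)⁻¹ * ((if l = i then pd j mu x else 0) +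
        (if j = i then pd l mu x else 0) - (if j = l then pd i mu x else 0)) : ℝ) : ℂ)
          * pd j (W l) x = ((mu x)⁻¹ : ℝ) * ((if l = i then ((pd j mu x : ℝ) : ℂ) * pd j (W l) x else 0)
          + (if j = i then ((pd l mu x : ℝ) : ℂ) * pd j (W l) x else 0)
          - (if j = l then ((pd i mu x : ℝ) : ℂ) * pd j (W l) x else 0)) := by
      intro l
      split_ifs <;> push_cast <;> ring
    simp_rw [e2, ← Finset.mul_sum, Finset.sum_sub_distrib, Finset.sum_add_distrib]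
    congr 1
    congr 1
    · congr 1
      · simp
      · by_cases hj : j = i
        · subst hj; simp
        · simp [hj]
    · simp
  simp only [e1]
  simp only [Complex.ofReal_zero, zero_mul, Finset.sum_const_zero, zero_add]
  have e3 : ∑ j : Fin 3, ((((mu x)⁻¹ : ℝ) : ℂ) * (((pd j mu x : ℝ) : ℂ) * pd j (W i) x
          + (if j = i then ∑ l, ((pd l mu x : ℝ) : ℂ) * pd i (W l) x else 0)
          - ((pd i mu x : ℝ) : ℂ) * pd j (W j) x)
          + ((-2 * pd i (pd j (mf mu)) x : ℝ) : ℂ) * pd j g x)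
      = ((mu x)⁻¹ : ℝ) * (∑ j, ((pd j mu x : ℝ) : ℂ) * pd j (W i) x
        + ∑ l, ((pd l mu x : ℝ) : ℂ) * pd i (W l) x - ((pd i mu x : ℝ) : ℂ) * ∑ j, pd j (W j) x)
      - 2 * ∑ j, ((pd i (pd j (mf mu)) x : ℝ) : ℂ) * pd j g x := by
    rw [Finset.sum_add_distrib, ← Finset.mul_sum, Finset.sum_sub_distrib, Finset.sum_add_distrib,
      ← Finset.mul_sum, Finset.sum_ite_eq' Finset.univ i, if_pos (Finset.mem_univ i)]
    push_cast
    simp only [Fin.sum_univ_three]
    ring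
  rw [e3]
  push_cast
  ring

/-- The last component of the potential system. -/
lemma csysP_last {lam mu : E3 → ℝ} (W : Fin 3 → E3 → ℂ) (g : E3 → ℂ) (x : E3) :
    csysP (cA lam mu) (cB lam mu) (Fin.snoc (α := fun _ => E3 → ℂ) W g) (Fin.last 3) x =
      lap g x + ((lam x + mu x) / kf lam mu x : ℝ) * ∑ j, pd j (W j) x
      - (lam x * lap (mf mu) x / kf lam mu x : ℝ) * g x := by
  unfold csysP
  simp only [Fin.sum_univ_castSucc (n := 3), Fin.snoc_castSucc, Fin.snoc_last, cA, cB]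
  have e1 : ∀ j : Fin 3, ∑ l : Fin 3, ((if j = l then (lam x + mu x) / kf lam mu x else 0 : ℝ) : ℂ)
          * pd j (W l) x = ((lam x + mu x) / kf lam mu x : ℝ) * pd j (W j) x := by
    intro j
    have e2 : ∀ l : Fin 3, ((if j = l then (lam x + mu x) / kf lam mu x else 0 : ℝ) : ℂ)
          * pd j (W l) x = if j = l then ((lam x + mu x) / kf lam mu x : ℝ) * pd j (W l) x
            else 0 := by
      intro l
      split_ifs <;> simp
    simp_rw [e2]
    simp
  simp only [e1, Complex.ofReal_zero, zero_mul, Finset.sum_const_zero, zero_add, add_zero]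
  rw [← Finset.mul_sum]
  push_cast
  ring

end Vale.Agent.P136
end
end

section

section

/-! Approximate complex geometrical optics solutions of the potential system. -/

open MeasureTheory Filter Topology
open scoped ContDiff

namespace Vale.Agent.P136

lemma csysP_smooth {n : ℕ} {A : Fin 3 → Fin n → Fin n → E3 → ℝ} {B : Fin n → Fin n → E3 → ℝ}
    (hA : ∀ j a b, ContDiff ℝ ∞ (A j a b)) (hB : ∀ a b, ContDiff ℝ ∞ (B a b))
    {Ψ : Fin n → E3 → ℂ} (h : ∀ a, ContDiff ℝ ∞ (Ψ a)) (a : Fin n) :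
    ContDiff ℝ ∞ (csysP A B Ψ a) := by
  unfold csysP
  refine ((lap_sm (h a)).add (ContDiff.sum fun j _ => ContDiff.sum fun b _ => ?_)).add
    (ContDiff.sum fun b _ => ?_)
  · exact (cc_contDiff (hA j a b)).mul (pd_contDiff_infty (h b) j)
  · exact (cc_contDiff (hB a b)).mul (h b)

lemma symb_castSucc {lam mu : E3 → ℝ} (ζ : Fin 3 → ℂ) (W : Fin 3 → E3 → ℂ) (g : E3 → ℂ)
    (i : Fin 3) (x : E3) :
    ∑ j, ∑ b, (cA lam mu j (Fin.castSucc i) b x : ℂ) * ζ j *
        (Fin.snoc (α := fun _ => E3 → ℂ) W g : Fin 4 → E3 → ℂ) b x =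
      ((mu x)⁻¹ : ℝ) * ((∑ j, ζ j * ((pd j mu x : ℝ) : ℂ)) * W i x
        + ζ i * ∑ l, ((pd l mu x : ℝ) : ℂ) * W l x
        - ((pd i mu x : ℝ) : ℂ) * ∑ j, ζ j * W j x)
      - 2 * (∑ j, ((pd i (pd j (mf mu)) x : ℝ) : ℂ) * ζ j) * g x := by
  simp only [Fin.sum_univ_castSucc (n := 3), Fin.snoc_castSucc, Fin.snoc_last, cA]
  fin_cases i <;> simp [Fin.sum_univ_three] <;> ring

lemma symb_last {lam mu : E3 → ℝ} (ζ : Fin 3 → ℂ) (W : Fin 3 → E3 → ℂ) (g : E3 → ℂ)
    (x : E3) :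
    ∑ j, ∑ b, (cA lam mu j (Fin.last 3) b x : ℂ) * ζ j *
        (Fin.snoc (α := fun _ => E3 → ℂ) W g : Fin 4 → E3 → ℂ) b x =
      ((lam x + mu x) / kf lam mu x : ℝ) * ∑ j, ζ j * W j x := by
  simp only [Fin.sum_univ_castSucc (n := 3), Fin.snoc_castSucc, Fin.snoc_last, cA]
  simp [Fin.sum_univ_three]
  ring

/-- completeness of a null basis. -/
lemma null_complete {ζ ξ n : Fin 3 → ℂ} (h1 : dot ζ ζ = 0) (h2 : dot ξ ξ = 0)
    (h3 : dot ζ ξ = 1) (hn : n = ![ζ 1 * ξ 2 - ζ 2 * ξ 1, ζ 2 * ξ 0 - ζ 0 * ξ 2,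
      ζ 0 * ξ 1 - ζ 1 * ξ 0]) (X : Fin 3 → ℂ) (i : Fin 3) :
    X i = (∑ j, X j * ξ j) * ζ i - (∑ j, X j * n j) * n i + (∑ j, X j * ζ j) * ξ i := by
  unfold dot at h1 h2 h3
  simp only [Fin.sum_univ_three] at h1 h2 h3 ⊢
  subst hn
  set a := ζ 0
  set b := ζ 1
  set c := ζ 2
  set p := ξ 0
  set q := ξ 1
  set r := ξ 2
  set A := a * a + b * b + c * c with hA
  set Bq := p * p + q * q + r * r with hB
  set C := a * p + b * q + c * r with hC
  have key : ∀ (zi zj xi xj ni nj δ : ℂ), ni * nj = (A * Bq - C ^ 2) * δ - Bq * (zi * zj)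
      - A * (xi * xj) + C * (zi * xj + xi * zj) → zi * xj + xi * zj - ni * nj = δ := by
    intro zi zj xi xj ni nj δ h
    rw [h, h1, h2, h3]
    ring
  have k00 := key a a p p (b * r - c * q) (b * r - c * q) 1 (by rw [hA, hB, hC]; ring)
  have k01 := key a b p q (b * r - c * q) (c * p - a * r) 0 (by rw [hA, hB, hC]; ring)
  have k02 := key a c p r (b * r - c * q) (a * q - b * p) 0 (by rw [hA, hB, hC]; ring)
  have k11 := key b b q q (c * p - a * r) (c * p - a * r) 1 (by rw [hA, hB, hC]; ring)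
  have k12 := key b c q r (c * p - a * r) (a * q - b * p) 0 (by rw [hA, hB, hC]; ring)
  have k22 := key c c r r (a * q - b * p) (a * q - b * p) 1 (by rw [hA, hB, hC]; ring)
  fin_cases i
  · simp
    linear_combination (-X 0) * k00 - X 1 * k01 - X 2 * k02
  · simp
    linear_combination (-X 0) * k01 - X 1 * k11 - X 2 * k12
  · simp
    linear_combination (-X 0) * k02 - X 1 * k12 - X 2 * k22

lemma Dz_smooth (ζ : Fin 3 → ℂ) {f : E3 → ℂ} (hf : ContDiff ℝ ∞ f) :
    ContDiff ℝ ∞ (Dz ζ f) := by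
  unfold Dz
  exact ContDiff.sum fun i _ => contDiff_const.mul (pd_contDiff_infty hf i)

lemma Dz_add (ζ : Fin 3 → ℂ) {f g : E3 → ℂ} (hf : ContDiff ℝ ∞ f) (hg : ContDiff ℝ ∞ g)
    (x : E3) : Dz ζ (fun y => f y + g y) x = Dz ζ f x + Dz ζ g x := by
  unfold Dz
  simp only [pdc_add hf hg, mul_add, Finset.sum_add_distrib]

lemma Dz_sub (ζ : Fin 3 → ℂ) {f g : E3 → ℂ} (hf : ContDiff ℝ ∞ f) (hg : ContDiff ℝ ∞ g)
    (x : E3) : Dz ζ (fun y => f y - g y) x = Dz ζ f x - Dz ζ g x := by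
  unfold Dz
  simp only [pdc_sub hf hg, mul_sub, Finset.sum_sub_distrib]

lemma Dz_mul (ζ : Fin 3 → ℂ) {f g : E3 → ℂ} (hf : ContDiff ℝ ∞ f) (hg : ContDiff ℝ ∞ g)
    (x : E3) : Dz ζ (fun y => f y * g y) x = Dz ζ f x * g x + f x * Dz ζ g x := by
  unfold Dz
  simp only [pdc_mul hf hg, Fin.sum_univ_three]
  ring

lemma Dz_mul_const (ζ : Fin 3 → ℂ) {f : E3 → ℂ} (hf : ContDiff ℝ ∞ f) (c : ℂ)
    (x : E3) : Dz ζ (fun y => f y * c) x = Dz ζ f x * c := by
  rw [Dz_mul ζ hf contDiff_const]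
  unfold Dz
  simp [pdc_const]

lemma pd_Dz (ζ : Fin 3 → ℂ) {f : E3 → ℂ} (hf : ContDiff ℝ ∞ f) (i : Fin 3) (x : E3) :
    pd i (Dz ζ f) x = Dz ζ (pd i f) x := by
  have e : Dz ζ f = fun y => ∑ j, ζ j * pd j f y := rfl
  rw [e, pdc_sum _ (fun j _ => contDiff_const.mul (pd_contDiff_infty hf j))]
  unfold Dz
  refine Finset.sum_congr rfl fun j _ => ?_
  rw [pdc_const_mul _ (pd_contDiff_infty hf j), pd_comm (hf.of_le (by norm_cast))]

lemma Dz_sum (ζ : Fin 3 → ℂ) {f : Fin 3 → E3 → ℂ} (hf : ∀ a, ContDiff ℝ ∞ (f a))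
    (x : E3) : Dz ζ (fun y => ∑ a, f a y) x = ∑ a, Dz ζ (f a) x := by
  unfold Dz
  simp only [pdc_sum Finset.univ (fun a _ => hf a), Finset.mul_sum]
  rw [Finset.sum_comm]

section M
variable {mu : E3 → ℝ}

lemma mu_mf (h0 : ∀ x, 0 < mu x) (x : E3) : (cc mu x) * (cc (mf mu) x) = 1 := by
  unfold cc mf
  rw [← Complex.ofReal_mul, mul_inv_cancel₀ (h0 x).ne', Complex.ofReal_one]

lemma pd_mu_mf (h : ContDiff ℝ ∞ mu) (h0 : ∀ x, 0 < mu x) (i : Fin 3) (x : E3) :
    pd i (cc mu) x = - (cc mu x) ^ 2 * pd i (cc (mf mu)) x := by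
  have hm := mf_contDiff h h0
  have h1 : pd i (fun y => cc mu y * cc (mf mu) y) x = 0 := by
    have : (fun y => cc mu y * cc (mf mu) y) = fun _ => (1 : ℂ) := by
      funext y; exact mu_mf h0 y
    rw [this, pdc_const]
  rw [pdc_mul (cc_contDiff h) (cc_contDiff hm)] at h1
  have h2 := mu_mf h0 x
  linear_combination (cc mu x) * h1 - pd i (cc mu) x * h2

end M

/-- divergence of equation (A'). -/
lemma div_identity {m : E3 → ℂ} {w : Fin 3 → E3 → ℂ} (hm : ContDiff ℝ ∞ m)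
    (hw : ∀ j, ContDiff ℝ ∞ (w j)) (ζ : Fin 3 → ℂ) {s : Set E3} (hs : IsOpen s)
    (hA : ∀ x ∈ s, ∀ j, 2 * m x * Dz ζ (w j) x = ζ j * ∑ i, w i x * pd i m x
      + Dz ζ m x * w j x) {x : E3} (hx : x ∈ s) :
    (∑ j, pd j m x * Dz ζ (w j) x) + 2 * m x * Dz ζ (fun y => ∑ j, pd j (w j) y) x
      = 2 * (∑ i, w i x * Dz ζ (pd i m) x) + Dz ζ m x * ∑ j, pd j (w j) x := by
  have hpm := fun i => pd_contDiff_infty hm i
  have h1 : ∀ j, pd j (fun y => 2 * m y * Dz ζ (w j) y) x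
      = pd j (fun y => ζ j * (∑ i, w i y * pd i m y) + Dz ζ m y * w j y) x := by
    intro j
    exact pd_congr_open hs (fun y hy => hA y hy j) hx j
  have h2 : ∀ j, pd j (fun y => 2 * m y * Dz ζ (w j) y) x
      = 2 * pd j m x * Dz ζ (w j) x + 2 * m x * Dz ζ (pd j (w j)) x := by
    intro j
    have e : (fun y => 2 * m y * Dz ζ (w j) y) = fun y => 2 * (m y * Dz ζ (w j) y) := by
      funext y; ring
    rw [e, pdc_const_mul _ (hm.mul (Dz_smooth ζ (hw j))), pdc_mul hm (Dz_smooth ζ (hw j)),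
      pd_Dz ζ (hw j)]
    ring
  have h3 : ∀ j, pd j (fun y => ζ j * (∑ i, w i y * pd i m y) + Dz ζ m y * w j y) x
      = ζ j * (∑ i, (pd j (w i) x * pd i m x + w i x * pd j (pd i m) x))
        + (Dz ζ (pd j m) x * w j x + Dz ζ m x * pd j (w j) x) := by
    intro j
    have hs1 : ContDiff ℝ ∞ (fun y => ∑ i, w i y * pd i m y) :=
      ContDiff.sum fun i _ => (hw i).mul (hpm i)
    rw [pdc_add (contDiff_const.mul hs1) ((Dz_smooth ζ hm).mul (hw j)),
      pdc_const_mul _ hs1, pdc_sum _ (fun i _ => (hw i).mul (hpm i)),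
      pdc_mul (Dz_smooth ζ hm) (hw j), pd_Dz ζ hm]
    congr 2
    refine Finset.sum_congr rfl fun i _ => ?_
    rw [pdc_mul (hw i) (hpm i)]
  have h4 : Dz ζ (fun y => ∑ j, pd j (w j) y) x = ∑ j, Dz ζ (pd j (w j)) x :=
    Dz_sum ζ (fun j => pd_contDiff_infty (hw j) j) x
  have h5 : ∑ j, (2 * pd j m x * Dz ζ (w j) x + 2 * m x * Dz ζ (pd j (w j)) x)
      = ∑ j, (ζ j * (∑ i, (pd j (w i) x * pd i m x + w i x * pd j (pd i m) x))
        + (Dz ζ (pd j m) x * w j x + Dz ζ m x * pd j (w j) x)) := by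
    refine Finset.sum_congr rfl fun j _ => ?_
    rw [← h2, ← h3, h1]
  rw [h4]
  have h6 : ∀ i, Dz ζ (w i) x = ∑ j, ζ j * pd j (w i) x := fun i => rfl
  have h7 : ∀ i, Dz ζ (pd i m) x = ∑ j, ζ j * pd j (pd i m) x := fun i => rfl
  have h8 : ∀ i j, pd j (pd i m) x = pd i (pd j m) x := by
    intro i j
    rw [pd_comm (hm.of_le (by norm_cast))]
  simp only [Fin.sum_univ_three] at h5 h6 h7 ⊢
  simp only [h6, h7] at h5 ⊢
  rw [h8 0 1, h8 0 2, h8 1 2] at h5 ⊢
  linear_combination h5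

/-- the null vector dual to `ζ`. -/
noncomputable def xiv (ζ : Fin 3 → ℂ) (j : Fin 3) : ℂ :=
  (starRingEnd ℂ) (ζ j) / (∑ i, (Complex.normSq (ζ i) : ℂ))

lemma xiv_spec {ζ : Fin 3 → ℂ} (hζ : dot ζ ζ = 0) (h0 : ζ ≠ 0) :
    dot (xiv ζ) (xiv ζ) = 0 ∧ dot ζ (xiv ζ) = 1 := by
  have hN : (∑ i, (Complex.normSq (ζ i) : ℂ)) ≠ 0 := by
    have h1 : 0 < ∑ i, Complex.normSq (ζ i) := by
      refine Finset.sum_pos' (fun i _ => Complex.normSq_nonneg _) ?_
      obtain ⟨i, hi⟩ := Function.ne_iff.1 h0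
      exact ⟨i, Finset.mem_univ _, Complex.normSq_pos.2 hi⟩
    intro h
    rw [← Complex.ofReal_sum] at h
    exact h1.ne' (by exact_mod_cast h)
  constructor
  · unfold dot xiv
    have h1 : ∑ i, (starRingEnd ℂ) (ζ i) * (starRingEnd ℂ) (ζ i) = 0 := by
      have := congrArg (starRingEnd ℂ) hζ
      unfold dot at this
      rw [map_sum] at this
      simpa using this
    calc ∑ i, (starRingEnd ℂ) (ζ i) / (∑ i, (Complex.normSq (ζ i) : ℂ)) *
          ((starRingEnd ℂ) (ζ i) / (∑ i, (Complex.normSq (ζ i) : ℂ)))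
        = (∑ i, (starRingEnd ℂ) (ζ i) * (starRingEnd ℂ) (ζ i)) /
            (∑ i, (Complex.normSq (ζ i) : ℂ)) ^ 2 := by
          rw [Finset.sum_div]
          refine Finset.sum_congr rfl fun i _ => ?_
          rw [div_mul_div_comm, sq]
      _ = 0 := by rw [h1, zero_div]
  · unfold dot xiv
    calc ∑ i, ζ i * ((starRingEnd ℂ) (ζ i) / (∑ i, (Complex.normSq (ζ i) : ℂ)))
        = (∑ i, ζ i * (starRingEnd ℂ) (ζ i)) / (∑ i, (Complex.normSq (ζ i) : ℂ)) := by
          rw [Finset.sum_div]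
          refine Finset.sum_congr rfl fun i _ => ?_
          rw [mul_div_assoc]
      _ = 1 := by
          simp_rw [Complex.mul_conj]
          exact div_self hN

/-- Existence of the amplitudes. -/
theorem exists_ansatz (hS : S1E_statement) {lam mu : E3 → ℝ} (hl : ContDiff ℝ ∞ lam)
    (hmu : ContDiff ℝ ∞ mu) (h0 : ∀ x, 0 < mu x) (h1 : ∀ x, 0 < lam x + mu x)
    {ζ : Fin 3 → ℂ} (hζ : dot ζ ζ = 0) (hζ0 : ζ ≠ 0) {R : ℝ} {U : Fin 3 → E3 → ℂ}
    {d : E3 → ℂ} (hU : ∀ j, ContDiff ℝ ∞ (U j)) (hd : ContDiff ℝ ∞ d)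
    (hT : Transport ζ lam mu R U d) :
    ∃ (w0 w1 : Fin 3 → E3 → ℂ) (g1 : E3 → ℂ), (∀ j, ContDiff ℝ ∞ (w0 j)) ∧
      (∀ j, ContDiff ℝ ∞ (w1 j)) ∧ ContDiff ℝ ∞ g1 ∧
      (∀ j x, w0 j x = U j x - cc (mf mu) x * g1 x * ζ j) ∧
      (∀ x, ‖x‖ < R → ∑ j, ζ j * w0 j x = 0) ∧
      (∀ x, ‖x‖ < R → ∑ j, ζ j * w1 j x = cc (kf lam mu) x * d x - ∑ j, pd j (w0 j) x) ∧
      (∀ x, ‖x‖ < R → 2 * Dz ζ g1 x = - ((lam x + mu x : ℝ) : ℂ) * d x) ∧
      (∀ x, ‖x‖ < R → ∀ a, 2 * Dz ζ ((Fin.snoc (α := fun _ => E3 → ℂ) w0 (fun _ => 0) :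
          Fin 4 → E3 → ℂ) a) x + ∑ j, ∑ b, (cA lam mu j a b x : ℂ) * ζ j *
          (Fin.snoc (α := fun _ => E3 → ℂ) w0 (fun _ => 0) : Fin 4 → E3 → ℂ) b x = 0) ∧
      (∀ x, ‖x‖ < R → ∀ a, 2 * Dz ζ ((Fin.snoc (α := fun _ => E3 → ℂ) w1 g1 :
          Fin 4 → E3 → ℂ) a) x + (∑ j, ∑ b, (cA lam mu j a b x : ℂ) * ζ j *
          (Fin.snoc (α := fun _ => E3 → ℂ) w1 g1 : Fin 4 → E3 → ℂ) b x) +
          csysP (cA lam mu) (cB lam mu) (Fin.snoc (α := fun _ => E3 → ℂ) w0 (fun _ => 0)) a x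
            = 0) := by
  have hm := mf_contDiff hmu h0
  have hk := kf_contDiff hl hmu h0
  have h2 : ∀ x, 0 < lam x + 2 * mu x := fun x => by linarith [h0 x, h1 x]
  have hcm := cc_contDiff hm
  have hcmu := cc_contDiff hmu
  have hck := cc_contDiff hk
  set B : Set E3 := {x | ‖x‖ < R} with hB
  have hBo : IsOpen B := isOpen_lt continuous_norm continuous_const
  -- step 1
  have hF : ContDiff ℝ ∞ (fun x => - ((lam x + mu x : ℝ) : ℂ) * d x / 2) := by
    have : ContDiff ℝ ∞ (fun x => ((lam x + mu x : ℝ) : ℂ)) := cc_contDiff (hl.add hmu)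
    exact ((this.neg).mul hd).div_const 2
  obtain ⟨G, hG1, hG2, -⟩ := hS ζ hζ hζ0 1 (fun _ _ _ => 0)
    (fun _ x => - ((lam x + mu x : ℝ) : ℂ) * d x / 2) 0 (fun _ => 0) R
    (fun _ _ => contDiff_const) (fun _ => hF)
  set g1 : E3 → ℂ := G 0 with hg1
  have hg1s : ContDiff ℝ ∞ g1 := hG1 0
  have hg1e : ∀ x, ‖x‖ < R → 2 * Dz ζ g1 x = - ((lam x + mu x : ℝ) : ℂ) * d x := by
    intro x hx
    have := hG2 x hx 0
    simp only [Fin.sum_univ_one, zero_mul, zero_add] at this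
    rw [hg1, this]
    ring
  -- step 2
  set w0 : Fin 3 → E3 → ℂ := fun j x => U j x - cc (mf mu) x * g1 x * ζ j with hw0
  have hw0s : ∀ j, ContDiff ℝ ∞ (w0 j) := fun j =>
    (hU j).sub ((hcm.mul hg1s).mul contDiff_const)
  have hw0z : ∀ x, ‖x‖ < R → ∑ j, ζ j * w0 j x = 0 := by
    intro x hx
    have ht := (hT x hx).1
    have : ∑ j, ζ j * w0 j x = (∑ j, ζ j * U j x) - cc (mf mu) x * g1 x * dot ζ ζ := by
      simp only [hw0, dot, Fin.sum_univ_three]
      ring
    rw [this, ht, hζ]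
    ring
  have hpmu : ∀ i x, pd i (cc mu) x = - (cc mu x) ^ 2 * pd i (cc (mf mu)) x :=
    pd_mu_mf hmu h0
  have hmm : ∀ x, cc mu x * cc (mf mu) x = 1 := mu_mf h0
  have hDmu : ∀ x, Dz ζ (cc mu) x = - (cc mu x) ^ 2 * Dz ζ (cc (mf mu)) x := by
    intro x
    unfold Dz
    simp only [hpmu, Finset.mul_sum]
    refine Finset.sum_congr rfl fun i _ => ?_
    ring
  have hDw0 : ∀ j x, Dz ζ (w0 j) x = Dz ζ (U j) x
      - (Dz ζ (cc (mf mu)) x * g1 x + cc (mf mu) x * Dz ζ g1 x) * ζ j := by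
    intro j x
    rw [hw0, Dz_sub ζ (hU j) ((hcm.mul hg1s).mul contDiff_const),
      Dz_mul_const ζ (hcm.mul hg1s), Dz_mul ζ hcm hg1s]
  -- equation (A')
  have hA : ∀ x ∈ B, ∀ j, 2 * cc (mf mu) x * Dz ζ (w0 j) x =
      ζ j * ∑ i, w0 i x * pd i (cc (mf mu)) x + Dz ζ (cc (mf mu)) x * w0 j x := by
    intro x hx j
    have ht := (hT x hx).2.1 j
    have hg := hg1e x hx
    have hmx := hmm x
    have e1 : ∑ i, w0 i x * pd i (cc (mf mu)) x = (∑ i, U i x * pd i (cc (mf mu)) x)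
        - cc (mf mu) x * g1 x * Dz ζ (cc (mf mu)) x := by
      simp only [hw0, Dz, Fin.sum_univ_three]
      ring
    have e2 : ∑ i, U i x * pd i (cc mu) x
        = - (cc mu x) ^ 2 * ∑ i, U i x * pd i (cc (mf mu)) x := by
      simp only [hpmu, Finset.mul_sum]
      refine Finset.sum_congr rfl fun i _ => ?_
      ring
    rw [e2, hDmu] at ht
    rw [hDw0, e1]
    have e3 : w0 j x = U j x - cc (mf mu) x * g1 x * ζ j := rfl
    rw [e3]
    have hM : (mu x : ℂ) = cc mu x := rfl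
    rw [hM] at ht
    set M := cc mu x
    set m := cc (mf mu) x
    set SU := ∑ i, U i x * pd i (cc (mf mu)) x
    set Dm := Dz ζ (cc (mf mu)) x
    set L := ((lam x + mu x : ℝ) : ℂ)
    linear_combination m ^ 2 * ht - m ^ 2 * ζ j * hg + (-(2 * m * Dz ζ (U j) x)
      + (1 + M * m) * (ζ j * SU + U j x * Dm)) * hmx
  have hdiv := fun x (hx : x ∈ B) => div_identity hcm hw0s ζ hBo hA hx
  -- the divergence and the scalar `S`
  set dv : E3 → ℂ := fun y => ∑ j, pd j (w0 j) y with hdv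
  have hdvs : ContDiff ℝ ∞ dv := ContDiff.sum fun j _ => pd_contDiff_infty (hw0s j) j
  set S : E3 → ℂ := fun y => cc (kf lam mu) y * d y - dv y with hSdef
  have hSs : ContDiff ℝ ∞ S := (hck.mul hd).sub hdvs
  have hDS : ∀ x ∈ B, Dz ζ S x = cc mu x * (∑ j, Dz ζ (pd j (cc (mf mu))) x * U j x)
      - Dz ζ dv x := by
    intro x hx
    have ht := (hT x hx).2.2
    rw [hSdef, Dz_sub ζ (hck.mul hd) hdvs]
    congr 1
  -- the source vector
  set a0 : Fin 4 → E3 → ℂ := Fin.snoc (α := fun _ => E3 → ℂ) w0 (fun _ => 0) with ha0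
  have ha0s : ∀ a, ContDiff ℝ ∞ (a0 a) := by
    intro a
    refine Fin.lastCases ?_ (fun i => ?_) a
    · rw [ha0, Fin.snoc_last]; exact contDiff_const
    · rw [ha0, Fin.snoc_castSucc]; exact hw0s i
  have hcs := csysP_smooth (fun j a b => cA_smooth hl hmu h0 h2 j a b)
    (fun a b => cB_smooth hl hmu h0 h2 a b) ha0s
  have hpj : ∀ j : Fin 3, ContDiff ℝ ∞ (fun x => ((pd j mu x : ℝ) : ℂ)) := fun j =>
    cc_contDiff (pd_contDiff_infty hmu j)
  have hpij : ∀ i j : Fin 3, ContDiff ℝ ∞ (fun x => ((pd i (pd j (mf mu)) x : ℝ) : ℂ)) :=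
    fun i j => cc_contDiff (pd_contDiff_infty (pd_contDiff_infty hm j) i)
  set Fv : Fin 3 → E3 → ℂ := fun i x => csysP (cA lam mu) (cB lam mu) a0 (Fin.castSucc i) x
    - cc (mf mu) x * ((pd i mu x : ℝ) : ℂ) * S x
    - 2 * g1 x * ∑ j, ((pd i (pd j (mf mu)) x : ℝ) : ℂ) * ζ j with hFv
  have hFvs : ∀ i, ContDiff ℝ ∞ (Fv i) := by
    intro i
    refine ((hcs _).sub ((hcm.mul (hpj i)).mul hSs)).sub ((contDiff_const.mul hg1s).mul ?_)
    exact ContDiff.sum fun j _ => (hpij i j).mul contDiff_const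
  obtain ⟨hξ1, hξ2⟩ := xiv_spec hζ hζ0
  set ξ := xiv ζ with hξ
  set n : Fin 3 → ℂ := ![ζ 1 * ξ 2 - ζ 2 * ξ 1, ζ 2 * ξ 0 - ζ 0 * ξ 2,
      ζ 0 * ξ 1 - ζ 1 * ξ 0] with hn
  have hnz : dot ζ n = 0 := by
    simp [dot, hn, Fin.sum_univ_three]
    ring
  have hcomp := null_complete hζ hξ1 hξ2 hn
  -- consistency
  have hcons : ∀ x ∈ B, 2 * Dz ζ S x + cc (mf mu) x * (∑ j, ζ j * ((pd j mu x : ℝ) : ℂ)) * S x
      + ∑ i, Fv i x * ζ i = 0 := by
    intro x hx
    have hcs1 : ∀ i, csysP (cA lam mu) (cB lam mu) a0 (Fin.castSucc i) x =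
        lap (w0 i) x + cc (mf mu) x * ((∑ j, pd j (cc mu) x * pd j (w0 i) x)
          + (∑ l, pd l (cc mu) x * pd i (w0 l) x) - pd i (cc mu) x * dv x) := by
      intro i
      rw [ha0, csysP_castSucc]
      simp only [pdc_const, mul_zero, Finset.sum_const_zero, sub_zero, pd_cc hmu]
      rfl
    have hz1 : ∀ j, ∑ i, ζ i * pd j (w0 i) x = 0 := by
      intro j
      have e1 : pd j (fun y => ∑ i, ζ i * w0 i y) x = ∑ i, ζ i * pd j (w0 i) x := by
        rw [pdc_sum _ (fun i _ => contDiff_const.mul (hw0s i))]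
        refine Finset.sum_congr rfl fun i _ => pdc_const_mul _ (hw0s i) _ _
      rw [← e1, pd_congr_open hBo (g := fun _ => (0 : ℂ)) (fun y hy => hw0z y hy) hx, pdc_const]
    have hz2 : ∑ i, ζ i * lap (w0 i) x = 0 := by
      have e1 : ∀ j, ∑ i, ζ i * pd j (pd j (w0 i)) x = 0 := by
        intro j
        have e2 : pd j (pd j (fun y => ∑ i, ζ i * w0 i y)) x
            = ∑ i, ζ i * pd j (pd j (w0 i)) x := by
          have e3 : pd j (fun y => ∑ i, ζ i * w0 i y) = fun y => ∑ i, ζ i * pd j (w0 i) y := by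
            funext y
            rw [pdc_sum _ (fun i _ => contDiff_const.mul (hw0s i))]
            refine Finset.sum_congr rfl fun i _ => pdc_const_mul _ (hw0s i) _ _
          rw [e3, pdc_sum _ (fun i _ => contDiff_const.mul (pd_contDiff_infty (hw0s i) j))]
          refine Finset.sum_congr rfl fun i _ => pdc_const_mul _ (pd_contDiff_infty (hw0s i) j) _ _
        rw [← e2, pd_congr_open hBo (g := fun _ => (0 : ℂ)) (fun y hy => ?_) hx, pdc_const]
        rw [pd_congr_open hBo (g := fun _ => (0 : ℂ)) (fun y hy => hw0z y hy) hy, pdc_const]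
      have e4 : ∑ i, ζ i * lap (w0 i) x = ∑ j, ∑ i, ζ i * pd j (pd j (w0 i)) x := by
        unfold lap
        simp only [Finset.mul_sum]
        rw [Finset.sum_comm]
      rw [e4]
      simp [e1]
    have hFz : ∑ i, Fv i x * ζ i = cc (mf mu) x * ((∑ l, pd l (cc mu) x * Dz ζ (w0 l) x)
        - Dz ζ (cc mu) x * dv x) - cc (mf mu) x * Dz ζ (cc mu) x * S x
        - 2 * g1 x * ∑ j, Dz ζ (pd j (cc (mf mu))) x * ζ j := by
      have e1 : ∀ i, Fv i x = csysP (cA lam mu) (cB lam mu) a0 (Fin.castSucc i) x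
          - cc (mf mu) x * pd i (cc mu) x * S x
          - 2 * g1 x * ∑ j, pd i (pd j (cc (mf mu))) x * ζ j := by
        intro i
        rw [hFv]
        simp only [pd_cc hmu, pd_cc' hm, pd_cc (pd_contDiff_infty hm _)]
      have e2 : ∑ i, Fv i x * ζ i = (∑ i, ζ i * lap (w0 i) x)
          + cc (mf mu) x * (∑ j, pd j (cc mu) x * ∑ i, ζ i * pd j (w0 i) x)
          + cc (mf mu) x * ((∑ l, pd l (cc mu) x * Dz ζ (w0 l) x)
          - Dz ζ (cc mu) x * dv x) - cc (mf mu) x * Dz ζ (cc mu) x * S x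
          - 2 * g1 x * ∑ j, Dz ζ (pd j (cc (mf mu))) x * ζ j := by
        simp only [e1, hcs1]
        simp only [Dz, Fin.sum_univ_three]
        ring
      rw [e2, hz2]
      simp [hz1]
    have hd1 := hdiv x hx
    have hd2 := hDS x hx
    have hmx := hmm x
    have e5 : ∑ j, ζ j * ((pd j mu x : ℝ) : ℂ) = Dz ζ (cc mu) x := by
      unfold Dz
      simp only [pd_cc hmu]
    rw [hFz, hd2, e5, hDmu]
    have e6 : ∑ j, Dz ζ (pd j (cc (mf mu))) x * U j x
        = (∑ j, w0 j x * Dz ζ (pd j (cc (mf mu))) x)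
          + cc (mf mu) x * g1 x * ∑ j, Dz ζ (pd j (cc (mf mu))) x * ζ j := by
      simp only [hw0, Fin.sum_univ_three]
      ring
    have e7 : ∑ l, pd l (cc mu) x * Dz ζ (w0 l) x
        = - (cc mu x) ^ 2 * ∑ l, pd l (cc (mf mu)) x * Dz ζ (w0 l) x := by
      simp only [hpmu, Finset.mul_sum]
      refine Finset.sum_congr rfl fun i _ => ?_
      ring
    rw [e6, e7]
    have e8 : ∑ j, pd j (w0 j) x = dv x := rfl
    rw [e8] at hd1
    set M := cc mu x
    set m := cc (mf mu) x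
    set T := ∑ j, w0 j x * Dz ζ (pd j (cc (mf mu))) x
    set Q := ∑ j, Dz ζ (pd j (cc (mf mu))) x * ζ j
    set K := ∑ l, pd l (cc (mf mu)) x * Dz ζ (w0 l) x
    set Dm := Dz ζ (cc (mf mu)) x
    set X := Dz ζ dv x
    linear_combination (-M) * hd1 + (2 * g1 x * Q - M * K + M * Dm * dv x + 2 * X) * hmx
  -- the 2 x 2 system
  have hpn : ∀ v : Fin 3 → ℂ, ContDiff ℝ ∞ (fun x => ∑ l, ((pd l mu x : ℝ) : ℂ) * v l) :=
    fun v => ContDiff.sum fun l _ => (hpj l).mul contDiff_const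
  have hFn : ∀ v : Fin 3 → ℂ, ContDiff ℝ ∞ (fun x => ∑ l, Fv l x * v l) :=
    fun v => ContDiff.sum fun l _ => (hFvs l).mul contDiff_const
  obtain ⟨V, hV1, hV2, -⟩ := hS ζ hζ hζ0 2
    (fun a b x => ![![- (cc (mf mu) x * ∑ l, ((pd l mu x : ℝ) : ℂ) * ζ l),
        - (cc (mf mu) x * (∑ l, ((pd l mu x : ℝ) : ℂ) * n l) / 2)],
      ![0, - (cc (mf mu) x * (∑ l, ((pd l mu x : ℝ) : ℂ) * ζ l) / 2)]] a b)
    (fun a x => ![- (cc (mf mu) x * (∑ l, ((pd l mu x : ℝ) : ℂ) * ξ l) * S x / 2)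
        - (∑ l, Fv l x * ξ l) / 2, (∑ l, Fv l x * n l) / 2] a) 0 (fun _ => 0) R
    (by
      intro a b
      fin_cases a <;> fin_cases b
      · exact (hcm.mul (hpn ζ)).neg
      · exact ((hcm.mul (hpn n)).div_const 2).neg
      · exact contDiff_const
      · exact ((hcm.mul (hpn ζ)).div_const 2).neg)
    (by
      intro a
      fin_cases a
      · exact ((((hcm.mul (hpn ξ)).mul hSs).div_const 2).neg).sub ((hFn ξ).div_const 2)
      · exact (hFn n).div_const 2)
  have hα : ∀ x, ‖x‖ < R → 2 * Dz ζ (V 0) x =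
      - 2 * cc (mf mu) x * (∑ l, ((pd l mu x : ℝ) : ℂ) * ζ l) * V 0 x
      - cc (mf mu) x * (∑ l, ((pd l mu x : ℝ) : ℂ) * n l) * V 1 x
      - cc (mf mu) x * (∑ l, ((pd l mu x : ℝ) : ℂ) * ξ l) * S x - ∑ l, Fv l x * ξ l := by
    intro x hx
    have := hV2 x hx 0
    rw [this, Fin.sum_univ_two]
    simp only [Matrix.cons_val_zero, Matrix.cons_val_one]
    ring
  have hβ : ∀ x, ‖x‖ < R → 2 * Dz ζ (V 1) x =
      - cc (mf mu) x * (∑ l, ((pd l mu x : ℝ) : ℂ) * ζ l) * V 1 x + ∑ l, Fv l x * n l := by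
    intro x hx
    have := hV2 x hx 1
    rw [this, Fin.sum_univ_two]
    simp only [Matrix.cons_val_zero, Matrix.cons_val_one]
    ring
  set w1 : Fin 3 → E3 → ℂ := fun j x => V 0 x * ζ j + V 1 x * n j + S x * ξ j with hw1
  have hw1s : ∀ j, ContDiff ℝ ∞ (w1 j) := fun j =>
    (((hV1 0).mul contDiff_const).add ((hV1 1).mul contDiff_const)).add (hSs.mul contDiff_const)
  have hw1z : ∀ x, ∑ j, ζ j * w1 j x = S x := by
    intro x
    have : ∑ j, ζ j * w1 j x = V 0 x * dot ζ ζ + V 1 x * dot ζ n + S x * dot ζ ξ := by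
      simp only [hw1, dot, Fin.sum_univ_three]
      ring
    rw [this, hζ, hnz, hξ2]
    ring
  refine ⟨w0, w1, g1, hw0s, hw1s, hg1s, fun _ _ => rfl, hw0z, ?_, hg1e, ?_, ?_⟩
  · intro x hx
    rw [hw1z]
  · intro x hx a
    refine Fin.lastCases ?_ (fun i => ?_) a
    · rw [symb_last, hw0z x hx, Fin.snoc_last]
      simp [Dz, pdc_const]
    · rw [symb_castSucc, hw0z x hx, Fin.snoc_castSucc]
      have hAx := hA x hx i
      have hmx := hmm x
      have e1 : ((mu x)⁻¹ : ℝ) = mf mu x := rfl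
      have e2 : ((mf mu x : ℝ) : ℂ) = cc (mf mu) x := rfl
      have e3 : ∑ j, ζ j * ((pd j mu x : ℝ) : ℂ) = - (cc mu x) ^ 2 * Dz ζ (cc (mf mu)) x := by
        rw [← hDmu]
        unfold Dz
        simp only [pd_cc hmu]
      have e4 : ∑ l, ((pd l mu x : ℝ) : ℂ) * w0 l x
          = - (cc mu x) ^ 2 * ∑ l, w0 l x * pd l (cc (mf mu)) x := by
        simp only [← pd_cc hmu, hpmu, Finset.mul_sum]
        refine Finset.sum_congr rfl fun i _ => ?_
        ring
      rw [e1, e2, e3, e4]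
      set M := cc mu x
      set m := cc (mf mu) x
      linear_combination M * hAx + (-(2 * Dz ζ (w0 i) x)
        - M * (Dz ζ (cc (mf mu)) x * w0 i x + ζ i * ∑ l, w0 l x * pd l (cc (mf mu)) x)) * hmx
  · intro x hx a
    refine Fin.lastCases ?_ (fun i => ?_) a
    · rw [symb_last, hw1z, Fin.snoc_last, csysP_last]
      have e1 : lap (fun _ : E3 => (0 : ℂ)) x = 0 := by
        unfold lap
        simp [pdc_const, show ∀ i, pd i (fun _ : E3 => (0 : ℂ)) = fun _ => 0 from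
          fun i => funext fun y => pdc_const 0 i y]
      have e2 : ∑ j, pd j (w0 j) x = dv x := rfl
      have e3 : S x = cc (kf lam mu) x * d x - dv x := rfl
      have e4 : (((lam x + mu x) / kf lam mu x : ℝ) : ℂ) * cc (kf lam mu) x
          = ((lam x + mu x : ℝ) : ℂ) := by
        unfold cc
        rw [← Complex.ofReal_mul, div_mul_cancel₀]
        exact (div_pos (h2 x) (h0 x)).ne'
      rw [e1, e2, e3]
      have e5 := hg1e x hx
      linear_combination e5 + d x * e4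
    · rw [symb_castSucc, hw1z, Fin.snoc_castSucc]
      have hc := hcomp (fun j => Fv j x) i
      have hcn := hcons x hx
      have e1 : Dz ζ (w1 i) x = Dz ζ (V 0) x * ζ i + Dz ζ (V 1) x * n i + Dz ζ S x * ξ i := by
        rw [hw1, Dz_add ζ (((hV1 0).mul contDiff_const).add ((hV1 1).mul contDiff_const))
          (hSs.mul contDiff_const), Dz_add ζ ((hV1 0).mul contDiff_const)
          ((hV1 1).mul contDiff_const), Dz_mul_const ζ (hV1 0), Dz_mul_const ζ (hV1 1),
          Dz_mul_const ζ hSs]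
      have e2 : ∑ l, ((pd l mu x : ℝ) : ℂ) * w1 l x
          = V 0 x * (∑ l, ((pd l mu x : ℝ) : ℂ) * ζ l) + V 1 x * (∑ l, ((pd l mu x : ℝ) : ℂ) * n l)
            + S x * ∑ l, ((pd l mu x : ℝ) : ℂ) * ξ l := by
        simp only [hw1, Fin.sum_univ_three]
        ring
      have e3 : (((mu x)⁻¹ : ℝ) : ℂ) = cc (mf mu) x := rfl
      have e4 : Fv i x = csysP (cA lam mu) (cB lam mu) a0 (Fin.castSucc i) x
          - cc (mf mu) x * ((pd i mu x : ℝ) : ℂ) * S x
          - 2 * g1 x * ∑ j, ((pd i (pd j (mf mu)) x : ℝ) : ℂ) * ζ j := rfl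
      have e5 : w1 i x = V 0 x * ζ i + V 1 x * n i + S x * ξ i := rfl
      have hcom : ∑ j, ζ j * ((pd j mu x : ℝ) : ℂ) = ∑ l, ((pd l mu x : ℝ) : ℂ) * ζ l :=
        Finset.sum_congr rfl fun j _ => mul_comm _ _
      rw [hcom] at hcn ⊢
      have hax := hα x hx
      have hbx := hβ x hx
      rw [e1, e2, e3, e5]
      set P1 := ∑ l, ((pd l mu x : ℝ) : ℂ) * ζ l
      set P2 := ∑ l, ((pd l mu x : ℝ) : ℂ) * n l
      set P3 := ∑ l, ((pd l mu x : ℝ) : ℂ) * ξ l
      set F1 := ∑ j, Fv j x * ξ j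
      set F2 := ∑ j, Fv j x * n j
      set F3 := ∑ j, Fv j x * ζ j
      set H := ∑ j, ((pd i (pd j (mf mu)) x : ℝ) : ℂ) * ζ j
      set C := csysP (cA lam mu) (cB lam mu) a0 (Fin.castSucc i) x
      linear_combination ζ i * hax + n i * hbx + ξ i * hcn + hc - e4

end Vale.Agent.P136
end
end
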