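import Vale.Agent.P136.Bdl.B3
import Vale.Agent.P136.Bdl.B1
import Vale.Agent.P136.Bdl.B2

set_option linter.all false

section

section

/-! Complex exact version of `AS_statement`: limits in `H²` of the ball. -/

open MeasureTheory Filter Topology
open scoped ContDiff InnerProductSpace

namespace Vale.Agent.P136

/-- ASc: complex solutions of the system with exponential weights, as limits of smooth fields. -/
def ASc_statement : Prop :=
  ∀ (n : ℕ) (A : Fin 3 → Fin n → Fin n → E3 → ℝ) (B : Fin n → Fin n → E3 → ℝ) (R : ℝ),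
    0 < R → (∀ j a b, ContDiff ℝ ∞ (A j a b)) → (∀ a b, ContDiff ℝ ∞ (B a b)) →
    ∃ C τ₀ : ℝ, 0 < C ∧ 0 < τ₀ ∧ ∀ (α : E3) (F : Fin n → E3 → ℂ) (Q : ℝ), τ₀ ≤ ‖α‖ →
      (∀ a, MemLp (F a) 2 (volume : Measure E3)) →
      (∑ a, ∫ x in Metric.ball (0 : E3) (2 * R),
        Real.exp (-2 * ⟪α, x⟫_ℝ) * ‖F a x‖ ^ 2 ≤ Q) →
      ∃ (Φ : ℕ → Fin n → E3 → ℂ) (X : Fin n → E3 → ℂ) (X1 : Fin 3 → Fin n → E3 → ℂ)
        (X2 : Fin 3 → Fin 3 → Fin n → E3 → ℂ),
        (∀ k a, ContDiff ℝ ∞ (Φ k a)) ∧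
        (∀ a, MemLp (X a) 2 (volume.restrict (Metric.ball (0 : E3) R))) ∧
        (∀ i a, MemLp (X1 i a) 2 (volume.restrict (Metric.ball (0 : E3) R))) ∧
        (∀ i j a, MemLp (X2 i j a) 2 (volume.restrict (Metric.ball (0 : E3) R))) ∧
        (∀ a, Tendsto (fun k => ∫ x in Metric.ball (0 : E3) R,
          ‖Φ k a x - X a x‖ ^ 2) atTop (𝓝 0)) ∧
        (∀ i a, Tendsto (fun k => ∫ x in Metric.ball (0 : E3) R,
          ‖pd i (Φ k a) x - X1 i a x‖ ^ 2) atTop (𝓝 0)) ∧
        (∀ i j a, Tendsto (fun k => ∫ x in Metric.ball (0 : E3) R,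
          ‖pd i (pd j (Φ k a)) x - X2 i j a x‖ ^ 2) atTop (𝓝 0)) ∧
        (∀ a, Tendsto (fun k => ∫ x in Metric.ball (0 : E3) R,
          ‖csysP A B (Φ k) a x - F a x‖ ^ 2) atTop (𝓝 0)) ∧
        (∀ a, ‖α‖ ^ 2 * ∫ x in Metric.ball (0 : E3) R,
          Real.exp (-2 * ⟪α, x⟫_ℝ) * ‖X a x‖ ^ 2 ≤ C * Q) ∧
        (∀ i a, ∫ x in Metric.ball (0 : E3) R,
          Real.exp (-2 * ⟪α, x⟫_ℝ) * ‖X1 i a x‖ ^ 2 ≤ C * Q) ∧
        (∀ i j a, ∫ x in Metric.ball (0 : E3) R,
          Real.exp (-2 * ⟪α, x⟫_ℝ) * ‖X2 i j a x‖ ^ 2 ≤ C * ‖α‖ ^ 2 * Q)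

end Vale.Agent.P136
end
end

section

section

/-!
WI: the weak identity for the potential representation
`w = W + m ∇g - g ∇m`, `m = 1/μ`, of displacement fields, and the coefficient matrices of the
corresponding `4 × 4` second order system with principal part the Laplacian.
-/

open MeasureTheory Filter Topology
open scoped ContDiff InnerProductSpace

namespace Vale.Agent.P136

section Calc

variable {F : Type*} [NormedAddCommGroup F] [NormedSpace ℝ F]

lemma pd_add' {f g : E3 → F} (hf : Differentiable ℝ f) (hg : Differentiable ℝ g) (i : Fin 3) :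
    pd i (fun y => f y + g y) = fun x => pd i f x + pd i g x := by
  funext x
  unfold pd
  rw [fderiv_fun_add (hf x) (hg x)]
  rfl

lemma pd_sub' {f g : E3 → F} (hf : Differentiable ℝ f) (hg : Differentiable ℝ g) (i : Fin 3) :
    pd i (fun y => f y - g y) = fun x => pd i f x - pd i g x := by
  funext x
  unfold pd
  rw [fderiv_fun_sub (hf x) (hg x)]
  rfl

lemma pd_smul' {c : E3 → ℝ} {f : E3 → F} (hc : Differentiable ℝ c) (hf : Differentiable ℝ f)
    (i : Fin 3) : pd i (fun y => c y • f y) = fun x => pd i c x • f x + c x • pd i f x := by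
  funext x
  unfold pd
  rw [fderiv_fun_smul (hc x) (hf x)]
  simp [add_comm]

lemma pd_sum' {ι : Type*} (s : Finset ι) {f : ι → E3 → F} (hf : ∀ a, Differentiable ℝ (f a))
    (i : Fin 3) : pd i (fun y => ∑ a ∈ s, f a y) = fun x => ∑ a ∈ s, pd i (f a) x := by
  funext x
  unfold pd
  rw [fderiv_fun_sum (fun a _ => hf a x)]
  simp

lemma pd_constSmul {f : E3 → F} (c : ℝ) (hf : Differentiable ℝ f) (i : Fin 3) :
    pd i (fun y => c • f y) = fun x => c • pd i f x := by
  have := pd_smul' (c := fun _ => c) (differentiable_const c) hf i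
  rw [this]
  funext x
  have h0 : pd i (fun _ : E3 => c) x = 0 := by simp [pd]
  rw [h0]
  simp

lemma lap_contDiff' {f : E3 → F} (hf : ContDiff ℝ ∞ f) : ContDiff ℝ ∞ (lap f) := by
  have : lap f = fun x => ∑ i : Fin 3, pd i (pd i f) x := rfl
  rw [this]
  exact ContDiff.sum fun i _ => pd_contDiff_infty (pd_contDiff_infty hf i) i

end Calc

section Cplx

lemma pd_mulC {f g : E3 → ℂ} (hf : Differentiable ℝ f) (hg : Differentiable ℝ g) (i : Fin 3) :
    pd i (fun y => f y * g y) = fun x => pd i f x * g x + f x * pd i g x := by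
  funext x
  unfold pd
  rw [fderiv_fun_mul (hf x) (hg x)]
  simp
  ring

/-- integration of a partial derivative of a compactly supported function. -/
lemma int_pd_zero {f : E3 → ℂ} (hf : ContDiff ℝ 1 f) (hc : HasCompactSupport f) (i : Fin 3) :
    ∫ x, pd i f x = 0 := by
  have hf' : Continuous (fun x => fderiv ℝ f x (bv i)) :=
    (hf.continuous_fderiv (by norm_num)).clm_apply continuous_const
  have hcf' : HasCompactSupport (fun x => fderiv ℝ f x (bv i)) := hc.fderiv_apply (𝕜 := ℝ) (bv i)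
  have h := integral_mul_fderiv_eq_neg_fderiv_mul_of_integrable (μ := (volume : Measure E3))
    (f := fun _ : E3 => (1 : ℂ)) (g := f) (v := bv i) (by simp)
    (by simpa using hf'.integrable_of_hasCompactSupport hcf')
    (by simpa using hf.continuous.integrable_of_hasCompactSupport hc)
    (fun x _ => differentiableAt_const _) (fun x _ => (hf.differentiable (by norm_num)) x)
  simpa [pd] using h

end Cplx


section Defs
variable {F : Type*} [NormedAddCommGroup F] [NormedSpace ℝ F]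

/-- The field `W + m ∇g - g ∇m`. -/
noncomputable def wv (m : E3 → ℝ) (W : Fin 3 → E3 → F) (g : E3 → F) (j : Fin 3) (x : E3) : F :=
  W j x + m x • pd j g x - pd j m x • g x

/-- `k Δg + (λ+μ) div W - λ g Δm` with `m = 1/μ`, `k = (λ+2μ)/μ`. -/
noncomputable def Pg (lam mu : E3 → ℝ) (W : Fin 3 → E3 → F) (g : E3 → F) (x : E3) : F :=
  ((lam x + 2 * mu x) / mu x) • lap g x + (lam x + mu x) • ∑ i, pd i (W i) x
    - (lam x * lap (fun y => (mu y)⁻¹) x) • g x

/-- `μ ΔW - ∇μ div W + (∇W + ∇Wᵀ) ∇μ - 2 div (μ g ∇²m)`. -/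
noncomputable def Pw (mu : E3 → ℝ) (W : Fin 3 → E3 → F) (g : E3 → F) (j : Fin 3) (x : E3) : F :=
  mu x • lap (W j) x - pd j mu x • ∑ i, pd i (W i) x
    + ∑ i, pd i mu x • (pd i (W j) x + pd j (W i) x)
    - (2 : ℝ) • ∑ i, pd i (fun y => (mu y * pd i (pd j (fun z => (mu z)⁻¹)) y) • g y) x

/-- auxiliary tensor -/
noncomputable def SS (mu : E3 → ℝ) (W : Fin 3 → E3 → F) (g : E3 → F) (i j : Fin 3) (x : E3) : F :=
  mu x • (pd i (W j) x + pd j (W i) x) + (2 : ℝ) • pd i (pd j g) x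
    - (2 : ℝ) • ((mu x * pd i (pd j (fun z => (mu z)⁻¹)) x) • g x)

/-- auxiliary scalar -/
noncomputable def DS (mu : E3 → ℝ) (W : Fin 3 → E3 → F) (g : E3 → F) (x : E3) : F :=
  mu x • (∑ i, pd i (W i) x) + (2 : ℝ) • lap g x

end Defs

variable {lam mu : E3 → ℝ}

lemma inv_contDiff (hmu : ContDiff ℝ ∞ mu) (hpos : ∀ x, 0 < mu x) :
    ContDiff ℝ ∞ (fun y => (mu y)⁻¹) := hmu.inv fun x => (hpos x).ne'

section
variable {F : Type*} [NormedAddCommGroup F] [NormedSpace ℝ F]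

/-- derivative of `wv`. -/
lemma pd_wv {m : E3 → ℝ} (hm : ContDiff ℝ ∞ m) {W : Fin 3 → E3 → F} {g : E3 → F}
    (hW : ∀ j, ContDiff ℝ ∞ (W j)) (hg : ContDiff ℝ ∞ g) (i j : Fin 3) (x : E3) :
    pd i (wv m W g j) x = pd i (W j) x + (pd i m x • pd j g x + m x • pd i (pd j g) x)
      - (pd i (pd j m) x • g x + pd j m x • pd i g x) := by
  have hdW : Differentiable ℝ (W j) := (hW j).differentiable (by simp)
  have hdm : Differentiable ℝ m := hm.differentiable (by simp)
  have hdpm : Differentiable ℝ (pd j m) := (pd_contDiff_infty hm j).differentiable (by simp)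
  have hdg : Differentiable ℝ g := hg.differentiable (by simp)
  have hdpg : Differentiable ℝ (pd j g) := (pd_contDiff_infty hg j).differentiable (by simp)
  have e : wv m W g j = fun x => (W j x + m x • pd j g x) - pd j m x • g x := rfl
  have h1 : Differentiable ℝ (fun x => m x • pd j g x) := hdm.smul hdpg
  have h2 : Differentiable ℝ (fun x => pd j m x • g x) := hdpm.smul hdg
  have h3 : Differentiable ℝ (fun x => W j x + m x • pd j g x) := hdW.add h1
  rw [e, pd_sub' h3 h2, pd_add' hdW h1, pd_smul' hdm hdpg, pd_smul' hdpm hdg]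

lemma wv_contDiff {m : E3 → ℝ} (hm : ContDiff ℝ ∞ m) {W : Fin 3 → E3 → F} {g : E3 → F}
    (hW : ∀ j, ContDiff ℝ ∞ (W j)) (hg : ContDiff ℝ ∞ g) (j : Fin 3) :
    ContDiff ℝ ∞ (wv m W g j) :=
  ((hW j).add (hm.smul (pd_contDiff_infty hg j))).sub ((pd_contDiff_infty hm j).smul hg)

lemma SS_contDiff (hmu : ContDiff ℝ ∞ mu) (hpos : ∀ x, 0 < mu x) {W : Fin 3 → E3 → F}
    {g : E3 → F} (hW : ∀ j, ContDiff ℝ ∞ (W j)) (hg : ContDiff ℝ ∞ g) (i j : Fin 3) :
    ContDiff ℝ ∞ (SS mu W g i j) :=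
  ((hmu.smul ((pd_contDiff_infty (hW j) i).add (pd_contDiff_infty (hW i) j))).add
    (contDiff_const.smul (pd_contDiff_infty (pd_contDiff_infty hg j) i))).sub
    (contDiff_const.smul ((hmu.mul (pd_contDiff_infty (pd_contDiff_infty
      (inv_contDiff hmu hpos) j) i)).smul hg))

lemma DS_contDiff (hmu : ContDiff ℝ ∞ mu) {W : Fin 3 → E3 → F}
    {g : E3 → F} (hW : ∀ j, ContDiff ℝ ∞ (W j)) (hg : ContDiff ℝ ∞ g) :
    ContDiff ℝ ∞ (DS mu W g) :=
  (hmu.smul (ContDiff.sum fun i _ => pd_contDiff_infty (hW i) i)).add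
    (contDiff_const.smul (lap_contDiff' hg))

lemma Pg_contDiff (hlam : ContDiff ℝ ∞ lam) (hmu : ContDiff ℝ ∞ mu) (hpos : ∀ x, 0 < mu x)
    {W : Fin 3 → E3 → F} {g : E3 → F} (hW : ∀ j, ContDiff ℝ ∞ (W j)) (hg : ContDiff ℝ ∞ g) :
    ContDiff ℝ ∞ (Pg lam mu W g) :=
  ((((hlam.add (contDiff_const.mul hmu)).div hmu fun x => (hpos x).ne').smul
    (lap_contDiff' hg)).add ((hlam.add hmu).smul
      (ContDiff.sum fun i _ => pd_contDiff_infty (hW i) i))).sub
    ((hlam.mul (lap_contDiff' (inv_contDiff hmu hpos))).smul hg)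

lemma Pw_contDiff (hmu : ContDiff ℝ ∞ mu) (hpos : ∀ x, 0 < mu x)
    {W : Fin 3 → E3 → F} {g : E3 → F} (hW : ∀ j, ContDiff ℝ ∞ (W j)) (hg : ContDiff ℝ ∞ g)
    (j : Fin 3) : ContDiff ℝ ∞ (Pw mu W g j) := by
  have h1 : ∀ i, ContDiff ℝ ∞ (fun y => (mu y * pd i (pd j (fun z => (mu z)⁻¹)) y) • g y) :=
    fun i => (hmu.mul (pd_contDiff_infty (pd_contDiff_infty
      (inv_contDiff hmu hpos) j) i)).smul hg
  exact (((hmu.smul (lap_contDiff' (hW j))).sub ((pd_contDiff_infty hmu j).smul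
    (ContDiff.sum fun i _ => pd_contDiff_infty (hW i) i))).add
    (ContDiff.sum fun i _ => (pd_contDiff_infty hmu i).smul ((pd_contDiff_infty (hW j) i).add
      (pd_contDiff_infty (hW i) j)))).sub
    (contDiff_const.smul (ContDiff.sum fun i _ => pd_contDiff_infty (h1 i) i))

/-- `P_w = div S - ∇D`. -/
lemma Pw_eq (hmu : ContDiff ℝ ∞ mu) (hpos : ∀ x, 0 < mu x)
    {W : Fin 3 → E3 → F} {g : E3 → F} (hW : ∀ j, ContDiff ℝ ∞ (W j)) (hg : ContDiff ℝ ∞ g)
    (j : Fin 3) (x : E3) :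
    Pw mu W g j x = (∑ i, pd i (SS mu W g i j) x) - pd j (DS mu W g) x := by
  have hdmu : Differentiable ℝ mu := hmu.differentiable (by simp)
  have hdW1 : ∀ i j, Differentiable ℝ (pd i (W j)) := fun i j =>
    (pd_contDiff_infty (hW j) i).differentiable (by simp)
  have hdg2 : ∀ i j, Differentiable ℝ (pd i (pd j g)) := fun i j =>
    (pd_contDiff_infty (pd_contDiff_infty hg j) i).differentiable (by simp)
  have h1 : ∀ i, ContDiff ℝ ∞ (fun y => (mu y * pd i (pd j (fun z => (mu z)⁻¹)) y) • g y) :=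
    fun i => (hmu.mul (pd_contDiff_infty (pd_contDiff_infty
      (inv_contDiff hmu hpos) j) i)).smul hg
  have hS : ∀ i, pd i (SS mu W g i j) x = (pd i mu x • (pd i (W j) x + pd j (W i) x) +
      mu x • (pd i (pd i (W j)) x + pd i (pd j (W i)) x)) + (2 : ℝ) • pd i (pd i (pd j g)) x
      - (2 : ℝ) • pd i (fun y => (mu y * pd i (pd j (fun z => (mu z)⁻¹)) y) • g y) x := by
    intro i
    have e : SS mu W g i j = fun x => (mu x • (pd i (W j) x + pd j (W i) x)
      + (2 : ℝ) • pd i (pd j g) x)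
      - (2 : ℝ) • ((mu x * pd i (pd j (fun z => (mu z)⁻¹)) x) • g x) := rfl
    have a1 : Differentiable ℝ (fun x => pd i (W j) x + pd j (W i) x) :=
      (hdW1 i j).add (hdW1 j i)
    have a2 : Differentiable ℝ (fun x => mu x • (pd i (W j) x + pd j (W i) x)) := hdmu.smul a1
    have a3 : Differentiable ℝ (fun x => (2 : ℝ) • pd i (pd j g) x) := (hdg2 i j).const_smul _
    have a4 : Differentiable ℝ (fun x => mu x • (pd i (W j) x + pd j (W i) x)
      + (2 : ℝ) • pd i (pd j g) x) := a2.add a3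
    have a5 : Differentiable ℝ (fun y => (mu y * pd i (pd j (fun z => (mu z)⁻¹)) y) • g y) :=
      (h1 i).differentiable (by simp)
    have a6 : Differentiable ℝ (fun y => (2 : ℝ) • ((mu y * pd i (pd j (fun z => (mu z)⁻¹)) y)
      • g y)) := a5.const_smul _
    rw [e, pd_sub' a4 a6, pd_add' a2 a3, pd_smul' hdmu a1, pd_add' (hdW1 i j) (hdW1 j i),
      pd_constSmul _ (hdg2 i j), pd_constSmul _ a5]
  have hD : pd j (DS mu W g) x = (pd j mu x • (∑ i, pd i (W i) x) +
      mu x • (∑ i, pd j (pd i (W i)) x)) + (2 : ℝ) • ∑ i, pd j (pd i (pd i g)) x := by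
    have e : DS mu W g = fun x => mu x • (∑ i, pd i (W i) x) + (2 : ℝ) • (∑ i, pd i (pd i g) x) :=
      rfl
    have a1 : Differentiable ℝ (fun x => ∑ i, pd i (W i) x) :=
      Differentiable.fun_sum fun i _ => hdW1 i i
    have a2 : Differentiable ℝ (fun x => ∑ i, pd i (pd i g) x) :=
      Differentiable.fun_sum fun i _ => hdg2 i i
    have a3 : Differentiable ℝ (fun x => mu x • (∑ i, pd i (W i) x)) := hdmu.smul a1
    have a4 : Differentiable ℝ (fun x => (2 : ℝ) • (∑ i, pd i (pd i g) x)) := a2.const_smul _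
    rw [e, pd_add' a3 a4, pd_smul' hdmu a1, pd_constSmul _ a2, pd_sum' _ (fun i => hdW1 i i),
      pd_sum' _ (fun i => hdg2 i i)]
  have c1 : ∀ i, pd i (pd j (W i)) x = pd j (pd i (W i)) x := fun i =>
    congrFun (pd_comm ((hW i).of_le (by norm_cast)) i j) x
  have c2 : ∀ i, pd i (pd i (pd j g)) x = pd j (pd i (pd i g)) x := fun i => by
    have e1 : pd i (pd j g) = pd j (pd i g) := pd_comm (hg.of_le (by norm_cast)) i j
    rw [e1]
    exact congrFun (pd_comm ((pd_contDiff_infty hg i).of_le (by norm_cast)) i j) x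
  rw [hD, Finset.sum_congr rfl fun i _ => hS i]
  simp only [c1, c2, smul_add, Finset.sum_add_distrib, Finset.sum_sub_distrib, Finset.smul_sum,
    Pw, lap]
  abel

end

/-- the integrand of `cform` -/
lemma cform_integrand (l μ : ℂ) (G H : Fin 3 → Fin 3 → ℂ) :
    l * ((∑ i, G i i) * ∑ i, H i i) +
    2 * μ * ∑ i, ∑ j, ((G i j + G j i) / 2) * ((H i j + H j i) / 2) =
    ∑ i, ∑ j, ((if i = j then l * (∑ k, G k k) else 0) + μ * (G i j + G j i)) * H i j := by
  simp only [Fin.sum_univ_three]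
  simp
  ring

/-- pointwise identity -/
lemma wi_pointwise (hmu : ContDiff ℝ ∞ mu) (hpos : ∀ x, 0 < mu x)
    {W : Fin 3 → E3 → ℂ} {g : E3 → ℂ} (hW : ∀ j, ContDiff ℝ ∞ (W j)) (hg : ContDiff ℝ ∞ g)
    (H : Fin 3 → Fin 3 → ℂ) (x : E3) :
    (lam x : ℂ) * ((∑ i, pd i (wv (fun y => (mu y)⁻¹) W g i) x) * ∑ i, H i i) +
    2 * (mu x : ℂ) * ∑ i, ∑ j, ((pd i (wv (fun y => (mu y)⁻¹) W g j) x
      + pd j (wv (fun y => (mu y)⁻¹) W g i) x) / 2) * ((H i j + H j i) / 2) =
    (∑ i, ∑ j, SS mu W g i j x * H i j) + (Pg lam mu W g x - DS mu W g x) * ∑ i, H i i := by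
  have hm : ContDiff ℝ ∞ (fun y => (mu y)⁻¹) := inv_contDiff hmu hpos
  have hmx : (mu x : ℂ) * (((mu x)⁻¹ : ℝ) : ℂ) = 1 := by
    rw [← Complex.ofReal_mul, mul_inv_cancel₀ (hpos x).ne']; simp
  have hne : (mu x : ℂ) ≠ 0 := by exact_mod_cast (hpos x).ne'
  have cg : ∀ i j, pd i (pd j g) x = pd j (pd i g) x := fun i j =>
    congrFun (pd_comm (hg.of_le (by norm_cast)) i j) x
  have cm : ∀ i j, pd i (pd j (fun y => (mu y)⁻¹)) x = pd j (pd i (fun y => (mu y)⁻¹)) x :=
    fun i j => congrFun (pd_comm (hm.of_le (by norm_cast)) i j) x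
  simp only [pd_wv hm hW hg, SS, DS, Pg, lap, Complex.real_smul, Fin.sum_univ_three]
  have cg01 := cg 1 0
  have cg02 := cg 2 0
  have cg12 := cg 2 1
  have cm01 := cm 1 0
  have cm02 := cm 2 0
  have cm12 := cm 2 1
  rw [cg01, cg02, cg12, cm01, cm02, cm12]
  push_cast
  field_simp
  ring

lemma CTest.pd_support {Ω : Set E3} {φ : E3 → ℂ} (h : CTest Ω φ) (i : Fin 3) {x : E3}
    (hx : x ∉ Ω) : pd i φ x = 0 := by
  have h1 : x ∉ tsupport φ := fun h' => hx (h.2.2 h')
  have h2 : φ =ᶠ[𝓝 x] 0 := notMem_tsupport_iff_eventuallyEq.1 h1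
  unfold pd
  rw [h2.fderiv_eq]
  simp

lemma CTest.val_support {Ω : Set E3} {φ : E3 → ℂ} (h : CTest Ω φ) {x : E3}
    (hx : x ∉ Ω) : φ x = 0 := by
  by_contra h'
  exact hx (h.2.2 (subset_tsupport φ h'))

lemma hcs_sum {ι : Type*} (s : Finset ι) {f : ι → E3 → ℂ} (h : ∀ i, HasCompactSupport (f i)) :
    HasCompactSupport (fun x => ∑ i ∈ s, f i x) := by
  classical
  induction s using Finset.induction_on with
  | empty =>
    simp only [Finset.sum_empty]
    exact (HasCompactSupport.zero : HasCompactSupport (0 : E3 → ℂ))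
  | insert a s ha ih =>
    simp only [Finset.sum_insert ha]
    exact (h a).add ih

/-- WI for smooth compactly supported test fields. -/
theorem wi_test (Ω : Set E3) (hlam : ContDiff ℝ ∞ lam) (hmu : ContDiff ℝ ∞ mu)
    (hpos : ∀ x, 0 < mu x) {W : Fin 3 → E3 → ℂ} {g : E3 → ℂ} (hW : ∀ j, ContDiff ℝ ∞ (W j))
    (hg : ContDiff ℝ ∞ g) {v : Fin 3 → E3 → ℂ} (hv : ∀ j, CTest Ω (v j)) :
    cform Ω lam mu (fun i j => pd i (wv (fun y => (mu y)⁻¹) W g j)) (fun i j => pd i (v j)) =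
      (∫ x in Ω, Pg lam mu W g x * ∑ i, pd i (v i) x) - ∑ j, ∫ x in Ω, Pw mu W g j x * v j x := by
  have hvs : ∀ j, ContDiff ℝ ∞ (v j) := fun j => (hv j).1
  have hvc : ∀ j, HasCompactSupport (v j) := fun j => (hv j).2.1
  have hpv : ∀ i j, Continuous (pd i (v j)) := fun i j => (pd_contDiff_infty (hvs j) i).continuous
  have hpc : ∀ i j, HasCompactSupport (pd i (v j)) := fun i j => pd_hasCompactSupport (hvc j) i
  -- pass to integrals on the whole space
  have e1 : cform Ω lam mu (fun i j => pd i (wv (fun y => (mu y)⁻¹) W g j))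
      (fun i j => pd i (v j)) = ∫ x, ((∑ i, ∑ j, SS mu W g i j x * pd i (v j) x) +
        (Pg lam mu W g x - DS mu W g x) * ∑ i, pd i (v i) x) := by
    unfold cform
    rw [setIntegral_eq_integral_of_forall_compl_eq_zero]
    · congr 1
      funext x
      exact wi_pointwise hmu hpos hW hg (fun i j => pd i (v j) x) x
    · intro x hx
      simp [(hv _).pd_support _ hx]
  have e2 : (∫ x in Ω, Pg lam mu W g x * ∑ i, pd i (v i) x) =
      ∫ x, Pg lam mu W g x * ∑ i, pd i (v i) x := by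
    apply setIntegral_eq_integral_of_forall_compl_eq_zero
    intro x hx
    simp [(hv _).pd_support _ hx]
  have e3 : ∀ j, (∫ x in Ω, Pw mu W g j x * v j x) = ∫ x, Pw mu W g j x * v j x := by
    intro j
    apply setIntegral_eq_integral_of_forall_compl_eq_zero
    intro x hx
    simp [(hv j).val_support hx]
  rw [e1, e2, Finset.sum_congr rfl fun j _ => e3 j]
  -- the vector field
  have hS := fun i j => SS_contDiff hmu hpos hW hg i j
  have hD := DS_contDiff hmu hW hg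
  set T : Fin 3 → E3 → ℂ := fun i x => (∑ j, SS mu W g i j x * v j x) - DS mu W g x * v i x
    with hT
  have hTs : ∀ i, ContDiff ℝ ∞ (T i) := fun i =>
    (ContDiff.sum fun j _ => (hS i j).mul (hvs j)).sub (hD.mul (hvs i))
  have hTc : ∀ i, HasCompactSupport (T i) := by
    intro i
    apply HasCompactSupport.sub
    · exact hcs_sum _ fun j => (hvc j).mul_left
    · exact (hvc i).mul_left
  have hT0 : ∀ i, ∫ x, pd i (T i) x = 0 := fun i =>
    int_pd_zero ((hTs i).of_le (by norm_cast)) (hTc i) i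
  have hTd : ∀ i x, pd i (T i) x = (∑ j, (pd i (SS mu W g i j) x * v j x
      + SS mu W g i j x * pd i (v j) x)) - (pd i (DS mu W g) x * v i x
      + DS mu W g x * pd i (v i) x) := by
    intro i x
    have dS : ∀ i j, Differentiable ℝ (SS mu W g i j) := fun i j =>
      (hS i j).differentiable (by simp)
    have dD : Differentiable ℝ (DS mu W g) := hD.differentiable (by simp)
    have dv : ∀ j, Differentiable ℝ (v j) := fun j => (hvs j).differentiable (by simp)
    have d1 : ∀ j, Differentiable ℝ (fun x => SS mu W g i j x * v j x) := fun j =>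
      (dS i j).mul (dv j)
    have d2 : Differentiable ℝ (fun x => ∑ j, SS mu W g i j x * v j x) :=
      Differentiable.fun_sum fun j _ => d1 j
    have d3 : Differentiable ℝ (fun x => DS mu W g x * v i x) := dD.mul (dv i)
    rw [hT]
    simp only
    rw [pd_sub' d2 d3, pd_sum' _ d1, pd_mulC dD (dv i)]
    simp only
    congr 1
    exact Finset.sum_congr rfl fun j _ => congrFun (pd_mulC (dS i j) (dv j) i) x
  have hTi : ∀ i, Integrable (pd i (T i)) := fun i =>
    (pd_contDiff_infty (hTs i) i).continuous.integrable_of_hasCompactSupport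
      (pd_hasCompactSupport (hTc i) i)
  have key : ∫ x, ∑ i, pd i (T i) x = 0 := by
    rw [integral_finsetSum _ fun i _ => hTi i]
    simp [hT0]
  have hPgc : Continuous (Pg lam mu W g) := (Pg_contDiff hlam hmu hpos hW hg).continuous
  have hPwc : ∀ j, Continuous (Pw mu W g j) := fun j => (Pw_contDiff hmu hpos hW hg j).continuous
  have I1 : Integrable (fun x => Pg lam mu W g x * ∑ i, pd i (v i) x) :=
    (hPgc.mul (continuous_finsetSum _ fun i _ => hpv i i)).integrable_of_hasCompactSupport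
      (HasCompactSupport.mul_left (hcs_sum _ fun i => hpc i i))
  have I2 : ∀ j, Integrable (fun x => Pw mu W g j x * v j x) := fun j =>
    ((hPwc j).mul (hvs j).continuous).integrable_of_hasCompactSupport (hvc j).mul_left
  have I3 : Integrable (fun x => ∑ i, pd i (T i) x) := integrable_finsetSum _ fun i _ => hTi i
  have e4 : ∀ x, ((∑ i, ∑ j, SS mu W g i j x * pd i (v j) x) +
        (Pg lam mu W g x - DS mu W g x) * ∑ i, pd i (v i) x) =
      (Pg lam mu W g x * ∑ i, pd i (v i) x - ∑ j, Pw mu W g j x * v j x)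
        + ∑ i, pd i (T i) x := by
    intro x
    simp only [hTd, Pw_eq hmu hpos hW hg, Fin.sum_univ_three]
    ring
  rw [show (fun x => ((∑ i, ∑ j, SS mu W g i j x * pd i (v j) x) +
        (Pg lam mu W g x - DS mu W g x) * ∑ i, pd i (v i) x)) = fun x =>
      (Pg lam mu W g x * ∑ i, pd i (v i) x - ∑ j, Pw mu W g j x * v j x)
        + ∑ i, pd i (T i) x from funext e4]
  have I4 : Integrable (fun x => ∑ j, Pw mu W g j x * v j x) :=
    integrable_finsetSum _ fun j _ => I2 j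
  have I5 : Integrable (fun x => Pg lam mu W g x * ∑ i, pd i (v i) x -
      ∑ j, Pw mu W g j x * v j x) := I1.sub I4
  rw [integral_add I5 I3, key, add_zero, integral_sub I1 I4,
    integral_finsetSum _ fun j _ => I2 j]

/-! ### Density: from test fields to `H¹₀` -/

lemma memLp_sq_intC {μ : Measure E3} {f : E3 → ℂ} (hf : MemLp f 2 μ) :
    Integrable (fun x => ‖f x‖ ^ 2) μ := by
  simpa using hf.integrable_norm_pow (by norm_num)

/-- Cauchy-Schwarz. -/
lemma csC {μ : Measure E3} {f g : E3 → ℂ} (hf : MemLp f 2 μ) (hg : MemLp g 2 μ) :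
    ‖∫ x, f x * g x ∂μ‖ ^ 2 ≤ (∫ x, ‖f x‖ ^ 2 ∂μ) * ∫ x, ‖g x‖ ^ 2 ∂μ := by
  have hfg : Integrable (fun x => ‖f x‖ * ‖g x‖) μ := by
    have := (hf.integrable_mul hg).norm
    simpa [norm_mul] using this
  have h0 : ‖∫ x, f x * g x ∂μ‖ ≤ ∫ x, ‖f x‖ * ‖g x‖ ∂μ := by
    refine (norm_integral_le_integral_norm _).trans (le_of_eq ?_)
    congr 1
    funext x
    exact norm_mul _ _
  have h1 : ∀ t : ℝ, 0 ≤ (∫ x, ‖f x‖ ^ 2 ∂μ) * (t * t) + (2 * ∫ x, ‖f x‖ * ‖g x‖ ∂μ) * t
      + ∫ x, ‖g x‖ ^ 2 ∂μ := by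
    intro t
    have e : (∫ x, ‖f x‖ ^ 2 ∂μ) * (t * t) + (2 * ∫ x, ‖f x‖ * ‖g x‖ ∂μ) * t
      + ∫ x, ‖g x‖ ^ 2 ∂μ = ∫ x, (t * ‖f x‖ + ‖g x‖) ^ 2 ∂μ := by
      have e1 : ∀ x, (t * ‖f x‖ + ‖g x‖) ^ 2
          = (t * t) * ‖f x‖ ^ 2 + (2 * t) * (‖f x‖ * ‖g x‖) + ‖g x‖ ^ 2 := by
        intro x; ring
      simp_rw [e1]
      have i1 : Integrable (fun x => (t * t) * ‖f x‖ ^ 2) μ := (memLp_sq_intC hf).const_mul _
      have i2 : Integrable (fun x => (2 * t) * (‖f x‖ * ‖g x‖)) μ := hfg.const_mul _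
      have i3 : Integrable (fun x => (t * t) * ‖f x‖ ^ 2 + (2 * t) * (‖f x‖ * ‖g x‖)) μ :=
        i1.add i2
      rw [integral_add i3 (memLp_sq_intC hg), integral_add i1 i2, integral_const_mul,
        integral_const_mul]
      ring
    rw [e]
    exact integral_nonneg fun _ => sq_nonneg _
  have h2 := discrim_le_zero h1
  unfold discrim at h2
  have h3 : ‖∫ x, f x * g x ∂μ‖ ^ 2 ≤ (∫ x, ‖f x‖ * ‖g x‖ ∂μ) ^ 2 :=
    pow_le_pow_left₀ (norm_nonneg _) h0 2
  linarith only [h3, h2]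

lemma tendstoC {μ : Measure E3} {c f : E3 → ℂ} {φ : ℕ → E3 → ℂ} (hc : MemLp c 2 μ)
    (hf : MemLp f 2 μ) (hφ : ∀ n, MemLp (φ n) 2 μ)
    (h : Tendsto (fun n => ∫ x, ‖f x - φ n x‖ ^ 2 ∂μ) atTop (𝓝 0)) :
    Tendsto (fun n => ∫ x, c x * φ n x ∂μ) atTop (𝓝 (∫ x, c x * f x ∂μ)) := by
  rw [tendsto_iff_norm_sub_tendsto_zero]
  have h1 : Tendsto (fun n => Real.sqrt ((∫ x, ‖c x‖ ^ 2 ∂μ) * ∫ x, ‖f x - φ n x‖ ^ 2 ∂μ))
      atTop (𝓝 0) := by
    have := (h.const_mul (∫ x, ‖c x‖ ^ 2 ∂μ)).sqrt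
    simpa using this
  refine squeeze_zero (fun _ => norm_nonneg _) (fun n => ?_) h1
  have i1 : Integrable (fun x => c x * φ n x) μ := hc.integrable_mul (hφ n)
  have i2 : Integrable (fun x => c x * f x) μ := hc.integrable_mul hf
  rw [← integral_sub i1 i2]
  apply Real.le_sqrt_of_sq_le
  have e : ∀ x, c x * φ n x - c x * f x = - (c x * (f x - φ n x)) := by intro x; ring
  simp_rw [e]
  rw [integral_neg, norm_neg]
  exact csC hc (hf.sub (hφ n))

lemma memLp_cont {Ω : Set E3} (hb : Bornology.IsBounded Ω) {c : E3 → ℂ} (hc : Continuous c) :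
    MemLp c 2 (volume.restrict Ω) := by
  have hk : IsCompact (closure Ω) := hb.isCompact_closure
  obtain ⟨M, hM⟩ := (hk.image hc.norm).bddAbove
  have : IsFiniteMeasure (volume.restrict (closure Ω)) := ⟨by
    simpa using hk.measure_lt_top⟩
  have h1 : MemLp c 2 (volume.restrict (closure Ω)) := by
    refine MemLp.of_bound hc.aestronglyMeasurable M ?_
    rw [ae_restrict_iff' isClosed_closure.measurableSet]
    exact Eventually.of_forall fun x hx => hM ⟨x, hx, rfl⟩
  exact h1.mono_measure (Measure.restrict_mono subset_closure le_rfl)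

/-- expansion of `cform` when the first argument is continuous. -/
lemma cform_expand {Ω : Set E3} (hb : Bornology.IsBounded Ω) (hlam : Continuous lam)
    (hmu : Continuous mu) {G : Fin 3 → Fin 3 → E3 → ℂ} (hG : ∀ i j, Continuous (G i j))
    {H : Fin 3 → Fin 3 → E3 → ℂ} (hH : ∀ i j, MemLp (H i j) 2 (volume.restrict Ω)) :
    cform Ω lam mu G H = ∑ i, ∑ j, ∫ x in Ω, ((if i = j then (lam x : ℂ) * (∑ k, G k k x) else 0)
      + (mu x : ℂ) * (G i j x + G j i x)) * H i j x := by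
  have hc : ∀ i j, Continuous fun x => ((if i = j then (lam x : ℂ) * (∑ k, G k k x) else 0)
      + (mu x : ℂ) * (G i j x + G j i x)) := by
    intro i j
    refine Continuous.add ?_ ((Complex.continuous_ofReal.comp hmu).mul ((hG i j).add (hG j i)))
    split_ifs
    · exact (Complex.continuous_ofReal.comp hlam).mul
        (continuous_finsetSum _ fun k _ => hG k k)
    · exact continuous_const
  have hi : ∀ i j, Integrable (fun x => ((if i = j then (lam x : ℂ) * (∑ k, G k k x) else 0)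
      + (mu x : ℂ) * (G i j x + G j i x)) * H i j x) (volume.restrict Ω) := fun i j =>
    (memLp_cont hb (hc i j)).integrable_mul (hH i j)
  unfold cform
  have e : ∀ x, ((lam x : ℂ) * ((∑ i, G i i x) * ∑ i, H i i x) +
    2 * (mu x : ℂ) * ∑ i, ∑ j, ((G i j x + G j i x) / 2) * ((H i j x + H j i x) / 2)) =
      ∑ i, ∑ j, ((if i = j then (lam x : ℂ) * (∑ k, G k k x) else 0)
      + (mu x : ℂ) * (G i j x + G j i x)) * H i j x := fun x =>
    cform_integrand (lam x) (mu x) (fun i j => G i j x) (fun i j => H i j x)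
  simp_rw [e]
  rw [integral_finsetSum _ fun i _ => integrable_finsetSum _ fun j _ => hi i j]
  exact Finset.sum_congr rfl fun i _ => integral_finsetSum _ fun j _ => hi i j

lemma CTest.memLp {Ω : Set E3} {φ : E3 → ℂ} (h : CTest Ω φ) : MemLp φ 2 (volume : Measure E3) :=
  h.1.continuous.memLp_of_hasCompactSupport h.2.1

lemma CTest.pd_memLp {Ω : Set E3} {φ : E3 → ℂ} (h : CTest Ω φ) (i : Fin 3) :
    MemLp (pd i φ) 2 (volume : Measure E3) :=
  (pd_contDiff_infty h.1 i).continuous.memLp_of_hasCompactSupport (pd_hasCompactSupport h.2.1 i)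

/-- smooth fields are in `H¹` of bounded sets. -/
lemma CH1_of_smooth {Ω : Set E3} (hb : Bornology.IsBounded Ω) {u : Fin 3 → E3 → ℂ}
    (hu : ∀ j, ContDiff ℝ ∞ (u j)) : CH1 Ω u (fun i j => pd i (u j)) where
  val_mem j := memLp_cont hb (hu j).continuous
  der_mem i j := memLp_cont hb (pd_contDiff_infty (hu j) i).continuous
  weak i j := by
    intro φ hφ
    rw [setIntegral_eq_integral_of_forall_compl_eq_zero (fun x hx => by
        simp [hφ.pd_support i hx]),
      setIntegral_eq_integral_of_forall_compl_eq_zero (fun x hx => by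
        simp [hφ.val_support hx])]
    have h1 : ContDiff ℝ 1 (fun x => u j x * φ x) := ((hu j).mul hφ.1).of_le (by norm_cast)
    have h2 : HasCompactSupport (fun x => u j x * φ x) := hφ.2.1.mul_left
    have h3 := int_pd_zero h1 h2 i
    have du : Differentiable ℝ (u j) := (hu j).differentiable (by simp)
    have dφ : Differentiable ℝ φ := hφ.1.differentiable (by simp)
    rw [pd_mulC du dφ] at h3
    have i1 : Integrable (fun x => pd i (u j) x * φ x) :=
      ((pd_contDiff_infty (hu j) i).continuous.mul hφ.1.continuous).integrable_of_hasCompactSupport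
        hφ.2.1.mul_left
    have i2 : Integrable (fun x => u j x * pd i φ x) :=
      ((hu j).continuous.mul (pd_contDiff_infty hφ.1 i).continuous).integrable_of_hasCompactSupport
        (pd_hasCompactSupport hφ.2.1 i).mul_left
    rw [integral_add i1 i2] at h3
    linear_combination h3

/-! ### Coefficient matrices -/

section
variable (lam mu) (j : Fin 3) (a b : Fin 3) (x : E3)
end

/-! ### Complex fields from pairs of real fields -/

/-- `div w = div W + m Δg - g Δm`. -/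
lemma div_wv' {F : Type*} [NormedAddCommGroup F] [NormedSpace ℝ F] {m : E3 → ℝ}
    (hm : ContDiff ℝ ∞ m) {W : Fin 3 → E3 → F} {g : E3 → F}
    (hW : ∀ j, ContDiff ℝ ∞ (W j)) (hg : ContDiff ℝ ∞ g) (x : E3) :
    ∑ i, pd i (wv m W g i) x = (∑ i, pd i (W i) x) + m x • lap g x - lap m x • g x := by
  simp only [pd_wv hm hW hg, lap, Finset.sum_add_distrib, Finset.sum_sub_distrib,
    Finset.smul_sum, Finset.sum_smul]
  abel

/-- `div w` in terms of `P_g`. -/
lemma div_wv (hmu : ContDiff ℝ ∞ mu) (hpos : ∀ x, 0 < mu x) (hnu : ∀ x, 0 < lam x + 2 * mu x)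
    {W : Fin 3 → E3 → ℂ} {g : E3 → ℂ} (hW : ∀ j, ContDiff ℝ ∞ (W j)) (hg : ContDiff ℝ ∞ g)
    (x : E3) :
    ∑ i, pd i (wv (fun y => (mu y)⁻¹) W g i) x =
      ((lam x + 2 * mu x)⁻¹ : ℝ) * Pg lam mu W g x
      + ((mu x / (lam x + 2 * mu x) : ℝ) : ℂ) * (∑ i, pd i (W i) x)
      + ((lam x / (lam x + 2 * mu x) - 1 : ℝ) : ℂ) *
        (g x * (lap (fun y => (mu y)⁻¹) x : ℝ)) := by
  rw [div_wv' (inv_contDiff hmu hpos) hW hg]
  have hne : (mu x : ℂ) ≠ 0 := by exact_mod_cast (hpos x).ne'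
  have hn2 : ((lam x + 2 * mu x : ℝ) : ℂ) ≠ 0 := by exact_mod_cast (hnu x).ne'
  simp only [Pg, Complex.real_smul]
  push_cast at hn2 ⊢
  generalize hν : (lam x : ℂ) + 2 * (mu x : ℂ) = ν at hn2 ⊢
  have hl : (lam x : ℂ) = ν - 2 * mu x := by rw [← hν]; ring
  rw [hl]
  field_simp
  ring


end Vale.Agent.P136
end
end

section

section

/-! CGO1, part a: uniform bounds of families and the approximate solutions. -/

open MeasureTheory Filter Topology
open scoped ContDiff InnerProductSpace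

namespace Vale.Agent.P136.CG1

/-- Uniform bound of a family of functions in `L²` of the ball. -/
def UB (R T : ℝ) (s : ℝ → ℝ) (f : ℝ → E3 → ℂ) : Prop :=
  ∃ C : ℝ, 0 ≤ C ∧ ∀ t, T ≤ t → MemLp (f t) 2 (volume.restrict (Metric.ball (0 : E3) R)) ∧
    ∫ x in Metric.ball (0 : E3) R, ‖f t x‖ ^ 2 ≤ C * s t

variable {R T : ℝ} {s s' : ℝ → ℝ} {f g : ℝ → E3 → ℂ}

lemma ballBdd : Bornology.IsBounded (Metric.ball (0 : E3) R) := Metric.isBounded_ball

lemma UB.add (hf : UB R T s f) (hg : UB R T s g) : UB R T s (fun t x => f t x + g t x) := by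
  obtain ⟨C, hC, h1⟩ := hf
  obtain ⟨D, hD, h2⟩ := hg
  refine ⟨2 * C + 2 * D, by positivity, fun t ht => ?_⟩
  obtain ⟨m1, b1⟩ := h1 t ht
  obtain ⟨m2, b2⟩ := h2 t ht
  refine ⟨m1.add m2, ?_⟩
  have i1 := memLp_sq_intC m1
  have i2 := memLp_sq_intC m2
  calc ∫ x in Metric.ball (0 : E3) R, ‖f t x + g t x‖ ^ 2
      ≤ ∫ x in Metric.ball (0 : E3) R, (2 * ‖f t x‖ ^ 2 + 2 * ‖g t x‖ ^ 2) := by
        refine integral_mono (memLp_sq_intC (m1.add m2)) ((i1.const_mul 2).add (i2.const_mul 2))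
          fun x => ?_
        have h := norm_add_le (f t x) (g t x)
        have h3 : ‖f t x + g t x‖ ^ 2 ≤ (‖f t x‖ + ‖g t x‖) ^ 2 :=
          pow_le_pow_left₀ (norm_nonneg _) h 2
        simp only
        linarith only [sq_nonneg (‖f t x‖ - ‖g t x‖), h3]
    _ = 2 * (∫ x in Metric.ball (0 : E3) R, ‖f t x‖ ^ 2)
        + 2 * (∫ x in Metric.ball (0 : E3) R, ‖g t x‖ ^ 2) := by
        rw [integral_add (i1.const_mul 2) (i2.const_mul 2), integral_const_mul,
          integral_const_mul]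
    _ ≤ (2 * C + 2 * D) * s t := by linarith only [b2, b1]

lemma UB.neg (hf : UB R T s f) : UB R T s (fun t x => - f t x) := by
  obtain ⟨C, hC, h1⟩ := hf
  refine ⟨C, hC, fun t ht => ⟨(h1 t ht).1.neg, ?_⟩⟩
  simpa using (h1 t ht).2

lemma UB.sub (hf : UB R T s f) (hg : UB R T s g) : UB R T s (fun t x => f t x - g t x) := by
  have := hf.add hg.neg
  simpa [sub_eq_add_neg] using this

lemma bdd_on_ball {c : E3 → ℂ} (hc : Continuous c) (R : ℝ) :
    ∃ M : ℝ, 0 ≤ M ∧ ∀ x ∈ Metric.ball (0 : E3) R, ‖c x‖ ≤ M := by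
  have hk : IsCompact (Metric.closedBall (0 : E3) R) := isCompact_closedBall _ _
  obtain ⟨M, hM⟩ := (hk.image hc.norm).bddAbove
  exact ⟨max M 0, le_max_right _ _, fun x hx => (hM ⟨x, Metric.ball_subset_closedBall hx, rfl⟩).trans
    (le_max_left _ _)⟩

lemma memLp_mul_cont {c f : E3 → ℂ} (hc : Continuous c)
    (hf : MemLp f 2 (volume.restrict (Metric.ball (0 : E3) R))) :
    MemLp (fun x => c x * f x) 2 (volume.restrict (Metric.ball (0 : E3) R)) := by
  obtain ⟨M, hM0, hM⟩ := bdd_on_ball hc R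
  refine hf.of_le_mul (c := M) (hc.aestronglyMeasurable.mul hf.1) ?_
  rw [ae_restrict_iff' Metric.isOpen_ball.measurableSet]
  refine Eventually.of_forall fun x hx => ?_
  rw [norm_mul]
  exact mul_le_mul_of_nonneg_right (hM x hx) (norm_nonneg _)

lemma UB.mulc {c : E3 → ℂ} (hc : Continuous c)
    (hf : UB R T s f) : UB R T s (fun t x => c x * f t x) := by
  obtain ⟨C, hC, h1⟩ := hf
  obtain ⟨M, hM0, hM⟩ := bdd_on_ball hc R
  refine ⟨M ^ 2 * C, by positivity, fun t ht => ?_⟩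
  obtain ⟨m1, b1⟩ := h1 t ht
  refine ⟨memLp_mul_cont hc m1, ?_⟩
  calc ∫ x in Metric.ball (0 : E3) R, ‖c x * f t x‖ ^ 2
      ≤ ∫ x in Metric.ball (0 : E3) R, M ^ 2 * ‖f t x‖ ^ 2 := by
        refine setIntegral_mono_on (memLp_sq_intC (memLp_mul_cont hc m1))
          ((memLp_sq_intC m1).const_mul _) Metric.isOpen_ball.measurableSet fun x hx => ?_
        rw [norm_mul, mul_pow]
        exact mul_le_mul_of_nonneg_right (pow_le_pow_left₀ (norm_nonneg _) (hM x hx) 2)
          (by positivity)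
    _ = M ^ 2 * ∫ x in Metric.ball (0 : E3) R, ‖f t x‖ ^ 2 := integral_const_mul _ _
    _ ≤ M ^ 2 * (C * s t) := mul_le_mul_of_nonneg_left b1 (by positivity)
    _ = M ^ 2 * C * s t := by ring

lemma UB.mono (hf : UB R T s f) (K : ℝ) (hK : 0 ≤ K) (h : ∀ t, T ≤ t → s t ≤ K * s' t) :
    UB R T s' f := by
  obtain ⟨C, hC, h1⟩ := hf
  refine ⟨C * K, by positivity, fun t ht => ⟨(h1 t ht).1, (h1 t ht).2.trans ?_⟩⟩
  calc C * s t ≤ C * (K * s' t) := mul_le_mul_of_nonneg_left (h t ht) hC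
    _ = C * K * s' t := by ring

lemma UB.cont {c : E3 → ℂ} (hc : Continuous c) : UB R T (fun _ => 1) (fun _ => c) := by
  refine ⟨∫ x in Metric.ball (0 : E3) R, ‖c x‖ ^ 2, integral_nonneg fun _ => by positivity,
    fun t _ => ⟨memLp_cont ballBdd hc, by simp⟩⟩

lemma UB.inv_t (hT : 0 < T) (hf : UB R T (fun _ => 1) f) :
    UB R T (fun t => 1 / t ^ 2) (fun t x => ((1 / t : ℝ) : ℂ) * f t x) := by
  obtain ⟨C, hC, h1⟩ := hf
  refine ⟨C, hC, fun t ht => ⟨(h1 t ht).1.const_mul _, ?_⟩⟩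
  have ht0 : 0 < t := hT.trans_le ht
  have e : ∀ x, ‖((1 / t : ℝ) : ℂ) * f t x‖ ^ 2 = 1 / t ^ 2 * ‖f t x‖ ^ 2 := by
    intro x
    rw [norm_mul, mul_pow, Complex.norm_real, Real.norm_eq_abs, sq_abs]
    ring
  simp_rw [e]
  rw [integral_const_mul]
  have := (h1 t ht).2
  calc 1 / t ^ 2 * ∫ x in Metric.ball (0 : E3) R, ‖f t x‖ ^ 2
      ≤ 1 / t ^ 2 * (C * 1) := mul_le_mul_of_nonneg_left this (by positivity)
    _ = C * (1 / t ^ 2) := by ring

lemma UB.congr (hf : UB R T s f)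
    (h : ∀ t, T ≤ t → ∀ x ∈ Metric.ball (0 : E3) R, f t x = g t x) : UB R T s g := by
  obtain ⟨C, hC, h1⟩ := hf
  refine ⟨C, hC, fun t ht => ?_⟩
  have hae : f t =ᵐ[volume.restrict (Metric.ball (0 : E3) R)] g t := by
    rw [Filter.EventuallyEq, ae_restrict_iff' Metric.isOpen_ball.measurableSet]
    exact Eventually.of_forall (h t ht)
  refine ⟨(memLp_congr_ae hae).1 (h1 t ht).1, ?_⟩
  have : ∫ x in Metric.ball (0 : E3) R, ‖g t x‖ ^ 2
      = ∫ x in Metric.ball (0 : E3) R, ‖f t x‖ ^ 2 :=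
    setIntegral_congr_fun Metric.isOpen_ball.measurableSet fun x hx => by
      simp only [h t ht x hx]
  rw [this]
  exact (h1 t ht).2

lemma UB.sum3 {f : Fin 3 → ℝ → E3 → ℂ} (hf : ∀ i, UB R T s (f i)) :
    UB R T s (fun t x => ∑ i, f i t x) := by
  have := ((hf 0).add (hf 1)).add (hf 2)
  simpa [Fin.sum_univ_three] using this

/-- a common constant for finitely many families. -/
lemma UB.common {ι : Type*} [Finite ι] {f : ι → ℝ → E3 → ℂ} (hs : ∀ t, T ≤ t → 0 ≤ s t)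
    (hf : ∀ i, UB R T s (f i)) : ∃ C : ℝ, 0 ≤ C ∧ ∀ i t, T ≤ t →
      ∫ x in Metric.ball (0 : E3) R, ‖f i t x‖ ^ 2 ≤ C * s t := by
  have := Fintype.ofFinite ι
  choose C hC h using hf
  refine ⟨∑ i, C i, Finset.sum_nonneg fun i _ => hC i, fun i t ht => ?_⟩
  refine ((h i t ht).2).trans (mul_le_mul_of_nonneg_right ?_ (hs t ht))
  exact Finset.single_le_sum (f := C) (fun i _ => hC i) (Finset.mem_univ i)

/-! ### The real part of the direction -/

/-- real part of `ζ` as a vector. -/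
noncomputable def reV (ζ : Fin 3 → ℂ) : E3 := WithLp.toLp 2 fun i => (ζ i).re

lemma inner_reV (ζ : Fin 3 → ℂ) (x : E3) : ⟪reV ζ, x⟫_ℝ = (zx ζ x).re := by
  unfold reV zx
  rw [EuclideanSpace.inner_eq_star_dotProduct]
  simp [dotProduct, Fin.sum_univ_three]
  ring

lemma reV_ne {ζ : Fin 3 → ℂ} (hζ : dot ζ ζ = 0) (h0 : ζ ≠ 0) : 0 < ‖reV ζ‖ := by
  rw [norm_pos_iff]
  intro h
  apply h0
  have hre : ∀ i, (ζ i).re = 0 := by
    intro i
    have := congrArg (fun v : E3 => v i) h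
    simpa [reV] using this
  have h1 := congrArg Complex.re hζ
  unfold dot at h1
  simp only [Fin.sum_univ_three, Complex.add_re, Complex.mul_re, hre, Complex.zero_re] at h1
  have him : ∀ i, (ζ i).im = 0 := by
    intro i
    fin_cases i <;> simp <;> nlinarith [sq_nonneg (ζ 0).im, sq_nonneg (ζ 1).im,
      sq_nonneg (ζ 2).im]
  funext i
  exact Complex.ext (hre i) (him i)

lemma norm_wt (ζ : Fin 3 → ℂ) (t : ℝ) (x : E3) :
    ‖Complex.exp (-((t : ℂ) * zx ζ x))‖ ^ 2 = Real.exp (-2 * ⟪t • reV ζ, x⟫_ℝ) := by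
  rw [Complex.norm_exp, ← Real.exp_nat_mul, inner_smul_left, inner_reV]
  congr 1
  simp

lemma norm_ez (ζ : Fin 3 → ℂ) (t : ℝ) (x : E3) :
    Real.exp (-2 * ⟪t • reV ζ, x⟫_ℝ) * ‖ez (t : ℂ) ζ x‖ ^ 2 = 1 := by
  rw [← norm_wt, ez, ← mul_pow, ← norm_mul, ← Complex.exp_add]
  simp

lemma wt_ez (ζ : Fin 3 → ℂ) (t : ℝ) (x : E3) :
    Complex.exp (-((t : ℂ) * zx ζ x)) * ez (t : ℂ) ζ x = 1 := by
  rw [ez, ← Complex.exp_add]
  simp

lemma wt_continuous (ζ : Fin 3 → ℂ) (t : ℝ) :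
    Continuous fun x : E3 => Complex.exp (-((t : ℂ) * zx ζ x)) := by
  exact (((continuous_const.mul (zx_contDiff ζ).continuous)).neg).cexp

/-! ### Approximate solutions -/

/-- The approximate solution `e^{t ζ·x} (a₀ + a₁ / t)`. -/
noncomputable def psi (ζ : Fin 3 → ℂ) (t : ℂ) (a0 a1 : Fin 4 → E3 → ℂ) (a : Fin 4) (x : E3) : ℂ :=
  ez t ζ x * (a0 a x + t⁻¹ * a1 a x)

lemma psi_smooth {ζ : Fin 3 → ℂ} {t : ℂ} {a0 a1 : Fin 4 → E3 → ℂ}
    (h0 : ∀ a, ContDiff ℝ ∞ (a0 a)) (h1 : ∀ a, ContDiff ℝ ∞ (a1 a)) (a : Fin 4) :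
    ContDiff ℝ ∞ (psi ζ t a0 a1 a) :=
  (ez_contDiff t ζ).mul ((h0 a).add (contDiff_const.mul (h1 a)))

lemma csysP_psi {A : Fin 3 → Fin 4 → Fin 4 → E3 → ℝ} {B : Fin 4 → Fin 4 → E3 → ℝ}
    {ζ : Fin 3 → ℂ} (hζ : dot ζ ζ = 0) {t : ℂ} (ht : t ≠ 0) {a0 a1 : Fin 4 → E3 → ℂ}
    (h0 : ∀ a, ContDiff ℝ ∞ (a0 a)) (h1 : ∀ a, ContDiff ℝ ∞ (a1 a)) (a : Fin 4) (x : E3)
    (e0 : 2 * Dz ζ (a0 a) x + ∑ j, ∑ b, (A j a b x : ℂ) * ζ j * a0 b x = 0)
    (e1 : 2 * Dz ζ (a1 a) x + (∑ j, ∑ b, (A j a b x : ℂ) * ζ j * a1 b x)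
      + csysP A B a0 a x = 0) :
    csysP A B (psi ζ t a0 a1) a x = ez t ζ x * (t⁻¹ * csysP A B a1 a x) := by
  have hf : ∀ b, ContDiff ℝ ∞ (fun y => a0 b y + t⁻¹ * a1 b y) := fun b =>
    (h0 b).add (contDiff_const.mul (h1 b))
  have key := csysP_ez A B (f := fun b y => a0 b y + t⁻¹ * a1 b y) hf t ζ hζ a x
  have e2 : csysP A B (psi ζ t a0 a1) a x
      = csysP A B (fun b y => ez t ζ y * (a0 b y + t⁻¹ * a1 b y)) a x := rfl
  rw [e2, key, csysP_add A B h0 (fun b => contDiff_const.mul (h1 b)),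
    csysP_const_mul A B _ h1, Dz_add ζ (h0 a) (contDiff_const.mul (h1 a))]
  have e3 : Dz ζ (fun y => t⁻¹ * a1 a y) x = t⁻¹ * Dz ζ (a1 a) x := by
    unfold Dz
    simp only [pdc_const_mul _ (h1 a), Finset.mul_sum]
    refine Finset.sum_congr rfl fun i _ => ?_
    ring
  have e4 : ∑ j, ∑ b, (A j a b x : ℂ) * ζ j * (a0 b x + t⁻¹ * a1 b x)
      = (∑ j, ∑ b, (A j a b x : ℂ) * ζ j * a0 b x)
        + t⁻¹ * ∑ j, ∑ b, (A j a b x : ℂ) * ζ j * a1 b x := by
    simp only [mul_add, Finset.sum_add_distrib, Finset.mul_sum]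
    congr 1
    refine Finset.sum_congr rfl fun j _ => Finset.sum_congr rfl fun b _ => ?_
    ring
  rw [e3, e4]
  have ht1 : t * t⁻¹ = 1 := mul_inv_cancel₀ ht
  linear_combination (ez t ζ x) * (t * e0 + e1) + ez t ζ x *
    (2 * Dz ζ (a1 a) x + ∑ j, ∑ b, (A j a b x : ℂ) * ζ j * a1 b x) * ht1

/-- first component of the approximate field. -/
lemma wv_psi {m : E3 → ℝ} {ζ : Fin 3 → ℂ} {t : ℂ}
    (ht : t ≠ 0) {w0 w1 : Fin 3 → E3 → ℂ} {g1 : E3 → ℂ}
    (hg : ContDiff ℝ ∞ g1) {U : Fin 3 → E3 → ℂ}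
    (hw : ∀ j x, w0 j x = U j x - cc m x * g1 x * ζ j) (j : Fin 3) (x : E3) :
    wv m (fun b => psi ζ t (Fin.snoc (α := fun _ => E3 → ℂ) w0 (fun _ => 0))
        (Fin.snoc (α := fun _ => E3 → ℂ) w1 g1) b.castSucc)
      (psi ζ t (Fin.snoc (α := fun _ => E3 → ℂ) w0 (fun _ => 0))
        (Fin.snoc (α := fun _ => E3 → ℂ) w1 g1) (Fin.last 3)) j x
      = ez t ζ x * (U j x + t⁻¹ * (w1 j x + cc m x * pd j g1 x
        - ((pd j m x : ℝ) : ℂ) * g1 x)) := by
  have e1 : (psi ζ t (Fin.snoc (α := fun _ => E3 → ℂ) w0 (fun _ => 0))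
        (Fin.snoc (α := fun _ => E3 → ℂ) w1 g1) (Fin.last 3)) =
      fun y => ez t ζ y * (t⁻¹ * g1 y) := by
    funext y
    simp only [psi, Fin.snoc_last, zero_add]
  have e2 : pd j (fun y => ez t ζ y * (t⁻¹ * g1 y)) x
      = ez t ζ x * (ζ j * g1 x + t⁻¹ * pd j g1 x) := by
    rw [pdc_mul (ez_contDiff t ζ) (contDiff_const.mul hg), pd_ez, pdc_const_mul _ hg]
    have ht1 : t * t⁻¹ = 1 := mul_inv_cancel₀ ht
    linear_combination ζ j * ez t ζ x * g1 x * ht1
  unfold wv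
  rw [e1, e2]
  simp only [psi, Fin.snoc_castSucc, hw, Complex.real_smul]
  unfold cc
  ring

/-- derivative of an exponential times an amplitude. -/
lemma pd_ez_mul {ζ : Fin 3 → ℂ} {t : ℂ} (ht : t ≠ 0) {U r : E3 → ℂ} (hU : ContDiff ℝ ∞ U)
    (hr : ContDiff ℝ ∞ r) (i : Fin 3) (x : E3) :
    pd i (fun y => ez t ζ y * (U y + t⁻¹ * r y)) x
      = ez t ζ x * (t * ζ i * U x + ζ i * r x + pd i U x + t⁻¹ * pd i r x) := by
  rw [pdc_mul (ez_contDiff t ζ) (hU.add (contDiff_const.mul hr)), pd_ez,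
    pdc_add hU (contDiff_const.mul hr), pdc_const_mul _ hr]
  have ht1 : t * t⁻¹ = 1 := mul_inv_cancel₀ ht
  linear_combination ζ i * ez t ζ x * r x * ht1

end Vale.Agent.P136.CG1
end
end

section

section

/-! CGO1, part b: convergence in `L²` of the ball. -/

open MeasureTheory Filter Topology
open scoped ContDiff InnerProductSpace

namespace Vale.Agent.P136.CG1

/-- Convergence in `L²` of the ball. -/
def LC (R : ℝ) (f : ℕ → E3 → ℂ) (g : E3 → ℂ) : Prop :=
  (∀ k, MemLp (f k) 2 (volume.restrict (Metric.ball (0 : E3) R))) ∧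
    MemLp g 2 (volume.restrict (Metric.ball (0 : E3) R)) ∧
    Tendsto (fun k => ∫ x in Metric.ball (0 : E3) R, ‖f k x - g x‖ ^ 2) atTop (𝓝 0)

variable {R : ℝ} {f f' : ℕ → E3 → ℂ} {g g' : E3 → ℂ}

lemma LC.add (h : LC R f g) (h' : LC R f' g') :
    LC R (fun k x => f k x + f' k x) (fun x => g x + g' x) := by
  obtain ⟨h1, h2, h3⟩ := h
  obtain ⟨h1', h2', h3'⟩ := h'
  refine ⟨fun k => (h1 k).add (h1' k), h2.add h2', ?_⟩
  have hlim : Tendsto (fun k => 2 * (∫ x in Metric.ball (0 : E3) R, ‖f k x - g x‖ ^ 2)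
      + 2 * (∫ x in Metric.ball (0 : E3) R, ‖f' k x - g' x‖ ^ 2)) atTop (𝓝 0) := by
    have := (h3.const_mul 2).add (h3'.const_mul 2)
    simpa using this
  refine squeeze_zero (fun k => integral_nonneg fun _ => by positivity) (fun k => ?_) hlim
  have i1 : Integrable (fun x => ‖f k x - g x‖ ^ 2)
      (volume.restrict (Metric.ball (0 : E3) R)) := memLp_sq_intC ((h1 k).sub h2)
  have i2 : Integrable (fun x => ‖f' k x - g' x‖ ^ 2)
      (volume.restrict (Metric.ball (0 : E3) R)) := memLp_sq_intC ((h1' k).sub h2')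
  rw [← integral_const_mul, ← integral_const_mul,
    ← integral_add (i1.const_mul 2) (i2.const_mul 2)]
  refine integral_mono (memLp_sq_intC (((h1 k).add (h1' k)).sub (h2.add h2')))
    ((i1.const_mul 2).add (i2.const_mul 2)) fun x => ?_
  simp only [Pi.sub_apply, Pi.add_apply]
  have e : f k x + f' k x - (g x + g' x) = (f k x - g x) + (f' k x - g' x) := by ring
  rw [e]
  have h := norm_add_le (f k x - g x) (f' k x - g' x)
  have h3 : ‖(f k x - g x) + (f' k x - g' x)‖ ^ 2 ≤ (‖f k x - g x‖ + ‖f' k x - g' x‖) ^ 2 :=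
    pow_le_pow_left₀ (norm_nonneg _) h 2
  linarith only [sq_nonneg (‖f k x - g x‖ - ‖f' k x - g' x‖), h3]

lemma LC.neg (h : LC R f g) : LC R (fun k x => - f k x) (fun x => - g x) := by
  obtain ⟨h1, h2, h3⟩ := h
  refine ⟨fun k => (h1 k).neg, h2.neg, ?_⟩
  have e : ∀ k x, ‖- f k x - - g x‖ = ‖f k x - g x‖ := by
    intro k x
    rw [← norm_neg]
    congr 1
    ring
  simpa only [e] using h3

lemma LC.sub (h : LC R f g) (h' : LC R f' g') :
    LC R (fun k x => f k x - f' k x) (fun x => g x - g' x) := by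
  simpa only [sub_eq_add_neg] using h.add h'.neg

lemma LC.mulc {c : E3 → ℂ} (hc : Continuous c) (h : LC R f g) :
    LC R (fun k x => c x * f k x) (fun x => c x * g x) := by
  obtain ⟨h1, h2, h3⟩ := h
  obtain ⟨M, hM0, hM⟩ := bdd_on_ball hc R
  refine ⟨fun k => memLp_mul_cont hc (h1 k), memLp_mul_cont hc h2, ?_⟩
  have hlim : Tendsto (fun k => M ^ 2 * ∫ x in Metric.ball (0 : E3) R, ‖f k x - g x‖ ^ 2)
      atTop (𝓝 0) := by
    have := h3.const_mul (M ^ 2)
    simpa using this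
  refine squeeze_zero (fun k => integral_nonneg fun _ => by positivity) (fun k => ?_) hlim
  rw [← integral_const_mul]
  refine setIntegral_mono_on (memLp_sq_intC ((memLp_mul_cont hc (h1 k)).sub
    (memLp_mul_cont hc h2))) ((memLp_sq_intC ((h1 k).sub h2)).const_mul _)
    Metric.isOpen_ball.measurableSet fun x hx => ?_
  simp only
  rw [← mul_sub, norm_mul, mul_pow]
  exact mul_le_mul_of_nonneg_right (pow_le_pow_left₀ (norm_nonneg _) (hM x hx) 2)
    (by positivity)

lemma LC.const (hg : Continuous g) : LC R (fun _ => g) g := by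
  refine ⟨fun _ => memLp_cont ballBdd hg, memLp_cont ballBdd hg, ?_⟩
  simp

lemma LC.sum3 {f : Fin 3 → ℕ → E3 → ℂ} {g : Fin 3 → E3 → ℂ} (h : ∀ i, LC R (f i) (g i)) :
    LC R (fun k x => ∑ i, f i k x) (fun x => ∑ i, g i x) := by
  have := ((h 0).add (h 1)).add (h 2)
  simpa [Fin.sum_univ_three] using this

lemma LC.congr (h : LC R f g) (hf : ∀ k, ∀ x ∈ Metric.ball (0 : E3) R, f k x = f' k x) :
    LC R f' g := by
  obtain ⟨h1, h2, h3⟩ := h
  have hae : ∀ k, f k =ᵐ[volume.restrict (Metric.ball (0 : E3) R)] f' k := by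
    intro k
    rw [Filter.EventuallyEq, ae_restrict_iff' Metric.isOpen_ball.measurableSet]
    exact Eventually.of_forall (hf k)
  refine ⟨fun k => (memLp_congr_ae (hae k)).1 (h1 k), h2, ?_⟩
  refine h3.congr fun k => ?_
  exact setIntegral_congr_fun Metric.isOpen_ball.measurableSet fun x hx => by
    simp only [hf k x hx]

lemma LC.uniq (h : LC R f g) (h' : LC R f g') :
    g =ᵐ[volume.restrict (Metric.ball (0 : E3) R)] g' := by
  have h0 := h.sub h'
  have h1 : LC R (fun _ _ => (0 : ℂ)) (fun x => g x - g' x) := by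
    simpa using h0
  have h2 : ∫ x in Metric.ball (0 : E3) R, ‖g x - g' x‖ ^ 2 = 0 := by
    have := h1.2.2
    simp only [zero_sub, norm_neg] at this
    exact tendsto_nhds_unique tendsto_const_nhds this
  have h3 : (fun x => ‖g x - g' x‖ ^ 2) =ᵐ[volume.restrict (Metric.ball (0 : E3) R)] 0 :=
    (integral_eq_zero_iff_of_nonneg (fun _ => by positivity) (memLp_sq_intC h1.2.1)).1 h2
  filter_upwards [h3] with x hx
  have : ‖g x - g' x‖ = 0 := by
    simpa using hx
  exact sub_eq_zero.1 (norm_eq_zero.1 this)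

lemma LC.int (h : LC R f g) {φ : E3 → ℂ}
    (hφ : MemLp φ 2 (volume.restrict (Metric.ball (0 : E3) R))) :
    Tendsto (fun k => ∫ x in Metric.ball (0 : E3) R, f k x * φ x) atTop
      (𝓝 (∫ x in Metric.ball (0 : E3) R, g x * φ x)) := by
  have h1 : Tendsto (fun k => ∫ x in Metric.ball (0 : E3) R, ‖g x - f k x‖ ^ 2) atTop (𝓝 0) := by
    refine h.2.2.congr fun k => ?_
    congr 1
    funext x
    rw [norm_sub_rev]
  have := tendstoC hφ h.2.1 h.1 h1
  simpa only [mul_comm] using this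

lemma LC.weak (hs : ∀ k, ContDiff ℝ ∞ (f k)) {i : Fin 3} {g1 : E3 → ℂ} (h : LC R f g)
    (h1 : LC R (fun k => pd i (f k)) g1) : WDc (Metric.ball (0 : E3) R) i g g1 := by
  intro φ hφ
  have e : ∀ k, ∫ x in Metric.ball (0 : E3) R, f k x * pd i φ x
      = - ∫ x in Metric.ball (0 : E3) R, pd i (f k) x * φ x := by
    intro k
    exact (CH1_of_smooth (Ω := Metric.ball (0 : E3) R) ballBdd (u := fun _ => f k)
      (fun _ => hs k)).weak i 0 φ hφ
  have l1 := h.int ((hφ.pd_memLp i).mono_measure Measure.restrict_le_self)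
  have l2 := (h1.int (hφ.memLp.mono_measure Measure.restrict_le_self)).neg
  simp_rw [e] at l1
  exact tendsto_nhds_unique l1 l2

end Vale.Agent.P136.CG1
end
end

section

section

/-! CGO1, part c: the exact solution for one value of the parameter. -/

open MeasureTheory Filter Topology
open scoped ContDiff InnerProductSpace

namespace Vale.Agent.P136.CG1

variable {R : ℝ} {f f' : ℕ → E3 → ℂ} {g g' : E3 → ℂ}

lemma LC.congr_lim (h : LC R f g) (hg : ∀ x ∈ Metric.ball (0 : E3) R, g x = g' x) :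
    LC R f g' := by
  obtain ⟨h1, h2, h3⟩ := h
  have hae : g =ᵐ[volume.restrict (Metric.ball (0 : E3) R)] g' := by
    rw [Filter.EventuallyEq, ae_restrict_iff' Metric.isOpen_ball.measurableSet]
    exact Eventually.of_forall hg
  refine ⟨h1, (memLp_congr_ae hae).1 h2, ?_⟩
  refine h3.congr fun k => ?_
  exact setIntegral_congr_fun Metric.isOpen_ball.measurableSet fun x hx => by
    simp only [hg x hx]

lemma LC.congr_fun (h : LC R f g) (hf : ∀ k x, f k x = f' k x) (hg : ∀ x, g x = g' x) :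
    LC R f' g' := (h.congr fun k x _ => hf k x).congr_lim fun x _ => hg x

/-- Bridge: vector rows. -/
lemma csysP_Pw {lam mu : E3 → ℝ} (hmu : ContDiff ℝ ∞ mu) (hpos : ∀ x, 0 < mu x)
    {Φ : Fin 4 → E3 → ℂ} (hΦ : ∀ a, ContDiff ℝ ∞ (Φ a)) (i : Fin 3) (x : E3) :
    Pw mu (fun b => Φ b.castSucc) (Φ (Fin.last 3)) i x
      = cc mu x * csysP (cA lam mu) (cB lam mu) Φ i.castSucc x := by
  have hm := inv_contDiff hmu hpos
  have hsn : Φ = Fin.snoc (α := fun _ => E3 → ℂ) (fun b : Fin 3 => Φ b.castSucc)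
      (Φ (Fin.last 3)) := by
    funext a
    refine Fin.lastCases ?_ (fun i => ?_) a
    · rw [Fin.snoc_last]
    · rw [Fin.snoc_castSucc]
  conv_rhs => rw [hsn]
  rw [csysP_castSucc]
  set W := fun b : Fin 3 => Φ b.castSucc
  set g := Φ (Fin.last 3)
  have hg : ContDiff ℝ ∞ g := hΦ _
  have hq : ∀ j, pd j (fun y => (mu y * pd j (pd i (fun z => (mu z)⁻¹)) y) • g y) x =
      (pd j mu x * pd j (pd i (fun z => (mu z)⁻¹)) x
        + mu x * pd j (pd j (pd i (fun z => (mu z)⁻¹))) x) • g x +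
      (mu x * pd j (pd i (fun z => (mu z)⁻¹)) x) • pd j g x := by
    intro j
    have d1 : Differentiable ℝ (fun y => mu y * pd j (pd i (fun z => (mu z)⁻¹)) y) :=
      (hmu.mul (pd_contDiff_infty (pd_contDiff_infty hm i) j)).differentiable (by simp)
    have d2 : Differentiable ℝ g := hg.differentiable (by simp)
    rw [pd_smul' d1 d2]
    simp only
    rw [pd_mul (sm_diff hmu x) (sm_diff (pd_contDiff_infty (pd_contDiff_infty hm i) j) x) j]
  have hcomm : ∀ j, pd j (pd i (fun z => (mu z)⁻¹)) = pd i (pd j (mf mu)) := fun j =>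
    pd_comm (hm.of_le (by norm_cast)) j i
  have hmx : cc mu x * (((mu x)⁻¹ : ℝ) : ℂ) = 1 := mu_mf hpos x
  simp only [Pw, hq]
  simp only [hcomm, Complex.real_smul]
  have hM : ((mu x : ℝ) : ℂ) = cc mu x := rfl
  push_cast
  push_cast at hmx
  rw [hM] at hmx ⊢
  simp only [Fin.sum_univ_three]
  set M := cc mu x
  set m := M⁻¹
  linear_combination (-(((pd 0 mu x : ℝ) : ℂ) * pd 0 (W i) x + ((pd 1 mu x : ℝ) : ℂ) * pd 1 (W i) x
    + ((pd 2 mu x : ℝ) : ℂ) * pd 2 (W i) x + (((pd 0 mu x : ℝ) : ℂ) * pd i (W 0) x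
    + ((pd 1 mu x : ℝ) : ℂ) * pd i (W 1) x + ((pd 2 mu x : ℝ) : ℂ) * pd i (W 2) x)
    - ((pd i mu x : ℝ) : ℂ) * (pd 0 (W 0) x + pd 1 (W 1) x + pd 2 (W 2) x))
    + 2 * (((pd 0 mu x : ℝ) : ℂ) * ((pd i (pd 0 (mf mu)) x : ℝ) : ℂ)
      + M * ((pd 0 (pd i (pd 0 (mf mu))) x : ℝ) : ℂ)
      + (((pd 1 mu x : ℝ) : ℂ) * ((pd i (pd 1 (mf mu)) x : ℝ) : ℂ)
      + M * ((pd 1 (pd i (pd 1 (mf mu))) x : ℝ) : ℂ))
      + (((pd 2 mu x : ℝ) : ℂ) * ((pd i (pd 2 (mf mu)) x : ℝ) : ℂ)
      + M * ((pd 2 (pd i (pd 2 (mf mu))) x : ℝ) : ℂ))) * g x) * hmx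

/-- Bridge: last row. -/
lemma csysP_Pg {lam mu : E3 → ℝ} (hpos : ∀ x, 0 < mu x)
    (hnu : ∀ x, 0 < lam x + 2 * mu x) (Φ : Fin 4 → E3 → ℂ) (x : E3) :
    Pg lam mu (fun b => Φ b.castSucc) (Φ (Fin.last 3)) x
      = cc (kf lam mu) x * csysP (cA lam mu) (cB lam mu) Φ (Fin.last 3) x := by
  have hsn : Φ = Fin.snoc (α := fun _ => E3 → ℂ) (fun b : Fin 3 => Φ b.castSucc)
      (Φ (Fin.last 3)) := by
    funext a
    refine Fin.lastCases ?_ (fun i => ?_) a
    · rw [Fin.snoc_last]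
    · rw [Fin.snoc_castSucc]
  conv_rhs => rw [hsn]
  rw [csysP_last]
  have hk : kf lam mu x ≠ 0 := (div_pos (hnu x) (hpos x)).ne'
  have hkc : cc (kf lam mu) x ≠ 0 := by
    unfold cc
    exact_mod_cast hk
  have e1 : ((((lam x + 2 * mu x) / mu x : ℝ)) : ℂ) = cc (kf lam mu) x := rfl
  have e2 : (((lam x + mu x) / kf lam mu x : ℝ) : ℂ)
      = ((lam x + mu x : ℝ) : ℂ) / cc (kf lam mu) x := by
    unfold cc; push_cast; rfl
  have e3 : ((lam x * lap (mf mu) x / kf lam mu x : ℝ) : ℂ)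
      = ((lam x * lap (mf mu) x : ℝ) : ℂ) / cc (kf lam mu) x := by
    unfold cc; push_cast; rfl
  have e4 : lap (fun y => (mu y)⁻¹) x = lap (mf mu) x := rfl
  simp only [Pg, Complex.real_smul]
  rw [e1, e2, e3, e4]
  field_simp

end Vale.Agent.P136.CG1
end
end

section

section

/-! CGO1, part d: exact weak solutions from `H²` limits of approximate potentials. -/

open MeasureTheory Filter Topology
open scoped ContDiff InnerProductSpace

namespace Vale.Agent.P136.CG1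

/-- `μ/(λ+2μ)` -/
noncomputable def c1 (lam mu : E3 → ℝ) (x : E3) : ℝ := mu x / (lam x + 2 * mu x)

/-- `(λ/(λ+2μ) - 1) Δm` -/
noncomputable def c2 (lam mu : E3 → ℝ) (x : E3) : ℝ :=
  (lam x / (lam x + 2 * mu x) - 1) * lap (mf mu) x

/-- displacement -/
noncomputable def uu (mu : E3 → ℝ) (Y : Fin 4 → E3 → ℂ) (Y1 : Fin 3 → Fin 4 → E3 → ℂ)
    (j : Fin 3) (x : E3) : ℂ :=
  Y j.castSucc x + cc (mf mu) x * Y1 j (Fin.last 3) x - cc (pd j (mf mu)) x * Y (Fin.last 3) x

/-- gradient of the displacement -/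
noncomputable def duu (mu : E3 → ℝ) (Y : Fin 4 → E3 → ℂ) (Y1 : Fin 3 → Fin 4 → E3 → ℂ)
    (Y2 : Fin 3 → Fin 3 → Fin 4 → E3 → ℂ) (i j : Fin 3) (x : E3) : ℂ :=
  Y1 i j.castSucc x + (cc (pd i (mf mu)) x * Y1 j (Fin.last 3) x
    + cc (mf mu) x * Y2 i j (Fin.last 3) x)
    - (cc (pd i (pd j (mf mu))) x * Y (Fin.last 3) x + cc (pd j (mf mu)) x * Y1 i (Fin.last 3) x)

/-- divergence -/
noncomputable def pp (lam mu : E3 → ℝ) (Y : Fin 4 → E3 → ℂ) (Y1 : Fin 3 → Fin 4 → E3 → ℂ)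
    (x : E3) : ℂ :=
  cc (c1 lam mu) x * (∑ i : Fin 3, Y1 i i.castSucc x) + cc (c2 lam mu) x * Y (Fin.last 3) x

/-- gradient of the divergence -/
noncomputable def dpp (lam mu : E3 → ℝ) (Y : Fin 4 → E3 → ℂ) (Y1 : Fin 3 → Fin 4 → E3 → ℂ)
    (Y2 : Fin 3 → Fin 3 → Fin 4 → E3 → ℂ) (l : Fin 3) (x : E3) : ℂ :=
  (cc (pd l (c1 lam mu)) x * (∑ i : Fin 3, Y1 i i.castSucc x)
    + cc (c1 lam mu) x * (∑ i : Fin 3, Y2 l i i.castSucc x))
    + (cc (pd l (c2 lam mu)) x * Y (Fin.last 3) x + cc (c2 lam mu) x * Y1 l (Fin.last 3) x)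

variable {lam mu : E3 → ℝ}

lemma c1_smooth (hl : ContDiff ℝ ∞ lam) (hm : ContDiff ℝ ∞ mu)
    (h2 : ∀ x, 0 < lam x + 2 * mu x) : ContDiff ℝ ∞ (c1 lam mu) :=
  hm.div (hl.add (contDiff_const.mul hm)) fun x => (h2 x).ne'

lemma c2_smooth (hl : ContDiff ℝ ∞ lam) (hm : ContDiff ℝ ∞ mu) (h0 : ∀ x, 0 < mu x)
    (h2 : ∀ x, 0 < lam x + 2 * mu x) : ContDiff ℝ ∞ (c2 lam mu) :=
  ((hl.div (hl.add (contDiff_const.mul hm)) fun x => (h2 x).ne').sub contDiff_const).mul
    (lap_sm (mf_contDiff hm h0))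

lemma cform_comm (Ω : Set E3) (lam mu : E3 → ℝ) (G H : Fin 3 → Fin 3 → E3 → ℂ) :
    cform Ω lam mu G H = cform Ω lam mu H G := by
  unfold cform
  congr 1
  funext x
  simp only [Fin.sum_univ_three]
  ring

/-- The displacement of smooth potentials is `uu`. -/
lemma uu_smooth_eq {Θ : Fin 4 → E3 → ℂ} (j : Fin 3) (x : E3) :
    wv (mf mu) (fun b => Θ b.castSucc) (Θ (Fin.last 3)) j x
      = uu mu Θ (fun i a => pd i (Θ a)) j x := by
  unfold wv uu
  simp only [Complex.real_smul]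
  rfl

lemma duu_smooth_eq (hm : ContDiff ℝ ∞ mu) (h0 : ∀ x, 0 < mu x) {Θ : Fin 4 → E3 → ℂ}
    (hΘ : ∀ a, ContDiff ℝ ∞ (Θ a)) (i j : Fin 3) (x : E3) :
    pd i (wv (mf mu) (fun b => Θ b.castSucc) (Θ (Fin.last 3)) j) x
      = duu mu Θ (fun i a => pd i (Θ a)) (fun i j a => pd i (pd j (Θ a))) i j x := by
  rw [pd_wv (mf_contDiff hm h0) (fun b => hΘ b.castSucc) (hΘ (Fin.last 3))]
  unfold duu
  simp only [Complex.real_smul]
  rfl

lemma pd_pp (hl : ContDiff ℝ ∞ lam) (hm : ContDiff ℝ ∞ mu) (h0 : ∀ x, 0 < mu x)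
    (h2 : ∀ x, 0 < lam x + 2 * mu x) {Θ : Fin 4 → E3 → ℂ}
    (hΘ : ∀ a, ContDiff ℝ ∞ (Θ a)) (l : Fin 3) (x : E3) :
    pd l (pp lam mu Θ (fun i a => pd i (Θ a))) x
      = dpp lam mu Θ (fun i a => pd i (Θ a)) (fun i j a => pd i (pd j (Θ a))) l x := by
  have hc1 := c1_smooth hl hm h2
  have hc2 := c2_smooth hl hm h0 h2
  have hs : ContDiff ℝ ∞ (fun x => ∑ i : Fin 3, pd i (Θ i.castSucc) x) :=
    ContDiff.sum fun i _ => pd_contDiff_infty (hΘ _) i
  have e : pp lam mu Θ (fun i a => pd i (Θ a)) = fun x => cc (c1 lam mu) x *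
    (∑ i : Fin 3, pd i (Θ i.castSucc) x) + cc (c2 lam mu) x * Θ (Fin.last 3) x := rfl
  rw [e, pdc_add ((cc_contDiff hc1).mul hs) ((cc_contDiff hc2).mul (hΘ _)),
    pdc_mul (cc_contDiff hc1) hs, pdc_mul (cc_contDiff hc2) (hΘ _),
    pdc_sum _ (fun i _ => pd_contDiff_infty (hΘ _) i), pd_cc' hc1, pd_cc' hc2]
  rfl

/-- Exact weak solutions. -/
theorem exact_sol (hl : ContDiff ℝ ∞ lam) (hm : ContDiff ℝ ∞ mu) (h0 : ∀ x, 0 < mu x)
    (h2 : ∀ x, 0 < lam x + 2 * mu x) {R : ℝ} {Θ : ℕ → Fin 4 → E3 → ℂ}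
    (hΘ : ∀ k a, ContDiff ℝ ∞ (Θ k a)) {Y : Fin 4 → E3 → ℂ} {Y1 : Fin 3 → Fin 4 → E3 → ℂ}
    {Y2 : Fin 3 → Fin 3 → Fin 4 → E3 → ℂ} (hY : ∀ a, LC R (fun k => Θ k a) (Y a))
    (hY1 : ∀ i a, LC R (fun k => pd i (Θ k a)) (Y1 i a))
    (hY2 : ∀ i j a, LC R (fun k => pd i (pd j (Θ k a))) (Y2 i j a))
    (hP : ∀ a, LC R (fun k => csysP (cA lam mu) (cB lam mu) (Θ k) a) (fun _ => 0)) :
    CH1 (Metric.ball 0 R) (uu mu Y Y1) (duu mu Y Y1 Y2) ∧
    CSol (Metric.ball 0 R) lam mu (duu mu Y Y1 Y2) ∧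
    MemLp (pp lam mu Y Y1) 2 (volume.restrict (Metric.ball (0 : E3) R)) ∧
    (∀ i, MemLp (dpp lam mu Y Y1 Y2 i) 2 (volume.restrict (Metric.ball (0 : E3) R))) ∧
    (∀ i, WDc (Metric.ball 0 R) i (pp lam mu Y Y1) (dpp lam mu Y Y1 Y2 i)) ∧
    (∀ᵐ x ∂(volume.restrict (Metric.ball (0 : E3) R)),
      pp lam mu Y Y1 x = ∑ i, duu mu Y Y1 Y2 i i x) := by
  have hmf := mf_contDiff hm h0
  have hc1 := c1_smooth hl hm h2
  have hc2 := c2_smooth hl hm h0 h2
  have k0 : Continuous (cc (mf mu)) := (cc_contDiff hmf).continuous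
  have k1 : ∀ j, Continuous (cc (pd j (mf mu))) := fun j =>
    (cc_contDiff (pd_contDiff_infty hmf j)).continuous
  have k2 : ∀ i j, Continuous (cc (pd i (pd j (mf mu)))) := fun i j =>
    (cc_contDiff (pd_contDiff_infty (pd_contDiff_infty hmf j) i)).continuous
  have k3 : Continuous (cc (c1 lam mu)) := (cc_contDiff hc1).continuous
  have k4 : Continuous (cc (c2 lam mu)) := (cc_contDiff hc2).continuous
  have k5 : ∀ l, Continuous (cc (pd l (c1 lam mu))) := fun l =>
    (cc_contDiff (pd_contDiff_infty hc1 l)).continuous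
  have k6 : ∀ l, Continuous (cc (pd l (c2 lam mu))) := fun l =>
    (cc_contDiff (pd_contDiff_infty hc2 l)).continuous
  -- smooth approximations
  set uk : ℕ → Fin 3 → E3 → ℂ := fun k =>
    wv (mf mu) (fun b => Θ k b.castSucc) (Θ k (Fin.last 3)) with huk
  have huks : ∀ k j, ContDiff ℝ ∞ (uk k j) := fun k j =>
    wv_contDiff hmf (fun b => hΘ k b.castSucc) (hΘ k (Fin.last 3)) j
  set pk : ℕ → E3 → ℂ := fun k => pp lam mu (Θ k) (fun i a => pd i (Θ k a)) with hpk
  have hpks : ∀ k, ContDiff ℝ ∞ (pk k) := fun k =>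
    ((cc_contDiff hc1).mul (ContDiff.sum fun i _ => pd_contDiff_infty (hΘ k _) i)).add
      ((cc_contDiff hc2).mul (hΘ k _))
  have L1 : ∀ j, LC R (fun k => uk k j) (uu mu Y Y1 j) := by
    intro j
    have := ((hY j.castSucc).add ((hY1 j (Fin.last 3)).mulc k0)).sub
      ((hY (Fin.last 3)).mulc (k1 j))
    exact this.congr_fun (fun k x => (uu_smooth_eq j x).symm) (fun x => rfl)
  have L2 : ∀ i j, LC R (fun k => pd i (uk k j)) (duu mu Y Y1 Y2 i j) := by
    intro i j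
    have := ((hY1 i j.castSucc).add (((hY1 j (Fin.last 3)).mulc (k1 i)).add
      ((hY2 i j (Fin.last 3)).mulc k0))).sub
      (((hY (Fin.last 3)).mulc (k2 i j)).add ((hY1 i (Fin.last 3)).mulc (k1 j)))
    exact this.congr_fun (fun k x => (duu_smooth_eq hm h0 (hΘ k) i j x).symm) (fun x => rfl)
  have L3 : LC R pk (pp lam mu Y Y1) := by
    have := ((LC.sum3 fun i => hY1 i i.castSucc).mulc k3).add ((hY (Fin.last 3)).mulc k4)
    exact this.congr_fun (fun k x => rfl) (fun x => rfl)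
  have L4 : ∀ l, LC R (fun k => pd l (pk k)) (dpp lam mu Y Y1 Y2 l) := by
    intro l
    have := (((LC.sum3 fun i => hY1 i i.castSucc).mulc (k5 l)).add
      ((LC.sum3 fun i => hY2 l i i.castSucc).mulc k3)).add
      (((hY (Fin.last 3)).mulc (k6 l)).add ((hY1 l (Fin.last 3)).mulc k4))
    exact this.congr_fun (fun k x => (pd_pp hl hm h0 h2 (hΘ k) l x).symm) (fun x => rfl)
  have L5 : ∀ j, LC R (fun k => Pw mu (fun b => Θ k b.castSucc) (Θ k (Fin.last 3)) j)
      (fun _ => 0) := by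
    intro j
    have := (hP j.castSucc).mulc (cc_contDiff hm).continuous
    exact this.congr_fun (fun k x => (csysP_Pw hm h0 (hΘ k) j x).symm) (fun x => by simp)
  have L6 : LC R (fun k => Pg lam mu (fun b => Θ k b.castSucc) (Θ k (Fin.last 3)))
      (fun _ => 0) := by
    have := (hP (Fin.last 3)).mulc (cc_contDiff (kf_contDiff hl hm h0)).continuous
    exact this.congr_fun (fun k x => (csysP_Pg h0 h2 (Θ k) x).symm) (fun x => by simp)
  refine ⟨⟨fun j => (L1 j).2.1, fun i j => (L2 i j).2.1, fun i j =>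
    LC.weak (fun k => huks k j) (L1 j) (L2 i j)⟩, ?_, L3.2.1, fun i => (L4 i).2.1,
    fun i => LC.weak hpks L3 (L4 i), ?_⟩
  · intro φ hφ
    -- both sides of the weak identity converge
    have hb : Bornology.IsBounded (Metric.ball (0 : E3) R) := Metric.isBounded_ball
    have hpc : ∀ i j, Continuous (pd i (φ j)) := fun i j =>
      (pd_contDiff_infty (hφ j).1 i).continuous
    have hpm : ∀ i j, MemLp (pd i (φ j)) 2 (volume.restrict (Metric.ball (0 : E3) R)) :=
      fun i j => ((hφ j).pd_memLp i).mono_measure Measure.restrict_le_self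
    have hφm : ∀ j, MemLp (φ j) 2 (volume.restrict (Metric.ball (0 : E3) R)) :=
      fun j => (hφ j).memLp.mono_measure Measure.restrict_le_self
    have hid : ∀ k, cform (Metric.ball 0 R) lam mu (fun i j => pd i (uk k j))
        (fun i j => pd i (φ j)) =
        (∫ x in Metric.ball (0 : E3) R, Pg lam mu (fun b => Θ k b.castSucc)
          (Θ k (Fin.last 3)) x * ∑ i, pd i (φ i) x)
        - ∑ j, ∫ x in Metric.ball (0 : E3) R, Pw mu (fun b => Θ k b.castSucc)
          (Θ k (Fin.last 3)) j x * φ j x := fun k =>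
      wi_test (Metric.ball (0 : E3) R) hl hm h0 (fun b => hΘ k b.castSucc)
        (hΘ k (Fin.last 3)) hφ
    have hlim1 : Tendsto (fun k => cform (Metric.ball 0 R) lam mu (fun i j => pd i (uk k j))
        (fun i j => pd i (φ j))) atTop (𝓝 0) := by
      simp_rw [hid]
      have hdm : MemLp (fun x => ∑ i, pd i (φ i) x) 2
          (volume.restrict (Metric.ball (0 : E3) R)) :=
        memLp_finsetSum _ fun i _ => hpm i i
      have a1 := L6.int hdm
      have a2 : Tendsto (fun k => ∑ j, ∫ x in Metric.ball (0 : E3) R,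
          Pw mu (fun b => Θ k b.castSucc) (Θ k (Fin.last 3)) j x * φ j x) atTop
          (𝓝 (∑ j : Fin 3, ∫ x in Metric.ball (0 : E3) R, 0 * φ j x)) :=
        tendsto_finsetSum _ fun j _ => (L5 j).int (hφm j)
      have := a1.sub a2
      simpa using this
    have hcc : ∀ i j, Continuous fun x => ((if i = j then (lam x : ℂ) *
        (∑ k, pd k (φ k) x) else 0) + (mu x : ℂ) * (pd i (φ j) x + pd j (φ i) x)) := by
      intro i j
      refine Continuous.add ?_ ((cc_contDiff hm).continuous.mul ((hpc i j).add (hpc j i)))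
      split_ifs
      · exact (cc_contDiff hl).continuous.mul (continuous_finsetSum _ fun k _ => hpc k k)
      · exact continuous_const
    have hlim2 : Tendsto (fun k => cform (Metric.ball 0 R) lam mu (fun i j => pd i (uk k j))
        (fun i j => pd i (φ j))) atTop
        (𝓝 (cform (Metric.ball 0 R) lam mu (duu mu Y Y1 Y2) (fun i j => pd i (φ j)))) := by
      rw [cform_comm, cform_expand hb hl.continuous hm.continuous (fun i j => hpc i j)
        (fun i j => (L2 i j).2.1)]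
      have e : ∀ k, cform (Metric.ball 0 R) lam mu (fun i j => pd i (uk k j))
          (fun i j => pd i (φ j)) = ∑ i, ∑ j, ∫ x in Metric.ball (0 : E3) R,
          ((if i = j then (lam x : ℂ) * (∑ k, pd k (φ k) x) else 0)
            + (mu x : ℂ) * (pd i (φ j) x + pd j (φ i) x)) * pd i (uk k j) x := by
        intro k
        rw [cform_comm, cform_expand hb hl.continuous hm.continuous (fun i j => hpc i j)
          (fun i j => (L2 i j).1 k)]
      simp_rw [e]
      refine tendsto_finsetSum _ fun i _ => tendsto_finsetSum _ fun j _ => ?_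
      have := (L2 i j).int (memLp_cont hb (hcc i j))
      simpa only [mul_comm] using this
    exact tendsto_nhds_unique hlim2 hlim1
  · -- the divergence
    have M1 : LC R (fun k x => ∑ i, pd i (uk k i) x) (fun x => ∑ i, duu mu Y Y1 Y2 i i x) :=
      LC.sum3 fun i => L2 i i
    have hnu : Continuous (cc fun x => (lam x + 2 * mu x)⁻¹) :=
      (cc_contDiff ((hl.add (contDiff_const.mul hm)).inv fun x => (h2 x).ne')).continuous
    have M2 := (L6.mulc hnu).add L3
    have M3 : LC R (fun k x => ∑ i, pd i (uk k i) x) (pp lam mu Y Y1) := by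
      refine M2.congr_fun (fun k x => ?_) (fun x => by simp)
      have := div_wv hm h0 h2 (fun b => hΘ k b.castSucc) (hΘ k (Fin.last 3)) x
      rw [huk, hpk]
      unfold pp c1 c2 cc mf at *
      rw [this]
      push_cast
      ring
    exact M3.uniq M1

end Vale.Agent.P136.CG1
end
end

section

section

open MeasureTheory Filter Topology
open scoped ContDiff InnerProductSpace ENNReal

namespace Vale.Agent.P136

/-- complex version of the weak partial derivative. -/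
def CWD (i : Fin 3) (f g : E3 → ℂ) : Prop :=
  WD i (fun x => (f x).re) (fun x => (g x).re) ∧ WD i (fun x => (f x).im) (fun x => (g x).im)

/-- complex version of the weak Laplacian. -/
def CWLap (f g : E3 → ℂ) : Prop :=
  WLap (fun x => (f x).re) (fun x => (g x).re) ∧ WLap (fun x => (f x).im) (fun x => (g x).im)

lemma memLp_re {f : E3 → ℂ} (hf : MemLp f 2) : MemLp (fun x => (f x).re) 2 := hf.re

lemma memLp_im {f : E3 → ℂ} (hf : MemLp f 2) : MemLp (fun x => (f x).im) 2 := hf.im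

lemma norm_sq_c (z : ℂ) : ‖z‖ ^ 2 = z.re ^ 2 + z.im ^ 2 := by
  rw [Complex.sq_norm, Complex.normSq_apply]
  ring

/-- the weight. -/
noncomputable def wt (e : E3) (τ s : ℝ) (x : E3) : ℝ := Real.exp (2 * phase e τ s x)

lemma wt_continuous (e : E3) (τ s : ℝ) : Continuous (wt e τ s) :=
  Real.continuous_exp.comp (continuous_const.mul (phase_contDiff e τ s).continuous)

lemma wt_pos (e : E3) (τ s : ℝ) (x : E3) : 0 < wt e τ s x := Real.exp_pos _

lemma w_int {w : E3 → ℝ} (hw : Continuous w) {R : ℝ} {f : E3 → ℝ} (hf : MemLp f 2)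
    (hsupp : ∀ᵐ y : E3, R < ‖y‖ → f y = 0) : Integrable (fun x => w x * (f x) ^ 2) := by
  obtain ⟨M, hM⟩ : ∃ M : ℝ, ∀ x ∈ Metric.closedBall (0 : E3) R, |w x| ≤ M := by
    obtain ⟨M, hM⟩ := (isCompact_closedBall (0 : E3) R).exists_bound_of_continuousOn
      hw.continuousOn
    exact ⟨M, fun x hx => hM x hx⟩
  refine Integrable.mono' ((memLp_sq_int hf).const_mul M)
    (hw.aestronglyMeasurable.mul (hf.1.pow 2)) ?_
  filter_upwards [hsupp] with x hx
  by_cases h : R < ‖x‖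
  · simp [hx h]
  · rw [norm_mul, Real.norm_eq_abs, Real.norm_eq_abs, abs_of_nonneg (sq_nonneg (f x))]
    have := hM x (by simpa using not_lt.mp h)
    gcongr

lemma w_int_c {w : E3 → ℝ} (hw : Continuous w) {R : ℝ} {f : E3 → ℂ} (hf : MemLp f 2)
    (hsupp : ∀ᵐ y : E3, R < ‖y‖ → f y = 0) : Integrable (fun x => w x * ‖f x‖ ^ 2) := by
  have h1 := w_int hw (R := R) (f := fun x => ‖f x‖) hf.norm (by
    filter_upwards [hsupp] with x hx h
    simp [hx h])
  exact h1

lemma w_split {w : E3 → ℝ} (hw : Continuous w) {R : ℝ} {f : E3 → ℂ} (hf : MemLp f 2)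
    (hsupp : ∀ᵐ y : E3, R < ‖y‖ → f y = 0) :
    ∫ x, w x * ‖f x‖ ^ 2 = (∫ x, w x * ((f x).re) ^ 2) + ∫ x, w x * ((f x).im) ^ 2 := by
  rw [← integral_add]
  · congr 1
    funext x
    rw [norm_sq_c]
    ring
  · exact w_int hw (R := R) (memLp_re hf) (by filter_upwards [hsupp] with x hx h; simp [hx h])
  · exact w_int hw (R := R) (memLp_im hf) (by filter_upwards [hsupp] with x hx h; simp [hx h])

theorem carleman_weak_c {f g : E3 → ℂ} {G : Fin 3 → E3 → ℂ} {R : ℝ} (hf : MemLp f 2)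
    (hG : ∀ i, MemLp (G i) 2) (hWD : ∀ i, CWD i f (G i)) (hg : MemLp g 2) (hL : CWLap f g)
    (hsupp : ∀ᵐ y : E3, R < ‖y‖ → f y = 0) (hsG : ∀ i, ∀ᵐ y : E3, R < ‖y‖ → G i y = 0)
    (hsg : ∀ᵐ y : E3, R < ‖y‖ → g y = 0) (e : E3) (he : ‖e‖ = 1) {τ s : ℝ} (hs : 0 < s)
    (hτ0 : 0 ≤ τ) (hτ : s ≤ τ ^ 2) (hR : 2 * s * (R + 1) ≤ τ) :
    τ ^ 2 * (∫ x, wt e τ s x * ‖f x‖ ^ 2) + (∑ i, ∫ x, wt e τ s x * ‖G i x‖ ^ 2)
      ≤ (4 / s) * ∫ x, wt e τ s x * ‖g x‖ ^ 2 := by
  have hw := wt_continuous e τ s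
  have h1 := carleman_weak (memLp_re hf) (fun i => memLp_re (hG i)) (fun i => (hWD i).1)
    (memLp_re hg) hL.1 (by filter_upwards [hsupp] with x hx h; simp [hx h]) e he hs hτ0 hτ hR
  have h2 := carleman_weak (memLp_im hf) (fun i => memLp_im (hG i)) (fun i => (hWD i).2)
    (memLp_im hg) hL.2 (by filter_upwards [hsupp] with x hx h; simp [hx h]) e he hs hτ0 hτ hR
  rw [w_split hw hf hsupp, w_split hw hg hsg]
  simp_rw [fun i => w_split hw (hG i) (hsG i)]
  rw [Finset.sum_add_distrib]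
  have e1 : ∀ x, Real.exp (2 * phase e τ s x) = wt e τ s x := fun _ => rfl
  simp_rw [e1] at h1 h2
  linarith

lemma phase_eq (e : E3) (τ s : ℝ) (x : E3) :
    2 * phase e τ s x = 2 * ⟪τ • e, x⟫_ℝ + s * ⟪e, x⟫_ℝ ^ 2 := by
  unfold phase
  rw [real_inner_smul_left]
  ring

lemma wt_lower (e : E3) (τ : ℝ) {s : ℝ} (hs : 0 < s) (x : E3) :
    Real.exp (2 * ⟪τ • e, x⟫_ℝ) ≤ wt e τ s x := by
  unfold wt
  rw [phase_eq]
  apply Real.exp_le_exp.mpr
  have : 0 ≤ s * ⟪e, x⟫_ℝ ^ 2 := by positivity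
  linarith

lemma wt_upper (e : E3) (he : ‖e‖ = 1) (τ : ℝ) {s : ℝ} (hs : 0 < s) {R : ℝ} {x : E3}
    (hx : ‖x‖ ≤ R) : wt e τ s x ≤ Real.exp (s * R ^ 2) * Real.exp (2 * ⟪τ • e, x⟫_ℝ) := by
  unfold wt
  rw [phase_eq, ← Real.exp_add]
  apply Real.exp_le_exp.mpr
  have h1 : |⟪e, x⟫_ℝ| ≤ R := by
    calc |⟪e, x⟫_ℝ| ≤ ‖e‖ * ‖x‖ := abs_real_inner_le_norm e x
      _ ≤ R := by rw [he, one_mul]; exact hx
  have h2 : ⟪e, x⟫_ℝ ^ 2 ≤ R ^ 2 := by
    rw [← sq_abs]
    have := abs_nonneg ⟪e, x⟫_ℝ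
    gcongr
  have : s * ⟪e, x⟫_ℝ ^ 2 ≤ s * R ^ 2 := by gcongr
  linarith

lemma exp_lin_continuous (al : E3) : Continuous (fun x : E3 => Real.exp (2 * ⟪al, x⟫_ℝ)) :=
  Real.continuous_exp.comp (continuous_const.mul (inner_contDiff al).continuous)

lemma lin_le_wt (e : E3) (τ : ℝ) {s : ℝ} (hs : 0 < s) {R : ℝ} {f : E3 → ℂ} (hf : MemLp f 2)
    (hsupp : ∀ᵐ y : E3, R < ‖y‖ → f y = 0) :
    ∫ x, Real.exp (2 * ⟪τ • e, x⟫_ℝ) * ‖f x‖ ^ 2 ≤ ∫ x, wt e τ s x * ‖f x‖ ^ 2 := by
  apply integral_mono (w_int_c (exp_lin_continuous _) hf hsupp)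
    (w_int_c (wt_continuous e τ s) hf hsupp)
  intro x
  have := wt_lower e τ hs x
  simp only
  gcongr

lemma wt_le_lin (e : E3) (he : ‖e‖ = 1) (τ : ℝ) {s : ℝ} (hs : 0 < s) {R : ℝ} {f : E3 → ℂ}
    (hf : MemLp f 2) (hsupp : ∀ᵐ y : E3, R < ‖y‖ → f y = 0) :
    ∫ x, wt e τ s x * ‖f x‖ ^ 2
      ≤ Real.exp (s * R ^ 2) * ∫ x, Real.exp (2 * ⟪τ • e, x⟫_ℝ) * ‖f x‖ ^ 2 := by
  rw [← integral_const_mul]
  apply integral_mono_ae (w_int_c (wt_continuous e τ s) hf hsupp)
    ((w_int_c (exp_lin_continuous _) hf hsupp).const_mul _)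
  filter_upwards [hsupp] with x hx
  by_cases h : R < ‖x‖
  · simp [hx h]
  · have := wt_upper e he τ hs (not_lt.mp h)
    calc wt e τ s x * ‖f x‖ ^ 2
        ≤ (Real.exp (s * R ^ 2) * Real.exp (2 * ⟪τ • e, x⟫_ℝ)) * ‖f x‖ ^ 2 := by gcongr
      _ = _ := by ring

section system

variable {ι : Type*} [Fintype ι]

/-- weighted squared norm of a finite family. -/
noncomputable def WS {κ : Type*} [Fintype κ] (w : E3 → ℝ) (u : κ → E3 → ℂ) : ℝ :=
  ∑ k, ∫ x, w x * ‖u k x‖ ^ 2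

lemma WS_eq {κ : Type*} [Fintype κ] {w : E3 → ℝ} {u : κ → E3 → ℂ}
    (h : ∀ k, Integrable (fun x => w x * ‖u k x‖ ^ 2)) :
    WS w u = ∫ x, w x * ∑ k, ‖u k x‖ ^ 2 := by
  unfold WS
  rw [← integral_finsetSum _ fun k _ => h k]
  congr 1
  funext x
  rw [Finset.mul_sum]

lemma WS_int {κ : Type*} [Fintype κ] {w : E3 → ℝ} {u : κ → E3 → ℂ}
    (h : ∀ k, Integrable (fun x => w x * ‖u k x‖ ^ 2)) :
    Integrable (fun x => w x * ∑ k, ‖u k x‖ ^ 2) := by
  have : (fun x => w x * ∑ k, ‖u k x‖ ^ 2) = fun x => ∑ k, w x * ‖u k x‖ ^ 2 := by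
    funext x; rw [Finset.mul_sum]
  rw [this]
  exact integrable_finsetSum _ fun k _ => h k

lemma WS_nonneg {κ : Type*} [Fintype κ] {w : E3 → ℝ} (hw : ∀ x, 0 ≤ w x) (u : κ → E3 → ℂ) :
    0 ≤ WS w u :=
  Finset.sum_nonneg fun _ _ => integral_nonneg fun x => mul_nonneg (hw x) (sq_nonneg _)

lemma WS_bound {κ κ₁ κ₂ κ₃ : Type*} [Fintype κ] [Fintype κ₁] [Fintype κ₂] [Fintype κ₃]
    {w : E3 → ℝ} (hw : ∀ x, 0 ≤ w x) {K : ℝ} {u : κ → E3 → ℂ} {u₁ : κ₁ → E3 → ℂ}
    {u₂ : κ₂ → E3 → ℂ} {u₃ : κ₃ → E3 → ℂ}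
    (h : ∀ k, Integrable (fun x => w x * ‖u k x‖ ^ 2))
    (h₁ : ∀ k, Integrable (fun x => w x * ‖u₁ k x‖ ^ 2))
    (h₂ : ∀ k, Integrable (fun x => w x * ‖u₂ k x‖ ^ 2))
    (h₃ : ∀ k, Integrable (fun x => w x * ‖u₃ k x‖ ^ 2))
    (hpt : ∀ᵐ x : E3, ∑ k, ‖u k x‖ ^ 2
      ≤ 3 * ∑ k, ‖u₁ k x‖ ^ 2 + K * ((∑ k, ‖u₂ k x‖ ^ 2) + ∑ k, ‖u₃ k x‖ ^ 2)) :
    WS w u ≤ 3 * WS w u₁ + K * (WS w u₂ + WS w u₃) := by
  rw [WS_eq h, WS_eq h₁, WS_eq h₂, WS_eq h₃]
  have i1 := WS_int h₁
  have i2 := WS_int h₂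
  have i3 := WS_int h₃
  rw [← integral_add i2 i3, ← integral_const_mul, ← integral_const_mul]
  have i4 : Integrable (fun x => 3 * (w x * ∑ k, ‖u₁ k x‖ ^ 2)) := i1.const_mul _
  have i5 : Integrable (fun x => K * ((w x * ∑ k, ‖u₂ k x‖ ^ 2) + w x * ∑ k, ‖u₃ k x‖ ^ 2)) :=
    (i2.add i3).const_mul _
  rw [← integral_add i4 i5]
  apply integral_mono_ae (WS_int h) (i4.add i5)
  filter_upwards [hpt] with x hx
  simp only [Pi.add_apply]
  calc w x * ∑ k, ‖u k x‖ ^ 2
      ≤ w x * (3 * ∑ k, ‖u₁ k x‖ ^ 2 + K * ((∑ k, ‖u₂ k x‖ ^ 2) + ∑ k, ‖u₃ k x‖ ^ 2)) :=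
        mul_le_mul_of_nonneg_left hx (hw x)
    _ = _ := by ring

lemma WS_mono_lin (e : E3) (τ : ℝ) {s : ℝ} (hs : 0 < s) {R : ℝ} {κ : Type*} [Fintype κ]
    {u : κ → E3 → ℂ} (hu : ∀ k, MemLp (u k) 2)
    (hsupp : ∀ k, ∀ᵐ y : E3, R < ‖y‖ → u k y = 0) :
    WS (fun x => Real.exp (2 * ⟪τ • e, x⟫_ℝ)) u ≤ WS (wt e τ s) u :=
  Finset.sum_le_sum fun k _ => lin_le_wt e τ hs (hu k) (hsupp k)

lemma WS_mono_wt (e : E3) (he : ‖e‖ = 1) (τ : ℝ) {s : ℝ} (hs : 0 < s) {R : ℝ} {κ : Type*}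
    [Fintype κ] {u : κ → E3 → ℂ} (hu : ∀ k, MemLp (u k) 2)
    (hsupp : ∀ k, ∀ᵐ y : E3, R < ‖y‖ → u k y = 0) :
    WS (wt e τ s) u ≤ Real.exp (s * R ^ 2) * WS (fun x => Real.exp (2 * ⟪τ • e, x⟫_ℝ)) u := by
  unfold WS
  rw [Finset.mul_sum]
  exact Finset.sum_le_sum fun k _ => wt_le_lin e he τ hs (hu k) (hsupp k)

lemma carSys_wt {K R : ℝ} (hK : 0 ≤ K) (e : E3) (he : ‖e‖ = 1) {τ s : ℝ} (hs : s = 8 * K + 1)
    (h1τ : 1 ≤ τ) (hsτ : s ≤ τ ^ 2) (hRτ : 2 * s * (R + 1) ≤ τ)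
    {Ψ L F : ι → E3 → ℂ} {G : Fin 3 × ι → E3 → ℂ}
    (hΨ : ∀ a, MemLp (Ψ a) 2) (hL : ∀ a, MemLp (L a) 2) (hF : ∀ a, MemLp (F a) 2)
    (hG : ∀ p, MemLp (G p) 2) (hWD : ∀ j a, CWD j (Ψ a) (G (j, a)))
    (hWL : ∀ a, CWLap (Ψ a) (L a))
    (sΨ : ∀ a, ∀ᵐ y : E3, R < ‖y‖ → Ψ a y = 0) (sL : ∀ a, ∀ᵐ y : E3, R < ‖y‖ → L a y = 0)
    (sF : ∀ a, ∀ᵐ y : E3, R < ‖y‖ → F a y = 0) (sG : ∀ p, ∀ᵐ y : E3, R < ‖y‖ → G p y = 0)
    (hpt : ∀ᵐ x : E3, ∑ a, ‖L a x‖ ^ 2
        ≤ 3 * ∑ a, ‖F a x‖ ^ 2 + K * ((∑ p, ‖G p x‖ ^ 2) + ∑ a, ‖Ψ a x‖ ^ 2)) :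
    τ ^ 2 * WS (wt e τ s) Ψ + WS (wt e τ s) G ≤ (24 / s) * WS (wt e τ s) F := by
  have hw := wt_continuous e τ s
  have hs0 : 0 < s := by linarith
  have hcar : ∀ a, τ ^ 2 * (∫ x, wt e τ s x * ‖Ψ a x‖ ^ 2)
      + (∑ j, ∫ x, wt e τ s x * ‖G (j, a) x‖ ^ 2)
      ≤ (4 / s) * ∫ x, wt e τ s x * ‖L a x‖ ^ 2 := fun a =>
    carleman_weak_c (hΨ a) (fun j => hG (j, a)) (fun j => hWD j a) (hL a) (hWL a) (sΨ a)
      (fun j => sG (j, a)) (sL a) e he hs0 (by linarith) hsτ hRτ
  have hsum : τ ^ 2 * WS (wt e τ s) Ψ + WS (wt e τ s) G ≤ (4 / s) * WS (wt e τ s) L := by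
    have := Finset.sum_le_sum fun a (_ : a ∈ Finset.univ) => hcar a
    rw [Finset.sum_add_distrib, ← Finset.mul_sum, ← Finset.mul_sum] at this
    unfold WS
    rw [Fintype.sum_prod_type_right]
    exact this
  have hw0 : ∀ x, 0 ≤ wt e τ s x := fun x => (wt_pos e τ s x).le
  have hZle := WS_bound hw0 (fun a => w_int_c hw (hL a) (sL a)) (fun a => w_int_c hw (hF a) (sF a))
    (fun p => w_int_c hw (hG p) (sG p)) (fun a => w_int_c hw (hΨ a) (sΨ a)) hpt
  have hX0 := WS_nonneg hw0 Ψ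
  have hY0 := WS_nonneg hw0 G
  have hW0 := WS_nonneg hw0 F
  set X := WS (wt e τ s) Ψ
  set Y := WS (wt e τ s) G
  set Z := WS (wt e τ s) L
  set W := WS (wt e τ s) F
  have h1 : (4 / s) * Z ≤ (4 / s) * (3 * W + K * (Y + X)) := by gcongr
  have h2 : (4 / s) * (K * (Y + X)) ≤ (1 / 2) * (Y + X) := by
    have : (4 / s) * K ≤ 1 / 2 := by
      rw [div_mul_eq_mul_div, div_le_iff₀ hs0]
      linarith
    calc (4 / s) * (K * (Y + X)) = ((4 / s) * K) * (Y + X) := by ring
      _ ≤ (1 / 2) * (Y + X) := by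
          have : 0 ≤ Y + X := by linarith only [hY0, hX0]
          gcongr
  have h3 : (4 / s) * (3 * W + K * (Y + X)) = (12 / s) * W + (4 / s) * (K * (Y + X)) := by ring
  have h4 : X ≤ τ ^ 2 * X := by linarith only [mul_nonneg (sub_nonneg.2 hsτ) (sub_nonneg.2 hX0), mul_eq_zero_of_left (sub_eq_zero.2 hs) (X - (0)), mul_nonneg (sub_nonneg.2 hK) (sub_nonneg.2 hX0)]
  have h5 : (24 / s) * W = 2 * ((12 / s) * W) := by ring
  rw [h5]
  linarith

/-- **Carleman estimate for first order perturbations of the Laplacian system**, pointwise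
inequality form: it is enough that `|Δ Ψ|² ≤ 3|F|² + K(|∇Ψ|² + |Ψ|²)` in the summed sense. -/
theorem carSys_abs (K R : ℝ) (hK : 0 ≤ K) (hR : 0 ≤ R) :
    ∃ C τ₀ : ℝ, 0 < C ∧ 0 < τ₀ ∧ ∀ al : E3, τ₀ ≤ ‖al‖ → ∀ (Ψ L F : ι → E3 → ℂ)
      (G : Fin 3 × ι → E3 → ℂ),
      (∀ a, MemLp (Ψ a) 2) → (∀ a, MemLp (L a) 2) → (∀ a, MemLp (F a) 2) →
      (∀ p, MemLp (G p) 2) → (∀ j a, CWD j (Ψ a) (G (j, a))) → (∀ a, CWLap (Ψ a) (L a)) →
      (∀ a, ∀ᵐ y : E3, R < ‖y‖ → Ψ a y = 0) → (∀ a, ∀ᵐ y : E3, R < ‖y‖ → L a y = 0) →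
      (∀ a, ∀ᵐ y : E3, R < ‖y‖ → F a y = 0) → (∀ p, ∀ᵐ y : E3, R < ‖y‖ → G p y = 0) →
      (∀ᵐ x : E3, ∑ a, ‖L a x‖ ^ 2
        ≤ 3 * ∑ a, ‖F a x‖ ^ 2 + K * ((∑ p, ‖G p x‖ ^ 2) + ∑ a, ‖Ψ a x‖ ^ 2)) →
      ‖al‖ ^ 2 * WS (fun x => Real.exp (2 * ⟪al, x⟫_ℝ)) Ψ
        + WS (fun x => Real.exp (2 * ⟪al, x⟫_ℝ)) G
        ≤ C * WS (fun x => Real.exp (2 * ⟪al, x⟫_ℝ)) F := by
  obtain ⟨s, hs⟩ : ∃ s : ℝ, s = 8 * K + 1 := ⟨_, rfl⟩
  have hs0 : 0 < s := by linarith
  obtain ⟨τ₀, hτ₀⟩ : ∃ τ₀ : ℝ, τ₀ = s + 1 + 2 * s * (R + 1) := ⟨_, rfl⟩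
  have h2 : 0 ≤ 2 * s * (R + 1) := by positivity
  have hτ0pos : 0 < τ₀ := by linarith
  refine ⟨(24 / s) * Real.exp (s * R ^ 2), τ₀, by positivity, hτ0pos, ?_⟩
  intro al hal Ψ L F G hΨ hL hF hG hWD hWL sΨ sL sF sG hpt
  obtain ⟨τ, hτ⟩ : ∃ τ : ℝ, τ = ‖al‖ := ⟨_, rfl⟩
  rw [← hτ] at hal ⊢
  have hal0 : 0 < τ := lt_of_lt_of_le hτ0pos hal
  obtain ⟨e, he_def⟩ : ∃ e : E3, e = (τ⁻¹) • al := ⟨_, rfl⟩
  have he : ‖e‖ = 1 := by
    rw [he_def, norm_smul, norm_inv, Real.norm_eq_abs, abs_of_pos hal0, ← hτ]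
    field_simp
  have hale : τ • e = al := by
    rw [he_def, smul_smul, mul_inv_cancel₀ hal0.ne', one_smul]
  have h1τ : 1 ≤ τ := by linarith
  have hsτ : s ≤ τ ^ 2 := by
    have : s ≤ τ := by linarith
    (by_contra nlg; linarith only [nlg, mul_nonneg (sub_nonneg.2 this) (sub_nonneg.2 this), mul_nonneg (le_of_lt (sub_pos.2 hs0)) (sub_nonneg.2 this), mul_pos (sub_pos.2 (not_le.1 nlg)) (sub_pos.2 hal0), mul_nonneg (sq_nonneg (τ : ℝ)) (sub_nonneg.2 h1τ)])
  have hRτ : 2 * s * (R + 1) ≤ τ := by linarith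
  have hmain := carSys_wt hK e he hs h1τ hsτ hRτ hΨ hL hF hG hWD hWL sΨ sL sF sG hpt
  have c1 := WS_mono_lin e τ hs0 hΨ sΨ
  have c2 := WS_mono_lin e τ hs0 hG sG
  have c3 := WS_mono_wt e he τ hs0 hF sF
  rw [hale] at c1 c2 c3
  calc τ ^ 2 * WS (fun x => Real.exp (2 * ⟪al, x⟫_ℝ)) Ψ
        + WS (fun x => Real.exp (2 * ⟪al, x⟫_ℝ)) G
      ≤ τ ^ 2 * WS (wt e τ s) Ψ + WS (wt e τ s) G := by gcongr
    _ ≤ (24 / s) * WS (wt e τ s) F := hmain
    _ ≤ (24 / s) * (Real.exp (s * R ^ 2) * WS (fun x => Real.exp (2 * ⟪al, x⟫_ℝ)) F) := by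
        gcongr
    _ = _ := by ring

end system

end Vale.Agent.P136
end
end

section

section

open MeasureTheory Filter Topology
open scoped ContDiff InnerProductSpace ENNReal

namespace Vale.Agent.P136

/-! ### Calculus of weak derivatives -/

lemma test_memLp {φ : E3 → ℝ} (hφ : Continuous φ) (hc : HasCompactSupport φ) : MemLp φ 2 :=
  hφ.memLp_of_hasCompactSupport hc

lemma WD.add {i : Fin 3} {f g f' g' : E3 → ℝ} (hf : MemLp f 2) (hf' : MemLp f' 2)
    (hg : MemLp g 2) (hg' : MemLp g' 2) (h : WD i f g) (h' : WD i f' g') :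
    WD i (fun x => f x + f' x) (fun x => g x + g' x) := by
  intro φ h1 h2
  have hp : MemLp (pd i φ) 2 := test_memLp (pd_contDiff_infty h1 i).continuous
    (pd_hasCompactSupport h2 i)
  have hq : MemLp φ 2 := test_memLp h1.continuous h2
  have e1 : ∀ x, (f x + f' x) * pd i φ x = f x * pd i φ x + f' x * pd i φ x := by
    intro x; ring
  have e2 : ∀ x, (g x + g' x) * φ x = g x * φ x + g' x * φ x := by
    intro x; ring
  simp_rw [e1, e2]
  rw [integral_add (mul_int hf hp) (mul_int hf' hp), integral_add (mul_int hg hq) (mul_int hg' hq),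
    h φ h1 h2, h' φ h1 h2]
  ring

lemma WD.const_mul {i : Fin 3} {f g : E3 → ℝ} (c : ℝ) (h : WD i f g) :
    WD i (fun x => c * f x) (fun x => c * g x) := by
  intro φ h1 h2
  simp_rw [mul_assoc]
  rw [integral_const_mul, integral_const_mul, h φ h1 h2]
  ring

lemma WD.sub {i : Fin 3} {f g f' g' : E3 → ℝ} (hf : MemLp f 2) (hf' : MemLp f' 2)
    (hg : MemLp g 2) (hg' : MemLp g' 2) (h : WD i f g) (h' : WD i f' g') :
    WD i (fun x => f x - f' x) (fun x => g x - g' x) := by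
  have := WD.add hf (hf'.const_mul (-1)) hg (hg'.const_mul (-1)) h (WD.const_mul (-1) h')
  simpa [sub_eq_add_neg] using this

/-- product with a smooth function, compactly supported data. -/
lemma WD.smooth_mul {i : Fin 3} {f g a : E3 → ℝ} (hf : LocallyIntegrable f)
    (hg : LocallyIntegrable g) (ha : ContDiff ℝ ∞ a) (h : WD i f g) :
    WD i (fun x => a x * f x) (fun x => pd i a x * f x + a x * g x) := by
  intro φ h1 h2
  have h3 := h (fun x => a x * φ x) (ha.mul h1) (HasCompactSupport.mul_left h2)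
  have e1 : ∀ x, f x * pd i (fun y => a y * φ y) x
      = f x * (pd i a x * φ x) + f x * (a x * pd i φ x) := by
    intro x
    rw [pd_mul ((ha.differentiable (by simp)) x) ((h1.differentiable (by simp)) x)]
    ring
  simp_rw [e1] at h3
  have li : ∀ {u v : E3 → ℝ}, LocallyIntegrable u → Continuous v → HasCompactSupport v →
      Integrable (fun x => u x * v x) := by
    intro u v hu hv hvc
    have := hu.integrable_smul_left_of_hasCompactSupport hv hvc
    simpa [mul_comm] using this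
  have i1 : Integrable (fun x => f x * (pd i a x * φ x)) :=
    li hf ((pd_contDiff_infty ha i).continuous.mul h1.continuous) (HasCompactSupport.mul_left h2)
  have i2 : Integrable (fun x => f x * (a x * pd i φ x)) :=
    li hf (ha.continuous.mul (pd_contDiff_infty h1 i).continuous)
      (HasCompactSupport.mul_left (pd_hasCompactSupport h2 i))
  have i3 : Integrable (fun x => g x * (a x * φ x)) :=
    li hg (ha.continuous.mul h1.continuous) (HasCompactSupport.mul_left h2)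
  rw [integral_add i1 i2] at h3
  have e2 : ∫ x, a x * f x * pd i φ x = ∫ x, f x * (a x * pd i φ x) := by
    congr 1; funext x; ring
  have e3 : ∫ x, (pd i a x * f x + a x * g x) * φ x
      = (∫ x, f x * (pd i a x * φ x)) + ∫ x, g x * (a x * φ x) := by
    rw [← integral_add i1 i3]
    congr 1; funext x; ring
  rw [e2, e3]
  linarith

lemma WD.congr {i : Fin 3} {f g f' g' : E3 → ℝ} (hf : f =ᵐ[volume] f') (hg : g =ᵐ[volume] g')
    (h : WD i f g) : WD i f' g' := by
  intro φ h1 h2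
  have e1 : ∫ x, f' x * pd i φ x = ∫ x, f x * pd i φ x := by
    apply integral_congr_ae
    filter_upwards [hf] with x hx
    rw [hx]
  have e2 : ∫ x, g' x * φ x = ∫ x, g x * φ x := by
    apply integral_congr_ae
    filter_upwards [hg] with x hx
    rw [hx]
  rw [e1, e2, h φ h1 h2]

/-- bridging from complex integral identities against real test functions. -/
lemma CWD_of_integral {i : Fin 3} {f g : E3 → ℂ} (hf : LocallyIntegrable f)
    (hg : LocallyIntegrable g)
    (h : ∀ φ : E3 → ℝ, ContDiff ℝ ∞ φ → HasCompactSupport φ →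
      ∫ x, f x * ((pd i φ x : ℝ) : ℂ) = - ∫ x, g x * ((φ x : ℝ) : ℂ)) : CWD i f g := by
  have li : ∀ {u : E3 → ℂ} {v : E3 → ℝ}, LocallyIntegrable u → Continuous v →
      HasCompactSupport v → Integrable (fun x => u x * ((v x : ℝ) : ℂ)) := by
    intro u v hu hv hvc
    have := hu.integrable_smul_left_of_hasCompactSupport hv hvc
    simpa [mul_comm] using this
  constructor
  · intro φ h1 h2
    have h3 := congrArg Complex.re (h φ h1 h2)
    rw [Complex.neg_re] at h3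
    have i1 := li hf (pd_contDiff_infty h1 i).continuous (pd_hasCompactSupport h2 i)
    have i2 := li hg h1.continuous h2
    have e1 := integral_re i1
    have e2 := integral_re i2
    simp only [RCLike.re_to_complex] at e1 e2
    rw [← e1, ← e2] at h3
    simpa using h3
  · intro φ h1 h2
    have h3 := congrArg Complex.im (h φ h1 h2)
    rw [Complex.neg_im] at h3
    have i1 := li hf (pd_contDiff_infty h1 i).continuous (pd_hasCompactSupport h2 i)
    have i2 := li hg h1.continuous h2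
    have e1 := integral_im i1
    have e2 := integral_im i2
    simp only [RCLike.im_to_complex] at e1 e2
    rw [← e1, ← e2] at h3
    simpa using h3

end Vale.Agent.P136
end
end

section

section

open MeasureTheory Filter Topology
open scoped ContDiff InnerProductSpace ENNReal

namespace Vale.Agent.P136

/-- Hypotheses for the weak elasticity system `L_{λ,μ} v = F` on the whole space, real version. -/
structure RealCore (lam mu : E3 → ℝ) (R : ℝ) (v : Fin 3 → E3 → ℝ) (H : Fin 3 → Fin 3 → E3 → ℝ)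
    (F : Fin 3 → E3 → ℝ) : Prop where
  hv : ∀ i, MemLp (v i) 2
  hH : ∀ i j, MemLp (H i j) 2
  hF : ∀ i, MemLp (F i) 2
  wd : ∀ i j, WD j (v i) (H i j)
  sv : ∀ i, ∀ᵐ y : E3, R < ‖y‖ → v i y = 0
  eqn : ∀ k, ∀ η : E3 → ℝ, ContDiff ℝ ∞ η → HasCompactSupport η →
    (∫ x, lam x * (∑ i, H i i x) * pd k η x)
      + ∑ j, ∫ x, mu x * (H k j x + H j k x) * pd j η x = - ∫ x, F k x * η x

lemma li_test_int {u v : E3 → ℝ} (hu : LocallyIntegrable u) (hv : Continuous v)
    (hvc : HasCompactSupport v) : Integrable (fun x => u x * v x) := by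
  have := hu.integrable_smul_left_of_hasCompactSupport hv hvc
  simpa [mul_comm] using this

/-- `WD` with a product test function. -/
lemma WD.test_mul {i : Fin 3} {f g a φ : E3 → ℝ} (hf : LocallyIntegrable f)
    (ha : ContDiff ℝ ∞ a) (hφ : ContDiff ℝ ∞ φ) (hc : HasCompactSupport φ) (h : WD i f g) :
    (∫ x, f x * (pd i a x * φ x)) + (∫ x, f x * (a x * pd i φ x))
      = - ∫ x, g x * (a x * φ x) := by
  have h3 := h (fun x => a x * φ x) (ha.mul hφ) (HasCompactSupport.mul_left hc)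
  rw [← h3, ← integral_add]
  · congr 1
    funext x
    rw [pd_mul ((ha.differentiable (by simp)) x) ((hφ.differentiable (by simp)) x)]
    ring
  · exact li_test_int hf ((pd_contDiff_infty ha i).continuous.mul hφ.continuous)
      (HasCompactSupport.mul_left hc)
  · exact li_test_int hf (ha.continuous.mul (pd_contDiff_infty hφ i).continuous)
      (HasCompactSupport.mul_left (pd_hasCompactSupport hc i))

section

variable {lam mu : E3 → ℝ} {R : ℝ} {v : Fin 3 → E3 → ℝ} {H : Fin 3 → Fin 3 → E3 → ℝ}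
  {F : Fin 3 → E3 → ℝ} {f : E3 → ℝ}

lemma memLp_li {f : E3 → ℝ} (hf : MemLp f 2) : LocallyIntegrable f :=
  hf.locallyIntegrable (by norm_num)

/-- the key identity `∫ μ H_ij ∂_i∂_j η = ∫ μ H_ii ∂_j∂_j η + ∫ H_ii ∂_jμ ∂_jη - ∫ H_ij ∂_iμ ∂_jη`. -/
lemma hess_identity (hmu : ContDiff ℝ ∞ mu) {w : E3 → ℝ} {Wi Wj : E3 → ℝ} {i j : Fin 3}
    (hw : MemLp w 2) (hi : WD i w Wi) (hj : WD j w Wj)
    {η : E3 → ℝ} (hη : ContDiff ℝ ∞ η) (hc : HasCompactSupport η) :
    ∫ x, Wj x * (mu x * pd i (pd j η) x)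
      = (∫ x, Wi x * (mu x * pd j (pd j η) x)) + (∫ x, Wi x * (pd j mu x * pd j η x))
        - ∫ x, Wj x * (pd i mu x * pd j η x) := by
  have hl := memLp_li hw
  have pj := pd_contDiff_infty hη j
  have pjc := pd_hasCompactSupport hc j
  have pij := pd_contDiff_infty pj i
  have pijc := pd_hasCompactSupport pjc i
  have pjj := pd_contDiff_infty pj j
  have pjjc := pd_hasCompactSupport pjc j
  have mi := pd_contDiff_infty hmu i
  have mj := pd_contDiff_infty hmu j
  -- Wj against μ ∂i∂jη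
  have a1 := hj.test_mul hl hmu pij pijc
  -- Wi against μ ∂j∂jη
  have a2 := hi.test_mul hl hmu pjj pjjc
  -- Wi against ∂jμ ∂jη
  have a3 := hi.test_mul hl mj pj pjc
  -- Wj against ∂iμ ∂jη
  have a4 := hj.test_mul hl mi pj pjc
  have c1 : pd j (pd i (pd j η)) = pd i (pd j (pd j η)) := by
    rw [pd_comm (pj.of_le (by norm_cast))]
  have c2 : pd j (pd i mu) = pd i (pd j mu) := by
    rw [pd_comm (hmu.of_le (by norm_cast))]
  rw [c1] at a1
  rw [c2] at a4
  linarith

/-- the flux `Q_j = F_j + 2(p ∂_jμ - Σ_i H_ij ∂_iμ)`. -/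
noncomputable def Qf (mu : E3 → ℝ) (H : Fin 3 → Fin 3 → E3 → ℝ) (F : Fin 3 → E3 → ℝ)
    (j : Fin 3) (x : E3) : ℝ :=
  F j x + 2 * ((∑ i, H i i x) * pd j mu x - ∑ i, H i j x * pd i mu x)

/-- the variable `P = (λ + 2μ) div v`. -/
noncomputable def Pf (lam mu : E3 → ℝ) (H : Fin 3 → Fin 3 → E3 → ℝ) (x : E3) : ℝ :=
  (lam x + 2 * mu x) * ∑ i, H i i x

lemma RealCore.P_eq (hlam : ContDiff ℝ ∞ lam) (hmu : ContDiff ℝ ∞ mu)
    (D : RealCore lam mu R v H F) : WLapDiv (Pf lam mu H) (Qf mu H F) (fun _ => 0) := by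
  intro η hη hc
  have p1 : ∀ i, ContDiff ℝ ∞ (pd i η) := fun i => pd_contDiff_infty hη i
  have p1c : ∀ i, HasCompactSupport (pd i η) := fun i => pd_hasCompactSupport hc i
  have p2 : ∀ i j, ContDiff ℝ ∞ (pd i (pd j η)) := fun i j => pd_contDiff_infty (p1 j) i
  have p2c : ∀ i j, HasCompactSupport (pd i (pd j η)) := fun i j => pd_hasCompactSupport (p1c j) i
  have m1 : ∀ i, ContDiff ℝ ∞ (pd i mu) := fun i => pd_contDiff_infty hmu i
  have hHl : ∀ i j, LocallyIntegrable (H i j) := fun i j => memLp_li (D.hH i j)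
  have hFl : ∀ i, LocallyIntegrable (F i) := fun i => memLp_li (D.hF i)
  -- basic integrals
  have I1 : ∀ i j k l, Integrable (fun x => H i j x * (mu x * pd k (pd l η) x)) := fun i j k l =>
    li_test_int (hHl i j) (hmu.continuous.mul (p2 k l).continuous)
      (HasCompactSupport.mul_left (p2c k l))
  have I2 : ∀ i j k l, Integrable (fun x => H i j x * (lam x * pd k (pd l η) x)) := fun i j k l =>
    li_test_int (hHl i j) (hlam.continuous.mul (p2 k l).continuous)
      (HasCompactSupport.mul_left (p2c k l))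
  have I3 : ∀ i j k l, Integrable (fun x => H i j x * (pd k mu x * pd l η x)) := fun i j k l =>
    li_test_int (hHl i j) ((m1 k).continuous.mul (p1 l).continuous)
      (HasCompactSupport.mul_left (p1c l))
  have I4 : ∀ i l, Integrable (fun x => F i x * pd l η x) := fun i l =>
    li_test_int (hFl i) (p1 l).continuous (p1c l)
  -- the equations tested with ∂_k η
  have E : ∀ k, (∑ i, ∫ x, H i i x * (lam x * pd k (pd k η) x))
      + ∑ j, ((∫ x, H k j x * (mu x * pd j (pd k η) x)) + ∫ x, H j k x * (mu x * pd j (pd k η) x))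
      = - ∫ x, F k x * pd k η x := by
    intro k
    rw [← D.eqn k (pd k η) (p1 k) (p1c k)]
    congr 1
    · rw [← integral_finsetSum _ fun i _ => I2 i i k k]
      congr 1
      funext x
      rw [Finset.mul_sum, Finset.sum_mul]
      apply Finset.sum_congr rfl
      intro i _
      ring
    · apply Finset.sum_congr rfl
      intro j _
      rw [← integral_add (I1 k j j k) (I1 j k j k)]
      congr 1
      funext x
      ring
  have Esum := Finset.sum_congr (rfl : (Finset.univ : Finset (Fin 3)) = Finset.univ)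
    fun k _ => E k
  -- the identities
  have K : ∀ i j, ∫ x, H i j x * (mu x * pd i (pd j η) x)
      = (∫ x, H i i x * (mu x * pd j (pd j η) x)) + (∫ x, H i i x * (pd j mu x * pd j η x))
        - ∫ x, H i j x * (pd i mu x * pd j η x) := fun i j =>
    hess_identity hmu (D.hv i) (D.wd i i) (D.wd i j) hη hc
  have hcomm : ∀ i j, pd i (pd j η) = pd j (pd i η) := fun i j =>
    pd_comm (hη.of_le (by norm_cast)) i j
  -- left hand side
  have L : ∫ x, Pf lam mu H x * lap η x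
      = ∑ i, ∑ j, ((∫ x, H i i x * (lam x * pd j (pd j η) x))
        + 2 * ∫ x, H i i x * (mu x * pd j (pd j η) x)) := by
    have e1 : ∀ x, Pf lam mu H x * lap η x
        = ∑ i, ∑ j, (H i i x * (lam x * pd j (pd j η) x)
          + 2 * (H i i x * (mu x * pd j (pd j η) x))) := by
      intro x
      unfold Pf lap
      rw [mul_assoc, Finset.sum_mul, Finset.mul_sum]
      apply Finset.sum_congr rfl
      intro i _
      rw [Finset.mul_sum, Finset.mul_sum]
      apply Finset.sum_congr rfl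
      intro j _
      ring
    simp_rw [e1]
    have i5 : ∀ i j, Integrable (fun x => H i i x * (lam x * pd j (pd j η) x)
          + 2 * (H i i x * (mu x * pd j (pd j η) x))) := fun i j =>
      (I2 i i j j).add ((I1 i i j j).const_mul 2)
    rw [integral_finsetSum _ fun i _ => integrable_finsetSum _ fun j _ => i5 i j]
    apply Finset.sum_congr rfl
    intro i _
    rw [integral_finsetSum _ fun j _ => i5 i j]
    apply Finset.sum_congr rfl
    intro j _
    rw [integral_add (I2 i i j j) ((I1 i i j j).const_mul 2), integral_const_mul]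
  have Rr : ∀ j, ∫ x, Qf mu H F j x * pd j η x
      = (∫ x, F j x * pd j η x)
        + 2 * ((∑ i, ∫ x, H i i x * (pd j mu x * pd j η x))
          - ∑ i, ∫ x, H i j x * (pd i mu x * pd j η x)) := by
    intro j
    have J1 : Integrable (fun x => ∑ i, H i i x * (pd j mu x * pd j η x)) :=
      integrable_finsetSum _ fun i _ => I3 i i j j
    have J2 : Integrable (fun x => ∑ i, H i j x * (pd i mu x * pd j η x)) :=
      integrable_finsetSum _ fun i _ => I3 i j i j
    have J3 : Integrable (fun x => 2 * ((∑ i, H i i x * (pd j mu x * pd j η x))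
        - ∑ i, H i j x * (pd i mu x * pd j η x))) := (J1.sub J2).const_mul 2
    rw [← integral_finsetSum _ fun i _ => I3 i i j j, ← integral_finsetSum _ fun i _ => I3 i j i j,
      ← integral_sub J1 J2, ← integral_const_mul, ← integral_add (I4 j j) J3]
    congr 1
    funext x
    unfold Qf
    rw [add_mul, mul_assoc, sub_mul, Finset.sum_mul, Finset.sum_mul, Finset.sum_mul]
    congr 3
    · apply Finset.sum_congr rfl
      intro i _
      ring
    · apply Finset.sum_congr rfl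
      intro i _
      ring
  simp_rw [Rr]
  rw [L]
  simp only [Fin.sum_univ_three] at Esum ⊢
  have K00 := K 0 0
  have K01 := K 0 1
  have K02 := K 0 2
  have K10 := K 1 0
  have K11 := K 1 1
  have K12 := K 1 2
  have K20 := K 2 0
  have K21 := K 2 1
  have K22 := K 2 2
  simp only [hcomm 1 0, hcomm 2 0, hcomm 2 1] at Esum K10 K20 K21
  simp only [zero_mul, integral_zero, add_zero]
  linarith

lemma memLp_cont_mul {a f : E3 → ℝ} (ha : Continuous a) {R : ℝ} (hf : MemLp f 2)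
    (hs : ∀ᵐ y : E3, R < ‖y‖ → f y = 0) : MemLp (fun x => a x * f x) 2 := by
  obtain ⟨M, hM⟩ : ∃ M : ℝ, ∀ x ∈ Metric.closedBall (0 : E3) R, |a x| ≤ M := by
    obtain ⟨M, hM⟩ := (isCompact_closedBall (0 : E3) R).exists_bound_of_continuousOn
      ha.continuousOn
    exact ⟨M, fun x hx => hM x hx⟩
  refine MemLp.of_le_mul (c := M) hf (ha.aestronglyMeasurable.mul hf.1) ?_
  filter_upwards [hs] with x hx
  by_cases h : R < ‖x‖
  · simp [hx h]
  · rw [norm_mul]
    have := hM x (by simpa using not_lt.mp h)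
    gcongr
    exact this

lemma RealCore.sH (D : RealCore lam mu R v H F) (i j : Fin 3) :
    ∀ᵐ y : E3, R < ‖y‖ → H i j y = 0 :=
  WD_zero_outside (memLp_li (D.hH i j)) (D.wd i j) (D.sv i)

lemma RealCore.sF (D : RealCore lam mu R v H F) (k : Fin 3) :
    ∀ᵐ y : E3, R < ‖y‖ → F k y = 0 := by
  apply ae_zero_outside (memLp_li (D.hF k))
  intro φ h1 h2 h3
  have h4 := D.eqn k φ h1 h2
  have hz : ∀ {g : E3 → ℝ} (j : Fin 3), (∀ᵐ y : E3, R < ‖y‖ → g y = 0) →
      ∫ x, g x * pd j φ x = 0 := by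
    intro g j hg
    apply integral_eq_zero_of_ae
    filter_upwards [hg] with y hy
    by_cases hR : R < ‖y‖
    · simp [hy hR]
    · have : pd j φ y = 0 := by
        by_contra hne
        exact hR (h3 (tsupport_pd_subset φ j (subset_tsupport _ hne)))
      simp [this]
  have h5 : ∫ x, lam x * (∑ i, H i i x) * pd k φ x = 0 := by
    apply hz
    filter_upwards [D.sH 0 0, D.sH 1 1, D.sH 2 2] with y a0 a1 a2 hR
    simp [Fin.sum_univ_three, a0 hR, a1 hR, a2 hR]
  have h6 : ∀ j, ∫ x, mu x * (H k j x + H j k x) * pd j φ x = 0 := by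
    intro j
    apply hz
    filter_upwards [D.sH k j, D.sH j k] with y a0 a1 hR
    simp [a0 hR, a1 hR]
  rw [h5, Finset.sum_eq_zero fun j _ => h6 j] at h4
  linarith

lemma RealCore.trMem (D : RealCore lam mu R v H F) : MemLp (fun x => ∑ i, H i i x) 2 :=
  memLp_finsetSum _ fun i _ => D.hH i i

lemma RealCore.trS (D : RealCore lam mu R v H F) :
    ∀ᵐ y : E3, R < ‖y‖ → (∑ i, H i i y) = 0 := by
  filter_upwards [D.sH 0 0, D.sH 1 1, D.sH 2 2] with y a0 a1 a2 hR
  simp [Fin.sum_univ_three, a0 hR, a1 hR, a2 hR]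

lemma RealCore.PMem (hlam : ContDiff ℝ ∞ lam) (hmu : ContDiff ℝ ∞ mu)
    (D : RealCore lam mu R v H F) : MemLp (Pf lam mu H) 2 :=
  memLp_cont_mul (hlam.continuous.add (continuous_const.mul hmu.continuous)) D.trMem D.trS

lemma RealCore.PS (D : RealCore lam mu R v H F) :
    ∀ᵐ y : E3, R < ‖y‖ → Pf lam mu H y = 0 := by
  filter_upwards [D.trS] with y h hR
  simp [Pf, h hR]

lemma RealCore.QMem (hmu : ContDiff ℝ ∞ mu) (D : RealCore lam mu R v H F) (j : Fin 3) :
    MemLp (Qf mu H F j) 2 := by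
  have h1 : MemLp (fun x => pd j mu x * ∑ i, H i i x) 2 :=
    memLp_cont_mul (pd_contDiff_infty hmu j).continuous D.trMem D.trS
  have h2 : ∀ i, MemLp (fun x => pd i mu x * H i j x) 2 := fun i =>
    memLp_cont_mul (pd_contDiff_infty hmu i).continuous (D.hH i j) (D.sH i j)
  have h3 : MemLp (fun x => ∑ i, pd i mu x * H i j x) 2 := memLp_finsetSum _ fun i _ => h2 i
  have h4 : MemLp (fun x => F j x + 2 * ((pd j mu x * ∑ i, H i i x)
      - (∑ i, pd i mu x * H i j x))) 2 :=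
    (D.hF j).add ((h1.sub h3).const_mul 2)
  have h5 : Qf mu H F j = fun x => F j x + 2 * ((pd j mu x * ∑ i, H i i x)
      - (∑ i, pd i mu x * H i j x)) := by
    funext x
    unfold Qf
    have e1 : ∑ i, H i j x * pd i mu x = ∑ i, pd i mu x * H i j x :=
      Finset.sum_congr rfl fun i _ => mul_comm _ _
    rw [e1, mul_comm (∑ i, H i i x)]
  rw [h5]
  exact h4

end

end Vale.Agent.P136
end
end

section

section

open MeasureTheory Filter Topology
open scoped ContDiff InnerProductSpace ENNReal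

namespace Vale.Agent.P136

lemma i_add {f g : E3 → ℝ} (hf : Integrable f) (hg : Integrable g) :
    Integrable (fun x => f x + g x) := hf.add hg

lemma i_sub {f g : E3 → ℝ} (hf : Integrable f) (hg : Integrable g) :
    Integrable (fun x => f x - g x) := hf.sub hg

section

variable {lam mu : E3 → ℝ} {R : ℝ} {v : Fin 3 → E3 → ℝ} {H : Fin 3 → Fin 3 → E3 → ℝ}
  {F : Fin 3 → E3 → ℝ} {f : E3 → ℝ}

/-- `c = 1/(λ+2μ)`. -/
noncomputable def cf (lam mu : E3 → ℝ) (x : E3) : ℝ := (lam x + 2 * mu x)⁻¹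

lemma cf_contDiff (hlam : ContDiff ℝ ∞ lam) (hmu : ContDiff ℝ ∞ mu)
    (hnu : ∀ x, 0 < lam x + 2 * mu x) : ContDiff ℝ ∞ (cf lam mu) :=
  (hlam.add (contDiff_const.mul hmu)).inv fun x => (hnu x).ne'

/-- the weak gradient of `p = div v`. -/
noncomputable def dpf (lam mu : E3 → ℝ) (H : Fin 3 → Fin 3 → E3 → ℝ) (DP : Fin 3 → E3 → ℝ)
    (k : Fin 3) (x : E3) : ℝ :=
  pd k (cf lam mu) x * Pf lam mu H x + cf lam mu x * DP k x

lemma cf_mul_Pf (hnu : ∀ x, 0 < lam x + 2 * mu x) (x : E3) :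
    cf lam mu x * Pf lam mu H x = ∑ i, H i i x := by
  unfold cf Pf
  have := (hnu x).ne'
  field_simp

lemma RealCore.exists_DP (hlam : ContDiff ℝ ∞ lam) (hmu : ContDiff ℝ ∞ mu)
    (D : RealCore lam mu R v H F) :
    ∃ DP : Fin 3 → E3 → ℝ, ∀ k, MemLp (DP k) 2 ∧ WD k (Pf lam mu H) (DP k) := by
  obtain ⟨G, hG⟩ := exists_weak_grad (D.PMem hlam hmu) D.PS (fun i => D.QMem hmu i)
    (MemLp.zero' : MemLp (fun _ : E3 => (0 : ℝ)) 2 volume) (D.P_eq hlam hmu)
  exact ⟨G, fun k => ⟨(hG k).1, (hG k).2.1⟩⟩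

lemma RealCore.wd_p (hlam : ContDiff ℝ ∞ lam) (hmu : ContDiff ℝ ∞ mu)
    (hnu : ∀ x, 0 < lam x + 2 * mu x) (D : RealCore lam mu R v H F) {DP : Fin 3 → E3 → ℝ}
    {k : Fin 3} (hm : MemLp (DP k) 2) (hDP : WD k (Pf lam mu H) (DP k)) :
    WD k (fun x => ∑ i, H i i x) (dpf lam mu H DP k) := by
  have h1 := WD.smooth_mul (memLp_li (D.PMem hlam hmu)) (memLp_li hm)
    (cf_contDiff hlam hmu hnu) hDP
  have e1 : (fun x => cf lam mu x * Pf lam mu H x) = fun x => ∑ i, H i i x := by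
    funext x
    exact cf_mul_Pf hnu x
  rw [e1] at h1
  exact h1

lemma RealCore.dpMem (hlam : ContDiff ℝ ∞ lam) (hmu : ContDiff ℝ ∞ mu)
    (hnu : ∀ x, 0 < lam x + 2 * mu x) (D : RealCore lam mu R v H F) {DP : Fin 3 → E3 → ℝ}
    {k : Fin 3} (hm : MemLp (DP k) 2) (hDP : WD k (Pf lam mu H) (DP k)) :
    MemLp (dpf lam mu H DP k) 2 := by
  have hc := cf_contDiff hlam hmu hnu
  have s : ∀ᵐ y : E3, R < ‖y‖ → DP k y = 0 := WD_zero_outside (memLp_li hm) hDP D.PS
  exact (memLp_cont_mul (pd_contDiff_infty hc k).continuous (D.PMem hlam hmu) D.PS).add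
    (memLp_cont_mul hc.continuous hm s)

/-- `ρ = 1/μ`. -/
noncomputable def rf (mu : E3 → ℝ) (x : E3) : ℝ := (mu x)⁻¹

lemma rf_contDiff (hmu : ContDiff ℝ ∞ mu) (hmu0 : ∀ x, 0 < mu x) : ContDiff ℝ ∞ (rf mu) :=
  hmu.inv fun x => (hmu0 x).ne'

/-- The right hand side of `Δ v_k = L_k`. -/
noncomputable def Lk (lam mu : E3 → ℝ) (H : Fin 3 → Fin 3 → E3 → ℝ) (F : Fin 3 → E3 → ℝ)
    (dp : Fin 3 → E3 → ℝ) (k : Fin 3) (x : E3) : ℝ :=
  rf mu x * F k x - (rf mu x * lam x) * dp k x - (rf mu x * pd k lam x) * (∑ i, H i i x) - dp k x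
    + ∑ j, (mu x * pd j (rf mu) x) * (H k j x + H j k x)

lemma RealCore.lap_v (hlam : ContDiff ℝ ∞ lam) (hmu : ContDiff ℝ ∞ mu) (hmu0 : ∀ x, 0 < mu x)
    (D : RealCore lam mu R v H F) {dp : Fin 3 → E3 → ℝ}
    (hdm : ∀ k, MemLp (dp k) 2) (hdp : ∀ k, WD k (fun x => ∑ i, H i i x) (dp k)) (k : Fin 3) :
    WLap (v k) (Lk lam mu H F dp k) := by
  intro η hη hc
  have hr := rf_contDiff hmu hmu0
  have hH : ∀ i j, LocallyIntegrable (H i j) := fun i j => memLp_li (D.hH i j)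
  have hF : ∀ i, LocallyIntegrable (F i) := fun i => memLp_li (D.hF i)
  have hp : LocallyIntegrable (fun x => ∑ i, H i i x) := memLp_li D.trMem
  have hd : ∀ k, LocallyIntegrable (dp k) := fun k => memLp_li (hdm k)
  have p1 : ∀ i, ContDiff ℝ ∞ (pd i η) := fun i => pd_contDiff_infty hη i
  have p1c : ∀ i, HasCompactSupport (pd i η) := fun i => pd_hasCompactSupport hc i
  have rη : ContDiff ℝ ∞ (fun x => rf mu x * η x) := hr.mul hη
  have rηc : HasCompactSupport (fun x => rf mu x * η x) := HasCompactSupport.mul_left hc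
  have q1 : ∀ i, ContDiff ℝ ∞ (pd i (rf mu)) := fun i => pd_contDiff_infty hr i
  -- the equation with test function ρ η
  have E := D.eqn k _ rη rηc
  -- first term
  have T1 : ∫ x, lam x * (∑ i, H i i x) * pd k (fun x => rf mu x * η x) x
      = - ((∫ x, (rf mu x * lam x) * dp k x * η x)
        + ∫ x, (rf mu x * pd k lam x) * (∑ i, H i i x) * η x) := by
    have h1 := WD.smooth_mul hp (hd k) hlam (hdp k) _ rη rηc
    rw [h1]
    have j1 : Integrable (fun x => (∑ i, H i i x) * (pd k lam x * (rf mu x * η x))) :=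
      li_test_int hp ((pd_contDiff_infty hlam k).continuous.mul rη.continuous)
        (HasCompactSupport.mul_left rηc)
    have j2 : Integrable (fun x => dp k x * (lam x * (rf mu x * η x))) :=
      li_test_int (hd k) (hlam.continuous.mul rη.continuous) (HasCompactSupport.mul_left rηc)
    have e1 : ∫ x, (rf mu x * lam x) * dp k x * η x
        = ∫ x, dp k x * (lam x * (rf mu x * η x)) := by
      congr 1; funext x; ring
    have e2 : ∫ x, (rf mu x * pd k lam x) * (∑ i, H i i x) * η x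
        = ∫ x, (∑ i, H i i x) * (pd k lam x * (rf mu x * η x)) := by
      congr 1; funext x; ring
    rw [e1, e2, add_comm, ← integral_add j1 j2]
    congr 2; funext x; ring
  -- second term
  have T2 : ∀ j, ∫ x, mu x * (H k j x + H j k x) * pd j (fun x => rf mu x * η x) x
      = (∫ x, H k j x * pd j η x) + (∫ x, H j k x * pd j η x)
        + ∫ x, (mu x * pd j (rf mu) x) * (H k j x + H j k x) * η x := by
    intro j
    have i1 : Integrable (fun x => H k j x * pd j η x) :=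
      li_test_int (hH k j) (p1 j).continuous (p1c j)
    have i2 : Integrable (fun x => H j k x * pd j η x) :=
      li_test_int (hH j k) (p1 j).continuous (p1c j)
    have i3 : Integrable (fun x => (H k j x + H j k x) * (mu x * pd j (rf mu) x * η x)) :=
      li_test_int ((hH k j).add (hH j k))
        ((hmu.continuous.mul (q1 j).continuous).mul hη.continuous) (HasCompactSupport.mul_left hc)
    have e3 : ∫ x, (mu x * pd j (rf mu) x) * (H k j x + H j k x) * η x
        = ∫ x, (H k j x + H j k x) * (mu x * pd j (rf mu) x * η x) := by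
      congr 1; funext x; ring
    rw [e3, ← integral_add i1 i2, ← integral_add (i_add i1 i2) i3]
    congr 1; funext x
    have hx : mu x * rf mu x = 1 := by
      unfold rf
      exact mul_inv_cancel₀ (hmu0 x).ne'
    rw [pd_mul ((hr.differentiable (by simp)) x) ((hη.differentiable (by simp)) x)]
    linear_combination (H k j x + H j k x) * pd j η x * hx
  rw [T1, Finset.sum_congr rfl fun j _ => T2 j, Finset.sum_add_distrib,
    Finset.sum_add_distrib] at E
  -- third: Laplacian of v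
  have hv : LocallyIntegrable (v k) := memLp_li (D.hv k)
  have A1 : ∑ j, ∫ x, H k j x * pd j η x = - ∫ x, v k x * lap η x := by
    have h1 : ∀ j, ∫ x, H k j x * pd j η x = - ∫ x, v k x * pd j (pd j η) x := by
      intro j
      have := D.wd k j (pd j η) (p1 j) (p1c j)
      linarith
    rw [Finset.sum_congr rfl fun j _ => h1 j, Finset.sum_neg_distrib, ← integral_finsetSum]
    · congr 2; funext x
      unfold lap
      rw [Finset.mul_sum]
    · intro j _
      exact li_test_int hv (pd_contDiff_infty (p1 j) j).continuous (pd_hasCompactSupport (p1c j) j)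
  -- fourth
  have A2 : ∑ j, ∫ x, H j k x * pd j η x = - ∫ x, dp k x * η x := by
    rw [← hdp k η hη hc]
    have h1 : ∀ j, ∫ x, H j k x * pd j η x = ∫ x, H j j x * pd k η x := by
      intro j
      have a1 := D.wd j k (pd j η) (p1 j) (p1c j)
      have a2 := D.wd j j (pd k η) (p1 k) (p1c k)
      rw [pd_comm (hη.of_le (by norm_cast)) k j] at a1
      linarith
    rw [Finset.sum_congr rfl fun j _ => h1 j, ← integral_finsetSum]
    · congr 1; funext x
      rw [Finset.sum_mul]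
    · intro j _
      exact li_test_int (hH j j) (p1 k).continuous (p1c k)
  rw [A1, A2] at E
  -- assemble
  have k1 : Integrable (fun x => F k x * (rf mu x * η x)) :=
    li_test_int (hF k) rη.continuous rηc
  have k2 : Integrable (fun x => (rf mu x * lam x) * dp k x * η x) := by
    have : Integrable (fun x => dp k x * ((rf mu x * lam x) * η x)) :=
      li_test_int (hd k) ((hr.continuous.mul hlam.continuous).mul hη.continuous)
        (HasCompactSupport.mul_left hc)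
    refine this.congr (Eventually.of_forall fun x => ?_)
    simp only; ring
  have k3 : Integrable (fun x => (rf mu x * pd k lam x) * (∑ i, H i i x) * η x) := by
    have : Integrable (fun x => (∑ i, H i i x) * ((rf mu x * pd k lam x) * η x)) :=
      li_test_int hp ((hr.continuous.mul (pd_contDiff_infty hlam k).continuous).mul
        hη.continuous) (HasCompactSupport.mul_left hc)
    refine this.congr (Eventually.of_forall fun x => ?_)
    simp only; ring
  have k4 : Integrable (fun x => dp k x * η x) := li_test_int (hd k) hη.continuous hc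
  have k5 : ∀ j, Integrable (fun x => (mu x * pd j (rf mu) x) * (H k j x + H j k x) * η x) := by
    intro j
    have : Integrable (fun x => (H k j x + H j k x) * (mu x * pd j (rf mu) x * η x)) :=
      li_test_int ((hH k j).add (hH j k))
        ((hmu.continuous.mul (q1 j).continuous).mul hη.continuous) (HasCompactSupport.mul_left hc)
    refine this.congr (Eventually.of_forall fun x => ?_)
    simp only; ring
  have k6 : Integrable (fun x => ∑ j, (mu x * pd j (rf mu) x) * (H k j x + H j k x) * η x) :=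
    integrable_finsetSum _ fun j _ => k5 j
  have fin : ∫ x, Lk lam mu H F dp k x * η x
      = (∫ x, F k x * (rf mu x * η x)) - (∫ x, (rf mu x * lam x) * dp k x * η x)
        - (∫ x, (rf mu x * pd k lam x) * (∑ i, H i i x) * η x) - (∫ x, dp k x * η x)
        + ∑ j, ∫ x, (mu x * pd j (rf mu) x) * (H k j x + H j k x) * η x := by
    rw [← integral_finsetSum _ fun j _ => k5 j, ← integral_sub k1 k2, ← integral_sub (i_sub k1 k2) k3,
      ← integral_sub (i_sub (i_sub k1 k2) k3) k4,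
      ← integral_add (i_sub (i_sub (i_sub k1 k2) k3) k4) k6]
    congr 1; funext x
    unfold Lk
    rw [add_mul, sub_mul, sub_mul, sub_mul, Finset.sum_mul]
    ring
  rw [fin]
  have e5 : ∫ x, F k x * (rf mu x * η x) = ∫ x, F k x * (fun x => rf mu x * η x) x := rfl
  rw [e5]
  linarith

/-- The right hand side of `Δ P = L_P`. -/
noncomputable def LP (mu : E3 → ℝ) (H : Fin 3 → Fin 3 → E3 → ℝ) (f : E3 → ℝ)
    (dp L : Fin 3 → E3 → ℝ) (x : E3) : ℝ :=
  f x + 2 * ∑ j, (pd j mu x * dp j x + pd j (pd j mu) x * ∑ i, H i i x)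
    - 2 * ∑ i, pd i mu x * L i x - 2 * ∑ i, ∑ j, pd j (pd i mu) x * H i j x

end

end Vale.Agent.P136
end
end

section

section

open MeasureTheory Filter Topology
open scoped ContDiff InnerProductSpace ENNReal

namespace Vale.Agent.P136

lemma bdd_fam {κ : Type*} [Fintype κ] (g : κ → E3 → ℝ) (hg : ∀ k, Continuous (g k)) (R : ℝ) :
    ∃ M : ℝ, 1 ≤ M ∧ ∀ x : E3, ‖x‖ ≤ R → ∀ k, |g k x| ≤ M := by
  have hc : Continuous (fun x => fun k => g k x) := continuous_pi hg
  obtain ⟨M, hM⟩ := (isCompact_closedBall (0 : E3) R).exists_bound_of_continuousOn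
    hc.continuousOn
  refine ⟨max 1 M, le_max_left _ _, fun x hx k => ?_⟩
  have h1 := hM x (by simpa using hx)
  have h2 := norm_le_pi_norm (fun k => g k x) k
  exact (h2.trans h1).trans (le_max_right _ _)

lemma abs_mul_le' {a b A B : ℝ} (ha : |a| ≤ A) (hb : |b| ≤ B) : |a * b| ≤ A * B := by
  rw [abs_mul]
  exact mul_le_mul ha hb (abs_nonneg _) ((abs_nonneg _).trans ha)

section

variable {lam mu : E3 → ℝ} {R : ℝ} {v : Fin 3 → E3 → ℝ} {H : Fin 3 → Fin 3 → E3 → ℝ}
  {F : Fin 3 → E3 → ℝ} {f : E3 → ℝ}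

/-- bounds for all the coefficients on the ball. -/
structure CoefBd (lam mu : E3 → ℝ) (x : E3) (M : ℝ) : Prop where
  one : 1 ≤ M
  c : |cf lam mu x| ≤ M
  dc : ∀ k, |pd k (cf lam mu) x| ≤ M
  r : |rf mu x| ≤ M
  rl : |rf mu x * lam x| ≤ M
  rdl : ∀ k, |rf mu x * pd k lam x| ≤ M
  mdr : ∀ k, |mu x * pd k (rf mu) x| ≤ M
  dm : ∀ k, |pd k mu x| ≤ M
  ddm : ∀ k l, |pd k (pd l mu) x| ≤ M

lemma exists_coefBd (hlam : ContDiff ℝ ∞ lam) (hmu : ContDiff ℝ ∞ mu) (hmu0 : ∀ x, 0 < mu x)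
    (hnu : ∀ x, 0 < lam x + 2 * mu x) (R : ℝ) :
    ∃ M : ℝ, 1 ≤ M ∧ ∀ x : E3, ‖x‖ ≤ R → CoefBd lam mu x M := by
  have hc := cf_contDiff hlam hmu hnu
  have hr := rf_contDiff hmu hmu0
  obtain ⟨M1, a1, b1⟩ := bdd_fam (fun _ : Unit => cf lam mu) (fun _ => hc.continuous) R
  obtain ⟨M2, a2, b2⟩ := bdd_fam (fun k : Fin 3 => pd k (cf lam mu))
    (fun k => (pd_contDiff_infty hc k).continuous) R
  obtain ⟨M3, a3, b3⟩ := bdd_fam (fun _ : Unit => rf mu) (fun _ => hr.continuous) R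
  obtain ⟨M4, a4, b4⟩ := bdd_fam (fun _ : Unit => fun x => rf mu x * lam x)
    (fun _ => hr.continuous.mul hlam.continuous) R
  obtain ⟨M5, a5, b5⟩ := bdd_fam (fun k : Fin 3 => fun x => rf mu x * pd k lam x)
    (fun k => hr.continuous.mul (pd_contDiff_infty hlam k).continuous) R
  obtain ⟨M6, a6, b6⟩ := bdd_fam (fun k : Fin 3 => fun x => mu x * pd k (rf mu) x)
    (fun k => hmu.continuous.mul (pd_contDiff_infty hr k).continuous) R
  obtain ⟨M7, a7, b7⟩ := bdd_fam (fun k : Fin 3 => pd k mu)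
    (fun k => (pd_contDiff_infty hmu k).continuous) R
  obtain ⟨M8, a8, b8⟩ := bdd_fam (fun p : Fin 3 × Fin 3 => pd p.1 (pd p.2 mu))
    (fun p => (pd_contDiff_infty (pd_contDiff_infty hmu p.2) p.1).continuous) R
  refine ⟨M1 + M2 + M3 + M4 + M5 + M6 + M7 + M8, by linarith, fun x hx => ?_⟩
  refine ⟨by linarith, ?_, ?_, ?_, ?_, ?_, ?_, ?_, ?_⟩
  · have := b1 x hx (); linarith
  · intro k; have := b2 x hx k; linarith
  · have := b3 x hx (); linarith
  · have := b4 x hx (); linarith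
  · intro k; have := b5 x hx k; linarith
  · intro k; have := b6 x hx k; linarith
  · intro k; have := b7 x hx k; linarith
  · intro k l; have := b8 x hx (k, l); simp only at this; linarith

lemma dpf_le {x : E3} {M : ℝ} (B : CoefBd lam mu x M) {DP : Fin 3 → E3 → ℝ} {σ : ℝ}
    (hP : |Pf lam mu H x| ≤ σ) (hD : ∀ k, |DP k x| ≤ σ) (k : Fin 3) :
    |dpf lam mu H DP k x| ≤ 2 * M * σ := by
  have h1 := abs_mul_le' (B.dc k) hP
  have h2 := abs_mul_le' B.c (hD k)
  unfold dpf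
  have := abs_add_le (pd k (cf lam mu) x * Pf lam mu H x) (cf lam mu x * DP k x)
  linarith

lemma Lk_le {x : E3} {M : ℝ} (B : CoefBd lam mu x M) {dp : Fin 3 → E3 → ℝ} {σ : ℝ} (hσ : 0 ≤ σ)
    (hp : |∑ i, H i i x| ≤ M * σ) (hd : ∀ k, |dp k x| ≤ 2 * M * σ) (hF : ∀ k, |F k x| ≤ σ)
    (hH : ∀ i j, |H i j x| ≤ σ) (k : Fin 3) : |Lk lam mu H F dp k x| ≤ 12 * M ^ 2 * σ := by
  have hM := B.one
  have t1 := abs_mul_le' B.r (hF k)
  have t2 := abs_mul_le' B.rl (hd k)
  have t3 := abs_mul_le' (B.rdl k) hp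
  have t4 := hd k
  have t5 : ∀ j, |(mu x * pd j (rf mu) x) * (H k j x + H j k x)| ≤ M * (2 * σ) := by
    intro j
    apply abs_mul_le' (B.mdr j)
    have := abs_add_le (H k j x) (H j k x)
    have := hH k j
    have := hH j k
    linarith
  have t50 := t5 0
  have t51 := t5 1
  have t52 := t5 2
  have key : M * σ + M * (2 * M * σ) + M * (M * σ) + 2 * M * σ + 3 * (M * (2 * σ))
      ≤ 12 * M ^ 2 * σ := by
    have h1 : M * σ ≤ M ^ 2 * σ := by
      have : M ≤ M ^ 2 := by (by_contra nlg; linarith only [nlg, mul_pos (sub_pos.2 (not_le.1 nlg)) (sub_pos.2 (not_le.1 nlg)), mul_nonneg (sq_nonneg (M : ℝ)) (sub_nonneg.2 hM), mul_nonneg (sq_nonneg (M : ℝ)) (le_of_lt (sub_pos.2 (not_le.1 nlg)))])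
      gcongr
    linarith only [h1]
  unfold Lk
  rw [Fin.sum_univ_three (f := fun j => (mu x * pd j (rf mu) x) * (H k j x + H j k x))]
  rw [abs_le] at t1 t2 t3 t4 t50 t51 t52 ⊢
  constructor <;> linarith [t1.1, t1.2, t2.1, t2.2, t3.1, t3.2, t4.1, t4.2, t50.1, t50.2,
    t51.1, t51.2, t52.1, t52.2]

lemma LP_le {x : E3} {M : ℝ} (B : CoefBd lam mu x M) {dp L : Fin 3 → E3 → ℝ} {σ : ℝ} (hσ : 0 ≤ σ)
    (hp : |∑ i, H i i x| ≤ M * σ) (hd : ∀ k, |dp k x| ≤ 2 * M * σ) (hf : |f x| ≤ σ)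
    (hH : ∀ i j, |H i j x| ≤ σ) (hL : ∀ k, |L k x| ≤ 12 * M ^ 2 * σ) :
    |LP mu H f dp L x| ≤ 109 * M ^ 3 * σ := by
  have hM := B.one
  have t1 : ∀ j, |pd j mu x * dp j x + pd j (pd j mu) x * ∑ i, H i i x|
      ≤ M * (2 * M * σ) + M * (M * σ) := fun j =>
    (abs_add_le _ _).trans (add_le_add (abs_mul_le' (B.dm j) (hd j)) (abs_mul_le' (B.ddm j j) hp))
  have t2 : ∀ i, |pd i mu x * L i x| ≤ M * (12 * M ^ 2 * σ) := fun i =>
    abs_mul_le' (B.dm i) (hL i)
  have t3 : ∀ i j, |pd j (pd i mu) x * H i j x| ≤ M * σ := fun i j =>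
    abs_mul_le' (B.ddm j i) (hH i j)
  have s1 : |∑ j, (pd j mu x * dp j x + pd j (pd j mu) x * ∑ i, H i i x)|
      ≤ 3 * (M * (2 * M * σ) + M * (M * σ)) := by
    refine (Finset.abs_sum_le_sum_abs _ _).trans ?_
    refine (Finset.sum_le_sum fun j _ => t1 j).trans ?_
    simp only [Finset.sum_const, Finset.card_univ, Fintype.card_fin, nsmul_eq_mul]
    norm_num
  have s2 : |∑ i, pd i mu x * L i x| ≤ 3 * (M * (12 * M ^ 2 * σ)) := by
    refine (Finset.abs_sum_le_sum_abs _ _).trans ?_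
    refine (Finset.sum_le_sum fun j _ => t2 j).trans ?_
    simp
  have s3 : |∑ i, ∑ j, pd j (pd i mu) x * H i j x| ≤ 9 * (M * σ) := by
    refine (Finset.abs_sum_le_sum_abs _ _).trans ?_
    have : ∀ i ∈ (Finset.univ : Finset (Fin 3)), |∑ j, pd j (pd i mu) x * H i j x|
        ≤ 3 * (M * σ) := by
      intro i _
      refine (Finset.abs_sum_le_sum_abs _ _).trans ?_
      refine (Finset.sum_le_sum fun j _ => t3 i j).trans ?_
      simp
    refine (Finset.sum_le_sum this).trans ?_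
    simp only [Finset.sum_const, Finset.card_univ, Fintype.card_fin, nsmul_eq_mul]
    norm_num
    linarith
  have key : σ + 2 * (3 * (M * (2 * M * σ) + M * (M * σ))) + 2 * (3 * (M * (12 * M ^ 2 * σ)))
      + 2 * (9 * (M * σ)) ≤ 109 * M ^ 3 * σ := by
    have h0 : M ≤ M ^ 2 := by (by_contra nlg; linarith only [nlg, mul_pos (sub_pos.2 (not_le.1 nlg)) (sub_pos.2 (not_le.1 nlg)), mul_nonneg (sq_nonneg (M : ℝ)) (sub_nonneg.2 hM), mul_nonneg (sq_nonneg (M : ℝ)) (le_of_lt (sub_pos.2 (not_le.1 nlg)))])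
    have h00 : M ^ 2 ≤ M ^ 3 := by linarith only [mul_nonneg (sub_nonneg.2 hM) (sq_nonneg M)]
    have h1 : M * σ ≤ M ^ 3 * σ := by
      have : M ≤ M ^ 3 := by linarith
      gcongr
    have h2 : M ^ 2 * σ ≤ M ^ 3 * σ := by gcongr
    have h3 : σ ≤ M ^ 3 * σ := by
      have : 1 ≤ M ^ 3 := by linarith
      linarith only [mul_nonneg (sub_nonneg.2 hσ) (sub_nonneg.2 this)]
    linarith only [h3, h2, h1]
  unfold LP
  rw [abs_le] at s1 s2 s3 hf ⊢
  constructor <;> linarith [s1.1, s1.2, s2.1, s2.2, s3.1, s3.2, hf.1, hf.2]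

/-- weighted square integral, real functions. -/
noncomputable def wI (al : E3) (u : E3 → ℝ) : ℝ := ∫ x, Real.exp (2 * ⟪al, x⟫_ℝ) * (u x) ^ 2

/-- weighted square integral, complex functions. -/
noncomputable def wIc (al : E3) (u : E3 → ℂ) : ℝ := ∫ x, Real.exp (2 * ⟪al, x⟫_ℝ) * ‖u x‖ ^ 2

lemma wIc_ofReal (al : E3) (u : E3 → ℝ) : wIc al (fun x => (u x : ℂ)) = wI al u := by
  unfold wIc wI
  congr 1
  funext x
  rw [Complex.norm_real, Real.norm_eq_abs, sq_abs]

lemma wIc_split (al : E3) {R : ℝ} {u : E3 → ℂ} (hu : MemLp u 2)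
    (hs : ∀ᵐ y : E3, R < ‖y‖ → u y = 0) :
    wIc al u = wI al (fun x => (u x).re) + wI al (fun x => (u x).im) :=
  w_split (exp_lin_continuous al) hu hs

lemma WD_zero (i : Fin 3) : WD i (fun _ => 0) (fun _ => 0) := by
  intro φ _ _
  simp

lemma CWD_ofReal {i : Fin 3} {f g : E3 → ℝ} (h : WD i f g) :
    CWD i (fun x => (f x : ℂ)) (fun x => (g x : ℂ)) := by
  constructor
  · simpa using h
  · simpa using WD_zero i

lemma CWLap_ofReal {f g : E3 → ℝ} (h : WLap f g) :
    CWLap (fun x => (f x : ℂ)) (fun x => (g x : ℂ)) := by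
  constructor
  · simpa using h
  · intro φ _ _
    simp

lemma memLp_ofReal {f : E3 → ℝ} (h : MemLp f 2) : MemLp (fun x => (f x : ℂ)) 2 := h.ofReal

/-- The unknowns `(P, v)` as a family. -/
noncomputable def fam (p : E3 → ℝ) (v : Fin 3 → E3 → ℝ) (a : Option (Fin 3)) (x : E3) : ℂ :=
  match a with
  | none => (p x : ℂ)
  | some i => (v i x : ℂ)

/-- all first derivatives as a family. -/
noncomputable def fam2 (dP : Fin 3 → E3 → ℝ) (H : Fin 3 → Fin 3 → E3 → ℝ)
    (a : Fin 3 × Option (Fin 3)) (x : E3) : ℂ :=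
  match a.2 with
  | none => (dP a.1 x : ℂ)
  | some i => (H i a.1 x : ℂ)

lemma fam_memLp {p : E3 → ℝ} {v : Fin 3 → E3 → ℝ} (hp : MemLp p 2) (hv : ∀ i, MemLp (v i) 2)
    (a : Option (Fin 3)) : MemLp (fam p v a) 2 := by
  match a with
  | none => exact memLp_ofReal hp
  | some i => exact memLp_ofReal (hv i)

lemma fam_supp {p : E3 → ℝ} {v : Fin 3 → E3 → ℝ} (hp : ∀ᵐ y : E3, R < ‖y‖ → p y = 0)
    (hv : ∀ i, ∀ᵐ y : E3, R < ‖y‖ → v i y = 0)
    (a : Option (Fin 3)) : ∀ᵐ y : E3, R < ‖y‖ → fam p v a y = 0 := by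
  match a with
  | none =>
    filter_upwards [hp] with y hy h
    simp [fam, hy h]
  | some i =>
    filter_upwards [hv i] with y hy h
    simp [fam, hy h]

lemma fam2_memLp {p : Fin 3 → E3 → ℝ} {v : Fin 3 → Fin 3 → E3 → ℝ} (hp : ∀ i, MemLp (p i) 2)
    (hv : ∀ i j, MemLp (v i j) 2) (a : Fin 3 × Option (Fin 3)) : MemLp (fam2 p v a) 2 := by
  match a with
  | (j, none) => exact memLp_ofReal (hp j)
  | (j, some i) => exact memLp_ofReal (hv i j)

lemma fam2_supp {p : Fin 3 → E3 → ℝ} {v : Fin 3 → Fin 3 → E3 → ℝ}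
    (hp : ∀ i, ∀ᵐ y : E3, R < ‖y‖ → p i y = 0)
    (hv : ∀ i j, ∀ᵐ y : E3, R < ‖y‖ → v i j y = 0)
    (a : Fin 3 × Option (Fin 3)) : ∀ᵐ y : E3, R < ‖y‖ → fam2 p v a y = 0 := by
  match a with
  | (j, none) =>
    filter_upwards [hp j] with y hy h
    simp [fam2, hy h]
  | (j, some i) =>
    filter_upwards [hv i j] with y hy h
    simp [fam2, hy h]

lemma fam_WD {p : E3 → ℝ} {v : Fin 3 → E3 → ℝ} {dp : Fin 3 → E3 → ℝ}
    {H : Fin 3 → Fin 3 → E3 → ℝ} (hp : ∀ j, WD j p (dp j)) (hv : ∀ i j, WD j (v i) (H i j))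
    (j : Fin 3) (a : Option (Fin 3)) : CWD j (fam p v a) (fam2 dp H (j, a)) := by
  match a with
  | none => exact CWD_ofReal (hp j)
  | some i => exact CWD_ofReal (hv i j)

lemma fam_WLap {p : E3 → ℝ} {v : Fin 3 → E3 → ℝ} {Lp : E3 → ℝ}
    {L : Fin 3 → E3 → ℝ} (hp : WLap p Lp) (hv : ∀ i, WLap (v i) (L i))
    (a : Option (Fin 3)) : CWLap (fam p v a) (fam Lp L a) := by
  match a with
  | none => exact CWLap_ofReal hp
  | some i => exact CWLap_ofReal (hv i)

lemma fam_norm (p : E3 → ℝ) (v : Fin 3 → E3 → ℝ) (x : E3) :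
    ∑ a, ‖fam p v a x‖ ^ 2 = (p x) ^ 2 + ∑ i, (v i x) ^ 2 := by
  rw [Fintype.sum_option]
  simp [fam, sq_abs]

lemma fam2_norm (p : Fin 3 → E3 → ℝ) (v : Fin 3 → Fin 3 → E3 → ℝ) (x : E3) :
    ∑ a, ‖fam2 p v a x‖ ^ 2 = ∑ j, ((p j x) ^ 2 + ∑ i, (v i j x) ^ 2) := by
  rw [Fintype.sum_prod_type]
  apply Finset.sum_congr rfl
  intro j _
  rw [Fintype.sum_option]
  simp [fam2, sq_abs]

lemma WS_fam (al : E3) (p : E3 → ℝ) (v : Fin 3 → E3 → ℝ) :
    WS (fun x => Real.exp (2 * ⟪al, x⟫_ℝ)) (fam p v) = wI al p + ∑ i, wI al (v i) := by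
  unfold WS
  rw [Fintype.sum_option]
  congr 1
  · exact wIc_ofReal al p
  · apply Finset.sum_congr rfl
    intro i _
    exact wIc_ofReal al (v i)

lemma WS_fam2 (al : E3) (p : Fin 3 → E3 → ℝ) (v : Fin 3 → Fin 3 → E3 → ℝ) :
    WS (fun x => Real.exp (2 * ⟪al, x⟫_ℝ)) (fam2 p v)
      = ∑ j, (wI al (p j) + ∑ i, wI al (v i j)) := by
  unfold WS
  rw [Fintype.sum_prod_type]
  apply Finset.sum_congr rfl
  intro j _
  rw [Fintype.sum_option]
  congr 1
  · exact wIc_ofReal al (p j)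
  · apply Finset.sum_congr rfl
    intro i _
    exact wIc_ofReal al (v i j)

/-- pointwise bound for the right hand side of the system. -/
lemma sys_pointwise {x : E3} {M : ℝ} (hnu : ∀ x, 0 < lam x + 2 * mu x)
    (B : CoefBd lam mu x M) {DP : Fin 3 → E3 → ℝ} :
    ∑ a, ‖fam (LP mu H f (dpf lam mu H DP) (Lk lam mu H F (dpf lam mu H DP)))
        (Lk lam mu H F (dpf lam mu H DP)) a x‖ ^ 2
      ≤ 12313 * M ^ 6 * ((f x ^ 2 + ∑ i, F i x ^ 2)
        + ((∑ j, (DP j x ^ 2 + ∑ i, H i j x ^ 2)) + (Pf lam mu H x ^ 2 + ∑ i, v i x ^ 2))) := by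
  rw [fam_norm]
  set S : ℝ := (f x ^ 2 + ∑ i, F i x ^ 2)
        + ((∑ j, (DP j x ^ 2 + ∑ i, H i j x ^ 2)) + (Pf lam mu H x ^ 2 + ∑ i, v i x ^ 2)) with hS
  have q1 : 0 ≤ ∑ i, F i x ^ 2 := Finset.sum_nonneg fun _ _ => sq_nonneg _
  have q2 : ∀ j, 0 ≤ ∑ i, H i j x ^ 2 := fun j => Finset.sum_nonneg fun _ _ => sq_nonneg _
  have q3 : 0 ≤ ∑ j, (DP j x ^ 2 + ∑ i, H i j x ^ 2) :=
    Finset.sum_nonneg fun j _ => add_nonneg (sq_nonneg _) (q2 j)
  have q4 : 0 ≤ ∑ i, v i x ^ 2 := Finset.sum_nonneg fun _ _ => sq_nonneg _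
  have hS0 : 0 ≤ S := by (clear * -; positivity)
  obtain ⟨σ, hσ⟩ : ∃ σ : ℝ, σ = Real.sqrt S := ⟨_, rfl⟩
  have hσ0 : 0 ≤ σ := by rw [hσ]; exact Real.sqrt_nonneg _
  have hσ2 : σ ^ 2 = S := by rw [hσ]; exact Real.sq_sqrt hS0
  have ab : ∀ {a : ℝ}, a ^ 2 ≤ S → |a| ≤ σ := by
    intro a ha
    rw [hσ]
    exact Real.abs_le_sqrt ha
  have hf : |f x| ≤ σ := by
    apply ab
    have := sq_nonneg (Pf lam mu H x)
    linarith
  have hF : ∀ k, |F k x| ≤ σ := by
    intro k
    apply ab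
    have h1 : F k x ^ 2 ≤ ∑ i, F i x ^ 2 :=
      Finset.single_le_sum (f := fun i => F i x ^ 2) (fun _ _ => sq_nonneg _) (Finset.mem_univ k)
    have := sq_nonneg (Pf lam mu H x)
    have := sq_nonneg (f x)
    linarith
  have hDH : ∀ j, DP j x ^ 2 + ∑ i, H i j x ^ 2 ≤ S := by
    intro j
    have h1 : DP j x ^ 2 + ∑ i, H i j x ^ 2 ≤ ∑ j, (DP j x ^ 2 + ∑ i, H i j x ^ 2) :=
      Finset.single_le_sum (f := fun j => DP j x ^ 2 + ∑ i, H i j x ^ 2)
        (fun j _ => add_nonneg (sq_nonneg _) (q2 j)) (Finset.mem_univ j)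
    have := sq_nonneg (Pf lam mu H x)
    have := sq_nonneg (f x)
    linarith
  have hD : ∀ k, |DP k x| ≤ σ := by
    intro k
    apply ab
    have := hDH k
    have := q2 k
    linarith
  have hH : ∀ i j, |H i j x| ≤ σ := by
    intro i j
    apply ab
    have h0 := hDH j
    have h1 : H i j x ^ 2 ≤ ∑ i, H i j x ^ 2 :=
      Finset.single_le_sum (f := fun i => H i j x ^ 2) (fun _ _ => sq_nonneg _) (Finset.mem_univ i)
    have := sq_nonneg (DP j x)
    linarith
  have hP : |Pf lam mu H x| ≤ σ := by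
    apply ab
    have := sq_nonneg (f x)
    linarith
  have hp : |∑ i, H i i x| ≤ M * σ := by
    rw [← cf_mul_Pf hnu x]
    exact abs_mul_le' B.c hP
  have hd := dpf_le B hP hD
  have hL := Lk_le B hσ0 hp hd hF hH
  have hLP := LP_le B hσ0 hp hd hf hH hL
  have hM := B.one
  have e1 : ∀ k, (Lk lam mu H F (dpf lam mu H DP) k x) ^ 2 ≤ (12 * M ^ 2 * σ) ^ 2 := by
    intro k
    rw [← sq_abs]
    have := abs_nonneg (Lk lam mu H F (dpf lam mu H DP) k x)
    have := hL k
    gcongr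
  have e2 : (LP mu H f (dpf lam mu H DP) (Lk lam mu H F (dpf lam mu H DP)) x) ^ 2
      ≤ (109 * M ^ 3 * σ) ^ 2 := by
    rw [← sq_abs]
    gcongr
  have e3 : ∑ k, (Lk lam mu H F (dpf lam mu H DP) k x) ^ 2 ≤ 3 * (12 * M ^ 2 * σ) ^ 2 := by
    refine (Finset.sum_le_sum fun k _ => e1 k).trans ?_
    simp
  calc _ ≤ (109 * M ^ 3 * σ) ^ 2 + 3 * (12 * M ^ 2 * σ) ^ 2 := add_le_add e2 e3
    _ = (11881 * M ^ 6 + 432 * M ^ 4) * σ ^ 2 := by ring
    _ ≤ (11881 * M ^ 6 + 432 * M ^ 6) * σ ^ 2 := by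
        have : M ^ 4 ≤ M ^ 6 := pow_le_pow_right₀ hM (by norm_num)
        gcongr
    _ = 12313 * M ^ 6 * S := by rw [hσ2]; ring

lemma int_re {u : E3 → ℂ} {g : E3 → ℝ} (hu : LocallyIntegrable u) (hg : Continuous g)
    (hc : HasCompactSupport g) :
    (∫ x, u x * ((g x : ℝ) : ℂ)).re = ∫ x, (u x).re * g x := by
  have i1 : Integrable (fun x => u x * ((g x : ℝ) : ℂ)) := by
    have := hu.integrable_smul_left_of_hasCompactSupport hg hc
    simpa [mul_comm] using this
  have e1 := integral_re i1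
  simp only [RCLike.re_to_complex] at e1
  rw [← e1]
  simp

lemma int_im {u : E3 → ℂ} {g : E3 → ℝ} (hu : LocallyIntegrable u) (hg : Continuous g)
    (hc : HasCompactSupport g) :
    (∫ x, u x * ((g x : ℝ) : ℂ)).im = ∫ x, (u x).im * g x := by
  have i1 : Integrable (fun x => u x * ((g x : ℝ) : ℂ)) := by
    have := hu.integrable_smul_left_of_hasCompactSupport hg hc
    simpa [mul_comm] using this
  have e1 := integral_im i1
  simp only [RCLike.im_to_complex] at e1
  rw [← e1]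
  simp

lemma memLp_li_c {f : E3 → ℂ} (hf : MemLp f 2) : LocallyIntegrable f :=
  hf.locallyIntegrable (by norm_num)

/-- the complex variable `P = (λ + 2μ) div v`. -/
noncomputable def Pfc (lam mu : E3 → ℝ) (H : Fin 3 → Fin 3 → E3 → ℂ) (x : E3) : ℂ :=
  ((lam x + 2 * mu x : ℝ) : ℂ) * ∑ i, H i i x

lemma Pfc_re (H : Fin 3 → Fin 3 → E3 → ℂ) :
    (fun x => (Pfc lam mu H x).re) = Pf lam mu (fun i j x => (H i j x).re) := by
  funext x
  unfold Pfc Pf
  rw [Complex.re_ofReal_mul, Complex.re_sum]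

lemma Pfc_im (H : Fin 3 → Fin 3 → E3 → ℂ) :
    (fun x => (Pfc lam mu H x).im) = Pf lam mu (fun i j x => (H i j x).im) := by
  funext x
  unfold Pfc Pf
  rw [Complex.im_ofReal_mul, Complex.im_sum]

lemma memLp_of_re_im {u : E3 → ℂ} (h1 : MemLp (fun x => (u x).re) 2)
    (h2 : MemLp (fun x => (u x).im) 2) : MemLp u 2 := by
  have e : u = fun x => ((u x).re : ℂ) + Complex.I * ((u x).im : ℂ) := by
    funext x
    rw [mul_comm, Complex.re_add_im]
  rw [e]
  exact (memLp_ofReal h1).add ((memLp_ofReal h2).const_mul Complex.I)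

end

end Vale.Agent.P136
end
end

section

section

open MeasureTheory Filter Topology
open scoped ContDiff InnerProductSpace ENNReal

namespace Vale.Agent.P136

lemma pd_ofReal {f : E3 → ℝ} {x : E3} (hf : DifferentiableAt ℝ f x) (i : Fin 3) :
    pd i (fun y => ((f y : ℝ) : ℂ)) x = ((pd i f x : ℝ) : ℂ) := by
  unfold pd
  have h := (Complex.ofRealCLM.hasFDerivAt (x := f x)).comp x hf.hasFDerivAt
  have h2 : fderiv ℝ (fun y => ((f y : ℝ) : ℂ)) x = Complex.ofRealCLM.comp (fderiv ℝ f x) :=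
    h.fderiv
  rw [h2]
  rfl

lemma pd_re {f : E3 → ℂ} {x : E3} (hf : DifferentiableAt ℝ f x) (i : Fin 3) :
    pd i (fun y => (f y).re) x = (pd i f x).re := by
  unfold pd
  have h := (Complex.reCLM.hasFDerivAt (x := f x)).comp x hf.hasFDerivAt
  have h2 : fderiv ℝ (fun y => (f y).re) x = Complex.reCLM.comp (fderiv ℝ f x) := h.fderiv
  rw [h2]
  rfl

lemma pd_im {f : E3 → ℂ} {x : E3} (hf : DifferentiableAt ℝ f x) (i : Fin 3) :
    pd i (fun y => (f y).im) x = (pd i f x).im := by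
  unfold pd
  have h := (Complex.imCLM.hasFDerivAt (x := f x)).comp x hf.hasFDerivAt
  have h2 : fderiv ℝ (fun y => (f y).im) x = Complex.imCLM.comp (fderiv ℝ f x) := h.fderiv
  rw [h2]
  rfl

lemma contDiff_re {f : E3 → ℂ} (hf : ContDiff ℝ ∞ f) : ContDiff ℝ ∞ (fun y => (f y).re) :=
  Complex.reCLM.contDiff.comp hf

lemma contDiff_im {f : E3 → ℂ} (hf : ContDiff ℝ ∞ f) : ContDiff ℝ ∞ (fun y => (f y).im) :=
  Complex.imCLM.contDiff.comp hf

lemma contDiff_ofReal {f : E3 → ℝ} (hf : ContDiff ℝ ∞ f) :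
    ContDiff ℝ ∞ (fun y => ((f y : ℝ) : ℂ)) :=
  Complex.ofRealCLM.contDiff.comp hf

lemma sq_norm_int {u : E3 → ℂ} (hu : MemLp u 2) : Integrable (fun x => ‖u x‖ ^ 2) := by
  have := memLp_sq_int (f := fun x => ‖u x‖) hu.norm
  exact this

lemma N2_re_le {u : E3 → ℂ} (hu : MemLp u 2) : N2 (fun x => (u x).re) ≤ ∫ x, ‖u x‖ ^ 2 := by
  unfold N2
  apply integral_mono (memLp_sq_int (memLp_re hu)) (sq_norm_int hu)
  intro x
  simp only
  rw [norm_sq_c]
  nlinarith [sq_nonneg (u x).im]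

lemma N2_im_le {u : E3 → ℂ} (hu : MemLp u 2) : N2 (fun x => (u x).im) ≤ ∫ x, ‖u x‖ ^ 2 := by
  unfold N2
  apply integral_mono (memLp_sq_int (memLp_im hu)) (sq_norm_int hu)
  intro x
  simp only
  rw [norm_sq_c]
  nlinarith [sq_nonneg (u x).re]

/-- real core: weak derivative of an `L²` limit. -/
lemma WD_of_limit {i : Fin 3} {f g : E3 → ℝ} (hf : MemLp f 2) (hg : MemLp g 2)
    {φ : ℕ → E3 → ℝ} (h1 : ∀ n, ContDiff ℝ ∞ (φ n)) (h2 : ∀ n, HasCompactSupport (φ n))
    (c1 : Tendsto (fun n => N2 (fun x => φ n x - f x)) atTop (𝓝 0))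
    (c2 : Tendsto (fun n => N2 (fun x => pd i (φ n) x - g x)) atTop (𝓝 0)) : WD i f g := by
  intro η hη hc
  have mφ : ∀ n, MemLp (φ n) 2 := fun n => test_memLp (h1 n).continuous (h2 n)
  have mφ' : ∀ n, MemLp (pd i (φ n)) 2 := fun n =>
    test_memLp (pd_contDiff_infty (h1 n) i).continuous (pd_hasCompactSupport (h2 n) i)
  have t1 := tendsto_integral_mul mφ hf
    (test_memLp (pd_contDiff_infty hη i).continuous (pd_hasCompactSupport hc i)) c1
  have t2 := tendsto_integral_mul mφ' hg (test_memLp hη.continuous hc) c2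
  have e : ∀ n, ∫ x, φ n x * pd i η x = - ∫ x, pd i (φ n) x * η x := fun n =>
    ibp ((h1 n).of_le (by norm_cast)) (hη.of_le (by norm_cast)) hc i
  have t3 : Tendsto (fun n => ∫ x, φ n x * pd i η x) atTop (𝓝 (- ∫ x, g x * η x)) := by
    simp_rw [e]
    exact t2.neg
  exact tendsto_nhds_unique t1 t3

lemma CH10.cwd {Ω : Set E3} {v : E3 → ℂ} {dv : Fin 3 → E3 → ℂ} (h : CH10 Ω v dv) (i : Fin 3) :
    CWD i v (dv i) := by
  obtain ⟨φ, hφ, c1, c2⟩ := h.approx
  have sm : ∀ n, ContDiff ℝ ∞ (φ n) := fun n => (hφ n).1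
  have cs : ∀ n, HasCompactSupport (φ n) := fun n => (hφ n).2.1
  have mφ : ∀ n, MemLp (φ n) 2 := fun n => (sm n).continuous.memLp_of_hasCompactSupport (cs n)
  have dφ : ∀ n, Continuous (pd i (φ n)) := fun n => (pd_contDiff_infty (sm n) i).continuous
  have mdφ : ∀ n, MemLp (pd i (φ n)) 2 := fun n =>
    (dφ n).memLp_of_hasCompactSupport (pd_hasCompactSupport (cs n) i)
  constructor
  · apply WD_of_limit (memLp_re h.val_mem) (memLp_re (h.der_mem i))
      (φ := fun n x => (φ n x).re) (fun n => contDiff_re (sm n))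
      (fun n => (cs n).comp_left (g := Complex.re) rfl)
    · refine squeeze_zero (fun n => N2_nonneg _) (fun n => ?_) c1
      have hm : MemLp (fun x => v x - φ n x) 2 := h.val_mem.sub (mφ n)
      refine le_trans (le_of_eq ?_) (N2_re_le hm)
      unfold N2
      congr 1; funext x; beta_reduce
      rw [Complex.sub_re]; ring
    · refine squeeze_zero (fun n => N2_nonneg _) (fun n => ?_) (c2 i)
      have hm : MemLp (fun x => dv i x - pd i (φ n) x) 2 := (h.der_mem i).sub (mdφ n)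
      refine le_trans (le_of_eq ?_) (N2_re_le hm)
      unfold N2
      congr 1; funext x; beta_reduce
      rw [pd_re (((sm n).differentiable (by simp)) x), Complex.sub_re]; ring
  · apply WD_of_limit (memLp_im h.val_mem) (memLp_im (h.der_mem i))
      (φ := fun n x => (φ n x).im) (fun n => contDiff_im (sm n))
      (fun n => (cs n).comp_left (g := Complex.im) rfl)
    · refine squeeze_zero (fun n => N2_nonneg _) (fun n => ?_) c1
      have hm : MemLp (fun x => v x - φ n x) 2 := h.val_mem.sub (mφ n)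
      refine le_trans (le_of_eq ?_) (N2_im_le hm)
      unfold N2
      congr 1; funext x; beta_reduce
      rw [Complex.sub_im]; ring
    · refine squeeze_zero (fun n => N2_nonneg _) (fun n => ?_) (c2 i)
      have hm : MemLp (fun x => dv i x - pd i (φ n) x) 2 := (h.der_mem i).sub (mdφ n)
      refine le_trans (le_of_eq ?_) (N2_im_le hm)
      unfold N2
      congr 1; funext x; beta_reduce
      rw [pd_im (((sm n).differentiable (by simp)) x), Complex.sub_im]; ring

/-- the elastic form tested with a field in the `k`-th direction. -/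
lemma cform_single {Ω : Set E3} {lam mu : E3 → ℝ} {dv : Fin 3 → Fin 3 → E3 → ℂ} {η : E3 → ℝ}
    (hη : ContDiff ℝ ∞ η) (k : Fin 3) :
    cform Ω lam mu dv (fun i j => pd i (fun x => if j = k then ((η x : ℝ) : ℂ) else 0))
      = ∫ x in Ω, ((∑ i, dv i i x) * ((lam x * pd k η x : ℝ) : ℂ)
        + ∑ j, (dv j k x + dv k j x) * ((mu x * pd j η x : ℝ) : ℂ)) := by
  unfold cform
  congr 1
  funext x
  have h1 : ∀ i j : Fin 3, pd i (fun x => if j = k then ((η x : ℝ) : ℂ) else 0) x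
      = if j = k then ((pd i η x : ℝ) : ℂ) else 0 := by
    intro i j
    by_cases hj : j = k
    · simp only [hj, if_true]
      exact pd_ofReal ((hη.differentiable (by simp)) x) i
    · simp only [hj, if_false]
      unfold pd
      simp
  simp only [h1]
  fin_cases k <;> simp [Fin.sum_univ_three] <;> ring

lemma bdd_subset_ball {Ω : Set E3} (hΩ : Bornology.IsBounded Ω) :
    ∃ R : ℝ, 0 ≤ R ∧ ∀ x : E3, R < ‖x‖ → x ∉ Ω := by
  obtain ⟨R, hR⟩ := hΩ.subset_closedBall (0 : E3)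
  refine ⟨max R 0, le_max_right _ _, fun x hx hmem => ?_⟩
  have h1 := hR hmem
  rw [Metric.mem_closedBall, dist_zero_right] at h1
  have := le_max_left R 0
  linarith

lemma CWD.zero_outside {i : Fin 3} {f g : E3 → ℂ} {R : ℝ} (hg : MemLp g 2)
    (h : CWD i f g) (hsupp : ∀ᵐ y : E3, R < ‖y‖ → f y = 0) : ∀ᵐ y : E3, R < ‖y‖ → g y = 0 := by
  have h1 := WD_zero_outside (R := R) (memLp_li (memLp_re hg)) h.1 (by
    filter_upwards [hsupp] with y hy hR
    simp [hy hR])
  have h2 := WD_zero_outside (R := R) (memLp_li (memLp_im hg)) h.2 (by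
    filter_upwards [hsupp] with y hy hR
    simp [hy hR])
  filter_upwards [h1, h2] with y a b hR
  exact Complex.ext (a hR) (b hR)

lemma memLp_cont_mul_c {a : E3 → ℝ} (ha : Continuous a) {R : ℝ} {f : E3 → ℂ} (hf : MemLp f 2)
    (hs : ∀ᵐ y : E3, R < ‖y‖ → f y = 0) : MemLp (fun x => (a x : ℂ) * f x) 2 := by
  apply memLp_of_re_im
  · have := memLp_cont_mul (R := R) ha (memLp_re hf) (by
      filter_upwards [hs] with y hy hR
      simp [hy hR])
    simpa using this
  · have := memLp_cont_mul (R := R) ha (memLp_im hf) (by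
      filter_upwards [hs] with y hy hR
      simp [hy hR])
    simpa using this

/-- weighted comparison. -/
lemma wIc_le_of_ae {al : E3} {R : ℝ} {u u₁ u₂ : E3 → ℂ} {c₁ c₂ : ℝ} (hu : MemLp u 2)
    (h1 : MemLp u₁ 2) (h2 : MemLp u₂ 2) (su : ∀ᵐ y : E3, R < ‖y‖ → u y = 0)
    (s1 : ∀ᵐ y : E3, R < ‖y‖ → u₁ y = 0) (s2 : ∀ᵐ y : E3, R < ‖y‖ → u₂ y = 0)
    (hpt : ∀ᵐ x : E3, ‖u x‖ ^ 2 ≤ c₁ * ‖u₁ x‖ ^ 2 + c₂ * ‖u₂ x‖ ^ 2) :
    wIc al u ≤ c₁ * wIc al u₁ + c₂ * wIc al u₂ := by
  unfold wIc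
  have hw := exp_lin_continuous al
  rw [← integral_const_mul, ← integral_const_mul]
  rw [← integral_add ((w_int_c hw h1 s1).const_mul c₁) ((w_int_c hw h2 s2).const_mul c₂)]
  apply integral_mono_ae (w_int_c hw hu su)
    (((w_int_c hw h1 s1).const_mul c₁).add ((w_int_c hw h2 s2).const_mul c₂))
  filter_upwards [hpt] with x hx
  simp only [Pi.add_apply]
  calc Real.exp (2 * ⟪al, x⟫_ℝ) * ‖u x‖ ^ 2
      ≤ Real.exp (2 * ⟪al, x⟫_ℝ) * (c₁ * ‖u₁ x‖ ^ 2 + c₂ * ‖u₂ x‖ ^ 2) :=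
        mul_le_mul_of_nonneg_left hx (Real.exp_pos _).le
    _ = _ := by ring

end Vale.Agent.P136
end
end

section

section

/-! Complex exact version of `AS_statement`: limits in `H²` of the ball. -/

open MeasureTheory Filter Topology
open scoped ContDiff InnerProductSpace

namespace Vale.Agent.P136.ASc

lemma ind_memLp {g : E3 → ℝ} (hg : Continuous g) (R : ℝ) :
    MemLp (Set.indicator (Metric.ball (0 : E3) R) g) 2 (volume : Measure E3) := by
  obtain ⟨M, hM⟩ := (isCompact_closedBall (0 : E3) R).exists_bound_of_continuousOn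
    hg.continuousOn
  rw [memLp_indicator_iff_restrict Metric.isOpen_ball.measurableSet]
  have hfin : volume (Metric.ball (0 : E3) R) < ⊤ := measure_ball_lt_top
  have : IsFiniteMeasure (volume.restrict (Metric.ball (0 : E3) R)) := ⟨by
    rw [Measure.restrict_apply_univ]; exact hfin⟩
  apply MemLp.of_bound hg.aestronglyMeasurable M
  filter_upwards [ae_restrict_mem Metric.isOpen_ball.measurableSet] with x hx
  exact hM x (Metric.ball_subset_closedBall hx)

lemma ind_sq (g : E3 → ℝ) (R : ℝ) :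
    ∫ x, (Set.indicator (Metric.ball (0 : E3) R) g x) ^ 2
      = ∫ x in Metric.ball (0 : E3) R, (g x) ^ 2 := by
  rw [← integral_indicator Metric.isOpen_ball.measurableSet]
  congr 1
  funext x
  by_cases hx : x ∈ Metric.ball (0 : E3) R
  · simp [Set.indicator_of_mem hx]
  · simp [Set.indicator_of_notMem hx]

lemma ind_w (w g : E3 → ℝ) (R : ℝ) :
    ∫ x, w x * (Set.indicator (Metric.ball (0 : E3) R) g x) ^ 2
      = ∫ x in Metric.ball (0 : E3) R, w x * (g x) ^ 2 := by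
  rw [← integral_indicator Metric.isOpen_ball.measurableSet]
  congr 1
  funext x
  by_cases hx : x ∈ Metric.ball (0 : E3) R
  · simp [Set.indicator_of_mem hx]
  · simp [Set.indicator_of_notMem hx]

lemma ind_supp (g : E3 → ℝ) (R : ℝ) :
    ∀ᵐ x : E3, R < ‖x‖ → Set.indicator (Metric.ball (0 : E3) R) g x = 0 := by
  apply Eventually.of_forall
  intro x hx
  apply Set.indicator_of_notMem
  rw [Metric.mem_ball, dist_zero_right]
  exact not_lt.mpr hx.le

/-- limits of Cauchy sequences in `L²` of the ball. -/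
lemma real_limit {R : ℝ} {g : ℕ → E3 → ℝ} (hg : ∀ k, Continuous (g k))
    (hC : Tendsto (fun p : ℕ × ℕ => ∫ x in Metric.ball (0 : E3) R,
      (g p.1 x - g p.2 x) ^ 2) atTop (𝓝 0)) :
    ∃ X : E3 → ℝ, MemLp X 2 (volume : Measure E3) ∧
      Tendsto (fun k => ∫ x in Metric.ball (0 : E3) R, (g k x - X x) ^ 2) atTop (𝓝 0) ∧
      ∀ w : E3 → ℝ, Continuous w → ∀ K : ℝ,
        (∀ k, ∫ x in Metric.ball (0 : E3) R, w x * (g k x) ^ 2 ≤ K) →
        ∫ x in Metric.ball (0 : E3) R, w x * (X x) ^ 2 ≤ K := by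
  set B := Metric.ball (0 : E3) R with hB
  have hmeas : MeasurableSet B := Metric.isOpen_ball.measurableSet
  have ham : ∀ k, MemLp (B.indicator (g k)) 2 (volume : Measure E3) := fun k => ind_memLp (hg k) R
  have hN : ∀ n m, N2 (fun x => B.indicator (g n) x - B.indicator (g m) x)
      = ∫ x in B, (g n x - g m x) ^ 2 := by
    intro n m
    unfold N2
    rw [← ind_sq (fun x => g n x - g m x) R]
    congr 1
    funext x
    by_cases hx : x ∈ B
    · simp [← hB, Set.indicator_of_mem hx]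
    · simp [← hB, Set.indicator_of_notMem hx]
  obtain ⟨X, hX, hlim⟩ := exists_limit ham (by
    intro ε hε
    have h1 := (Metric.tendsto_atTop.mp hC) ε hε
    obtain ⟨⟨N₁, N₂⟩, hN'⟩ := h1
    refine ⟨max N₁ N₂, fun n hn m hm => ?_⟩
    have h2 := hN' (n, m) ⟨le_trans (le_max_left _ _) hn, le_trans (le_max_right _ _) hm⟩
    rw [hN]
    rw [Real.dist_eq, sub_zero] at h2
    exact lt_of_abs_lt h2)
  have hX' : MemLp (B.indicator X) 2 (volume : Measure E3) := hX.indicator hmeas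
  have hlim' : Tendsto (fun k => N2 (fun x => B.indicator (g k) x - B.indicator X x))
      atTop (𝓝 0) := by
    refine squeeze_zero (fun k => N2_nonneg _) (fun k => ?_) hlim
    unfold N2
    apply integral_mono
    · exact memLp_sq_int ((ham k).sub hX')
    · exact memLp_sq_int ((ham k).sub hX)
    · intro x
      simp only
      by_cases hx : x ∈ B
      · simp [Set.indicator_of_mem hx]
      · simp only [Set.indicator_of_notMem hx]
        linarith only [sq_nonneg (X x)]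
  refine ⟨B.indicator X, hX', ?_, ?_⟩
  · refine hlim'.congr fun k => ?_
    unfold N2
    rw [← ind_sq (fun x => g k x - B.indicator X x) R]
    congr 1
    funext x
    by_cases hx : x ∈ B
    · simp [← hB, Set.indicator_of_mem hx]
    · simp [← hB, Set.indicator_of_notMem hx]
  · intro w hw K hK
    have h1 := tendsto_weighted hw (R := R) ham hX' (fun n => ind_supp (g n) R)
      (ind_supp X R) hlim'
    have h2 : ∫ x, w x * (B.indicator X x) ^ 2 ≤ K := by
      apply le_of_tendsto' h1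
      intro k
      rw [hB, ind_w]
      exact hK k
    have h3 : ∫ x in B, w x * (B.indicator X x) ^ 2 = ∫ x, w x * (B.indicator X x) ^ 2 := by
      apply setIntegral_eq_integral_of_forall_compl_eq_zero
      intro x hx
      simp [Set.indicator_of_notMem hx]
    rw [h3]
    exact h2

lemma cont_memLp {g : E3 → ℝ} (hg : Continuous g) (R : ℝ) :
    MemLp g 2 (volume.restrict (Metric.ball (0 : E3) R)) := by
  have := ind_memLp hg R
  rwa [memLp_indicator_iff_restrict Metric.isOpen_ball.measurableSet] at this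

/-- splitting of squared norms on the ball. -/
lemma split_sq {u v : E3 → ℝ} {R : ℝ} {w : E3 → ℝ} (hw : Continuous w)
    (hu : MemLp u 2 (volume.restrict (Metric.ball (0 : E3) R)))
    (hv : MemLp v 2 (volume.restrict (Metric.ball (0 : E3) R))) {z : E3 → ℂ}
    (hz : ∀ x, z x = (u x : ℂ) + Complex.I * (v x : ℂ)) :
    ∫ x in Metric.ball (0 : E3) R, w x * ‖z x‖ ^ 2
      = (∫ x in Metric.ball (0 : E3) R, w x * (u x) ^ 2)
        + ∫ x in Metric.ball (0 : E3) R, w x * (v x) ^ 2 := by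
  obtain ⟨M, hM⟩ := (isCompact_closedBall (0 : E3) R).exists_bound_of_continuousOn
    hw.continuousOn
  have key : ∀ {f : E3 → ℝ}, MemLp f 2 (volume.restrict (Metric.ball (0 : E3) R)) →
      Integrable (fun x => w x * (f x) ^ 2) (volume.restrict (Metric.ball (0 : E3) R)) := by
    intro f hf
    refine Integrable.mono' (hf.integrable_sq.const_mul M)
      (hw.aestronglyMeasurable.mul (hf.1.pow 2)) ?_
    filter_upwards [ae_restrict_mem Metric.isOpen_ball.measurableSet] with x hx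
    rw [norm_mul, Real.norm_eq_abs ((f x) ^ 2), abs_of_nonneg (sq_nonneg (f x))]
    have := hM x (Metric.ball_subset_closedBall hx)
    gcongr
  rw [← integral_add (key hu) (key hv)]
  congr 1
  funext x
  rw [hz x, norm_sq_c]
  simp
  ring

lemma split_sq1 {u v : E3 → ℝ} {R : ℝ}
    (hu : MemLp u 2 (volume.restrict (Metric.ball (0 : E3) R)))
    (hv : MemLp v 2 (volume.restrict (Metric.ball (0 : E3) R))) {z : E3 → ℂ}
    (hz : ∀ x, z x = (u x : ℂ) + Complex.I * (v x : ℂ)) :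
    ∫ x in Metric.ball (0 : E3) R, ‖z x‖ ^ 2
      = (∫ x in Metric.ball (0 : E3) R, (u x) ^ 2)
        + ∫ x in Metric.ball (0 : E3) R, (v x) ^ 2 := by
  have := split_sq (w := fun _ => 1) continuous_const hu hv hz
  simpa using this

lemma cpl_pd {f h : E3 → ℝ} (hf : ContDiff ℝ ∞ f) (hh : ContDiff ℝ ∞ h) (i : Fin 3) :
    pd i (fun y => cc f y + Complex.I * cc h y)
      = fun y => cc (pd i f) y + Complex.I * cc (pd i h) y := by
  funext x
  have c1 : ContDiff ℝ ∞ (cc f) := contDiff_ofReal hf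
  have c2 : ContDiff ℝ ∞ (cc h) := contDiff_ofReal hh
  rw [pdc_add c1 (contDiff_const.mul c2), pdc_const_mul _ c2, pd_cc hf, pd_cc hh]
  rfl

end Vale.Agent.P136.ASc

namespace Vale.Agent.P136

open ASc in
/-- complex exact version of `AS_statement`. -/
theorem ASc_of (h : AS_statement) : ASc_statement := by
  intro n A B R hR hA hB
  obtain ⟨C, τ₀, hC, hτ₀, hmain⟩ := h n A B R hR hA hB
  refine ⟨2 * C, τ₀, by positivity, hτ₀, ?_⟩
  intro α F Q hα hF hQ
  have hw : Continuous (fun x : E3 => Real.exp (-2 * ⟪α, x⟫_ℝ)) :=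
    Real.continuous_exp.comp (continuous_const.mul (inner_contDiff α).continuous)
  have hFr : ∀ a, MemLp (fun x => (F a x).re) 2 (volume : Measure E3) := fun a => memLp_re (hF a)
  have hFi : ∀ a, MemLp (fun x => (F a x).im) 2 (volume : Measure E3) := fun a => memLp_im (hF a)
  have hle : ∀ (u : Fin n → E3 → ℝ), (∀ a, MemLp (u a) 2 (volume : Measure E3)) →
      (∀ a x, (u a x) ^ 2 ≤ ‖F a x‖ ^ 2) →
      ∑ a, ∫ x in Metric.ball (0 : E3) (2 * R), Real.exp (-2 * ⟪α, x⟫_ℝ) * (u a x) ^ 2 ≤ Q := by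
    intro u hu hle
    refine le_trans (Finset.sum_le_sum fun a _ => ?_) hQ
    obtain ⟨M, hM⟩ := (isCompact_closedBall (0 : E3) (2 * R)).exists_bound_of_continuousOn
      hw.continuousOn
    have key : ∀ {f : E3 → ℝ}, MemLp f 2 (volume : Measure E3) →
        Integrable (fun x => Real.exp (-2 * ⟪α, x⟫_ℝ) * (f x) ^ 2)
          (volume.restrict (Metric.ball (0 : E3) (2 * R))) := by
      intro f hf
      have hf' := hf.restrict (Metric.ball (0 : E3) (2 * R))
      refine Integrable.mono' (hf'.integrable_sq.const_mul M)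
        (hw.aestronglyMeasurable.mul (hf'.1.pow 2)) ?_
      filter_upwards [ae_restrict_mem Metric.isOpen_ball.measurableSet] with x hx
      rw [norm_mul, Real.norm_eq_abs ((f x) ^ 2), abs_of_nonneg (sq_nonneg (f x))]
      have := hM x (Metric.ball_subset_closedBall hx)
      gcongr
    apply integral_mono (key (hu a)) (key (hF a).norm)
    intro x
    simp only
    have := hle a x
    gcongr
  obtain ⟨Φr, r1, r2, r3, r4, r5, r6, r7, r8⟩ := hmain α (fun a x => (F a x).re) Q hα hFr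
    (hle _ hFr fun a x => by
      rw [norm_sq_c]; linarith only [sq_nonneg (F a x).im])
  obtain ⟨Φi, i1, i2, i3, i4, i5, i6, i7, i8⟩ := hmain α (fun a x => (F a x).im) Q hα hFi
    (hle _ hFi fun a x => by
      rw [norm_sq_c]; linarith only [sq_nonneg (F a x).re])
  have pr1 : ∀ k i a, ContDiff ℝ ∞ (pd i (Φr k a)) := fun k i a => pd_contDiff_infty (r1 k a) i
  have pi1 : ∀ k i a, ContDiff ℝ ∞ (pd i (Φi k a)) := fun k i a => pd_contDiff_infty (i1 k a) i
  have pr2 : ∀ k i j a, ContDiff ℝ ∞ (pd i (pd j (Φr k a))) := fun k i j a =>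
    pd_contDiff_infty (pr1 k j a) i
  have pi2 : ∀ k i j a, ContDiff ℝ ∞ (pd i (pd j (Φi k a))) := fun k i j a =>
    pd_contDiff_infty (pi1 k j a) i
  choose Xr hXr cXr wXr using fun a => real_limit (fun k => (r1 k a).continuous) (r6 a)
  choose Xi hXi cXi wXi using fun a => real_limit (fun k => (i1 k a).continuous) (i6 a)
  choose Yr hYr cYr wYr using fun i a => real_limit (fun k => (pr1 k i a).continuous) (r7 a i)
  choose Yi hYi cYi wYi using fun i a => real_limit (fun k => (pi1 k i a).continuous) (i7 a i)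
  choose Zr hZr cZr wZr using fun i j a => real_limit (fun k => (pr2 k i j a).continuous) (r8 a i j)
  choose Zi hZi cZi wZi using fun i j a => real_limit (fun k => (pi2 k i j a).continuous) (i8 a i j)
  have mc : ∀ {u v : E3 → ℝ}, MemLp u 2 (volume : Measure E3) → MemLp v 2 (volume : Measure E3) →
      MemLp (fun x => (u x : ℂ) + Complex.I * (v x : ℂ)) 2
        (volume.restrict (Metric.ball (0 : E3) R)) := fun hu hv =>
    ((memLp_ofReal hu).add ((memLp_ofReal hv).const_mul Complex.I)).restrict _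
  have tend : ∀ {gr gi : ℕ → E3 → ℝ} {u v : E3 → ℝ} {z : ℕ → E3 → ℂ},
      (∀ k, Continuous (gr k)) → (∀ k, Continuous (gi k)) →
      MemLp u 2 (volume : Measure E3) → MemLp v 2 (volume : Measure E3) →
      Tendsto (fun k => ∫ x in Metric.ball (0 : E3) R, (gr k x - u x) ^ 2) atTop (𝓝 0) →
      Tendsto (fun k => ∫ x in Metric.ball (0 : E3) R, (gi k x - v x) ^ 2) atTop (𝓝 0) →
      (∀ k x, z k x = (gr k x : ℂ) + Complex.I * (gi k x : ℂ)) →
      Tendsto (fun k => ∫ x in Metric.ball (0 : E3) R,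
        ‖z k x - ((u x : ℂ) + Complex.I * (v x : ℂ))‖ ^ 2) atTop (𝓝 0) := by
    intro gr gi u v z h1 h2 hu hv t1 t2 hz
    have t3 := t1.add t2
    rw [add_zero] at t3
    refine t3.congr fun k => ?_
    rw [split_sq1 (u := fun x => gr k x - u x) (v := fun x => gi k x - v x)
      ((cont_memLp (h1 k) R).sub (hu.restrict _)) ((cont_memLp (h2 k) R).sub (hv.restrict _))]
    intro x
    rw [hz k x]
    push_cast
    ring
  have wle : ∀ {u v : E3 → ℝ} {K : ℝ} {c : ℝ}, MemLp u 2 (volume : Measure E3) →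
      MemLp v 2 (volume : Measure E3) →
      (∫ x in Metric.ball (0 : E3) R, Real.exp (-2 * ⟪α, x⟫_ℝ) * (u x) ^ 2 ≤ K) →
      (∫ x in Metric.ball (0 : E3) R, Real.exp (-2 * ⟪α, x⟫_ℝ) * (v x) ^ 2 ≤ K) →
      ∫ x in Metric.ball (0 : E3) R, Real.exp (-2 * ⟪α, x⟫_ℝ)
        * ‖(u x : ℂ) + Complex.I * (v x : ℂ)‖ ^ 2 ≤ 2 * K := by
    intro u v K c hu hv h1 h2
    rw [split_sq hw (hu.restrict _) (hv.restrict _) (fun x => rfl)]
    linarith
  refine ⟨fun k a y => cc (Φr k a) y + Complex.I * cc (Φi k a) y,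
    fun a x => (Xr a x : ℂ) + Complex.I * (Xi a x : ℂ),
    fun i a x => (Yr i a x : ℂ) + Complex.I * (Yi i a x : ℂ),
    fun i j a x => (Zr i j a x : ℂ) + Complex.I * (Zi i j a x : ℂ), ?_, ?_, ?_, ?_, ?_, ?_, ?_,
    ?_, ?_, ?_, ?_⟩
  · intro k a
    exact (contDiff_ofReal (r1 k a)).add (contDiff_const.mul (contDiff_ofReal (i1 k a)))
  · intro a
    exact mc (hXr a) (hXi a)
  · intro i a
    exact mc (hYr i a) (hYi i a)
  · intro i j a
    exact mc (hZr i j a) (hZi i j a)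
  · intro a
    exact tend (fun k => (r1 k a).continuous) (fun k => (i1 k a).continuous) (hXr a) (hXi a)
      (cXr a) (cXi a) (fun k x => rfl)
  · intro i a
    refine tend (fun k => (pr1 k i a).continuous) (fun k => (pi1 k i a).continuous) (hYr i a)
      (hYi i a) (cYr i a) (cYi i a) (fun k x => ?_)
    rw [cpl_pd (r1 k a) (i1 k a)]
    rfl
  · intro i j a
    refine tend (fun k => (pr2 k i j a).continuous) (fun k => (pi2 k i j a).continuous)
      (hZr i j a) (hZi i j a) (cZr i j a) (cZi i j a) (fun k x => ?_)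
    rw [cpl_pd (r1 k a) (i1 k a), cpl_pd (pr1 k j a) (pi1 k j a)]
    rfl
  · intro a
    have csr : ∀ k, Continuous (fun x => sysP A B (Φr k) a x) := by
      intro k
      unfold sysP
      refine (Continuous.add (Continuous.add ?_ ?_) ?_)
      · exact (lap_sm (r1 k a)).continuous
      · exact continuous_finsetSum _ fun j _ => continuous_finsetSum _ fun b _ =>
          (hA j a b).continuous.mul (pr1 k j b).continuous
      · exact continuous_finsetSum _ fun b _ => (hB a b).continuous.mul (r1 k b).continuous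
    have csi : ∀ k, Continuous (fun x => sysP A B (Φi k) a x) := by
      intro k
      unfold sysP
      refine (Continuous.add (Continuous.add ?_ ?_) ?_)
      · exact (lap_sm (i1 k a)).continuous
      · exact continuous_finsetSum _ fun j _ => continuous_finsetSum _ fun b _ =>
          (hA j a b).continuous.mul (pi1 k j b).continuous
      · exact continuous_finsetSum _ fun b _ => (hB a b).continuous.mul (i1 k b).continuous
    have t := tend (z := fun k x => csysP A B (fun b y => cc (Φr k b) y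
      + Complex.I * cc (Φi k b) y) a x) csr csi (hFr a) (hFi a) (r2 a) (i2 a) (fun k x => by
        have c1 : ∀ b, ContDiff ℝ ∞ (cc (Φr k b)) := fun b => contDiff_ofReal (r1 k b)
        have c2 : ∀ b, ContDiff ℝ ∞ (cc (Φi k b)) := fun b => contDiff_ofReal (i1 k b)
        have e1 := csysP_add A B (Ψ := fun b => cc (Φr k b))
          (Φ := fun b y => Complex.I * cc (Φi k b) y) c1 (fun b => contDiff_const.mul (c2 b)) a x
        have e2 := csysP_const_mul A B Complex.I (Ψ := fun b => cc (Φi k b)) c2 a x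
        rw [e1, e2, csysP_cc A B (r1 k), csysP_cc A B (i1 k)])
    refine t.congr fun k => ?_
    congr 1
    funext x
    congr 3
    rw [mul_comm, Complex.re_add_im]
  · intro a
    have h1 : ∫ x in Metric.ball (0 : E3) R, (‖α‖ ^ 2 * Real.exp (-2 * ⟪α, x⟫_ℝ)) * (Xr a x) ^ 2
        ≤ C * Q := by
      apply wXr a (fun x => ‖α‖ ^ 2 * Real.exp (-2 * ⟪α, x⟫_ℝ)) (continuous_const.mul hw)
      intro k
      simp only [mul_assoc]
      rw [integral_const_mul]
      exact r3 k a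
    have h2 : ∫ x in Metric.ball (0 : E3) R, (‖α‖ ^ 2 * Real.exp (-2 * ⟪α, x⟫_ℝ)) * (Xi a x) ^ 2
        ≤ C * Q := by
      apply wXi a (fun x => ‖α‖ ^ 2 * Real.exp (-2 * ⟪α, x⟫_ℝ)) (continuous_const.mul hw)
      intro k
      simp only [mul_assoc]
      rw [integral_const_mul]
      exact i3 k a
    rw [split_sq hw ((hXr a).restrict _) ((hXi a).restrict _) (fun x => rfl)]
    simp only [mul_assoc] at h1 h2
    rw [integral_const_mul] at h1 h2
    linarith
  · intro i a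
    have := wle (c := 0) (hYr i a) (hYi i a) (wYr i a _ hw _ (fun k => r4 k a i))
      (wYi i a _ hw _ (fun k => i4 k a i))
    linarith
  · intro i j a
    have := wle (c := 0) (hZr i j a) (hZi i j a) (wZr i j a _ hw _ (fun k => r5 k a i j))
      (wZi i j a _ hw _ (fun k => i5 k a i j))
    linarith

end Vale.Agent.P136
end
end

section

section

/-! CGO1: exact complex geometrical optics solutions of the Lame system. -/

open MeasureTheory Filter Topology
open scoped ContDiff InnerProductSpace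

namespace Vale.Agent.P136.CG1

lemma memLp_wt {R : ℝ} {ζ : Fin 3 → ℂ} {t : ℝ} {f : E3 → ℂ}
    (hf : MemLp f 2 (volume.restrict (Metric.ball (0 : E3) R))) :
    MemLp (fun x => Complex.exp (-((t : ℂ) * zx ζ x)) * f x) 2
      (volume.restrict (Metric.ball (0 : E3) R)) :=
  memLp_mul_cont (wt_continuous ζ t) hf

lemma int_wt {R : ℝ} {ζ : Fin 3 → ℂ} {t : ℝ} {f : E3 → ℂ} :
    ∫ x in Metric.ball (0 : E3) R, ‖Complex.exp (-((t : ℂ) * zx ζ x)) * f x‖ ^ 2
      = ∫ x in Metric.ball (0 : E3) R, Real.exp (-2 * ⟪t • reV ζ, x⟫_ℝ) * ‖f x‖ ^ 2 := by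
  congr 1
  funext x
  rw [norm_mul, mul_pow, norm_wt]

/-- CGO1. -/
theorem main (hASc : ASc_statement) (hS : S1E_statement) : CGO1_statement := by
  intro lam mu hl hm h0 h1 R hR ζ hζ hζ0 U d hU hd hT
  have h2 : ∀ x, 0 < lam x + 2 * mu x := fun x => by linarith [h0 x, h1 x]
  obtain ⟨w0, w1, g1, hw0, hw1, hg1, hw0e, hz0, hz1, hg1e, hR0, hR1⟩ :=
    exists_ansatz hS hl hm h0 h1 hζ hζ0 (R := 4 * R) hU hd hT
  set a0 : Fin 4 → E3 → ℂ := Fin.snoc (α := fun _ => E3 → ℂ) w0 (fun _ => 0) with ha0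
  set a1 : Fin 4 → E3 → ℂ := Fin.snoc (α := fun _ => E3 → ℂ) w1 g1 with ha1
  have ha0s : ∀ a, ContDiff ℝ ∞ (a0 a) := by
    intro a
    refine Fin.lastCases ?_ (fun i => ?_) a
    · rw [ha0, Fin.snoc_last]; exact contDiff_const
    · rw [ha0, Fin.snoc_castSucc]; exact hw0 i
  have ha1s : ∀ a, ContDiff ℝ ∞ (a1 a) := by
    intro a
    refine Fin.lastCases ?_ (fun i => ?_) a
    · rw [ha1, Fin.snoc_last]; exact hg1
    · rw [ha1, Fin.snoc_castSucc]; exact hw1 i
  set A := cA lam mu with hA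
  set B := cB lam mu with hB
  have hAs := fun j a b => cA_smooth hl hm h0 h2 j a b
  have hBs := fun a b => cB_smooth hl hm h0 h2 a b
  have hcs : ∀ a, ContDiff ℝ ∞ (csysP A B a1 a) := csysP_smooth hAs hBs ha1s
  obtain ⟨C, τ₀, hC, hτ₀, hsol⟩ := hASc 4 A B R hR hAs hBs
  set ρ := ‖reV ζ‖ with hρ
  have hρ0 : 0 < ρ := reV_ne hζ hζ0
  set T : ℝ := max 1 (τ₀ / ρ) with hTdef
  have hT1 : 1 ≤ T := le_max_left _ _
  have hT0 : 0 < T := one_pos.trans_le hT1
  set K : ℝ := ∑ a, ∫ x in Metric.ball (0 : E3) (2 * R), ‖csysP A B a1 a x‖ ^ 2 with hK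
  have hK0 : 0 ≤ K := Finset.sum_nonneg fun a _ => integral_nonneg fun _ => by positivity
  -- the exact corrections
  set F : ℝ → Fin 4 → E3 → ℂ := fun t a => Set.indicator (Metric.ball (0 : E3) (2 * R))
    (fun x => - (ez (t : ℂ) ζ x * ((t : ℂ)⁻¹ * csysP A B a1 a x))) with hF
  have hex : ∀ t : ℝ, T ≤ t → ∃ (Φ : ℕ → Fin 4 → E3 → ℂ) (X : Fin 4 → E3 → ℂ)
        (X1 : Fin 3 → Fin 4 → E3 → ℂ) (X2 : Fin 3 → Fin 3 → Fin 4 → E3 → ℂ),
        (∀ k a, ContDiff ℝ ∞ (Φ k a)) ∧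
        (∀ a, MemLp (X a) 2 (volume.restrict (Metric.ball (0 : E3) R))) ∧
        (∀ i a, MemLp (X1 i a) 2 (volume.restrict (Metric.ball (0 : E3) R))) ∧
        (∀ i j a, MemLp (X2 i j a) 2 (volume.restrict (Metric.ball (0 : E3) R))) ∧
        (∀ a, Tendsto (fun k => ∫ x in Metric.ball (0 : E3) R,
          ‖Φ k a x - X a x‖ ^ 2) atTop (𝓝 0)) ∧
        (∀ i a, Tendsto (fun k => ∫ x in Metric.ball (0 : E3) R,
          ‖pd i (Φ k a) x - X1 i a x‖ ^ 2) atTop (𝓝 0)) ∧
        (∀ i j a, Tendsto (fun k => ∫ x in Metric.ball (0 : E3) R,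
          ‖pd i (pd j (Φ k a)) x - X2 i j a x‖ ^ 2) atTop (𝓝 0)) ∧
        (∀ a, Tendsto (fun k => ∫ x in Metric.ball (0 : E3) R,
          ‖csysP A B (Φ k) a x - F t a x‖ ^ 2) atTop (𝓝 0)) ∧
        (∀ a, ‖t • reV ζ‖ ^ 2 * ∫ x in Metric.ball (0 : E3) R,
          Real.exp (-2 * ⟪t • reV ζ, x⟫_ℝ) * ‖X a x‖ ^ 2 ≤ C * (K / t ^ 2)) ∧
        (∀ i a, ∫ x in Metric.ball (0 : E3) R,
          Real.exp (-2 * ⟪t • reV ζ, x⟫_ℝ) * ‖X1 i a x‖ ^ 2 ≤ C * (K / t ^ 2)) ∧
        (∀ i j a, ∫ x in Metric.ball (0 : E3) R,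
          Real.exp (-2 * ⟪t • reV ζ, x⟫_ℝ) * ‖X2 i j a x‖ ^ 2
            ≤ C * ‖t • reV ζ‖ ^ 2 * (K / t ^ 2)) := by
    intro t ht
    have ht0 : 0 < t := hT0.trans_le ht
    have hnt : ‖t • reV ζ‖ = t * ρ := by rw [norm_smul, Real.norm_of_nonneg ht0.le]
    refine hsol (t • reV ζ) (F t) (K / t ^ 2) ?_ ?_ ?_
    · rw [hnt]
      have : τ₀ / ρ ≤ t := (le_max_right _ _).trans ht
      rwa [div_le_iff₀ hρ0] at this
    · intro a
      rw [hF]
      simp only
      rw [memLp_indicator_iff_restrict Metric.isOpen_ball.measurableSet]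
      exact memLp_cont Metric.isBounded_ball
        (((ez_contDiff (t : ℂ) ζ).continuous.mul (continuous_const.mul (hcs a).continuous)).neg)
    · rw [hK, Finset.sum_div]
      refine le_of_eq (Finset.sum_congr rfl fun a _ => ?_)
      rw [← integral_div]
      refine setIntegral_congr_fun Metric.isOpen_ball.measurableSet fun x hx => ?_
      simp only [hF, Set.indicator_of_mem hx, norm_neg, norm_mul, mul_pow, norm_inv,
        Complex.norm_real, Real.norm_of_nonneg ht0.le]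
      rw [← mul_assoc, norm_ez]
      field_simp
  choose! Φ X X1 X2 hΦs hXm hX1m hX2m hX hX1 hX2 hP bX bX1 bX2 using hex
  -- total fields
  set ψ : ℝ → Fin 4 → E3 → ℂ := fun t => psi ζ (t : ℂ) a0 a1 with hψ
  have hψs : ∀ t a, ContDiff ℝ ∞ (ψ t a) := fun t a => psi_smooth ha0s ha1s a
  set Y : ℝ → Fin 4 → E3 → ℂ := fun t a x => ψ t a x + X t a x with hY
  set Y1 : ℝ → Fin 3 → Fin 4 → E3 → ℂ := fun t i a x => pd i (ψ t a) x + X1 t i a x with hY1
  set Y2 : ℝ → Fin 3 → Fin 3 → Fin 4 → E3 → ℂ := fun t i j a x =>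
    pd i (pd j (ψ t a)) x + X2 t i j a x with hY2
  have hexact : ∀ t, T ≤ t → _ := fun t ht =>
    exact_sol (Θ := fun k a x => ψ t a x + Φ t k a x) (Y := Y t) (Y1 := Y1 t) (Y2 := Y2 t)
      (R := R) hl hm h0 h2
      (fun k a => (hψs t a).add (hΦs t ht k a))
      (fun a => (LC.const (hψs t a).continuous).add
        ⟨fun k => memLp_cont ballBdd (hΦs t ht k a).continuous, hXm t ht a, hX t ht a⟩)
      (fun i a => ((LC.const (pd_contDiff_infty (hψs t a) i).continuous).add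
        ⟨fun k => memLp_cont ballBdd (pd_contDiff_infty (hΦs t ht k a) i).continuous,
          hX1m t ht i a, hX1 t ht i a⟩).congr_fun
          (fun k x => (pdc_add (hψs t a) (hΦs t ht k a) i x).symm) (fun x => rfl))
      (fun i j a => ((LC.const (pd_contDiff_infty (pd_contDiff_infty (hψs t a) j) i).continuous).add
        ⟨fun k => memLp_cont ballBdd
          (pd_contDiff_infty (pd_contDiff_infty (hΦs t ht k a) j) i).continuous,
          hX2m t ht i j a, hX2 t ht i j a⟩).congr_fun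
          (fun k x => by
            have e : pd j (fun y => ψ t a y + Φ t k a y)
                = fun y => pd j (ψ t a) y + pd j (Φ t k a) y := by
              funext y; exact pdc_add (hψs t a) (hΦs t ht k a) j y
            rw [e, pdc_add (pd_contDiff_infty (hψs t a) j)
              (pd_contDiff_infty (hΦs t ht k a) j)]) (fun x => rfl))
      (fun a => by
        have hFm : MemLp (F t a) 2 (volume.restrict (Metric.ball (0 : E3) R)) := by
          have : MemLp (F t a) 2 (volume : Measure E3) := by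
            rw [hF]
            simp only
            rw [memLp_indicator_iff_restrict Metric.isOpen_ball.measurableSet]
            exact memLp_cont Metric.isBounded_ball (((ez_contDiff (t : ℂ) ζ).continuous.mul
              (continuous_const.mul (hcs a).continuous)).neg)
          exact this.mono_measure Measure.restrict_le_self
        have l1 : LC R (fun k => csysP A B (Φ t k) a) (F t a) :=
          ⟨fun k => memLp_cont ballBdd (csysP_smooth hAs hBs (hΦs t ht k) a).continuous,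
            hFm, hP t ht a⟩
        have l2 := (LC.const (R := R) (csysP_smooth hAs hBs (hψs t) a).continuous).add l1
        refine (l2.congr_lim (g' := fun _ => 0) fun x hx => ?_).congr fun k x _ => ?_
        · have ht0 : 0 < t := hT0.trans_le ht
          have hx4 : ‖x‖ < 4 * R := by
            rw [Metric.mem_ball, dist_zero_right] at hx
            linarith
          have hx2 : x ∈ Metric.ball (0 : E3) (2 * R) := by
            rw [Metric.mem_ball, dist_zero_right] at hx ⊢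
            linarith
          have key := csysP_psi (A := A) (B := B) hζ (t := (t : ℂ))
            (by exact_mod_cast ht0.ne') ha0s ha1s a x (hR0 x hx4 a) (hR1 x hx4 a)
          simp only [hψ, hF, Set.indicator_of_mem hx2]
          rw [key]
          ring
        · exact (csysP_add A B (hψs t) (hΦs t ht k) a x).symm)
  -- bounds of the corrections
  have hs2 : ∀ t, T ≤ t → (0 : ℝ) ≤ 1 / t ^ 2 := fun t _ => by positivity
  have hnt : ∀ t, T ≤ t → ‖t • reV ζ‖ = t * ρ := fun t ht => by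
    rw [norm_smul, Real.norm_of_nonneg (hT0.trans_le ht).le]
  have ubX : ∀ a, UB R T (fun t => 1 / t ^ 2)
      (fun t x => Complex.exp (-((t : ℂ) * zx ζ x)) * X t a x) := by
    intro a
    refine ⟨C * K / ρ ^ 2, by (clear * - hC hρ0; positivity), fun t ht => ⟨memLp_wt (hXm t ht a), ?_⟩⟩
    have ht0 : 0 < t := hT0.trans_le ht
    have ht1 : 1 ≤ t := hT1.trans ht
    rw [int_wt]
    have h := bX t ht a
    rw [hnt t ht] at h
    have hI : 0 ≤ ∫ x in Metric.ball (0 : E3) R,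
        Real.exp (-2 * ⟪t • reV ζ, x⟫_ℝ) * ‖X t a x‖ ^ 2 :=
      integral_nonneg fun _ => by positivity
    set I := ∫ x in Metric.ball (0 : E3) R, Real.exp (-2 * ⟪t • reV ζ, x⟫_ℝ) * ‖X t a x‖ ^ 2
    have h5 : ρ ^ 2 * I ≤ (t * ρ) ^ 2 * I := by
      rw [mul_pow]
      have : 1 ≤ t ^ 2 := one_le_pow₀ ht1
      linarith only [mul_nonneg (sub_nonneg.2 this) (sub_nonneg.2 (mul_nonneg (sq_nonneg ρ) hI))]
    have h6 : ρ ^ 2 * I ≤ C * (K / t ^ 2) := h5.trans h
    calc I = ρ ^ 2 * I / ρ ^ 2 := by field_simp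
      _ ≤ C * (K / t ^ 2) / ρ ^ 2 := by gcongr
      _ = C * K / ρ ^ 2 * (1 / t ^ 2) := by ring
  have ubX1 : ∀ i a, UB R T (fun t => 1 / t ^ 2)
      (fun t x => Complex.exp (-((t : ℂ) * zx ζ x)) * X1 t i a x) := by
    intro i a
    refine ⟨C * K, by (clear * - hC; positivity), fun t ht => ⟨memLp_wt (hX1m t ht i a), ?_⟩⟩
    rw [int_wt]
    refine (bX1 t ht i a).trans (le_of_eq ?_)
    ring
  have ubX2 : ∀ i j a, UB R T (fun _ => 1)
      (fun t x => Complex.exp (-((t : ℂ) * zx ζ x)) * X2 t i j a x) := by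
    intro i j a
    refine ⟨C * ρ ^ 2 * K, by (clear * - hC hρ0; positivity), fun t ht => ⟨memLp_wt (hX2m t ht i j a), ?_⟩⟩
    have ht0 : 0 < t := hT0.trans_le ht
    rw [int_wt]
    refine (bX2 t ht i j a).trans (le_of_eq ?_)
    rw [hnt t ht]
    field_simp
  have hmono : ∀ {f : ℝ → E3 → ℂ}, UB R T (fun t => 1 / t ^ 2) f → UB R T (fun _ => 1) f := by
    intro f hf
    refine hf.mono 1 zero_le_one fun t ht => ?_
    have ht1 : 1 ≤ t := hT1.trans ht
    have : 1 ≤ t ^ 2 := one_le_pow₀ ht1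
    rw [mul_one, div_le_one (by positivity)]
    exact this
  have hmf := mf_contDiff hm h0
  have hc1 := c1_smooth hl hm h2
  have hc2 := c2_smooth hl hm h0 h2
  have k0 : Continuous (cc (mf mu)) := (cc_contDiff hmf).continuous
  have k1 : ∀ j, Continuous (cc (pd j (mf mu))) := fun j =>
    (cc_contDiff (pd_contDiff_infty hmf j)).continuous
  have k2 : ∀ i j, Continuous (cc (pd i (pd j (mf mu)))) := fun i j =>
    (cc_contDiff (pd_contDiff_infty (pd_contDiff_infty hmf j) i)).continuous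
  have k3 : Continuous (cc (c1 lam mu)) := (cc_contDiff hc1).continuous
  have k4 : Continuous (cc (c2 lam mu)) := (cc_contDiff hc2).continuous
  have k5 : ∀ l, Continuous (cc (pd l (c1 lam mu))) := fun l =>
    (cc_contDiff (pd_contDiff_infty hc1 l)).continuous
  have k6 : ∀ l, Continuous (cc (pd l (c2 lam mu))) := fun l =>
    (cc_contDiff (pd_contDiff_infty hc2 l)).continuous
  -- amplitudes
  set r : Fin 3 → E3 → ℂ := fun j x => w1 j x + cc (mf mu) x * pd j g1 x
    - cc (pd j (mf mu)) x * g1 x with hr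
  have hrs : ∀ j, ContDiff ℝ ∞ (r j) := fun j =>
    ((hw1 j).add ((cc_contDiff hmf).mul (pd_contDiff_infty hg1 j))).sub
      ((cc_contDiff (pd_contDiff_infty hmf j)).mul hg1)
  set q : E3 → ℂ := fun x => cc (c1 lam mu) x * (∑ i, pd i (w1 i) x)
    + cc (c2 lam mu) x * g1 x with hq
  have hqs : ContDiff ℝ ∞ q :=
    ((cc_contDiff hc1).mul (ContDiff.sum fun i _ => pd_contDiff_infty (hw1 i) i)).add
      ((cc_contDiff hc2).mul hg1)
  have ht0' : ∀ t, T ≤ t → (t : ℂ) ≠ 0 := fun t ht => by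
    exact_mod_cast (hT0.trans_le ht).ne'
  have hwv : ∀ t, T ≤ t → ∀ j, wv (mf mu) (fun b => ψ t b.castSucc) (ψ t (Fin.last 3)) j
      = fun x => ez (t : ℂ) ζ x * (U j x + (t : ℂ)⁻¹ * r j x) := by
    intro t ht j
    funext x
    exact wv_psi (ht0' t ht) hg1 hw0e j x
  have hpψ : ∀ t, T ≤ t → ∀ x, ‖x‖ < 4 * R →
      pp lam mu (ψ t) (fun i a => pd i (ψ t a)) x
        = ez (t : ℂ) ζ x * (d x + (t : ℂ)⁻¹ * q x) := by
    intro t ht x hx
    have e1 : ∀ i : Fin 3, pd i (ψ t i.castSucc) x = ez (t : ℂ) ζ x *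
        ((t : ℂ) * ζ i * w0 i x + ζ i * w1 i x + pd i (w0 i) x + (t : ℂ)⁻¹ * pd i (w1 i) x) := by
      intro i
      have e : ψ t i.castSucc = fun y => ez (t : ℂ) ζ y * (w0 i y + (t : ℂ)⁻¹ * w1 i y) := by
        funext y
        simp only [hψ, psi, ha0, ha1, Fin.snoc_castSucc]
      rw [e]
      exact pd_ez_mul (ht0' t ht) (hw0 i) (hw1 i) i x
    have e2 : ψ t (Fin.last 3) x = ez (t : ℂ) ζ x * ((t : ℂ)⁻¹ * g1 x) := by
      simp only [hψ, psi, ha0, ha1, Fin.snoc_last, zero_add]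
    have e3 : ∑ i : Fin 3, ((t : ℂ) * ζ i * w0 i x + ζ i * w1 i x + pd i (w0 i) x
        + (t : ℂ)⁻¹ * pd i (w1 i) x) = cc (kf lam mu) x * d x
          + (t : ℂ)⁻¹ * ∑ i, pd i (w1 i) x := by
      have z0 := hz0 x hx
      have z1 := hz1 x hx
      simp only [Finset.sum_add_distrib, ← Finset.mul_sum, mul_assoc]
      rw [z0, z1]
      ring
    have e4 : cc (c1 lam mu) x * cc (kf lam mu) x = 1 := by
      unfold cc c1 kf
      rw [← Complex.ofReal_mul]
      have g0 := (h0 x).ne'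
      have g2 := (h2 x).ne'
      rw [show mu x / (lam x + 2 * mu x) * ((lam x + 2 * mu x) / mu x) = 1 by
        rw [div_mul_div_comm, mul_comm]; exact div_self (mul_ne_zero g2 g0)]
      simp
    unfold pp
    simp only [e1, e2, ← Finset.mul_sum]
    rw [e3, hq]
    linear_combination ez (t : ℂ) ζ x * d x * e4
  -- the four families
  have F1 : ∀ j, UB R T (fun t => 1 / t ^ 2) (fun t x =>
      Complex.exp (-((t : ℂ) * zx ζ x)) * uu mu (Y t) (Y1 t) j x - U j x) := by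
    intro j
    have := ((UB.cont (R := R) (hrs j).continuous).inv_t hT0).add
      (((ubX j.castSucc).add ((ubX1 j (Fin.last 3)).mulc k0)).sub
        ((ubX (Fin.last 3)).mulc (k1 j)))
    refine this.congr fun t ht x hx => ?_
    have e1 : uu mu (Y t) (Y1 t) j x = ez (t : ℂ) ζ x * (U j x + (t : ℂ)⁻¹ * r j x)
        + uu mu (X t) (X1 t) j x := by
      rw [← congrFun (hwv t ht j) x, uu_smooth_eq]
      simp only [uu, hY, hY1]
      ring
    rw [e1]
    unfold uu
    have e2 := wt_ez ζ t x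
    push_cast
    rw [one_div]
    linear_combination (-(U j x + (t : ℂ)⁻¹ * r j x)) * e2
  have F2 : ∀ i j, UB R T (fun _ => 1) (fun t x =>
      Complex.exp (-((t : ℂ) * zx ζ x)) * duu mu (Y t) (Y1 t) (Y2 t) i j x
        - t * ζ i * U j x) := by
    intro i j
    have c0 : Continuous fun x => ζ i * r j x + pd i (U j) x :=
      (continuous_const.mul (hrs j).continuous).add (pd_contDiff_infty (hU j) i).continuous
    have := ((UB.cont (R := R) (T := T) c0).add
      (hmono ((UB.cont (R := R) (pd_contDiff_infty (hrs j) i).continuous).inv_t hT0))).add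
      (((hmono (ubX1 i j.castSucc)).add (((hmono (ubX1 j (Fin.last 3))).mulc (k1 i)).add
        ((ubX2 i j (Fin.last 3)).mulc k0))).sub
        (((hmono (ubX (Fin.last 3))).mulc (k2 i j)).add
          ((hmono (ubX1 i (Fin.last 3))).mulc (k1 j))))
    refine this.congr fun t ht x hx => ?_
    have e1 : duu mu (Y t) (Y1 t) (Y2 t) i j x = ez (t : ℂ) ζ x * ((t : ℂ) * ζ i * U j x
        + ζ i * r j x + pd i (U j) x + (t : ℂ)⁻¹ * pd i (r j) x)
        + duu mu (X t) (X1 t) (X2 t) i j x := by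
      have e : pd i (wv (mf mu) (fun b => ψ t b.castSucc) (ψ t (Fin.last 3)) j) x
          = ez (t : ℂ) ζ x * ((t : ℂ) * ζ i * U j x
            + ζ i * r j x + pd i (U j) x + (t : ℂ)⁻¹ * pd i (r j) x) := by
        rw [hwv t ht j]
        exact pd_ez_mul (ht0' t ht) (hU j) (hrs j) i x
      rw [← e, duu_smooth_eq hm h0 (hψs t)]
      simp only [duu, hY, hY1, hY2]
      ring
    rw [e1]
    unfold duu
    have e2 := wt_ez ζ t x
    push_cast
    rw [one_div]
    linear_combination (-((t : ℂ) * ζ i * U j x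
        + ζ i * r j x + pd i (U j) x + (t : ℂ)⁻¹ * pd i (r j) x)) * e2
  have F3 : UB R T (fun t => 1 / t ^ 2) (fun t x =>
      Complex.exp (-((t : ℂ) * zx ζ x)) * pp lam mu (Y t) (Y1 t) x - d x) := by
    have := ((UB.cont (R := R) hqs.continuous).inv_t hT0).add
      (((UB.sum3 fun i => ubX1 i i.castSucc).mulc k3).add ((ubX (Fin.last 3)).mulc k4))
    refine this.congr fun t ht x hx => ?_
    have hx4 : ‖x‖ < 4 * R := by
      rw [Metric.mem_ball, dist_zero_right] at hx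
      linarith
    have e1 : pp lam mu (Y t) (Y1 t) x = ez (t : ℂ) ζ x * (d x + (t : ℂ)⁻¹ * q x)
        + pp lam mu (X t) (X1 t) x := by
      rw [← hpψ t ht x hx4]
      simp only [pp, hY, hY1, Finset.sum_add_distrib]
      ring
    rw [e1]
    unfold pp
    have e2 := wt_ez ζ t x
    push_cast
    rw [one_div, ← Finset.mul_sum]
    linear_combination (-(d x + (t : ℂ)⁻¹ * q x)) * e2
  have F4 : ∀ l, UB R T (fun _ => 1) (fun t x =>
      Complex.exp (-((t : ℂ) * zx ζ x)) * dpp lam mu (Y t) (Y1 t) (Y2 t) l x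
        - t * ζ l * d x) := by
    intro l
    have c0 : Continuous fun x => ζ l * q x + pd l d x :=
      (continuous_const.mul hqs.continuous).add (pd_contDiff_infty hd l).continuous
    have := ((UB.cont (R := R) (T := T) c0).add
      (hmono ((UB.cont (R := R) (pd_contDiff_infty hqs l).continuous).inv_t hT0))).add
      ((((UB.sum3 fun i => hmono (ubX1 i i.castSucc)).mulc (k5 l)).add
        ((UB.sum3 fun i => ubX2 l i i.castSucc).mulc k3)).add
        (((hmono (ubX (Fin.last 3))).mulc (k6 l)).add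
          ((hmono (ubX1 l (Fin.last 3))).mulc k4)))
    refine this.congr fun t ht x hx => ?_
    have hx4 : ‖x‖ < 4 * R := by
      rw [Metric.mem_ball, dist_zero_right] at hx
      linarith
    have e1 : dpp lam mu (Y t) (Y1 t) (Y2 t) l x = ez (t : ℂ) ζ x * ((t : ℂ) * ζ l * d x
        + ζ l * q x + pd l d x + (t : ℂ)⁻¹ * pd l q x)
        + dpp lam mu (X t) (X1 t) (X2 t) l x := by
      have e : pd l (pp lam mu (ψ t) (fun i a => pd i (ψ t a))) x
          = ez (t : ℂ) ζ x * ((t : ℂ) * ζ l * d x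
            + ζ l * q x + pd l d x + (t : ℂ)⁻¹ * pd l q x) := by
        have ho : IsOpen {x : E3 | ‖x‖ < 4 * R} := isOpen_lt continuous_norm continuous_const
        rw [pd_congr_open ho (fun y hy => hpψ t ht y hy) hx4]
        exact pd_ez_mul (ht0' t ht) hd hqs l x
      rw [← e, pd_pp hl hm h0 h2 (hψs t)]
      simp only [dpp, hY, hY1, hY2, Finset.sum_add_distrib]
      ring
    rw [e1]
    unfold dpp
    have e2 := wt_ez ζ t x
    push_cast
    rw [one_div, ← Finset.mul_sum, ← Finset.mul_sum]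
    linear_combination (-((t : ℂ) * ζ l * d x
        + ζ l * q x + pd l d x + (t : ℂ)⁻¹ * pd l q x)) * e2
  obtain ⟨C1, hC1, b1⟩ := UB.common hs2 F1
  obtain ⟨C2, hC2, b2⟩ := UB.common (ι := Fin 3 × Fin 3) (fun _ _ => zero_le_one)
    (fun ij => F2 ij.1 ij.2)
  obtain ⟨C3, hC3, b3⟩ := F3
  obtain ⟨C4, hC4, b4⟩ := UB.common (fun _ _ => zero_le_one) F4
  refine ⟨C1 + C2 + C3 + C4, T, fun t ht => ⟨uu mu (Y t) (Y1 t), duu mu (Y t) (Y1 t) (Y2 t),
    pp lam mu (Y t) (Y1 t), dpp lam mu (Y t) (Y1 t) (Y2 t), ?_⟩⟩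
  obtain ⟨x1, x2, x3, x4, x5, x6⟩ := hexact t ht
  have ht0 : 0 < t := hT0.trans_le ht
  refine ⟨x1, x2, x3, x4, x5, x6, fun j => ?_, fun i j => ?_, ?_, fun i => ?_⟩
  · refine (b1 j t ht).trans ?_
    rw [mul_one_div]
    gcongr
    linarith
  · refine (b2 (i, j) t ht).trans ?_
    linarith
  · refine ((b3 t ht).2).trans ?_
    rw [mul_one_div]
    gcongr
    linarith
  · refine (b4 i t ht).trans ?_
    linarith

end Vale.Agent.P136.CG1

/-- CGO1: exact complex geometrical optics solutions. -/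
theorem Vale.Agent.P136.CGO1_of (hAS : Vale.Agent.P136.AS_statement)
    (hS : Vale.Agent.P136.S1E_statement) : Vale.Agent.P136.CGO1_statement :=
  Vale.Agent.P136.CG1.main (Vale.Agent.P136.ASc_of hAS) hS
end
end

section

section

namespace Vale.Agent.P136

theorem CGO1 : CGO1_statement := CGO1_of AS S1E

end Vale.Agent.P136
end
end

section

section

open MeasureTheory Filter Topology
open scoped ContDiff InnerProductSpace

namespace Vale.Agent.P136.TL

/-- smooth complex valued functions on `ℝ³`. -/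
def Sm : Subalgebra ℂ (E3 → ℂ) where
  carrier := {f | ContDiff ℝ ∞ f}
  mul_mem' := by
    intro a b ha hb
    simp only [Set.mem_ofPred_eq] at ha hb ⊢
    exact ha.mul hb
  add_mem' := by
    intro a b ha hb
    simp only [Set.mem_ofPred_eq] at ha hb ⊢
    exact ha.add hb
  algebraMap_mem' := by
    intro r
    simp only [Set.mem_ofPred_eq]
    exact contDiff_const

lemma sm_cd (f : Sm) : ContDiff ℝ ∞ (f : E3 → ℂ) := f.2

lemma sm_cont (f : Sm) : Continuous (f : E3 → ℂ) := (sm_cd f).continuous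

lemma sm_diffAt (f : Sm) (x : E3) : DifferentiableAt ℝ (f : E3 → ℂ) x :=
  ((sm_cd f).differentiable (by simp)) x

/-- partial derivatives on smooth functions. -/
noncomputable def P (i : Fin 3) : Sm →ₗ[ℂ] Sm where
  toFun f := ⟨pd i (f : E3 → ℂ), pd_contDiff_infty (sm_cd f) i⟩
  map_add' f g := by
    apply Subtype.ext
    funext x
    simp only [pd, Subalgebra.coe_add, Pi.add_apply]
    rw [fderiv_add (sm_diffAt f x) (sm_diffAt g x)]
    rfl
  map_smul' c f := by
    apply Subtype.ext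
    funext x
    simp only [pd, RingHom.id_apply, Subalgebra.coe_smul, Pi.smul_apply]
    rw [fderiv_const_smul (sm_diffAt f x) c]
    rfl

lemma P_coe (i : Fin 3) (f : Sm) : ((P i f : Sm) : E3 → ℂ) = pd i (f : E3 → ℂ) := rfl

lemma P_apply (i : Fin 3) (f : Sm) (x : E3) : ((P i f : Sm) : E3 → ℂ) x = pd i (f : E3 → ℂ) x := rfl

lemma P_mul (i : Fin 3) (f g : Sm) : P i (f * g) = P i f * g + f * P i g := by
  apply Subtype.ext
  funext x
  simp only [P_apply, Subalgebra.coe_mul, Subalgebra.coe_add, Pi.add_apply, Pi.mul_apply, pd]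
  rw [fderiv_mul (sm_diffAt f x) (sm_diffAt g x)]
  simp
  ring

lemma P_comm (i j : Fin 3) (f : Sm) : P i (P j f) = P j (P i f) := by
  apply Subtype.ext
  exact pd_comm ((sm_cd f).of_le (by norm_cast)) i j

lemma P_algebraMap (i : Fin 3) (c : ℂ) : P i (algebraMap ℂ Sm c) = 0 := by
  apply Subtype.ext
  funext x
  simp only [P_apply, pd]
  have : ((algebraMap ℂ Sm c : Sm) : E3 → ℂ) = fun _ => c := rfl
  rw [this]
  simp

lemma P_one (i : Fin 3) : P i (1 : Sm) = 0 := by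
  have := P_algebraMap i 1
  simpa using this

/-- smooth real functions as elements of `Sm`. -/
noncomputable def ofR (a : E3 → ℝ) (ha : ContDiff ℝ ∞ a) : Sm :=
  ⟨cc a, Complex.ofRealCLM.contDiff.comp ha⟩

lemma ofR_apply (a : E3 → ℝ) (ha : ContDiff ℝ ∞ a) (x : E3) :
    (ofR a ha : E3 → ℂ) x = (a x : ℂ) := rfl

lemma ofR_coe (a : E3 → ℝ) (ha : ContDiff ℝ ∞ a) : (ofR a ha : E3 → ℂ) = cc a := rfl

/-- `ζ · ∇`. -/
noncomputable def DD (ζ : Fin 3 → ℂ) : Sm →ₗ[ℂ] Sm := ∑ i, ζ i • P i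

lemma DD_apply (ζ : Fin 3 → ℂ) (f : Sm) : DD ζ f = ∑ i, ζ i • P i f := by
  simp [DD]

lemma DD_mul (ζ : Fin 3 → ℂ) (f g : Sm) : DD ζ (f * g) = DD ζ f * g + f * DD ζ g := by
  simp only [DD_apply, P_mul, smul_add, Finset.sum_add_distrib, Finset.sum_mul, Finset.mul_sum,
    smul_mul_assoc, mul_smul_comm]

lemma DD_coe (ζ : Fin 3 → ℂ) (f : Sm) : ((DD ζ f : Sm) : E3 → ℂ) = Dz ζ (f : E3 → ℂ) := by
  funext x
  rw [DD_apply]
  simp only [Dz, Fin.sum_univ_three]
  rfl

/-- Laplacian. -/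
noncomputable def LL : Sm →ₗ[ℂ] Sm := ∑ i, (P i) ∘ₗ (P i)

lemma LL_apply (f : Sm) : LL f = ∑ i, P i (P i f) := by simp [LL]

lemma cont_memLp_restrict {Ω : Set E3} (hb : Bornology.IsBounded Ω) {f : E3 → ℂ}
    (hf : Continuous f) : MemLp f 2 (volume.restrict Ω) := by
  obtain ⟨R, hR⟩ := hb.subset_closedBall 0
  have hc : IsCompact (Metric.closedBall (0 : E3) R) := isCompact_closedBall _ _
  have h1 : MemLp f 2 (volume.restrict (Metric.closedBall (0 : E3) R)) := by
    have : IsFiniteMeasure (volume.restrict (Metric.closedBall (0 : E3) R)) :=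
      ⟨by rw [Measure.restrict_apply_univ]; exact hc.measure_lt_top⟩
    obtain ⟨M, hM⟩ := hc.exists_bound_of_continuousOn hf.continuousOn
    refine MemLp.of_bound hf.aestronglyMeasurable M ?_
    filter_upwards [ae_restrict_mem measurableSet_closedBall] with x hx using hM x hx
  exact h1.mono_measure (Measure.restrict_mono hR le_rfl)

lemma tm_int {Ω : Set E3} (hb : Bornology.IsBounded Ω) {w : E3 → ℂ}
    (hw : MemLp w 2 (volume.restrict Ω)) (f : Sm) :
    Integrable (fun x => w x * (f : E3 → ℂ) x) (volume.restrict Ω) :=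
  hw.integrable_mul (cont_memLp_restrict hb (sm_cont f))

/-- pairing with an `L²` function on a bounded set. -/
noncomputable def Tm (Ω : Set E3) (hb : Bornology.IsBounded Ω) (w : E3 → ℂ)
    (hw : MemLp w 2 (volume.restrict Ω)) : Sm →ₗ[ℂ] ℂ where
  toFun f := ∫ x in Ω, w x * (f : E3 → ℂ) x
  map_add' f g := by
    rw [← integral_add (tm_int hb hw f) (tm_int hb hw g)]
    congr 1
    funext x
    simp only [Subalgebra.coe_add, Pi.add_apply]
    ring
  map_smul' c f := by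
    rw [RingHom.id_apply, smul_eq_mul, ← integral_const_mul]
    congr 1
    funext x
    simp only [Subalgebra.coe_smul, Pi.smul_apply, smul_eq_mul]
    ring

lemma Tm_apply {Ω : Set E3} (hb : Bornology.IsBounded Ω) {w : E3 → ℂ}
    (hw : MemLp w 2 (volume.restrict Ω)) (f : Sm) :
    Tm Ω hb w hw f = ∫ x in Ω, w x * (f : E3 → ℂ) x := rfl

/-- smooth functions vanishing on the boundary. -/
def IO (Ω : Set E3) : Ideal Sm where
  carrier := {f | ∀ x ∈ frontier Ω, (f : E3 → ℂ) x = 0}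
  add_mem' := by
    intro a b ha hb x hx
    simp only [Set.mem_ofPred_eq] at ha hb
    simp [ha x hx, hb x hx]
  zero_mem' := by
    intro x _
    rfl
  smul_mem' := by
    intro c a ha x hx
    simp only [Set.mem_ofPred_eq] at ha
    simp [ha x hx]

lemma mem_IO {Ω : Set E3} {f : Sm} : f ∈ IO Ω ↔ ∀ x ∈ frontier Ω, (f : E3 → ℂ) x = 0 := Iff.rfl

end Vale.Agent.P136.TL
end
end

section

section

open MeasureTheory Filter Topology
open scoped ContDiff InnerProductSpace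

namespace Vale.Agent.P136.TL

/-! ### Integration by parts identities for abstract linear functionals -/

lemma P10 (f : Sm) : P 1 (P 0 f) = P 0 (P 1 f) := P_comm _ _ _
lemma P20 (f : Sm) : P 2 (P 0 f) = P 0 (P 2 f) := P_comm _ _ _
lemma P21 (f : Sm) : P 2 (P 1 f) = P 1 (P 2 f) := P_comm _ _ _

/-- constants. -/
noncomputable def K (c : ℂ) : Sm := algebraMap ℂ Sm c

lemma smul_eq_K (c : ℂ) (f : Sm) : c • f = K c * f := Algebra.smul_def c f

lemma lin_K (T : Sm →ₗ[ℂ] ℂ) (c : ℂ) (f : Sm) : T (K c * f) = c * T f := by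
  rw [← smul_eq_K, map_smul, smul_eq_mul]

lemma P_K (i : Fin 3) (c : ℂ) : P i (K c) = 0 := P_algebraMap i c

lemma P_two (i : Fin 3) : P i (2 : Sm) = 0 := P_algebraMap i 2

lemma K_apply (c : ℂ) (x : E3) : (K c : E3 → ℂ) x = c := rfl

lemma K_add (a b : ℂ) : K (a + b) = K a + K b := map_add _ a b
lemma K_mul (a b : ℂ) : K (a * b) = K a * K b := map_mul _ a b
lemma K_zero : K 0 = 0 := map_zero _
lemma K_one : K 1 = 1 := map_one _

lemma DD_K (ζ : Fin 3 → ℂ) (f : Sm) : DD ζ f = ∑ i, K (ζ i) * P i f := by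
  rw [DD_apply]
  simp only [smul_eq_K]

section abstract

variable (T : Fin 3 → (Sm →ₗ[ℂ] ℂ)) (T' : Fin 3 → Fin 3 → (Sm →ₗ[ℂ] ℂ)) (S : Ideal Sm)

/-- the elastic form as a functional: `T' i j` is the pairing with `∂ᵢ uⱼ`. -/
noncomputable def Cf (l m : Sm) (g : Fin 3 → Sm) : ℂ :=
  (∑ i, T' i i (l * ∑ j, P j (g j))) + ∑ i, ∑ j, T' i j (m * (P i (g j) + P j (g i)))

/-- integration by parts on the ideal `S`. -/
def IBP : Prop := ∀ i j, ∀ η ∈ S, T j (P i η) = - T' i j η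

variable {T T' S}

lemma IBP.sum (h : IBP T T' S) (α : Fin 3 → Fin 3 → Sm) (hα : ∀ i j, α i j ∈ S) :
    ∑ i, ∑ j, T' i j (α i j) = - ∑ j, T j (∑ i, P i (α i j)) := by
  rw [Finset.sum_comm, ← Finset.sum_neg_distrib]
  apply Finset.sum_congr rfl
  intro j _
  rw [map_sum, ← Finset.sum_neg_distrib]
  apply Finset.sum_congr rfl
  intro i _
  rw [h i j _ (hα i j), neg_neg]

lemma diag_sum (A : Sm) :
    ∑ i, T' i i A = ∑ i, ∑ j, T' i j (if i = j then A else 0) := by
  apply Finset.sum_congr rfl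
  intro i _
  rw [Finset.sum_eq_single i]
  · simp
  · intro j _ hj
    rw [if_neg (Ne.symm hj), map_zero]
  · simp

lemma Cf_eq (l m : Sm) (g : Fin 3 → Sm) :
    Cf T' l m g = ∑ i, ∑ j, T' i j ((if i = j then l * ∑ k, P k (g k) else 0)
      + m * (P i (g j) + P j (g i))) := by
  unfold Cf
  rw [diag_sum, ← Finset.sum_add_distrib]
  apply Finset.sum_congr rfl
  intro i _
  rw [← Finset.sum_add_distrib]
  apply Finset.sum_congr rfl
  intro j _
  rw [map_add]

lemma S_ite {S : Ideal Sm} {p : Prop} [Decidable p] {a : Sm} (ha : a ∈ S) :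
    (if p then a else 0) ∈ S := by
  split_ifs
  · exact ha
  · exact S.zero_mem

/-- test fields which are gradients. -/
lemma Cf_grad (h : IBP T T' S) (l m φ : Sm) (hm : m ∈ S) (hPm : ∀ i, P i m ∈ S) :
    Cf T' l m (fun j => P j φ) =
      (∑ i, T' i i ((l + 2 * m) * LL φ + 2 * ∑ j, P j m * P j φ))
        - ∑ i, ∑ j, T' i j (2 * (P j m * P i φ)) := by
  have key := h.sum (fun i j => m * (P i (P j φ) + P j (P i φ)) + 2 * (P j m * P i φ)
      - (if i = j then 2 * m * LL φ + 2 * ∑ k, P k m * P k φ else 0)) (by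
    intro i j
    apply S.sub_mem
    · apply S.add_mem
      · exact S.mul_mem_right _ hm
      · exact S.mul_mem_left _ (S.mul_mem_right _ (hPm j))
    · apply S_ite
      apply S.add_mem
      · exact S.mul_mem_right _ (S.mul_mem_left _ hm)
      · apply S.mul_mem_left
        exact S.sum_mem fun k _ => S.mul_mem_right _ (hPm k))
  have h0 : ∀ j, ∑ i, P i (m * (P i (P j φ) + P j (P i φ)) + 2 * (P j m * P i φ)
      - (if i = j then 2 * m * LL φ + 2 * ∑ k, P k m * P k φ else 0)) = 0 := by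
    intro j
    fin_cases j <;>
    · simp [Fin.sum_univ_three, P_mul, LL_apply, P10, P20, P21, P_two]
      ring
  simp only [h0, map_zero, Finset.sum_const_zero, neg_zero] at key
  rw [Cf_eq, diag_sum, ← sub_eq_zero, ← key]
  rw [← sub_eq_zero]
  simp only [← Finset.sum_sub_distrib, ← map_sub]
  apply Finset.sum_eq_zero
  intro i _
  apply Finset.sum_eq_zero
  intro j _
  convert map_zero (T' i j) using 2
  by_cases hij : i = j
  · simp only [hij, if_true, LL_apply]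
    ring
  · simp only [hij, if_false]
    ring

/-- test fields with an exponential factor. -/
lemma Cf_exp (h : IBP T T' S) (l m e : Sm) (hm : m ∈ S) (t : ℂ) (ζ : Fin 3 → ℂ)
    (hζ : dot ζ ζ = 0) (he : ∀ i, P i e = -(K t * K (ζ i) * e)) (ψ : Fin 3 → Sm) :
    Cf T' l m (fun j => e * ψ j) =
      (∑ i, T' i i (e * (l * ∑ k, P k (ψ k))))
        - t * (∑ i, T' i i (e * ((l + m) * ∑ k, K (ζ k) * ψ k)))
        - (∑ j, T j (e * (∑ i, P i m * (P i (ψ j) + P j (ψ i))
            + m * (LL (ψ j) + P j (∑ k, P k (ψ k))))))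
        + t * ∑ j, T j (e * (2 * m * DD ζ (ψ j) + DD ζ m * ψ j - P j m * (∑ k, K (ζ k) * ψ k)
            + K (ζ j) * ∑ k, P k (m * ψ k))) := by
  have hζ' : K (ζ 0) * K (ζ 0) + K (ζ 1) * K (ζ 1) + K (ζ 2) * K (ζ 2) = 0 := by
    have := congrArg K hζ
    simpa only [dot, Fin.sum_univ_three, K_add, K_mul, K_zero] using this
  have key := h.sum (fun i j => m * (P i (e * ψ j) + P j (e * ψ i))
      + (if i = j then K t * e * m * ∑ k, K (ζ k) * ψ k else 0)) (by
    intro i j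
    apply S.add_mem
    · exact S.mul_mem_right _ hm
    · apply S_ite
      exact S.mul_mem_right _ (S.mul_mem_left _ hm))
  have h0 : ∀ j, ∑ i, P i (m * (P i (e * ψ j) + P j (e * ψ i))
      + (if i = j then K t * e * m * ∑ k, K (ζ k) * ψ k else 0)) =
      e * (∑ i, P i m * (P i (ψ j) + P j (ψ i))
            + m * (LL (ψ j) + P j (∑ k, P k (ψ k))))
      - K t * (e * (2 * m * DD ζ (ψ j) + DD ζ m * ψ j - P j m * (∑ k, K (ζ k) * ψ k)
            + K (ζ j) * ∑ k, P k (m * ψ k))) := by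
    intro j
    fin_cases j
    · simp [Fin.sum_univ_three, P_mul, LL_apply, P10, P20, P_K, he, DD_K]
      linear_combination (m * e * K t * K t * ψ 0) * hζ'
    · simp [Fin.sum_univ_three, P_mul, LL_apply, P10, P21, P_K, he, DD_K]
      linear_combination (m * e * K t * K t * ψ 1) * hζ'
    · simp [Fin.sum_univ_three, P_mul, LL_apply, P20, P21, P_K, he, DD_K]
      linear_combination (m * e * K t * K t * ψ 2) * hζ'
  simp only [h0, map_sub, lin_K] at key
  rw [Finset.sum_sub_distrib, ← Finset.mul_sum] at key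
  have e1 : ∀ i j, T' i j ((if i = j then l * ∑ k, P k (e * ψ k) else 0)
      + m * (P i (e * ψ j) + P j (e * ψ i))) =
      T' i j (m * (P i (e * ψ j) + P j (e * ψ i))
        + (if i = j then K t * e * m * ∑ k, K (ζ k) * ψ k else 0))
      + T' i j (if i = j then e * (l * ∑ k, P k (ψ k))
          - K t * (e * ((l + m) * ∑ k, K (ζ k) * ψ k)) else 0) := by
    intro i j
    rw [← map_add]
    congr 1
    by_cases hij : i = j
    · simp only [hij, if_true]
      simp only [P_mul, he, Fin.sum_univ_three]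
      ring
    · simp only [hij, if_false]
      ring
  rw [Cf_eq]
  simp only [e1, Finset.sum_add_distrib]
  rw [← diag_sum, key]
  simp only [map_sub, lin_K, Finset.sum_sub_distrib, ← Finset.mul_sum]
  ring

/-- gradient test fields with an exponential factor. -/
lemma Cf_grad_exp (h : IBP T T' S) (l m e : Sm) (hm : m ∈ S) (hPm : ∀ i, P i m ∈ S) (t : ℂ)
    (ζ : Fin 3 → ℂ) (hζ : dot ζ ζ = 0) (he : ∀ i, P i e = -(K t * K (ζ i) * e)) (χ : Sm) :
    Cf T' l m (fun j => P j (e * χ)) =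
      (∑ i, T' i i (e * ((l + 2 * m) * LL χ + 2 * ∑ j, P j m * P j χ)))
        - t * (∑ i, T' i i (e * (2 * (l + 2 * m) * DD ζ χ + 2 * DD ζ m * χ)))
        + (∑ j, T j (e * (2 * (∑ i, P i (P j m) * P i χ + P j m * LL χ))))
        - t * ∑ j, T j (e * (2 * (DD ζ (P j m) * χ + 2 * P j m * DD ζ χ))) := by
  have hζ' : K (ζ 0) * K (ζ 0) + K (ζ 1) * K (ζ 1) + K (ζ 2) * K (ζ 2) = 0 := by
    have := congrArg K hζ
    simpa only [dot, Fin.sum_univ_three, K_add, K_mul, K_zero] using this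
  have key := h.sum (fun i j => 2 * (P j m * P i (e * χ))) (by
    intro i j
    exact S.mul_mem_left _ (S.mul_mem_right _ (hPm j)))
  have h0 : ∀ j, ∑ i, P i (2 * (P j m * P i (e * χ))) =
      e * (2 * (∑ i, P i (P j m) * P i χ + P j m * LL χ))
      - K t * (e * (2 * (DD ζ (P j m) * χ + 2 * P j m * DD ζ χ))) := by
    intro j
    fin_cases j
    · simp [Fin.sum_univ_three, P_mul, LL_apply, P10, P20, P_K, he, DD_K, P_two]
      linear_combination (2 * P 0 m * e * K t * K t * χ) * hζ'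
    · simp [Fin.sum_univ_three, P_mul, LL_apply, P21, P_K, he, DD_K, P_two]
      linear_combination (2 * P 1 m * e * K t * K t * χ) * hζ'
    · simp [Fin.sum_univ_three, P_mul, LL_apply, P_K, he, DD_K, P_two]
      linear_combination (2 * P 2 m * e * K t * K t * χ) * hζ'
  have h1 : (l + 2 * m) * LL (e * χ) + 2 * ∑ j, P j m * P j (e * χ) =
      e * ((l + 2 * m) * LL χ + 2 * ∑ j, P j m * P j χ)
      - K t * (e * (2 * (l + 2 * m) * DD ζ χ + 2 * DD ζ m * χ)) := by
    simp [Fin.sum_univ_three, P_mul, LL_apply, P_K, he, DD_K]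
    linear_combination ((l + 2 * m) * e * K t * K t * χ) * hζ'
  rw [Cf_grad h l m (e * χ) hm hPm, key]
  simp only [h0, h1, map_sub, lin_K, Finset.sum_sub_distrib, ← Finset.mul_sum]
  ring

/-- divergence relation with an exponential factor. -/
lemma zdot (h : IBP T T' S) (e : Sm) (t : ℂ) (ζ : Fin 3 → ℂ)
    (he : ∀ i, P i e = -(K t * K (ζ i) * e)) (η : Sm) (hη : e * η ∈ S) :
    t * ∑ j, ζ j * T j (e * η) = (∑ j, T' j j (e * η)) + ∑ j, T j (e * P j η) := by
  have h1 : ∀ j, T j (P j (e * η)) = - T' j j (e * η) := fun j => h j j _ hη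
  have h2 : ∀ j, P j (e * η) = e * P j η - K t * (K (ζ j) * (e * η)) := by
    intro j
    rw [P_mul, he]
    ring
  simp only [h2, map_sub, lin_K] at h1
  rw [Finset.mul_sum, ← Finset.sum_add_distrib]
  apply Finset.sum_congr rfl
  intro j _
  linear_combination - h1 j

end abstract

section limits

lemma lim_aux {F : Filter ℕ} [F.NeBot] {t x y x' y' : ℕ → ℂ} {X Y X' Y' : ℂ}
    (ht : Tendsto (fun n => (t n)⁻¹) F (𝓝 0)) (ht0 : ∀ᶠ n in F, t n ≠ 0)
    (hx : Tendsto x F (𝓝 X)) (hy : Tendsto y F (𝓝 Y)) (hx' : Tendsto x' F (𝓝 X'))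
    (hy' : Tendsto y' F (𝓝 Y')) (h : ∀ᶠ n in F, x n + t n * y n = x' n + t n * y' n) :
    Y = Y' := by
  have h1 : Tendsto (fun n => (t n)⁻¹ * x n + y n) F (𝓝 (0 * X + Y)) := (ht.mul hx).add hy
  have h2 : Tendsto (fun n => (t n)⁻¹ * x' n + y' n) F (𝓝 (0 * X' + Y')) := (ht.mul hx').add hy'
  have h3 : (fun n => (t n)⁻¹ * x n + y n) =ᶠ[F] (fun n => (t n)⁻¹ * x' n + y' n) := by
    filter_upwards [h, ht0] with n hn h0
    have : (t n)⁻¹ * (x n + t n * y n) = (t n)⁻¹ * (x' n + t n * y' n) := by rw [hn]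
    rw [mul_add, mul_add, ← mul_assoc, ← mul_assoc, inv_mul_cancel₀ h0, one_mul, one_mul] at this
    exact this
  have h4 := tendsto_nhds_unique (h1.congr' h3) h2
  simpa using h4

end limits

end Vale.Agent.P136.TL
end
end

section

section

open MeasureTheory Filter Topology
open scoped ContDiff InnerProductSpace

namespace Vale.Agent.P136.TLBB

open TL

/-! ### The algebraic identities for the source terms -/

section abstract

variable {T : Fin 3 → (Sm →ₗ[ℂ] ℂ)} {T' : Fin 3 → Fin 3 → (Sm →ₗ[ℂ] ℂ)} {Tp : Sm →ₗ[ℂ] ℂ}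
  {Tdp : Fin 3 → (Sm →ₗ[ℂ] ℂ)} {S : Ideal Sm} {l m l1 m1 f0 ρ : Sm}

/-- The source functional. -/
lemma source_eq (hp : ∀ η, Tp η = ∑ i, T' i i η) (hdp : ∀ i, ∀ η ∈ S, Tp (P i η) = - Tdp i η)
    (hE : ∀ η : Fin 3 → Sm, (∀ j, η j ∈ S) → Cf T' l1 m1 η = 0)
    (hf0 : f0 ∈ S) (hl : l ∈ S) (hm : m = f0 * m1) (g : Fin 3 → Sm) :
    Cf T' l m g = - ∑ j, (Tdp j ((l - l1 * f0) * g j) + Tp ((P j l - f0 * P j l1) * g j)
      + ∑ i, (T' i j (m1 * P i f0 * g j) + T' j i (m1 * P i f0 * g j))) := by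
  have h0 := hE (fun j => f0 * g j) (fun j => S.mul_mem_right _ hf0)
  have e1 : Cf T' l m g = Cf T' l m g - Cf T' l1 m1 (fun j => f0 * g j) := by
    rw [h0, sub_zero]
  have k : ∀ j, (l - l1 * f0) * g j ∈ S := fun j =>
    S.mul_mem_right _ (S.sub_mem hl (S.mul_mem_left _ hf0))
  have d : ∀ j, Tdp j ((l - l1 * f0) * g j) = - Tp (P j ((l - l1 * f0) * g j)) := by
    intro j
    rw [hdp j _ (k j), neg_neg]
  simp only [d]
  have e2 : ∀ j, P j ((l - l1 * f0) * g j) - (P j l - f0 * P j l1) * g j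
      = l * P j (g j) - l1 * P j (f0 * g j) := by
    intro j
    rw [P_mul, map_sub, P_mul, P_mul]
    ring
  have e3 : ∀ j, (- Tp (P j ((l - l1 * f0) * g j)) + Tp ((P j l - f0 * P j l1) * g j))
      = - Tp (l * P j (g j) - l1 * P j (f0 * g j)) := by
    intro j
    rw [← e2, map_sub]
    ring
  simp only [e3]
  rw [e1]
  unfold Cf
  have e4 : ∀ i j, T' i j (m * (P i (g j) + P j (g i)))
      = T' i j (m1 * (P i (f0 * g j) + P j (f0 * g i)))
        - T' i j (m1 * P i f0 * g j) - T' i j (m1 * P j f0 * g i) := by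
    intro i j
    rw [← map_sub, ← map_sub]
    congr 1
    rw [hm, P_mul, P_mul]
    ring
  simp only [e4]
  simp only [hp, map_sub, Fin.sum_univ_three, mul_add, map_add]
  ring

/-- The weak Laplacian of the displacement. -/
lemma lap_u_eq (hp : ∀ η, Tp η = ∑ i, T' i i η)
    (hdp : ∀ i, ∀ η ∈ S, Tp (P i η) = - Tdp i η)
    (h3 : ∀ i j k, ∀ η ∈ S, T' k j (P i η) = T' i j (P k η))
    (hE : ∀ η : Fin 3 → Sm, (∀ j, η j ∈ S) → Cf T' l1 m1 η = 0)
    (hρ : m1 * ρ = 1) (k : Fin 3) {η : Sm} (hη : η ∈ S) :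
    ∑ i, T' i k (P i η) = Tdp k ((l1 * ρ + 1) * η) + Tp (P k l1 * ρ * η)
      - ∑ i, (T' i k (m1 * P i ρ * η) + T' k i (m1 * P i ρ * η)) := by
  have h0 := hE (fun j => if j = k then ρ * η else 0) (fun j => S_ite (S.mul_mem_left _ hη))
  have e1 : Tdp k ((l1 * ρ + 1) * η) = - Tp (P k (l1 * ρ * η)) - Tp (P k η) := by
    have h1 : (l1 * ρ + 1) * η = l1 * ρ * η + η := by ring
    rw [h1, map_add, hdp k _ (S.mul_mem_left _ hη), hdp k _ hη]
    ring
  have e2 : Tp (P k η) = ∑ j, T' k j (P j η) := by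
    rw [hp]
    exact Finset.sum_congr rfl fun j _ => (h3 j j k η hη).symm
  have e3 : ∀ i j, T' i j (m1 * P j (ρ * η)) = T' i j (P j η) + T' i j (m1 * P j ρ * η) := by
    intro i j
    rw [← map_add]
    congr 1
    rw [P_mul]
    linear_combination P j η * hρ
  have e3' : ∀ i j, T' i j (m1 * P i (ρ * η)) = T' i j (P i η) + T' i j (m1 * P i ρ * η) := by
    intro i j
    rw [← map_add]
    congr 1
    rw [P_mul]
    linear_combination P i η * hρ
  have e4 : Tp (P k (l1 * ρ * η)) = Tp (P k l1 * ρ * η) + Tp (l1 * P k (ρ * η)) := by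
    rw [← map_add]
    congr 1
    rw [mul_assoc, P_mul]
    ring
  rw [e1, e2, e4]
  have e5 : Cf T' l1 m1 (fun j => if j = k then ρ * η else 0)
      = Tp (l1 * P k (ρ * η)) + (∑ i, T' i k (m1 * P i (ρ * η)))
        + ∑ j, T' k j (m1 * P j (ρ * η)) := by
    unfold Cf
    rw [hp]
    fin_cases k <;> simp [Fin.sum_univ_three, mul_add] <;> ring
  rw [e5] at h0
  simp only [e3, e3', Finset.sum_add_distrib] at h0 ⊢
  linear_combination h0

/-- The divergence of the source. -/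
lemma div_source (hI : IBP T T' S) (hp : ∀ η, Tp η = ∑ i, T' i i η)
    (hdp : ∀ i, ∀ η ∈ S, Tp (P i η) = - Tdp i η)
    (h3 : ∀ i j k, ∀ η ∈ S, T' k j (P i η) = T' i j (P k η))
    (hE : ∀ η : Fin 3 → Sm, (∀ j, η j ∈ S) → Cf T' l1 m1 η = 0)
    (hρ : m1 * ρ = 1) (hm : m ∈ S) (hPm : ∀ i, P i m ∈ S) (φ : Sm) :
    Cf T' l m (fun j => P j φ) = Tp ((l + 2 * m) * LL φ)
      - 2 * (∑ j, (Tdp j (P j m * φ) + Tp (P j (P j m) * φ)))
      - 2 * (∑ j, (Tdp j ((l1 * ρ + 1) * (P j m * φ)) + Tp (P j l1 * ρ * (P j m * φ))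
        - ∑ i, (T' i j (m1 * P i ρ * (P j m * φ)) + T' j i (m1 * P i ρ * (P j m * φ)))))
      + 2 * ∑ i, ∑ j, T' i j (P i (P j m) * φ) := by
  rw [Cf_grad hI l m φ hm hPm]
  have k : ∀ j, P j m * φ ∈ S := fun j => S.mul_mem_right _ (hPm j)
  have e1 : ∀ j, Tdp j (P j m * φ) = - Tp (P j (P j m) * φ) - Tp (P j m * P j φ) := by
    intro j
    have h1 := hdp j _ (k j)
    rw [P_mul, map_add] at h1
    linear_combination h1
  have e2 : ∀ j, (Tdp j ((l1 * ρ + 1) * (P j m * φ)) + Tp (P j l1 * ρ * (P j m * φ))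
        - ∑ i, (T' i j (m1 * P i ρ * (P j m * φ)) + T' j i (m1 * P i ρ * (P j m * φ))))
      = ∑ i, (T' i j (P i (P j m) * φ) + T' i j (P j m * P i φ)) := by
    intro j
    rw [← lap_u_eq hp hdp h3 hE hρ j (k j)]
    apply Finset.sum_congr rfl
    intro i _
    rw [P_mul, map_add]
  simp only [e2, e1]
  have e3 : (∑ i, T' i i ((l + 2 * m) * LL φ + 2 * ∑ j, P j m * P j φ))
      = Tp ((l + 2 * m) * LL φ) + 2 * ∑ j, Tp (P j m * P j φ) := by
    rw [← hp, map_add]
    congr 1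
    have : (2 : Sm) * ∑ j, P j m * P j φ = K 2 * ∑ j, P j m * P j φ := by
      congr 1
    rw [this, lin_K, map_sum]
  have e4 : ∀ i j, T' i j (2 * (P j m * P i φ)) = 2 * T' i j (P j m * P i φ) := by
    intro i j
    have : (2 : Sm) * (P j m * P i φ) = K 2 * (P j m * P i φ) := by
      congr 1
    rw [this, lin_K]
  rw [e3]
  simp only [e4, Fin.sum_univ_three]
  ring

end abstract

end Vale.Agent.P136.TLBB
end
end

section

section

open MeasureTheory Filter Topology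
open scoped ContDiff InnerProductSpace ENNReal

namespace Vale.Agent.P136.TL

/-- weak derivatives of the extension by zero. -/
lemma wd_ext {Ω : Set E3} (ho : IsOpen Ω) (hb : Bornology.IsBounded Ω) {f : E3 → ℝ}
    (hf : ContDiff ℝ ∞ f) (h0 : ∀ x ∈ frontier Ω, f x = 0) (i : Fin 3) :
    WD i (Ω.indicator f) (Ω.indicator (pd i f)) := by
  intro φ h1 _
  have h := ZERO Ω (fun x => (f x : ℂ)) ho hb ((contDiff_ofReal hf).of_le (by norm_cast))
    (by intro x hx; simp [h0 x hx]) i (fun x => (φ x : ℂ)) (contDiff_ofReal h1)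
  have e1 : ∀ x, pd i (fun x => (f x : ℂ)) x = ((pd i f x : ℝ) : ℂ) := fun x =>
    pd_ofReal ((hf.differentiable (by simp)) x) i
  have e2 : ∀ x, pd i (fun x => (φ x : ℂ)) x = ((pd i φ x : ℝ) : ℂ) := fun x =>
    pd_ofReal ((h1.differentiable (by simp)) x) i
  simp only [e1, e2, ← Complex.ofReal_mul] at h
  have h' : ((∫ x in Ω, f x * pd i φ x : ℝ) : ℂ) = ((- ∫ x in Ω, pd i f x * φ x : ℝ) : ℂ) := by
    rw [Complex.ofReal_neg, ← integral_complex_ofReal, ← integral_complex_ofReal]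
    exact h
  have h'' := Complex.ofReal_injective h'
  have e3 : ∀ (a b : E3 → ℝ), ∫ x, Ω.indicator a x * b x = ∫ x in Ω, a x * b x := by
    intro a b
    rw [← integral_indicator ho.measurableSet]
    congr 1
    funext x
    by_cases hx : x ∈ Ω
    · simp [hx]
    · simp [hx]
  rw [e3, e3]
  exact h''

/-- complex mollification. -/
noncomputable def molc (n : ℕ) (f : E3 → ℂ) (x : E3) : ℂ :=
  (moll n (fun y => (f y).re) x : ℂ) + Complex.I * (moll n (fun y => (f y).im) x : ℂ)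

lemma molc_contDiff (n : ℕ) {f : E3 → ℂ} (hf : MemLp f 2) : ContDiff ℝ ∞ (molc n f) := by
  have h1 := contDiff_ofReal (moll_contDiff n (memLp_li (memLp_re hf)))
  have h2 := contDiff_ofReal (moll_contDiff n (memLp_li (memLp_im hf)))
  exact h1.add (contDiff_const.mul h2)

lemma molc_zero {n : ℕ} {f : E3 → ℂ} {R : ℝ} (hf : ∀ᵐ y : E3, R < ‖y‖ → f y = 0) {x : E3}
    (hx : R + 1 / ((n : ℝ) + 1) < ‖x‖) : molc n f x = 0 := by
  have h1 : moll n (fun y => (f y).re) x = 0 :=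
    moll_zero (by filter_upwards [hf] with y hy h; simp [hy h]) hx
  have h2 : moll n (fun y => (f y).im) x = 0 :=
    moll_zero (by filter_upwards [hf] with y hy h; simp [hy h]) hx
  simp [molc, h1, h2]

lemma molc_memLp (n : ℕ) {f : E3 → ℂ} (hf : MemLp f 2) : MemLp (molc n f) 2 :=
  (memLp_ofReal (moll_memLp n (memLp_re hf))).add
    ((memLp_ofReal (moll_memLp n (memLp_im hf))).const_mul Complex.I)

lemma molc_pd (n : ℕ) {i : Fin 3} {f g : E3 → ℂ} (hf : MemLp f 2) (h : CWD i f g) (x : E3) :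
    pd i (molc n f) x = molc n g x := by
  have h1 := moll_contDiff n (memLp_li (memLp_re hf))
  have h2 := moll_contDiff n (memLp_li (memLp_im hf))
  have d1 : Differentiable ℝ (fun x => (moll n (fun y => (f y).re) x : ℂ)) :=
    (contDiff_ofReal h1).differentiable (by simp)
  have d2 : Differentiable ℝ (fun x => (moll n (fun y => (f y).im) x : ℂ)) :=
    (contDiff_ofReal h2).differentiable (by simp)
  have e1 : pd i (molc n f) x = pd i (fun x => (moll n (fun y => (f y).re) x : ℂ)) x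
      + Complex.I * pd i (fun x => (moll n (fun y => (f y).im) x : ℂ)) x := by
    have : molc n f = fun x => (moll n (fun y => (f y).re) x : ℂ)
      + Complex.I * (moll n (fun y => (f y).im) x : ℂ) := rfl
    rw [this, pd_add' d1 (d2.const_mul _)]
    simp only
    congr 1
    have hc : Differentiable ℝ (fun _ : E3 => Complex.I) := differentiable_const _
    have h3 := congrFun (pd_mulC hc d2 i) x
    rw [h3]
    simp [pd]
  rw [e1, pd_ofReal ((h1.differentiable (by simp)) x), pd_ofReal ((h2.differentiable (by simp)) x),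
    moll_pd n (memLp_li (memLp_re hf)) h.1, moll_pd n (memLp_li (memLp_im hf)) h.2]
  rfl

lemma molc_tendsto {f : E3 → ℂ} (hf : MemLp f 2) :
    Tendsto (fun n => ∫ x, ‖f x - molc n f x‖ ^ 2) atTop (𝓝 0) := by
  have h1 := moll_N2_tendsto (memLp_re hf)
  have h2 := moll_N2_tendsto (memLp_im hf)
  have h3 := h1.add h2
  rw [add_zero] at h3
  refine h3.congr fun n => ?_
  have i1 := memLp_sq_int (memLp_sub' (moll_memLp n (memLp_re hf)) (memLp_re hf))
  have i2 := memLp_sq_int (memLp_sub' (moll_memLp n (memLp_im hf)) (memLp_im hf))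
  unfold N2
  rw [← integral_add i1 i2]
  congr 1
  funext x
  rw [norm_sq_c]
  simp only [molc, Complex.sub_re, Complex.sub_im, Complex.add_re, Complex.add_im,
    Complex.ofReal_re, Complex.ofReal_im, Complex.mul_re, Complex.mul_im, Complex.I_re,
    Complex.I_im]
  ring

lemma ext_memLp {Ω : Set E3} (ho : IsOpen Ω) (hb : Bornology.IsBounded Ω) {f : E3 → ℂ}
    (hf : Continuous f) : MemLp (Ω.indicator f) 2 :=
  (memLp_indicator_iff_restrict ho.measurableSet).mpr (memLp_cont hb hf)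

lemma re_indicator (Ω : Set E3) (f : E3 → ℂ) :
    (fun x => (Ω.indicator f x).re) = Ω.indicator (fun x => (f x).re) := by
  funext x
  by_cases hx : x ∈ Ω
  · simp [hx]
  · simp [hx]

lemma im_indicator (Ω : Set E3) (f : E3 → ℂ) :
    (fun x => (Ω.indicator f x).im) = Ω.indicator (fun x => (f x).im) := by
  funext x
  by_cases hx : x ∈ Ω
  · simp [hx]
  · simp [hx]

lemma cwd_ext {Ω : Set E3} (ho : IsOpen Ω) (hb : Bornology.IsBounded Ω) (η : Sm)
    (hη : η ∈ IO Ω) (i : Fin 3) :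
    CWD i (Ω.indicator (η : E3 → ℂ)) (Ω.indicator (P i η : E3 → ℂ)) := by
  constructor
  · rw [re_indicator, re_indicator]
    have h := wd_ext ho hb (contDiff_re (sm_cd η)) (fun x hx => by simp [mem_IO.mp hη x hx]) i
    have e : pd i (fun x => ((η : E3 → ℂ) x).re) = fun x => ((P i η : E3 → ℂ) x).re := by
      funext x
      exact pd_re (sm_diffAt η x) i
    rw [e] at h
    exact h
  · rw [im_indicator, im_indicator]
    have h := wd_ext ho hb (contDiff_im (sm_cd η)) (fun x hx => by simp [mem_IO.mp hη x hx]) i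
    have e : pd i (fun x => ((η : E3 → ℂ) x).im) = fun x => ((P i η : E3 → ℂ) x).im := by
      funext x
      exact pd_im (sm_diffAt η x) i
    rw [e] at h
    exact h

/-- approximation of the zero extension of a smooth function vanishing on the boundary by test
functions of a larger ball. -/
theorem exists_approx {Ω : Set E3} (ho : IsOpen Ω) (hb : Bornology.IsBounded Ω) {R : ℝ}
    (hR : closure Ω ⊆ Metric.ball 0 R) (η : Sm) (hη : η ∈ IO Ω) :
    ∃ φ : ℕ → E3 → ℂ, (∀ n, CTest (Metric.ball 0 R) (φ n)) ∧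
      (∀ n, MemLp (φ n) 2) ∧ (∀ n i, MemLp (pd i (φ n)) 2) ∧
      Tendsto (fun n => ∫ x, ‖Ω.indicator (η : E3 → ℂ) x - φ n x‖ ^ 2) atTop (𝓝 0) ∧
      ∀ i, Tendsto (fun n => ∫ x, ‖Ω.indicator (P i η : E3 → ℂ) x - pd i (φ n) x‖ ^ 2)
        atTop (𝓝 0) := by
  obtain ⟨r, hrR, hr⟩ := exists_lt_subset_ball isClosed_closure hR
  obtain ⟨N, hN⟩ := exists_nat_one_div_lt (show (0 : ℝ) < R - r by linarith)
  have hf : MemLp (Ω.indicator (η : E3 → ℂ)) 2 := ext_memLp ho hb (sm_cont η)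
  have hg : ∀ i, MemLp (Ω.indicator (P i η : E3 → ℂ)) 2 := fun i => ext_memLp ho hb (sm_cont _)
  have hz : ∀ᵐ y : E3, r < ‖y‖ → Ω.indicator (η : E3 → ℂ) y = 0 := by
    refine Eventually.of_forall fun y hy => ?_
    apply Set.indicator_of_notMem
    intro hyΩ
    have := hr (subset_closure hyΩ)
    rw [Metric.mem_ball, dist_zero_right] at this
    linarith
  have hpd : ∀ n i, pd i (molc n (Ω.indicator (η : E3 → ℂ)))
      = molc n (Ω.indicator (P i η : E3 → ℂ)) := by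
    intro n i
    funext x
    exact molc_pd n hf (cwd_ext ho hb η hη i) x
  have hzero : ∀ (n : ℕ) (x : E3), r + 1 / ((N : ℝ) + 1) < ‖x‖ →
      molc (n + N) (Ω.indicator (η : E3 → ℂ)) x = 0 := by
    intro n x hx
    apply molc_zero hz
    refine lt_of_le_of_lt ?_ hx
    have : (1 : ℝ) / (((n + N : ℕ) : ℝ) + 1) ≤ 1 / ((N : ℝ) + 1) := by
      apply one_div_le_one_div_of_le (by positivity)
      push_cast
      have : (0 : ℝ) ≤ n := Nat.cast_nonneg n
      linarith
    linarith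
  have hsub : ∀ n, Function.support (molc (n + N) (Ω.indicator (η : E3 → ℂ)))
      ⊆ Metric.closedBall 0 (r + 1 / ((N : ℝ) + 1)) := by
    intro n x hx
    rw [Metric.mem_closedBall, dist_zero_right]
    by_contra hlt
    exact hx (hzero n x (not_le.mp hlt))
  refine ⟨fun n => molc (n + N) (Ω.indicator (η : E3 → ℂ)), fun n => ⟨molc_contDiff _ hf, ?_, ?_⟩,
    fun n => molc_memLp _ hf, fun n i => ?_, ?_, fun i => ?_⟩
  · exact HasCompactSupport.of_support_subset_isCompact (isCompact_closedBall _ _) (hsub n)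
  · refine (closure_minimal (hsub n) Metric.isClosed_closedBall).trans ?_
    apply Metric.closedBall_subset_ball
    linarith
  · rw [hpd]
    exact molc_memLp _ (hg i)
  · exact (molc_tendsto hf).comp (tendsto_add_atTop_nat N)
  · simp only [hpd]
    exact (molc_tendsto (hg i)).comp (tendsto_add_atTop_nat N)

lemma tendsto_restrict {B : Set E3} {f : E3 → ℂ} {φ : ℕ → E3 → ℂ} (hf : MemLp f 2)
    (hφ : ∀ n, MemLp (φ n) 2) (h : Tendsto (fun n => ∫ x, ‖f x - φ n x‖ ^ 2) atTop (𝓝 0)) :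
    Tendsto (fun n => ∫ x in B, ‖f x - φ n x‖ ^ 2) atTop (𝓝 0) := by
  refine squeeze_zero (fun n => integral_nonneg fun _ => by positivity) (fun n => ?_) h
  exact setIntegral_le_integral (sq_norm_int (hf.sub (hφ n)))
    (Eventually.of_forall fun _ => by positivity)

lemma int_ball_indicator {Ω : Set E3} (ho : IsOpen Ω) {R : ℝ} (hR : closure Ω ⊆ Metric.ball 0 R)
    (w g : E3 → ℂ) :
    ∫ x in Metric.ball (0 : E3) R, w x * Ω.indicator g x = ∫ x in Ω, w x * g x := by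
  have hs : Ω ⊆ Metric.ball (0 : E3) R := subset_closure.trans hR
  have e : ∀ x, w x * Ω.indicator g x = Ω.indicator (fun x => w x * g x) x := by
    intro x
    by_cases hx : x ∈ Ω
    · simp [hx]
    · simp [hx]
  simp only [e]
  rw [setIntegral_indicator ho.measurableSet, Set.inter_eq_self_of_subset_right hs]

/-- Lemma M (first part): integration by parts against smooth functions vanishing on the
boundary. -/
theorem ibp_IO {Ω : Set E3} (ho : IsOpen Ω) (hb : Bornology.IsBounded Ω) {R : ℝ}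
    (hR : closure Ω ⊆ Metric.ball 0 R) {w dw : E3 → ℂ} {i : Fin 3}
    (hw : MemLp w 2 (volume.restrict (Metric.ball (0 : E3) R)))
    (hdw : MemLp dw 2 (volume.restrict (Metric.ball (0 : E3) R)))
    (h : WDc (Metric.ball 0 R) i w dw) (η : Sm) (hη : η ∈ IO Ω) :
    ∫ x in Ω, w x * (P i η : E3 → ℂ) x = - ∫ x in Ω, dw x * (η : E3 → ℂ) x := by
  obtain ⟨φ, h1, h2, h3, h4, h5⟩ := exists_approx ho hb hR η hη
  have t1 := tendstoC (c := w) hw ((ext_memLp ho hb (sm_cont (P i η))).restrict _)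
    (fun n => (h3 n i).restrict _)
    (tendsto_restrict (ext_memLp ho hb (sm_cont (P i η))) (fun n => h3 n i) (h5 i))
  have t2 := (tendstoC (c := dw) hdw ((ext_memLp ho hb (sm_cont η)).restrict _)
    (fun n => (h2 n).restrict _)
    (tendsto_restrict (ext_memLp ho hb (sm_cont η)) (fun n => h2 n) h4)).neg
  have e : ∀ n, ∫ x in Metric.ball (0 : E3) R, w x * pd i (φ n) x
      = - ∫ x in Metric.ball (0 : E3) R, dw x * φ n x := fun n => h (φ n) (h1 n)
  simp only [e] at t1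
  have := tendsto_nhds_unique t1 t2
  rw [int_ball_indicator ho hR, int_ball_indicator ho hR] at this
  exact this

/-- the stress tensor of a gradient `G`. -/
noncomputable def sg (lam mu : E3 → ℝ) (G : Fin 3 → Fin 3 → E3 → ℂ) (i j : Fin 3) (x : E3) : ℂ :=
  (if i = j then (lam x : ℂ) * (∑ k, G k k x) else 0) + (mu x : ℂ) * (G i j x + G j i x)

lemma memLp_mul_cont {B : Set E3} (hb : Bornology.IsBounded B) {c w : E3 → ℂ}
    (hc : Continuous c) (hw : MemLp w 2 (volume.restrict B)) :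
    MemLp (fun x => c x * w x) 2 (volume.restrict B) := by
  obtain ⟨M, hM⟩ := hb.isCompact_closure.exists_bound_of_continuousOn hc.continuousOn
  have hm : ∀ᵐ x ∂(volume.restrict B), ‖c x‖ ≤ M := by
    refine ae_mono (Measure.restrict_mono subset_closure le_rfl) ?_
    filter_upwards [ae_restrict_mem isClosed_closure.measurableSet] with x hx using hM x hx
  refine MemLp.of_le_mul (c := M) hw (hc.aestronglyMeasurable.mul hw.1) ?_
  filter_upwards [hm] with x hx
  rw [norm_mul]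
  gcongr

lemma sg_memLp {B : Set E3} (hb : Bornology.IsBounded B) {lam mu : E3 → ℝ}
    (hlam : Continuous lam) (hmu : Continuous mu) {G : Fin 3 → Fin 3 → E3 → ℂ}
    (hG : ∀ i j, MemLp (G i j) 2 (volume.restrict B)) (i j : Fin 3) :
    MemLp (sg lam mu G i j) 2 (volume.restrict B) := by
  have h1 : MemLp (fun x => (mu x : ℂ) * (G i j x + G j i x)) 2 (volume.restrict B) :=
    memLp_mul_cont hb (Complex.continuous_ofReal.comp hmu) ((hG i j).add (hG j i))
  have h2 : MemLp (fun x => (lam x : ℂ) * (∑ k, G k k x)) 2 (volume.restrict B) :=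
    memLp_mul_cont hb (Complex.continuous_ofReal.comp hlam)
      (memLp_finsetSum _ fun k _ => hG k k)
  unfold sg
  by_cases hij : i = j
  · simp only [hij, if_true] at h1 ⊢
    exact h2.add h1
  · simp only [hij, if_false, zero_add]
    exact h1

lemma cform_sg {B : Set E3} (hb : Bornology.IsBounded B) {lam mu : E3 → ℝ}
    (hlam : Continuous lam) (hmu : Continuous mu) {G H : Fin 3 → Fin 3 → E3 → ℂ}
    (hG : ∀ i j, MemLp (G i j) 2 (volume.restrict B))
    (hH : ∀ i j, MemLp (H i j) 2 (volume.restrict B)) :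
    cform B lam mu G H = ∑ i, ∑ j, ∫ x in B, sg lam mu G i j x * H i j x := by
  unfold cform
  have hi : ∀ i j, Integrable (fun x => sg lam mu G i j x * H i j x) (volume.restrict B) :=
    fun i j => (sg_memLp hb hlam hmu hG i j).integrable_mul (hH i j)
  have e : ∀ x, ((lam x : ℂ) * ((∑ i, G i i x) * ∑ i, H i i x) +
    2 * (mu x : ℂ) * ∑ i, ∑ j, ((G i j x + G j i x) / 2) * ((H i j x + H j i x) / 2)) =
      ∑ i, ∑ j, sg lam mu G i j x * H i j x := fun x =>
    cform_integrand (lam x) (mu x) (fun i j => G i j x) (fun i j => H i j x)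
  simp_rw [e]
  rw [integral_finsetSum _ fun i _ => integrable_finsetSum _ fun j _ => hi i j]
  exact Finset.sum_congr rfl fun i _ => integral_finsetSum _ fun j _ => hi i j

/-- Lemma M (second part): weak solutions on a larger ball can be tested with zero extensions
of smooth fields vanishing on the boundary. -/
theorem csol_IO {Ω : Set E3} (ho : IsOpen Ω) (hb : Bornology.IsBounded Ω) {R : ℝ}
    (hR : closure Ω ⊆ Metric.ball 0 R) {lam mu : E3 → ℝ}
    (hlam : Continuous lam) (hmu : Continuous mu) {G : Fin 3 → Fin 3 → E3 → ℂ}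
    (hG : ∀ i j, MemLp (G i j) 2 (volume.restrict (Metric.ball (0 : E3) R)))
    (h : CSol (Metric.ball 0 R) lam mu G) (η : Fin 3 → Sm) (hη : ∀ j, η j ∈ IO Ω) :
    cform Ω lam mu G (fun i j => (P i (η j) : E3 → ℂ)) = 0 := by
  choose φ h1 h2 h3 h4 h5 using fun j => exists_approx ho hb hR (η j) (hη j)
  have hs : Ω ⊆ Metric.ball (0 : E3) R := subset_closure.trans hR
  have hGΩ : ∀ i j, MemLp (G i j) 2 (volume.restrict Ω) := fun i j =>
    (hG i j).mono_measure (Measure.restrict_mono hs le_rfl)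
  have hB : Bornology.IsBounded (Metric.ball (0 : E3) R) := Metric.isBounded_ball
  rw [cform_sg hb hlam hmu hGΩ (fun i j => memLp_cont hb (sm_cont _))]
  have t1 : Tendsto (fun n => ∑ i, ∑ j, ∫ x in Metric.ball (0 : E3) R,
      sg lam mu G i j x * pd i (φ j n) x) atTop (𝓝 (∑ i, ∑ j, ∫ x in Metric.ball (0 : E3) R,
      sg lam mu G i j x * Ω.indicator (P i (η j) : E3 → ℂ) x)) := by
    refine tendsto_finsetSum _ fun i _ => tendsto_finsetSum _ fun j _ => ?_
    exact tendstoC (sg_memLp hB hlam hmu hG i j)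
      ((ext_memLp ho hb (sm_cont (P i (η j)))).restrict _) (fun n => (h3 j n i).restrict _)
      (tendsto_restrict (ext_memLp ho hb (sm_cont _)) (fun n => h3 j n i) (h5 j i))
  have e : ∀ n, ∑ i, ∑ j, ∫ x in Metric.ball (0 : E3) R,
      sg lam mu G i j x * pd i (φ j n) x = 0 := by
    intro n
    have := h (fun j => φ j n) (fun j => h1 j n)
    rwa [cform_sg hB hlam hmu hG (fun i j => (h3 j n i).restrict _)] at this
  simp only [e] at t1
  have h6 := tendsto_nhds_unique t1 tendsto_const_nhds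
  rw [← h6]
  exact Finset.sum_congr rfl fun i _ => Finset.sum_congr rfl fun j _ =>
    (int_ball_indicator ho hR _ _).symm

/-- the elastic form as the abstract functional `Cf`. -/
lemma cform_Cf {Ω : Set E3} (hb : Bornology.IsBounded Ω) {lam mu : E3 → ℝ}
    (hlam : ContDiff ℝ ∞ lam) (hmu : ContDiff ℝ ∞ mu) {G : Fin 3 → Fin 3 → E3 → ℂ}
    (hG : ∀ i j, MemLp (G i j) 2 (volume.restrict Ω)) (g : Fin 3 → Sm) :
    cform Ω lam mu G (fun i j => (P i (g j) : E3 → ℂ)) =
      Cf (fun i j => Tm Ω hb (G i j) (hG i j)) (ofR lam hlam) (ofR mu hmu) g := by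
  unfold cform Cf
  simp only [Tm_apply]
  have i1 : ∀ (i : Fin 3) (A : Sm), Integrable (fun x => G i i x * (A : E3 → ℂ) x)
      (volume.restrict Ω) := fun i A => tm_int hb (hG i i) A
  have i2 : ∀ (i j : Fin 3) (A : Sm), Integrable (fun x => G i j x * (A : E3 → ℂ) x)
      (volume.restrict Ω) := fun i j A => tm_int hb (hG i j) A
  rw [← integral_finsetSum _ fun i _ => i1 i _]
  have e1 : ∀ i : Fin 3, (∑ j, ∫ x in Ω, G i j x *
      ((ofR mu hmu * (P i (g j) + P j (g i)) : Sm) : E3 → ℂ) x) =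
      ∫ x in Ω, ∑ j, G i j x * ((ofR mu hmu * (P i (g j) + P j (g i)) : Sm) : E3 → ℂ) x :=
    fun i => (integral_finsetSum _ fun j _ => i2 i j _).symm
  simp only [e1]
  rw [← integral_finsetSum _ fun i _ => integrable_finsetSum _ fun j _ => i2 i j _,
    ← integral_add (integrable_finsetSum _ fun i _ => i1 i _)
      (integrable_finsetSum _ fun i _ => integrable_finsetSum _ fun j _ => i2 i j _)]
  congr 1
  funext x
  simp only [Fin.sum_univ_three, Subalgebra.coe_mul, Subalgebra.coe_add, Pi.mul_apply,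
    Pi.add_apply, ofR_apply]
  ring

end Vale.Agent.P136.TL
end
end

section

section

open MeasureTheory Filter Topology
open scoped ContDiff InnerProductSpace

namespace Vale.Agent.P136

/-- TLB: weighted bound of the transferred difference `v` (extension by zero of
`u₂ - u₁`) in terms of the solution `u` of the first medium on a larger ball. -/
def TLB_statement : Prop :=
  ∀ (Ω : Set E3) (lam₁ mu₁ lam₂ mu₂ : E3 → ℝ) (R : ℝ), IsOpen Ω → Bornology.IsBounded Ω →
    ContDiff ℝ ∞ lam₁ → ContDiff ℝ ∞ mu₁ → ContDiff ℝ ∞ lam₂ → ContDiff ℝ ∞ mu₂ →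
    (∀ x, 0 < mu₁ x) → (∀ x, 0 < lam₁ x + mu₁ x) →
    (∀ x, 0 < mu₂ x) → (∀ x, 0 < lam₂ x + mu₂ x) →
    (∀ x ∈ frontier Ω, mu₁ x = mu₂ x ∧ lam₁ x = lam₂ x ∧
      fderiv ℝ mu₁ x = fderiv ℝ mu₂ x ∧ fderiv ℝ lam₁ x = fderiv ℝ lam₂ x) →
    closure Ω ⊆ Metric.ball 0 R →
    ∃ C τ₀ : ℝ, 0 < C ∧ 0 < τ₀ ∧ ∀ α : E3, τ₀ ≤ ‖α‖ →
      ∀ (u : Fin 3 → E3 → ℂ) (du : Fin 3 → Fin 3 → E3 → ℂ) (p : E3 → ℂ) (dp : Fin 3 → E3 → ℂ)
        (v : Fin 3 → E3 → ℂ) (dv : Fin 3 → Fin 3 → E3 → ℂ),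
      CH1 (Metric.ball 0 R) u du → CSol (Metric.ball 0 R) lam₁ mu₁ du →
      MemLp p 2 (volume.restrict (Metric.ball (0 : E3) R)) →
      (∀ i, MemLp (dp i) 2 (volume.restrict (Metric.ball (0 : E3) R))) →
      (∀ i, WDc (Metric.ball 0 R) i p (dp i)) →
      (∀ᵐ x ∂(volume.restrict (Metric.ball (0 : E3) R)), p x = ∑ i, du i i x) →
      (∀ j, CH10 Ω (v j) (fun i => dv i j)) →
      (∀ g : Fin 3 → E3 → ℂ, (∀ j, ContDiff ℝ ∞ (g j)) →
          cform Ω lam₂ mu₂ (fun i j x => du i j x + dv i j x) (fun i j => pd i (g j)) =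
          cform Ω lam₁ mu₁ du (fun i j => pd i (g j))) →
      ‖α‖ ^ 2 * ((∑ j, ∫ x, Real.exp (2 * ⟪α, x⟫_ℝ) * ‖v j x‖ ^ 2)
            + ∫ x, Real.exp (2 * ⟪α, x⟫_ℝ) * ‖∑ i, dv i i x‖ ^ 2) ≤
        C * ((∫ x in Ω, Real.exp (2 * ⟪α, x⟫_ℝ) * ‖p x‖ ^ 2)
          + (∑ i, ∫ x in Ω, Real.exp (2 * ⟪α, x⟫_ℝ) * ‖dp i x‖ ^ 2)
          + ∑ i, ∑ j, ∫ x in Ω, Real.exp (2 * ⟪α, x⟫_ℝ) * ‖du i j x‖ ^ 2)

end Vale.Agent.P136
end
end

section

section

open MeasureTheory Filter Topology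
open scoped ContDiff InnerProductSpace ENNReal

namespace Vale.Agent.P136

lemma lap_contDiff_infty {φ : E3 → ℝ} (h : ContDiff ℝ ∞ φ) : ContDiff ℝ ∞ (lap φ) := by
  unfold lap
  exact ContDiff.sum fun i _ => pd_contDiff_infty (pd_contDiff_infty h i) i

end Vale.Agent.P136
end
end
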