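import Vale.Agent.P136.MathlibUsed
import Vale.Agent.P136.Bdl.B4
import Vale.Agent.P136.Bdl.B2
import Vale.Agent.P136.Bdl.B3
import Vale.Agent.P136.Statement

set_option linter.all false

section

section

open MeasureTheory Filter Topology
open scoped ContDiff InnerProductSpace ENNReal

namespace Vale.Agent.P136

/-! ### A weighted Poincare inequality -/

lemma expw_contDiff (al : E3) : ContDiff ℝ ∞ (fun x : E3 => Real.exp (2 * ⟪al, x⟫_ℝ)) :=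
  (contDiff_const.mul (inner_contDiff al)).exp

lemma dd_expw (al x : E3) :
    dd al (fun x : E3 => Real.exp (2 * ⟪al, x⟫_ℝ)) x
      = 2 * ‖al‖ ^ 2 * Real.exp (2 * ⟪al, x⟫_ℝ) := by
  unfold dd
  have h1 : HasFDerivAt (fun x : E3 => 2 * ⟪al, x⟫_ℝ) ((2 : ℝ) • innerSL ℝ al) x :=
    (hasFDerivAt_inner al x).const_mul 2
  rw [h1.exp.fderiv]
  simp only [FunLike.coe_smul, Pi.smul_apply, smul_eq_mul, innerSL_apply_apply]
  rw [real_inner_self_eq_norm_sq]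
  ring

/-- smooth version. -/
lemma wpoincare_smooth {u : E3 → ℝ} (hu : ContDiff ℝ ∞ u) (hc : HasCompactSupport u) (al : E3) :
    ‖al‖ ^ 2 * (∫ x, Real.exp (2 * ⟪al, x⟫_ℝ) * (u x) ^ 2)
      ≤ ∑ i, ∫ x, Real.exp (2 * ⟪al, x⟫_ℝ) * (pd i u x) ^ 2 := by
  set W : E3 → ℝ := fun x => Real.exp (2 * ⟪al, x⟫_ℝ) with hW
  have hWc : Continuous W := (expw_contDiff al).continuous
  have hW0 : ∀ x, 0 < W x := fun x => Real.exp_pos _
  have hdu := dd_contDiff_infty hu al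
  have hdc := dd_hasCompactSupport hc al
  have i1 : Integrable (fun x => W x * (u x) ^ 2) :=
    (hWc.mul (hu.continuous.pow 2)).integrable_of_hasCompactSupport
      (HasCompactSupport.mul_left (cs_sq hc))
  have i2 : Integrable (fun x => W x * (dd al u x) ^ 2) :=
    (hWc.mul (hdu.continuous.pow 2)).integrable_of_hasCompactSupport
      (HasCompactSupport.mul_left (cs_sq hdc))
  have i3 : Integrable (fun x => W x * (u x * dd al u x)) :=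
    (hWc.mul (hu.continuous.mul hdu.continuous)).integrable_of_hasCompactSupport
      (HasCompactSupport.mul_left (HasCompactSupport.mul_right hc))
  have i4 : ∀ i, Integrable (fun x => W x * (pd i u x) ^ 2) := fun i =>
    (hWc.mul ((pd_contDiff_infty hu i).continuous.pow 2)).integrable_of_hasCompactSupport
      (HasCompactSupport.mul_left (cs_sq (pd_hasCompactSupport hc i)))
  have key : ∫ x, W x * (u x * dd al u x) = - (‖al‖ ^ 2 * ∫ x, W x * (u x) ^ 2) := by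
    have h1 := ibp_dd (f := W) (g := fun x => u x * u x) ((expw_contDiff al).of_le (by norm_cast))
      ((hu.mul hu).of_le (by norm_cast)) (HasCompactSupport.mul_left hc) al
    have e1 : ∫ x, W x * dd al (fun x => u x * u x) x = 2 * ∫ x, W x * (u x * dd al u x) := by
      rw [← integral_const_mul]
      congr 1
      funext x
      rw [dd_mul ((hu.differentiable (by simp)) x) ((hu.differentiable (by simp)) x)]
      ring
    have e2 : ∫ x, dd al W x * (u x * u x) = 2 * (‖al‖ ^ 2 * ∫ x, W x * (u x) ^ 2) := by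
      rw [← integral_const_mul, ← integral_const_mul]
      congr 1
      funext x
      have := dd_expw al x
      rw [hW, this]
      ring
    rw [e1, e2] at h1
    linarith
  set N := ‖al‖ ^ 2 with hN
  have hN0 : 0 ≤ N := sq_nonneg _
  have h2 : N ^ 2 * (∫ x, W x * (u x) ^ 2) ≤ ∫ x, W x * (dd al u x) ^ 2 := by
    have h3 : 0 ≤ ∫ x, W x * (N * u x + dd al u x) ^ 2 :=
      integral_nonneg fun x => mul_nonneg (hW0 x).le (sq_nonneg _)
    have h4 : ∫ x, W x * (N * u x + dd al u x) ^ 2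
        = N ^ 2 * (∫ x, W x * (u x) ^ 2) + 2 * N * (∫ x, W x * (u x * dd al u x))
          + ∫ x, W x * (dd al u x) ^ 2 := by
      have j1 : Integrable (fun x => N ^ 2 * (W x * (u x) ^ 2)) := i1.const_mul _
      have j3 : Integrable (fun x => 2 * N * (W x * (u x * dd al u x))) := i3.const_mul _
      rw [← integral_const_mul, ← integral_const_mul, ← integral_add j1 j3,
        ← integral_add (i_add j1 j3) i2]
      congr 1
      funext x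
      ring
    rw [h4, key] at h3
    linarith only [h3]
  have h5 : ∫ x, W x * (dd al u x) ^ 2 ≤ N * ∑ i, ∫ x, W x * (pd i u x) ^ 2 := by
    rw [← integral_finsetSum _ fun i _ => i4 i, ← integral_const_mul]
    apply integral_mono i2 ((integrable_finsetSum _ fun i _ => i4 i).const_mul _)
    intro x
    simp only
    rw [← Finset.mul_sum]
    have h6 : (dd al u x) ^ 2 ≤ N * ∑ i, (pd i u x) ^ 2 := by
      rw [dd_eq_sum]
      simp only [smul_eq_mul]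
      refine (Finset.sum_mul_sq_le_sq_mul_sq _ _ _).trans ?_
      have : ∑ i, (al i) ^ 2 = N := by
        rw [hN, EuclideanSpace.norm_sq_eq]
        simp
      rw [this]
    calc W x * (dd al u x) ^ 2 ≤ W x * (N * ∑ i, (pd i u x) ^ 2) :=
          mul_le_mul_of_nonneg_left h6 (hW0 x).le
      _ = _ := by ring
  have hI : 0 ≤ ∫ x, W x * (u x) ^ 2 := integral_nonneg fun x =>
    mul_nonneg (hW0 x).le (sq_nonneg _)
  have hS : 0 ≤ ∑ i, ∫ x, W x * (pd i u x) ^ 2 := Finset.sum_nonneg fun i _ =>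
    integral_nonneg fun x => mul_nonneg (hW0 x).le (sq_nonneg _)
  rcases hN0.eq_or_lt with h0 | h0
  · rw [← h0, zero_mul]
    exact hS
  · have h7 : N * (N * ∫ x, W x * (u x) ^ 2) ≤ N * ∑ i, ∫ x, W x * (pd i u x) ^ 2 := by
      linarith only [h5, h2]
    exact le_of_mul_le_mul_left h7 h0

/-- Weighted Poincare inequality for compactly supported functions with weak gradient. -/
theorem wpoincare {f : E3 → ℝ} {G : Fin 3 → E3 → ℝ} {R : ℝ} (hf : MemLp f 2)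
    (hG : ∀ i, MemLp (G i) 2) (hWD : ∀ i, WD i f (G i))
    (hsupp : ∀ᵐ y : E3, R < ‖y‖ → f y = 0) (al : E3) :
    ‖al‖ ^ 2 * wI al f ≤ ∑ i, wI al (G i) := by
  have hlf : LocallyIntegrable f := hf.locallyIntegrable (by norm_num)
  have hlG : ∀ i, LocallyIntegrable (G i) := fun i => (hG i).locallyIntegrable (by norm_num)
  have hsG : ∀ i, ∀ᵐ y : E3, R < ‖y‖ → G i y = 0 := fun i =>
    WD_zero_outside (hlG i) (hWD i) hsupp
  have hec := exp_lin_continuous al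
  have up : ∀ {a : E3 → ℝ}, (∀ᵐ y : E3, R < ‖y‖ → a y = 0) →
      (∀ᵐ y : E3, R + 1 < ‖y‖ → a y = 0) := by
    intro a ha
    filter_upwards [ha] with y hy h
    exact hy (by linarith)
  have um : ∀ {a : E3 → ℝ}, (∀ᵐ y : E3, R < ‖y‖ → a y = 0) → ∀ n : ℕ,
      (∀ x : E3, R + 1 < ‖x‖ → moll n a x = 0) := by
    intro a ha n x hx
    apply moll_zero ha
    have h4 : 1 / ((n : ℝ) + 1) ≤ 1 := by
      rw [div_le_one (by positivity)]
      have : (0:ℝ) ≤ n := by positivity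
      linarith
    linarith
  have tw : ∀ {a : E3 → ℝ}, MemLp a 2 → (∀ᵐ y : E3, R < ‖y‖ → a y = 0) →
      Tendsto (fun n => ∫ x, Real.exp (2 * ⟪al, x⟫_ℝ) * (moll n a x) ^ 2) atTop
        (𝓝 (∫ x, Real.exp (2 * ⟪al, x⟫_ℝ) * (a x) ^ 2)) := by
    intro a ha hsa
    exact tendsto_weighted hec (R := R + 1) (fun n => moll_memLp n ha) ha
      (fun n => Eventually.of_forall (um hsa n)) (up hsa) (moll_N2_tendsto ha)
  have hn : ∀ n : ℕ, ‖al‖ ^ 2 * (∫ x, Real.exp (2 * ⟪al, x⟫_ℝ) * (moll n f x) ^ 2)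
      ≤ ∑ i, ∫ x, Real.exp (2 * ⟪al, x⟫_ℝ) * (moll n (G i) x) ^ 2 := by
    intro n
    have hc := wpoincare_smooth (moll_contDiff n hlf) (moll_cs (n := n) hsupp) al
    refine hc.trans (le_of_eq ?_)
    apply Finset.sum_congr rfl
    intro i _
    congr 1
    funext x
    rw [moll_pd n hlf (hWD i)]
  unfold wI
  exact le_of_tendsto_of_tendsto' ((tw hf hsupp).const_mul (‖al‖ ^ 2))
    (tendsto_finsetSum _ fun i _ => tw (hG i) (hsG i)) hn

/-! ### Elasticity with `div F = f + Δ s` -/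

/-- Hypotheses for the weak elasticity system with `div F = f + Δ s`, `s ∈ H¹`. -/
structure RealDataS (lam mu : E3 → ℝ) (R : ℝ) (v : Fin 3 → E3 → ℝ) (H : Fin 3 → Fin 3 → E3 → ℝ)
    (F : Fin 3 → E3 → ℝ) (f s : E3 → ℝ) (ds : Fin 3 → E3 → ℝ) : Prop
    extends RealCore lam mu R v H F where
  hf : MemLp f 2
  hs : MemLp s 2
  hds : ∀ k, MemLp (ds k) 2
  wds : ∀ k, WD k s (ds k)
  ss : ∀ᵐ y : E3, R < ‖y‖ → s y = 0
  divF : ∀ η : E3 → ℝ, ContDiff ℝ ∞ η → HasCompactSupport η →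
    ∑ i, ∫ x, F i x * pd i η x = - (∫ x, f x * η x) - ∫ x, s x * lap η x

section

variable {lam mu : E3 → ℝ} {R : ℝ} {v : Fin 3 → E3 → ℝ} {H : Fin 3 → Fin 3 → E3 → ℝ}
  {F : Fin 3 → E3 → ℝ} {f s : E3 → ℝ} {ds : Fin 3 → E3 → ℝ}

lemma RealDataS.sf (D : RealDataS lam mu R v H F f s ds) :
    ∀ᵐ y : E3, R < ‖y‖ → f y = 0 := by
  apply ae_zero_outside (memLp_li D.hf)
  intro φ h1 h2 h3
  have h4 := D.divF φ h1 h2
  have h5 : ∀ i, ∫ x, F i x * pd i φ x = 0 := by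
    intro i
    apply integral_eq_zero_of_ae
    filter_upwards [D.sF i] with y hy
    by_cases hR : R < ‖y‖
    · simp [hy hR]
    · have : pd i φ y = 0 := by
        by_contra hne
        exact hR (h3 (tsupport_pd_subset φ i (subset_tsupport _ hne)))
      simp [this]
  have h6 : ∫ x, s x * lap φ x = 0 := by
    apply integral_eq_zero_of_ae
    filter_upwards [D.ss] with y hy
    by_cases hR : R < ‖y‖
    · simp [hy hR]
    · have : lap φ y = 0 := by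
        by_contra hne
        apply hne
        unfold lap
        apply Finset.sum_eq_zero
        intro i _
        exact image_eq_zero_of_notMem_tsupport fun h2 =>
          hR (h3 (tsupport_pd_subset φ i (tsupport_pd_subset (pd i φ) i h2)))
      simp [this]
  rw [Finset.sum_eq_zero fun j _ => h5 j, h6] at h4
  linarith

lemma RealDataS.lap_P (hlam : ContDiff ℝ ∞ lam) (hmu : ContDiff ℝ ∞ mu)
    (D : RealDataS lam mu R v H F f s ds) {dp L : Fin 3 → E3 → ℝ}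
    (hdm : ∀ k, MemLp (dp k) 2) (hdp : ∀ k, WD k (fun x => ∑ i, H i i x) (dp k))
    (hLm : ∀ k, LocallyIntegrable (L k)) (hL : ∀ k, WLap (v k) (L k)) :
    WLap (fun x => Pf lam mu H x - s x) (LP mu H f dp L) := by
  intro η hη hc
  have hH : ∀ i j, LocallyIntegrable (H i j) := fun i j => memLp_li (D.hH i j)
  have hF : ∀ i, LocallyIntegrable (F i) := fun i => memLp_li (D.hF i)
  have hp : LocallyIntegrable (fun x => ∑ i, H i i x) := memLp_li D.trMem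
  have hd : ∀ k, LocallyIntegrable (dp k) := fun k => memLp_li (hdm k)
  have m1 : ∀ i, ContDiff ℝ ∞ (pd i mu) := fun i => pd_contDiff_infty hmu i
  have m2 : ∀ i j, ContDiff ℝ ∞ (pd i (pd j mu)) := fun i j => pd_contDiff_infty (m1 j) i
  have p1 : ∀ i, ContDiff ℝ ∞ (pd i η) := fun i => pd_contDiff_infty hη i
  have p1c : ∀ i, HasCompactSupport (pd i η) := fun i => pd_hasCompactSupport hc i
  have E := D.P_eq hlam hmu η hη hc
  -- integrability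
  have n1 : ∀ j, Integrable (fun x => F j x * pd j η x) := fun j =>
    li_test_int (hF j) (p1 j).continuous (p1c j)
  have n2 : ∀ j, Integrable (fun x => (∑ i, H i i x) * (pd j mu x * pd j η x)) := fun j =>
    li_test_int hp ((m1 j).continuous.mul (p1 j).continuous) (HasCompactSupport.mul_left (p1c j))
  have n3 : ∀ i j, Integrable (fun x => H i j x * (pd i mu x * pd j η x)) := fun i j =>
    li_test_int (hH i j) ((m1 i).continuous.mul (p1 j).continuous)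
      (HasCompactSupport.mul_left (p1c j))
  -- expand Q
  have Qe : ∀ j, ∫ x, Qf mu H F j x * pd j η x
      = (∫ x, F j x * pd j η x) + 2 * ((∫ x, (∑ i, H i i x) * (pd j mu x * pd j η x))
        - ∑ i, ∫ x, H i j x * (pd i mu x * pd j η x)) := by
    intro j
    have J2 : Integrable (fun x => ∑ i, H i j x * (pd i mu x * pd j η x)) :=
      integrable_finsetSum _ fun i _ => n3 i j
    have J3 : Integrable (fun x => 2 * ((∑ i, H i i x) * (pd j mu x * pd j η x)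
        - ∑ i, H i j x * (pd i mu x * pd j η x))) := (i_sub (n2 j) J2).const_mul 2
    rw [← integral_finsetSum _ fun i _ => n3 i j,
      ← integral_sub (n2 j) J2, ← integral_const_mul, ← integral_add (n1 j) J3]
    congr 1
    funext x
    unfold Qf
    rw [add_mul, mul_assoc, sub_mul, Finset.sum_mul (f := fun i => H i j x * pd i mu x)]
    congr 3
    · ring
    · apply Finset.sum_congr rfl
      intro i _
      ring
  -- first: F
  have B1 := D.divF η hη hc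
  -- second: p
  have B2 : ∀ j, ∫ x, (∑ i, H i i x) * (pd j mu x * pd j η x)
      = - ((∫ x, dp j x * (pd j mu x * η x)) + ∫ x, (∑ i, H i i x) * (pd j (pd j mu) x * η x)) := by
    intro j
    have := (hdp j).test_mul hp (m1 j) hη hc
    linarith
  -- third: H
  have B3 : ∀ i, ∑ j, ∫ x, H i j x * (pd i mu x * pd j η x)
      = - (∫ x, L i x * (pd i mu x * η x)) - ∑ j, ∫ x, H i j x * (pd j (pd i mu) x * η x) := by
    intro i
    have g1 : ContDiff ℝ ∞ (fun x => pd i mu x * η x) := (m1 i).mul hη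
    have g1c : HasCompactSupport (fun x => pd i mu x * η x) := HasCompactSupport.mul_left hc
    have h1 := hL i _ g1 g1c
    have h2 : ∫ x, v i x * lap (fun x => pd i mu x * η x) x
        = ∑ j, ∫ x, v i x * pd j (pd j (fun x => pd i mu x * η x)) x := by
      rw [← integral_finsetSum]
      · congr 1; funext x
        unfold lap
        rw [Finset.mul_sum]
      · intro j _
        exact li_test_int (memLp_li (D.hv i))
          (pd_contDiff_infty (pd_contDiff_infty g1 j) j).continuous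
          (pd_hasCompactSupport (pd_hasCompactSupport g1c j) j)
    have h3 : ∀ j, ∫ x, v i x * pd j (pd j (fun x => pd i mu x * η x)) x
        = - ((∫ x, H i j x * (pd i mu x * pd j η x))
          + ∫ x, H i j x * (pd j (pd i mu) x * η x)) := by
      intro j
      rw [D.wd i j _ (pd_contDiff_infty g1 j) (pd_hasCompactSupport g1c j)]
      have n4 : Integrable (fun x => H i j x * (pd j (pd i mu) x * η x)) :=
        li_test_int (hH i j) ((m2 j i).continuous.mul hη.continuous)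
          (HasCompactSupport.mul_left hc)
      rw [← integral_add (n3 i j) n4]
      congr 2; funext x
      rw [pd_mul (((m1 i).differentiable (by simp)) x) ((hη.differentiable (by simp)) x)]
      ring
    rw [h2, Finset.sum_congr rfl fun j _ => h3 j, Finset.sum_neg_distrib,
      Finset.sum_add_distrib] at h1
    linarith
  -- right-hand side
  have r1 : Integrable (fun x => f x * η x) := li_test_int (memLp_li D.hf) hη.continuous hc
  have r2 : ∀ j, Integrable (fun x => dp j x * (pd j mu x * η x)) := fun j =>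
    li_test_int (hd j) ((m1 j).continuous.mul hη.continuous) (HasCompactSupport.mul_left hc)
  have r3 : ∀ j, Integrable (fun x => (∑ i, H i i x) * (pd j (pd j mu) x * η x)) := fun j =>
    li_test_int hp ((m2 j j).continuous.mul hη.continuous) (HasCompactSupport.mul_left hc)
  have r4 : ∀ i, Integrable (fun x => L i x * (pd i mu x * η x)) := fun i =>
    li_test_int (hLm i) ((m1 i).continuous.mul hη.continuous) (HasCompactSupport.mul_left hc)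
  have r5 : ∀ i j, Integrable (fun x => H i j x * (pd j (pd i mu) x * η x)) := fun i j =>
    li_test_int (hH i j) ((m2 j i).continuous.mul hη.continuous) (HasCompactSupport.mul_left hc)
  have fin : ∫ x, LP mu H f dp L x * η x = (∫ x, f x * η x)
      + 2 * ∑ j, ((∫ x, dp j x * (pd j mu x * η x))
        + ∫ x, (∑ i, H i i x) * (pd j (pd j mu) x * η x))
      - 2 * (∑ i, ∫ x, L i x * (pd i mu x * η x))
      - 2 * (∑ i, ∑ j, ∫ x, H i j x * (pd j (pd i mu) x * η x)) := by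
    have e0 : ∀ x, LP mu H f dp L x * η x = f x * η x
        + 2 * (∑ j, (dp j x * (pd j mu x * η x) + (∑ i, H i i x) * (pd j (pd j mu) x * η x)))
        - 2 * (∑ i, L i x * (pd i mu x * η x))
        - 2 * (∑ i, ∑ j, H i j x * (pd j (pd i mu) x * η x)) := by
      intro x
      unfold LP
      simp only [Fin.sum_univ_three]
      ring
    simp_rw [e0]
    have s2 : ∀ j, Integrable (fun x => dp j x * (pd j mu x * η x)
        + (∑ i, H i i x) * (pd j (pd j mu) x * η x)) := fun j => i_add (r2 j) (r3 j)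
    have S2 : Integrable (fun x => 2 * (∑ j, (dp j x * (pd j mu x * η x)
        + (∑ i, H i i x) * (pd j (pd j mu) x * η x)))) :=
      (integrable_finsetSum _ fun j _ => s2 j).const_mul 2
    have S3 : Integrable (fun x => 2 * (∑ i, L i x * (pd i mu x * η x))) :=
      (integrable_finsetSum _ fun i _ => r4 i).const_mul 2
    have S4 : Integrable (fun x => 2 * (∑ i, ∑ j, H i j x * (pd j (pd i mu) x * η x))) :=
      (integrable_finsetSum _ fun i _ => integrable_finsetSum _ fun j _ => r5 i j).const_mul 2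
    rw [integral_sub (i_sub (i_add r1 S2) S3) S4, integral_sub (i_add r1 S2) S3,
      integral_add r1 S2, integral_const_mul, integral_const_mul, integral_const_mul,
      integral_finsetSum _ fun j _ => s2 j, integral_finsetSum _ fun i _ => r4 i,
      integral_finsetSum _ fun i _ => integrable_finsetSum _ fun j _ => r5 i j,
      Finset.sum_congr rfl fun i _ => integral_finsetSum _ fun j _ => r5 i j,
      Finset.sum_congr rfl fun j _ => integral_add (r2 j) (r3 j)]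
  have lhs : ∫ x, (Pf lam mu H x - s x) * lap η x
      = (∫ x, Pf lam mu H x * lap η x) - ∫ x, s x * lap η x := by
    have hl := (lap_contDiff_infty hη).continuous
    have hlc := lap_hasCompactSupport hc
    rw [← integral_sub (li_test_int (memLp_li (D.PMem hlam hmu)) hl hlc)
      (li_test_int (memLp_li D.hs) hl hlc)]
    congr 1
    funext x
    ring
  rw [fin, lhs, E, Finset.sum_congr rfl fun j _ => Qe j]
  simp only [zero_mul, integral_zero, add_zero]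
  have B30 := B3 0
  have B31 := B3 1
  have B32 := B3 2
  have B20 := B2 0
  have B21 := B2 1
  have B22 := B2 2
  simp only [Fin.sum_univ_three] at B1 B20 B21 B22 B30 B31 B32 ⊢
  linarith

/-- two real functions packed in a complex one, for the sources. -/
noncomputable def famS (q : ℝ) (f s : E3 → ℝ) (F ds : Fin 3 → E3 → ℝ) (a : Option (Fin 3))
    (x : E3) : ℂ :=
  match a with
  | none => (q : ℂ) * ((f x : ℂ) + Complex.I * (s x : ℂ))
  | some i => (q : ℂ) * ((F i x : ℂ) + Complex.I * (ds i x : ℂ))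

lemma pack_norm (q a b : ℝ) :
    ‖(q : ℂ) * ((a : ℂ) + Complex.I * (b : ℂ))‖ ^ 2 = q ^ 2 * (a ^ 2 + b ^ 2) := by
  rw [norm_mul, mul_pow, norm_sq_c ((a : ℂ) + Complex.I * (b : ℂ)), Complex.norm_real,
    Real.norm_eq_abs, sq_abs]
  simp

lemma famS_norm (q : ℝ) (f s : E3 → ℝ) (F ds : Fin 3 → E3 → ℝ) (x : E3) :
    ∑ a, ‖famS q f s F ds a x‖ ^ 2
      = q ^ 2 * ((f x ^ 2 + s x ^ 2) + ∑ i, (F i x ^ 2 + ds i x ^ 2)) := by
  rw [Fintype.sum_option, mul_add, Finset.mul_sum]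
  simp only [famS, pack_norm]

lemma wI_pack (al : E3) (q : ℝ) {R : ℝ} {f s : E3 → ℝ} (hf : MemLp f 2) (hs : MemLp s 2)
    (sf : ∀ᵐ y : E3, R < ‖y‖ → f y = 0) (ss : ∀ᵐ y : E3, R < ‖y‖ → s y = 0) :
    ∫ x, Real.exp (2 * ⟪al, x⟫_ℝ) * ‖(q : ℂ) * ((f x : ℂ) + Complex.I * (s x : ℂ))‖ ^ 2
      = q ^ 2 * (wI al f + wI al s) := by
  unfold wI
  have hw := exp_lin_continuous al
  rw [← integral_add (w_int hw hf sf) (w_int hw hs ss), ← integral_const_mul]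
  congr 1
  funext x
  rw [pack_norm]
  ring

/-- **Sharp Carleman estimate for isotropic elasticity** with `div F = f + Δ s`. -/
theorem elastic_carleman_s (hlam : ContDiff ℝ ∞ lam) (hmu : ContDiff ℝ ∞ mu)
    (hmu0 : ∀ x, 0 < mu x) (hnu : ∀ x, 0 < lam x + 2 * mu x) (hR : 0 ≤ R) :
    ∃ C τ₀ : ℝ, 0 < C ∧ 0 < τ₀ ∧ ∀ al : E3, τ₀ ≤ ‖al‖ →
      ∀ (v : Fin 3 → E3 → ℝ) (H : Fin 3 → Fin 3 → E3 → ℝ) (F : Fin 3 → E3 → ℝ) (f s : E3 → ℝ)
        (ds : Fin 3 → E3 → ℝ),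
      RealDataS lam mu R v H F f s ds →
        ‖al‖ ^ 2 * (wI al (Pf lam mu H) + ∑ i, wI al (v i))
          ≤ C * (wI al f + (∑ i, wI al (F i)) + ∑ i, wI al (ds i)) := by
  obtain ⟨M, hM1, hM⟩ := exists_coefBd hlam hmu hmu0 hnu R
  obtain ⟨K, hK⟩ : ∃ K : ℝ, K = 2 * (12313 * M ^ 6) := ⟨_, rfl⟩
  have hK0 : 0 ≤ K := by rw [hK]; positivity
  obtain ⟨C, τ₀, hC, hτ₀, hmain⟩ := carSys_abs (ι := Option (Fin 3)) K R hK0 hR
  refine ⟨4 * C * K + 2, max τ₀ 1, by (clear * - hC hK0; positivity), lt_max_of_lt_left hτ₀, ?_⟩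
  intro al hal' v H F f s ds D
  have hal : τ₀ ≤ ‖al‖ := le_trans (le_max_left _ _) hal'
  have hal1 : 1 ≤ ‖al‖ := le_trans (le_max_right _ _) hal'
  obtain ⟨DP, hDP⟩ := D.exists_DP hlam hmu
  have hPm := D.PMem hlam hmu
  have hdm : ∀ k, MemLp (dpf lam mu H DP k) 2 := fun k =>
    D.dpMem hlam hmu hnu (hDP k).1 (hDP k).2
  have hdp : ∀ k, WD k (fun x => ∑ i, H i i x) (dpf lam mu H DP k) := fun k =>
    D.wd_p hlam hmu hnu (hDP k).1 (hDP k).2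
  have hsd : ∀ k, ∀ᵐ y : E3, R < ‖y‖ → dpf lam mu H DP k y = 0 := fun k =>
    WD_zero_outside (memLp_li (hdm k)) (hdp k) D.trS
  have hr := rf_contDiff hmu hmu0
  -- L_k
  have hLm : ∀ k, MemLp (Lk lam mu H F (dpf lam mu H DP) k) 2 := by
    intro k
    have u1 := memLp_cont_mul hr.continuous (D.hF k) (D.sF k)
    have u2 := memLp_cont_mul (hr.continuous.mul hlam.continuous) (hdm k) (hsd k)
    have u3 := memLp_cont_mul (hr.continuous.mul (pd_contDiff_infty hlam k).continuous)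
      D.trMem D.trS
    have u5 : ∀ j, MemLp (fun x => (mu x * pd j (rf mu) x) * (H k j x + H j k x)) 2 := by
      intro j
      apply memLp_cont_mul (R := R) (hmu.continuous.mul (pd_contDiff_infty hr j).continuous)
        ((D.hH k j).add (D.hH j k))
      filter_upwards [D.sH k j, D.sH j k] with y a b h
      simp [a h, b h]
    have u6 : MemLp (fun x => ∑ j, (mu x * pd j (rf mu) x) * (H k j x + H j k x)) 2 :=
      memLp_finsetSum _ fun j _ => u5 j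
    exact (((u1.sub u2).sub u3).sub (hdm k)).add u6
  have hL : ∀ k, WLap (v k) (Lk lam mu H F (dpf lam mu H DP) k) := fun k =>
    D.lap_v hlam hmu hmu0 hdm hdp k
  have hLs : ∀ k, ∀ᵐ y : E3, R < ‖y‖ → Lk lam mu H F (dpf lam mu H DP) k y = 0 := fun k =>
    WLap_zero_outside (memLp_li (hLm k)) (hL k) (D.sv k)
  -- L_P
  have hLP := D.lap_P hlam hmu hdm hdp (fun k => memLp_li (hLm k)) hL
  have hLPm : MemLp (LP mu H f (dpf lam mu H DP) (Lk lam mu H F (dpf lam mu H DP))) 2 := by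
    have m1 : ∀ i, ContDiff ℝ ∞ (pd i mu) := fun i => pd_contDiff_infty hmu i
    have u1 : MemLp (fun x => ∑ j, (pd j mu x * dpf lam mu H DP j x
        + pd j (pd j mu) x * ∑ i, H i i x)) 2 :=
      memLp_finsetSum _ fun j _ => (memLp_cont_mul (m1 j).continuous (hdm j) (hsd j)).add
        (memLp_cont_mul (pd_contDiff_infty (m1 j) j).continuous D.trMem D.trS)
    have u2 : MemLp (fun x => ∑ i, pd i mu x * Lk lam mu H F (dpf lam mu H DP) i x) 2 :=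
      memLp_finsetSum _ fun i _ => memLp_cont_mul (m1 i).continuous (hLm i) (hLs i)
    have u3 : MemLp (fun x => ∑ i, ∑ j, pd j (pd i mu) x * H i j x) 2 :=
      memLp_finsetSum _ fun i _ => memLp_finsetSum _ fun j _ =>
        memLp_cont_mul (pd_contDiff_infty (m1 i) j).continuous (D.hH i j) (D.sH i j)
    exact ((D.hf.add (u1.const_mul 2)).sub (u2.const_mul 2)).sub (u3.const_mul 2)
  have hPSs : ∀ᵐ y : E3, R < ‖y‖ → Pf lam mu H y - s y = 0 := by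
    filter_upwards [D.PS, D.ss] with y a b h
    rw [a h, b h, sub_zero]
  have hP'm : MemLp (fun x => Pf lam mu H x - s x) 2 := hPm.sub D.hs
  have hLPs := WLap_zero_outside (memLp_li hLPm) hLP hPSs
  have hDPs : ∀ k, ∀ᵐ y : E3, R < ‖y‖ → DP k y = 0 := fun k =>
    WD_zero_outside (memLp_li (hDP k).1) (hDP k).2 D.PS
  have hdss : ∀ k, ∀ᵐ y : E3, R < ‖y‖ → ds k y = 0 := fun k =>
    WD_zero_outside (memLp_li (D.hds k)) (D.wds k) D.ss
  have hD'm : ∀ k, MemLp (fun x => DP k x - ds k x) 2 := fun k => (hDP k).1.sub (D.hds k)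
  have hD's : ∀ k, ∀ᵐ y : E3, R < ‖y‖ → DP k y - ds k y = 0 := by
    intro k
    filter_upwards [hDPs k, hdss k] with y a b h
    rw [a h, b h, sub_zero]
  have hD'wd : ∀ k, WD k (fun x => Pf lam mu H x - s x) (fun x => DP k x - ds k x) := fun k =>
    WD.sub hPm D.hs (hDP k).1 (D.hds k) (hDP k).2 (D.wds k)
  obtain ⟨q, hq⟩ : ∃ q : ℝ, q = Real.sqrt K := ⟨_, rfl⟩
  have hq2 : q ^ 2 = K := by rw [hq]; exact Real.sq_sqrt hK0
  have hfin := hmain al hal (fam (fun x => Pf lam mu H x - s x) v)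
    (fam (LP mu H f (dpf lam mu H DP) (Lk lam mu H F (dpf lam mu H DP)))
        (Lk lam mu H F (dpf lam mu H DP)))
    (famS q f s F ds) (fam2 (fun k x => DP k x - ds k x) H)
    (fam_memLp hP'm D.hv) (fam_memLp hLPm hLm)
    (fun a => by
      match a with
      | none =>
        exact ((memLp_ofReal D.hf).add ((memLp_ofReal D.hs).const_mul Complex.I)).const_mul (q : ℂ)
      | some i =>
        exact ((memLp_ofReal (D.hF i)).add
          ((memLp_ofReal (D.hds i)).const_mul Complex.I)).const_mul (q : ℂ))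
    (fam2_memLp hD'm D.hH)
    (fam_WD hD'wd D.wd) (fam_WLap hLP hL)
    (fam_supp hPSs D.sv) (fam_supp hLPs hLs)
    (fun a => by
      match a with
      | none =>
        filter_upwards [D.sf, D.ss] with y a b h
        simp [famS, a h, b h]
      | some i =>
        filter_upwards [D.sF i, hdss i] with y a b h
        simp [famS, a h, b h])
    (fam2_supp hD's D.sH) ?_
  · rw [WS_fam, WS_fam2] at hfin
    have e1 : WS (fun x => Real.exp (2 * ⟪al, x⟫_ℝ)) (famS q f s F ds)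
        = K * ((wI al f + wI al s) + ∑ i, (wI al (F i) + wI al (ds i))) := by
      unfold WS
      rw [Fintype.sum_option, mul_add, Finset.mul_sum, ← hq2]
      simp only [famS]
      congr 1
      · exact wI_pack al q D.hf D.hs D.sf D.ss
      · apply Finset.sum_congr rfl
        intro i _
        exact wI_pack al q (D.hF i) (D.hds i) (D.sF i) (hdss i)
    rw [e1] at hfin
    have nn : ∀ u : E3 → ℝ, 0 ≤ wI al u := fun u => integral_nonneg fun x => by positivity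
    have hpo := wpoincare D.hs D.hds D.wds D.ss al
    have hPle : wI al (Pf lam mu H) ≤ 2 * wI al (fun x => Pf lam mu H x - s x) + 2 * wI al s := by
      unfold wI
      have hw := exp_lin_continuous al
      rw [← integral_const_mul, ← integral_const_mul,
        ← integral_add ((w_int hw hP'm hPSs).const_mul 2) ((w_int hw D.hs D.ss).const_mul 2)]
      apply integral_mono (w_int hw hPm D.PS)
        (((w_int hw hP'm hPSs).const_mul 2).add ((w_int hw D.hs D.ss).const_mul 2))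
      intro x
      simp only [Pi.add_apply]
      have h1 : (Pf lam mu H x) ^ 2 ≤ 2 * (Pf lam mu H x - s x) ^ 2 + 2 * (s x) ^ 2 := by
        linarith only [sq_nonneg (Pf lam mu H x - 2 * s x)]
      calc Real.exp (2 * ⟪al, x⟫_ℝ) * Pf lam mu H x ^ 2
          ≤ Real.exp (2 * ⟪al, x⟫_ℝ) * (2 * (Pf lam mu H x - s x) ^ 2 + 2 * (s x) ^ 2) :=
            mul_le_mul_of_nonneg_left h1 (Real.exp_pos _).le
        _ = _ := by ring
    have hs1 : wI al s ≤ ∑ i, wI al (ds i) := by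
      have h1 : (1 : ℝ) ≤ ‖al‖ ^ 2 := by (by_contra nlg; linarith only [nlg, mul_nonneg (sub_nonneg.2 hal) (sub_nonneg.2 hal1), mul_nonneg (le_of_lt (sub_pos.2 hτ₀)) (sub_nonneg.2 hal1), mul_nonneg (le_of_lt (sub_pos.2 (not_le.1 nlg))) (sub_nonneg.2 hal), mul_pos (sub_pos.2 (not_le.1 nlg)) (sub_pos.2 hτ₀), mul_nonneg (sq_nonneg (‖al‖ : ℝ)) (sub_nonneg.2 hal1)])
      exact le_trans (le_mul_of_one_le_left (nn s) h1) hpo
    have hv0 : 0 ≤ ∑ i, wI al (v i) := Finset.sum_nonneg fun i _ => nn _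
    have hF0 : 0 ≤ ∑ i, wI al (F i) := Finset.sum_nonneg fun i _ => nn _
    have hds0 : 0 ≤ ∑ i, wI al (ds i) := Finset.sum_nonneg fun i _ => nn _
    have hG0 : 0 ≤ ∑ j, (wI al (fun x => DP j x - ds j x) + ∑ i, wI al (H i j)) :=
      Finset.sum_nonneg fun j _ => add_nonneg (nn _) (Finset.sum_nonneg fun i _ => nn _)
    rw [Finset.sum_add_distrib (f := fun i => wI al (F i))] at hfin
    have hf0 := nn f
    have hal2 : 0 ≤ ‖al‖ ^ 2 := sq_nonneg _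
    have h3 : ‖al‖ ^ 2 * (wI al (fun x => Pf lam mu H x - s x) + ∑ i, wI al (v i))
        ≤ C * (K * ((wI al f + wI al s) + ((∑ i, wI al (F i)) + ∑ i, wI al (ds i)))) := by
      linarith
    have h4 : C * (K * ((wI al f + wI al s) + ((∑ i, wI al (F i)) + ∑ i, wI al (ds i))))
        ≤ C * (K * (2 * (wI al f + (∑ i, wI al (F i)) + ∑ i, wI al (ds i)))) := by
      have : (wI al f + wI al s) + ((∑ i, wI al (F i)) + ∑ i, wI al (ds i))
        ≤ 2 * (wI al f + (∑ i, wI al (F i)) + ∑ i, wI al (ds i)) := by linarith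
      gcongr
    calc ‖al‖ ^ 2 * (wI al (Pf lam mu H) + ∑ i, wI al (v i))
        ≤ ‖al‖ ^ 2 * ((2 * wI al (fun x => Pf lam mu H x - s x) + 2 * wI al s)
          + 2 * ∑ i, wI al (v i)) := by
          apply mul_le_mul_of_nonneg_left _ hal2
          linarith
      _ = 2 * (‖al‖ ^ 2 * (wI al (fun x => Pf lam mu H x - s x) + ∑ i, wI al (v i)))
          + 2 * (‖al‖ ^ 2 * wI al s) := by ring
      _ ≤ 2 * (C * (K * (2 * (wI al f + (∑ i, wI al (F i)) + ∑ i, wI al (ds i)))))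
          + 2 * ∑ i, wI al (ds i) := by linarith
      _ ≤ (4 * C * K + 2) * (wI al f + (∑ i, wI al (F i)) + ∑ i, wI al (ds i)) := by
          linarith only [hf0, hF0]
  · have hz1 := fam_supp hLPs hLs
    have hz := ae_all_iff.mpr hz1
    filter_upwards [hz] with x hx
    have hnn : 0 ≤ 3 * ∑ a, ‖famS q f s F ds a x‖ ^ 2
        + K * ((∑ p, ‖fam2 (fun k x => DP k x - ds k x) H p x‖ ^ 2)
          + ∑ a, ‖fam (fun x => Pf lam mu H x - s x) v a x‖ ^ 2) := by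
      (clear * - hK0; positivity)
    by_cases hxR : R < ‖x‖
    · refine le_trans (le_of_eq ?_) hnn
      apply Finset.sum_eq_zero
      intro a _
      rw [hx a hxR]
      simp
    · have hB := hM x (not_lt.mp hxR)
      have hpw := sys_pointwise (H := H) (F := F) (f := f) (v := v) hnu hB (DP := DP)
      refine hpw.trans ?_
      rw [famS_norm, fam2_norm, fam_norm, hq2]
      have g1 : (Pf lam mu H x) ^ 2 ≤ 2 * (Pf lam mu H x - s x) ^ 2 + 2 * (s x) ^ 2 := by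
        linarith only [sq_nonneg (Pf lam mu H x - 2 * s x)]
      have g2 : ∀ j, (DP j x) ^ 2 ≤ 2 * (DP j x - ds j x) ^ 2 + 2 * (ds j x) ^ 2 := by
        intro j
        linarith only [sq_nonneg (DP j x - 2 * ds j x)]
      have M6 : 0 ≤ 12313 * M ^ 6 := by positivity
      have hK' : K = 2 * (12313 * M ^ 6) := hK
      have g3 : ∑ j, ((DP j x) ^ 2 + ∑ i, (H i j x) ^ 2)
          ≤ 2 * (∑ j, ((DP j x - ds j x) ^ 2 + ∑ i, (H i j x) ^ 2)) + 2 * ∑ j, (ds j x) ^ 2 := by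
        rw [Finset.mul_sum, Finset.mul_sum, ← Finset.sum_add_distrib]
        apply Finset.sum_le_sum
        intro j _
        have h1 := g2 j
        have h2 : 0 ≤ ∑ i, (H i j x) ^ 2 := Finset.sum_nonneg fun _ _ => sq_nonneg _
        linarith
      have g4 : ∑ i, ((F i x) ^ 2 + (ds i x) ^ 2) = (∑ i, (F i x) ^ 2) + ∑ i, (ds i x) ^ 2 :=
        Finset.sum_add_distrib
      have n1 : 0 ≤ ∑ i, (F i x) ^ 2 := Finset.sum_nonneg fun _ _ => sq_nonneg _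
      have n2 : 0 ≤ ∑ i, (ds i x) ^ 2 := Finset.sum_nonneg fun _ _ => sq_nonneg _
      have n3 : 0 ≤ ∑ i, (v i x) ^ 2 := Finset.sum_nonneg fun _ _ => sq_nonneg _
      have n4 := sq_nonneg (f x)
      have n5 := sq_nonneg (s x)
      rw [g4]
      generalize ∑ j, ((DP j x) ^ 2 + ∑ i, (H i j x) ^ 2) = S1 at g3 ⊢
      generalize ∑ j, ((DP j x - ds j x) ^ 2 + ∑ i, (H i j x) ^ 2) = S2 at g3 ⊢
      generalize ∑ i, (F i x) ^ 2 = S3 at n1 ⊢
      generalize ∑ i, (ds i x) ^ 2 = S4 at n2 g3 ⊢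
      generalize ∑ i, (v i x) ^ 2 = S5 at n3 ⊢
      generalize (Pf lam mu H x) ^ 2 = S6 at g1 ⊢
      generalize (Pf lam mu H x - s x) ^ 2 = S7 at g1 ⊢
      generalize (f x) ^ 2 = S8 at n4 ⊢
      generalize (s x) ^ 2 = S9 at n5 g1 ⊢
      rw [hK']
      have total : (S8 + S3) + (S1 + (S6 + S5)) ≤ 2 * (3 * ((S8 + S9) + (S3 + S4))
          + (S2 + (S7 + S5))) := by linarith
      calc 12313 * M ^ 6 * ((S8 + S3) + (S1 + (S6 + S5)))
          ≤ 12313 * M ^ 6 * (2 * (3 * ((S8 + S9) + (S3 + S4)) + (S2 + (S7 + S5)))) :=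
            mul_le_mul_of_nonneg_left total M6
        _ = _ := by ring

end

end Vale.Agent.P136
end
end

section

section

open MeasureTheory Filter Topology
open scoped ContDiff InnerProductSpace ENNReal

namespace Vale.Agent.P136

section

variable {lam mu : E3 → ℝ} {R : ℝ} {v : Fin 3 → E3 → ℂ} {H : Fin 3 → Fin 3 → E3 → ℂ}
  {F : Fin 3 → E3 → ℂ} {f s : E3 → ℂ} {ds : Fin 3 → E3 → ℂ}

/-- Hypotheses for the weak elasticity system with `div F = f + Δ s`, complex version. -/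
structure CxDataS (lam mu : E3 → ℝ) (R : ℝ) (v : Fin 3 → E3 → ℂ) (H : Fin 3 → Fin 3 → E3 → ℂ)
    (F : Fin 3 → E3 → ℂ) (f s : E3 → ℂ) (ds : Fin 3 → E3 → ℂ) : Prop where
  hv : ∀ i, MemLp (v i) 2
  hH : ∀ i j, MemLp (H i j) 2
  hF : ∀ i, MemLp (F i) 2
  hf : MemLp f 2
  hs : MemLp s 2
  hds : ∀ i, MemLp (ds i) 2
  wd : ∀ i j, CWD j (v i) (H i j)
  wds : ∀ j, CWD j s (ds j)
  divF : ∀ η : E3 → ℝ, ContDiff ℝ ∞ η → HasCompactSupport η →
    ∑ i, ∫ x, F i x * ((pd i η x : ℝ) : ℂ) = - (∫ x, f x * ((η x : ℝ) : ℂ))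
      - ∫ x, s x * ((lap η x : ℝ) : ℂ)
  sv : ∀ i, ∀ᵐ y : E3, R < ‖y‖ → v i y = 0
  ss : ∀ᵐ y : E3, R < ‖y‖ → s y = 0
  eqn : ∀ k, ∀ η : E3 → ℝ, ContDiff ℝ ∞ η → HasCompactSupport η →
    (∫ x, (∑ i, H i i x) * ((lam x * pd k η x : ℝ) : ℂ))
      + ∑ j, ∫ x, (H k j x + H j k x) * ((mu x * pd j η x : ℝ) : ℂ)
      = - ∫ x, F k x * ((η x : ℝ) : ℂ)

lemma CxDataS.re (hlam : Continuous lam) (hmu : Continuous mu)
    (D : CxDataS lam mu R v H F f s ds) :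
    RealDataS lam mu R (fun i x => (v i x).re) (fun i j x => (H i j x).re)
      (fun i x => (F i x).re) (fun x => (f x).re) (fun x => (s x).re)
      (fun i x => (ds i x).re) where
  hv i := memLp_re (D.hv i)
  hH i j := memLp_re (D.hH i j)
  hF i := memLp_re (D.hF i)
  hf := memLp_re D.hf
  hs := memLp_re D.hs
  hds i := memLp_re (D.hds i)
  wd i j := (D.wd i j).1
  wds j := (D.wds j).1
  divF η h1 h2 := by
    have h := congrArg Complex.re (D.divF η h1 h2)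
    rw [Complex.sub_re, Complex.neg_re, Complex.re_sum,
      int_re (memLp_li_c D.hf) h1.continuous h2,
      int_re (memLp_li_c D.hs) (lap_contDiff_infty h1).continuous (lap_hasCompactSupport h2)] at h
    rw [← h]
    apply Finset.sum_congr rfl
    intro i _
    rw [int_re (memLp_li_c (D.hF i)) (pd_contDiff_infty h1 i).continuous
      (pd_hasCompactSupport h2 i)]
  sv i := by
    filter_upwards [D.sv i] with y hy h
    simp [hy h]
  ss := by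
    filter_upwards [D.ss] with y hy h
    simp [hy h]
  eqn k η h1 h2 := by
    have h := congrArg Complex.re (D.eqn k η h1 h2)
    have c1 := (pd_contDiff_infty h1)
    have hH : ∀ i j, LocallyIntegrable (H i j) := fun i j => memLp_li_c (D.hH i j)
    have ht : LocallyIntegrable (fun x => ∑ i, H i i x) :=
      memLp_li_c (memLp_finsetSum _ fun i _ => D.hH i i)
    rw [Complex.neg_re, Complex.add_re, Complex.re_sum,
      int_re (memLp_li_c (D.hF k)) h1.continuous h2,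
      int_re (g := fun x => lam x * pd k η x) ht (hlam.mul (c1 k).continuous)
        (HasCompactSupport.mul_left (pd_hasCompactSupport h2 k))] at h
    rw [← h]
    congr 1
    · congr 1
      funext x
      rw [Complex.re_sum]
      ring
    · apply Finset.sum_congr rfl
      intro j _
      have hs : LocallyIntegrable (fun x => H k j x + H j k x) := (hH k j).add (hH j k)
      rw [int_re (g := fun x => mu x * pd j η x) hs (hmu.mul (c1 j).continuous)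
        (HasCompactSupport.mul_left (pd_hasCompactSupport h2 j))]
      congr 1
      funext x
      rw [Complex.add_re]
      ring

lemma CxDataS.im (hlam : Continuous lam) (hmu : Continuous mu)
    (D : CxDataS lam mu R v H F f s ds) :
    RealDataS lam mu R (fun i x => (v i x).im) (fun i j x => (H i j x).im)
      (fun i x => (F i x).im) (fun x => (f x).im) (fun x => (s x).im)
      (fun i x => (ds i x).im) where
  hv i := memLp_im (D.hv i)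
  hH i j := memLp_im (D.hH i j)
  hF i := memLp_im (D.hF i)
  hf := memLp_im D.hf
  hs := memLp_im D.hs
  hds i := memLp_im (D.hds i)
  wd i j := (D.wd i j).2
  wds j := (D.wds j).2
  divF η h1 h2 := by
    have h := congrArg Complex.im (D.divF η h1 h2)
    rw [Complex.sub_im, Complex.neg_im, Complex.im_sum,
      int_im (memLp_li_c D.hf) h1.continuous h2,
      int_im (memLp_li_c D.hs) (lap_contDiff_infty h1).continuous (lap_hasCompactSupport h2)] at h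
    rw [← h]
    apply Finset.sum_congr rfl
    intro i _
    rw [int_im (memLp_li_c (D.hF i)) (pd_contDiff_infty h1 i).continuous
      (pd_hasCompactSupport h2 i)]
  sv i := by
    filter_upwards [D.sv i] with y hy h
    simp [hy h]
  ss := by
    filter_upwards [D.ss] with y hy h
    simp [hy h]
  eqn k η h1 h2 := by
    have h := congrArg Complex.im (D.eqn k η h1 h2)
    have c1 := (pd_contDiff_infty h1)
    have hH : ∀ i j, LocallyIntegrable (H i j) := fun i j => memLp_li_c (D.hH i j)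
    have ht : LocallyIntegrable (fun x => ∑ i, H i i x) :=
      memLp_li_c (memLp_finsetSum _ fun i _ => D.hH i i)
    rw [Complex.neg_im, Complex.add_im, Complex.im_sum,
      int_im (memLp_li_c (D.hF k)) h1.continuous h2,
      int_im (g := fun x => lam x * pd k η x) ht (hlam.mul (c1 k).continuous)
        (HasCompactSupport.mul_left (pd_hasCompactSupport h2 k))] at h
    rw [← h]
    congr 1
    · congr 1
      funext x
      rw [Complex.im_sum]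
      ring
    · apply Finset.sum_congr rfl
      intro j _
      have hs : LocallyIntegrable (fun x => H k j x + H j k x) := (hH k j).add (hH j k)
      rw [int_im (g := fun x => mu x * pd j η x) hs (hmu.mul (c1 j).continuous)
        (HasCompactSupport.mul_left (pd_hasCompactSupport h2 j))]
      congr 1
      funext x
      rw [Complex.add_im]
      ring

/-- **Sharp Carleman estimate for isotropic elasticity**, complex version, `div F = f + Δ s`. -/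
theorem elastic_carleman_sc (hlam : ContDiff ℝ ∞ lam) (hmu : ContDiff ℝ ∞ mu)
    (hmu0 : ∀ x, 0 < mu x) (hnu : ∀ x, 0 < lam x + 2 * mu x) (hR : 0 ≤ R) :
    ∃ C τ₀ : ℝ, 0 < C ∧ 0 < τ₀ ∧ ∀ al : E3, τ₀ ≤ ‖al‖ →
      ∀ (v : Fin 3 → E3 → ℂ) (H : Fin 3 → Fin 3 → E3 → ℂ) (F : Fin 3 → E3 → ℂ) (f s : E3 → ℂ)
        (ds : Fin 3 → E3 → ℂ),
      CxDataS lam mu R v H F f s ds →
        ‖al‖ ^ 2 * (wIc al (Pfc lam mu H) + ∑ i, wIc al (v i))
          ≤ C * (wIc al f + (∑ i, wIc al (F i)) + ∑ i, wIc al (ds i)) := by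
  obtain ⟨C, τ₀, hC, hτ₀, hmain⟩ := elastic_carleman_s (R := R) hlam hmu hmu0 hnu hR
  refine ⟨C, τ₀, hC, hτ₀, ?_⟩
  intro al hal v H F f s ds D
  have Dr := D.re hlam.continuous hmu.continuous
  have Di := D.im hlam.continuous hmu.continuous
  have bR := hmain al hal _ _ _ _ _ _ Dr
  have bI := hmain al hal _ _ _ _ _ _ Di
  have sP : ∀ᵐ y : E3, R < ‖y‖ → Pfc lam mu H y = 0 := by
    filter_upwards [Dr.PS, Di.PS] with y a b h
    apply Complex.ext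
    · have := congrFun (Pfc_re (lam := lam) (mu := mu) H) y
      rw [this, a h]; rfl
    · have := congrFun (Pfc_im (lam := lam) (mu := mu) H) y
      rw [this, b h]; rfl
  have mP : MemLp (Pfc lam mu H) 2 := by
    apply memLp_of_re_im
    · rw [Pfc_re]; exact Dr.PMem hlam hmu
    · rw [Pfc_im]; exact Di.PMem hlam hmu
  have eP : wIc al (Pfc lam mu H) = wI al (Pf lam mu (fun i j x => (H i j x).re))
      + wI al (Pf lam mu (fun i j x => (H i j x).im)) := by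
    rw [wIc_split al mP sP, Pfc_re, Pfc_im]
  have cz : ∀ {z : ℂ}, z.re = 0 → z.im = 0 → z = 0 := fun a b => Complex.ext a b
  have ev : ∀ i, wIc al (v i) = wI al (fun x => (v i x).re) + wI al (fun x => (v i x).im) :=
    fun i => wIc_split al (D.hv i) (D.sv i)
  have sF : ∀ i, ∀ᵐ y : E3, R < ‖y‖ → F i y = 0 := by
    intro i
    filter_upwards [Dr.sF i, Di.sF i] with y a b h
    exact cz (a h) (b h)
  have eF : ∀ i, wIc al (F i) = wI al (fun x => (F i x).re) + wI al (fun x => (F i x).im) :=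
    fun i => wIc_split al (D.hF i) (sF i)
  have sf : ∀ᵐ y : E3, R < ‖y‖ → f y = 0 := by
    filter_upwards [Dr.sf, Di.sf] with y a b h
    exact cz (a h) (b h)
  have ef : wIc al f = wI al (fun x => (f x).re) + wI al (fun x => (f x).im) :=
    wIc_split al D.hf sf
  have sds : ∀ i, ∀ᵐ y : E3, R < ‖y‖ → ds i y = 0 := fun i =>
    CWD.zero_outside (D.hds i) (D.wds i) D.ss
  have eds : ∀ i, wIc al (ds i) = wI al (fun x => (ds i x).re) + wI al (fun x => (ds i x).im) :=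
    fun i => wIc_split al (D.hds i) (sds i)
  rw [eP, ef]
  simp only [ev, eF, eds]
  simp only [Finset.sum_add_distrib] at bR bI ⊢
  linarith

end

/-- the hypotheses of `elastic_carleman_sc` from the language of `H¹₀`. -/
lemma CxDataS_of_CH10 {Ω : Set E3} {R : ℝ} (hR : ∀ x : E3, R < ‖x‖ → x ∉ Ω) {lam mu : E3 → ℝ}
    (hlam : ContDiff ℝ ∞ lam) (hmu : ContDiff ℝ ∞ mu) {v : Fin 3 → E3 → ℂ}
    {dv : Fin 3 → Fin 3 → E3 → ℂ} {F : Fin 3 → E3 → ℂ} {f s : E3 → ℂ} {ds : Fin 3 → E3 → ℂ}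
    (hv : ∀ j, CH10 Ω (v j) (fun i => dv i j)) (hF : ∀ j, MemLp (F j) 2)
    (hf : MemLp f 2) (hs : MemLp s 2) (hds : ∀ j, MemLp (ds j) 2)
    (sz : ∀ x, x ∉ Ω → s x = 0)
    (hwds : ∀ k, ∀ ψ : E3 → ℝ, ContDiff ℝ ∞ ψ → HasCompactSupport ψ →
      ∫ x, s x * ((pd k ψ x : ℝ) : ℂ) = - ∫ x, ds k x * ((ψ x : ℝ) : ℂ))
    (hdiv : ∀ ψ : E3 → ℝ, ContDiff ℝ ∞ ψ → HasCompactSupport ψ →
      ∑ j, ∫ x, F j x * ((pd j ψ x : ℝ) : ℂ) = - (∫ x, f x * ((ψ x : ℝ) : ℂ))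
        - ∫ x, s x * ((lap ψ x : ℝ) : ℂ))
    (heq : ∀ g : Fin 3 → E3 → ℂ, (∀ j, ContDiff ℝ ∞ (g j)) → (∀ j, HasCompactSupport (g j)) →
      cform Ω lam mu dv (fun i j => pd i (g j)) = - ∑ j, ∫ x, F j x * g j x) :
    CxDataS lam mu R v (fun i j => dv j i) F f s ds where
  hv j := (hv j).val_mem
  hH i j := (hv i).der_mem j
  hF := hF
  hf := hf
  hs := hs
  hds := hds
  wd i j := (hv i).cwd j
  wds j := CWD_of_integral (memLp_li_c hs) (memLp_li_c (hds j)) (hwds j)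
  divF := hdiv
  sv i := Eventually.of_forall fun y hy => (hv i).val_zero y (hR y hy)
  ss := Eventually.of_forall fun y hy => sz y (hR y hy)
  eqn k η h1 h2 := by
    have dz : ∀ i j x, x ∉ Ω → dv i j x = 0 := fun i j x hx => (hv j).der_zero i x hx
    have hl : ∀ i j, LocallyIntegrable (dv i j) := fun i j => memLp_li_c ((hv j).der_mem i)
    have h := heq (fun j x => if j = k then ((η x : ℝ) : ℂ) else 0)
      (by
        intro j
        by_cases hj : j = k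
        · simp only [hj, if_true]
          exact contDiff_ofReal h1
        · simp only [hj, if_false]
          exact contDiff_const)
      (by
        intro j
        by_cases hj : j = k
        · simp only [hj, if_true]
          exact h2.comp_left (g := fun t : ℝ => (t : ℂ)) (by simp)
        · simp only [hj, if_false]
          exact HasCompactSupport.zero)
    rw [cform_single h1 k] at h
    rw [setIntegral_eq_integral_of_forall_compl_eq_zero (by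
      intro x hx
      simp [dz _ _ x hx])] at h
    have i1 : Integrable (fun x => (∑ i, dv i i x) * ((lam x * pd k η x : ℝ) : ℂ)) := by
      have hs : LocallyIntegrable (fun x => ∑ i, dv i i x) :=
        memLp_li_c (memLp_finsetSum _ fun i _ => (hv i).der_mem i)
      have := hs.integrable_smul_left_of_hasCompactSupport
        (hlam.continuous.mul (pd_contDiff_infty h1 k).continuous)
        (HasCompactSupport.mul_left (pd_hasCompactSupport h2 k))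
      refine this.congr (Eventually.of_forall fun x => ?_)
      simp only [Pi.mul_apply, Complex.real_smul]
      ring
    have i2 : ∀ j, Integrable (fun x => (dv j k x + dv k j x) * ((mu x * pd j η x : ℝ) : ℂ)) := by
      intro j
      have hs : LocallyIntegrable (fun x => dv j k x + dv k j x) := (hl j k).add (hl k j)
      have := hs.integrable_smul_left_of_hasCompactSupport
        (hmu.continuous.mul (pd_contDiff_infty h1 j).continuous)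
        (HasCompactSupport.mul_left (pd_hasCompactSupport h2 j))
      refine this.congr (Eventually.of_forall fun x => ?_)
      simp only [Pi.mul_apply, Complex.real_smul]
      ring
    rw [integral_add i1 (integrable_finsetSum _ fun j _ => i2 j),
      integral_finsetSum _ fun j _ => i2 j] at h
    rw [h]
    congr 1
    have : ∀ j, ∫ x, F j x * (if j = k then ((η x : ℝ) : ℂ) else 0)
        = if j = k then ∫ x, F j x * ((η x : ℝ) : ℂ) else 0 := by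
      intro j
      by_cases hj : j = k
      · simp [hj]
      · simp [hj]
    rw [Finset.sum_congr rfl fun j _ => this j]
    simp

/-- **The weighted a priori bound for the transmission problem**, `div F = f + Δ s`. -/
theorem tl_bound_s {Ω : Set E3} (hΩ : Bornology.IsBounded Ω) {lam mu : E3 → ℝ}
    (hlam : ContDiff ℝ ∞ lam) (hmu : ContDiff ℝ ∞ mu) (hmu0 : ∀ x, 0 < mu x)
    (hnu : ∀ x, 0 < lam x + 2 * mu x) :
    ∃ C τ₀ : ℝ, 0 < C ∧ 0 < τ₀ ∧ ∀ α : E3, τ₀ ≤ ‖α‖ →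
      ∀ (v : Fin 3 → E3 → ℂ) (dv : Fin 3 → Fin 3 → E3 → ℂ) (F : Fin 3 → E3 → ℂ) (f s : E3 → ℂ)
        (ds : Fin 3 → E3 → ℂ),
      (∀ j, CH10 Ω (v j) (fun i => dv i j)) → (∀ j, MemLp (F j) 2) →
      MemLp f 2 → MemLp s 2 → (∀ j, MemLp (ds j) 2) → (∀ x, x ∉ Ω → s x = 0) →
      (∀ k, ∀ ψ : E3 → ℝ, ContDiff ℝ ∞ ψ → HasCompactSupport ψ →
        ∫ x, s x * ((pd k ψ x : ℝ) : ℂ) = - ∫ x, ds k x * ((ψ x : ℝ) : ℂ)) →
      (∀ ψ : E3 → ℝ, ContDiff ℝ ∞ ψ → HasCompactSupport ψ →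
        ∑ j, ∫ x, F j x * ((pd j ψ x : ℝ) : ℂ) = - (∫ x, f x * ((ψ x : ℝ) : ℂ))
          - ∫ x, s x * ((lap ψ x : ℝ) : ℂ)) →
      (∀ g : Fin 3 → E3 → ℂ, (∀ j, ContDiff ℝ ∞ (g j)) → (∀ j, HasCompactSupport (g j)) →
        cform Ω lam mu dv (fun i j => pd i (g j)) = - ∑ j, ∫ x, F j x * g j x) →
      ‖α‖ ^ 2 * ((∑ j, ∫ x, Real.exp (2 * ⟪α, x⟫_ℝ) * ‖v j x‖ ^ 2)
            + ∫ x, Real.exp (2 * ⟪α, x⟫_ℝ) * ‖∑ i, dv i i x‖ ^ 2)
          ≤ C * ((∫ x, Real.exp (2 * ⟪α, x⟫_ℝ) * ‖f x‖ ^ 2)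
            + (∑ j, ∫ x, Real.exp (2 * ⟪α, x⟫_ℝ) * ‖F j x‖ ^ 2)
            + ∑ j, ∫ x, Real.exp (2 * ⟪α, x⟫_ℝ) * ‖ds j x‖ ^ 2) := by
  obtain ⟨R, hR0, hR⟩ := bdd_subset_ball hΩ
  obtain ⟨C, τ₀, hC, hτ₀, hmain⟩ := elastic_carleman_sc (R := R) hlam hmu hmu0 hnu hR0
  obtain ⟨M, hM1, hM⟩ := exists_coefBd hlam hmu hmu0 hnu R
  refine ⟨M ^ 2 * C, τ₀, by positivity, hτ₀, ?_⟩
  intro α hα v dv F f s ds hv hF hf hs hds sz hwds hdiv heq
  have D := CxDataS_of_CH10 hR hlam hmu hv hF hf hs hds sz hwds hdiv heq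
  have hb := hmain α hα v _ F f s ds D
  set P : E3 → ℂ := Pfc lam mu (fun i j => dv j i) with hP
  have dz : ∀ i j x, x ∉ Ω → dv i j x = 0 := fun i j x hx => (hv j).der_zero i x hx
  have sP : ∀ᵐ y : E3, R < ‖y‖ → P y = 0 := Eventually.of_forall fun y hy => by
    rw [hP]
    unfold Pfc
    simp [dz _ _ y (hR y hy)]
  have mdv : ∀ i j, MemLp (dv i j) 2 := fun i j => (hv j).der_mem i
  have mtr : MemLp (fun x => ∑ i, dv i i x) 2 := memLp_finsetSum _ fun i _ => mdv i i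
  have str : ∀ᵐ y : E3, R < ‖y‖ → ∑ i, dv i i y = 0 := Eventually.of_forall fun y hy => by
    simp [dz _ _ y (hR y hy)]
  have mP : MemLp P 2 :=
    memLp_cont_mul_c (a := fun x => lam x + 2 * mu x)
      (hlam.continuous.add (continuous_const.mul hmu.continuous)) mtr str
  have hp : (fun x => ((cf lam mu x : ℝ) : ℂ) * P x) = fun x => ∑ i, dv i i x := by
    funext x
    rw [hP]
    unfold Pfc cf
    have h0 : ((lam x + 2 * mu x : ℝ) : ℂ) ≠ 0 := by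
      exact_mod_cast (hnu x).ne'
    rw [Complex.ofReal_inv, ← mul_assoc, inv_mul_cancel₀ h0, one_mul]
  have hM0 : 0 ≤ M := by linarith
  have b1 : wIc α (fun x => ∑ i, dv i i x) ≤ M ^ 2 * wIc α P + 0 * wIc α P := by
    apply wIc_le_of_ae mtr mP mP str sP sP
    apply Eventually.of_forall
    intro x
    rw [zero_mul, add_zero]
    by_cases hx : R < ‖x‖
    · have : ∑ i, dv i i x = 0 := by simp [dz _ _ x (hR x hx)]
      rw [this]
      simp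
      positivity
    · have hB := hM x (not_lt.mp hx)
      have e1 : ∑ i, dv i i x = ((cf lam mu x : ℝ) : ℂ) * P x := (congrFun hp x).symm
      rw [e1, norm_mul, mul_pow, Complex.norm_real, Real.norm_eq_abs]
      have := hB.c
      gcongr
  have nnI : ∀ u : E3 → ℂ, 0 ≤ wIc α u := fun u => integral_nonneg fun x => by positivity
  have e0 : ∀ u : E3 → ℂ, ∫ x, Real.exp (2 * ⟪α, x⟫_ℝ) * ‖u x‖ ^ 2 = wIc α u := fun _ => rfl
  have e1 : ∫ x, Real.exp (2 * ⟪α, x⟫_ℝ) * ‖∑ i, dv i i x‖ ^ 2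
      = wIc α (fun x => ∑ i, dv i i x) := rfl
  simp only [e1, e0]
  have X1 : 0 ≤ ∑ j, wIc α (v j) := Finset.sum_nonneg fun _ _ => nnI _
  have X2 : 0 ≤ wIc α P := nnI _
  have hM2 : 1 ≤ M ^ 2 := by (by_contra nlg; linarith only [nlg, mul_nonneg (sub_nonneg.2 hM1) (sub_nonneg.2 hM0), mul_nonneg (le_of_lt (sub_pos.2 (not_le.1 nlg))) (sub_nonneg.2 hM1), mul_pos (sub_pos.2 (not_le.1 nlg)) (sub_pos.2 (not_le.1 nlg)), mul_nonneg (sq_nonneg (M : ℝ)) (sub_nonneg.2 hM1), mul_nonneg (sq_nonneg (M : ℝ)) (le_of_lt (sub_pos.2 (not_le.1 nlg)))])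
  calc ‖α‖ ^ 2 * ((∑ j, wIc α (v j)) + wIc α (fun x => ∑ i, dv i i x))
      ≤ ‖α‖ ^ 2 * (M ^ 2 * (∑ j, wIc α (v j)) + M ^ 2 * wIc α P) := by
        have h1 : ∑ j, wIc α (v j) ≤ M ^ 2 * ∑ j, wIc α (v j) := le_mul_of_one_le_left X1 hM2
        have h2 : wIc α (fun x => ∑ i, dv i i x) ≤ M ^ 2 * wIc α P := by linarith
        gcongr
    _ = M ^ 2 * (‖α‖ ^ 2 * (wIc α P + ∑ j, wIc α (v j))) := by ring
    _ ≤ M ^ 2 * (C * (wIc α f + (∑ i, wIc α (F i)) + ∑ i, wIc α (ds i))) := by gcongr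
    _ = _ := by ring

end Vale.Agent.P136
end
end

section

section

open MeasureTheory Filter Topology
open scoped ContDiff InnerProductSpace ENNReal

namespace Vale.Agent.P136.TLBB

open TL

/-- mixed second derivatives against smooth functions vanishing on the boundary. -/
theorem mixed_IO {Ω : Set E3} (ho : IsOpen Ω) (hb : Bornology.IsBounded Ω) {R : ℝ}
    (hR : closure Ω ⊆ Metric.ball 0 R) {w dwi dwk : E3 → ℂ} {i k : Fin 3}
    (hdwi : MemLp dwi 2 (volume.restrict (Metric.ball (0 : E3) R)))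
    (hdwk : MemLp dwk 2 (volume.restrict (Metric.ball (0 : E3) R)))
    (hi : WDc (Metric.ball 0 R) i w dwi) (hk : WDc (Metric.ball 0 R) k w dwk)
    (η : Sm) (hη : η ∈ TL.IO Ω) :
    ∫ x in Ω, dwk x * (P i η : E3 → ℂ) x = ∫ x in Ω, dwi x * (P k η : E3 → ℂ) x := by
  obtain ⟨φ, h1, h2, h3, h4, h5⟩ := exists_approx ho hb hR η hη
  have t1 := tendstoC (c := dwk) hdwk ((ext_memLp ho hb (sm_cont (P i η))).restrict _)
    (fun n => (h3 n i).restrict _)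
    (tendsto_restrict (ext_memLp ho hb (sm_cont (P i η))) (fun n => h3 n i) (h5 i))
  have t2 := tendstoC (c := dwi) hdwi ((ext_memLp ho hb (sm_cont (P k η))).restrict _)
    (fun n => (h3 n k).restrict _)
    (tendsto_restrict (ext_memLp ho hb (sm_cont (P k η))) (fun n => h3 n k) (h5 k))
  have ct : ∀ n j, CTest (Metric.ball 0 R) (pd j (φ n)) := by
    intro n j
    refine ⟨pd_contDiff_infty (h1 n).1 j, pd_hasCompactSupport (h1 n).2.1 j, ?_⟩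
    refine Set.Subset.trans ?_ (h1 n).2.2
    unfold pd
    exact (tsupport_fderiv_apply_subset ℝ (bv j))
  have e : ∀ n, ∫ x in Metric.ball (0 : E3) R, dwk x * pd i (φ n) x
      = ∫ x in Metric.ball (0 : E3) R, dwi x * pd k (φ n) x := by
    intro n
    have a1 := hk _ (ct n i)
    have a2 := hi _ (ct n k)
    rw [pd_comm ((h1 n).1.of_le (by norm_cast)) i k] at a2
    rw [a1] at a2
    exact neg_injective a2
  simp only [e] at t1
  have := tendsto_nhds_unique t1 t2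
  rw [int_ball_indicator ho hR, int_ball_indicator ho hR] at this
  exact this

section src

variable {Ω : Set E3} {p : E3 → ℂ} {dp : Fin 3 → E3 → ℂ} {du : Fin 3 → Fin 3 → E3 → ℂ}

/-- general linear combination of the data with smooth coefficients. -/
noncomputable def src (p : E3 → ℂ) (dp : Fin 3 → E3 → ℂ) (du : Fin 3 → Fin 3 → E3 → ℂ)
    (b : Sm) (a : Fin 3 → Sm) (c : Fin 3 → Fin 3 → Sm) (x : E3) : ℂ :=
  (b : E3 → ℂ) x * p x + (∑ j, (a j : E3 → ℂ) x * dp j x)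
    + ∑ i, ∑ j, (c i j : E3 → ℂ) x * du i j x

/-- total density of the data. -/
noncomputable def dens (p : E3 → ℂ) (dp : Fin 3 → E3 → ℂ) (du : Fin 3 → Fin 3 → E3 → ℂ)
    (x : E3) : ℝ :=
  ‖p x‖ ^ 2 + (∑ j, ‖dp j x‖ ^ 2) + ∑ i, ∑ j, ‖du i j x‖ ^ 2

lemma src_memLp (hb : Bornology.IsBounded Ω) (hp : MemLp p 2 (volume.restrict Ω))
    (hdp : ∀ j, MemLp (dp j) 2 (volume.restrict Ω))
    (hdu : ∀ i j, MemLp (du i j) 2 (volume.restrict Ω))
    (b : Sm) (a : Fin 3 → Sm) (c : Fin 3 → Fin 3 → Sm) :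
    MemLp (src p dp du b a c) 2 (volume.restrict Ω) := by
  have h1 := memLp_mul_cont hb (sm_cont b) hp
  have h2 : MemLp (fun x => ∑ j, (a j : E3 → ℂ) x * dp j x) 2 (volume.restrict Ω) :=
    memLp_finsetSum _ fun j _ => memLp_mul_cont hb (sm_cont (a j)) (hdp j)
  have h3 : MemLp (fun x => ∑ i, ∑ j, (c i j : E3 → ℂ) x * du i j x) 2 (volume.restrict Ω) :=
    memLp_finsetSum _ fun i _ => memLp_finsetSum _ fun j _ =>
      memLp_mul_cont hb (sm_cont (c i j)) (hdu i j)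
  exact (h1.add h2).add h3

lemma src_pair (hb : Bornology.IsBounded Ω) (hp : MemLp p 2 (volume.restrict Ω))
    (hdp : ∀ j, MemLp (dp j) 2 (volume.restrict Ω))
    (hdu : ∀ i j, MemLp (du i j) 2 (volume.restrict Ω))
    (b : Sm) (a : Fin 3 → Sm) (c : Fin 3 → Fin 3 → Sm) (g : Sm) :
    ∫ x in Ω, src p dp du b a c x * (g : E3 → ℂ) x
      = Tm Ω hb p hp (b * g) + (∑ j, Tm Ω hb (dp j) (hdp j) (a j * g))
        + ∑ i, ∑ j, Tm Ω hb (du i j) (hdu i j) (c i j * g) := by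
  simp only [Tm_apply]
  have i1 := tm_int hb hp (b * g)
  have i2 := fun j => tm_int hb (hdp j) (a j * g)
  have i3 := fun i j => tm_int hb (hdu i j) (c i j * g)
  rw [← integral_finsetSum _ fun j _ => i2 j]
  have e1 : ∀ i : Fin 3, (∑ j, ∫ x in Ω, du i j x * ((c i j * g : Sm) : E3 → ℂ) x)
      = ∫ x in Ω, ∑ j, du i j x * ((c i j * g : Sm) : E3 → ℂ) x :=
    fun i => (integral_finsetSum _ fun j _ => i3 i j).symm
  simp only [e1]
  rw [← integral_finsetSum _ fun i _ => integrable_finsetSum _ fun j _ => i3 i j,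
    ← integral_add i1 (integrable_finsetSum _ fun j _ => i2 j)]
  have i4 : Integrable (fun x => p x * ((b * g : Sm) : E3 → ℂ) x
      + ∑ j, dp j x * ((a j * g : Sm) : E3 → ℂ) x) (volume.restrict Ω) :=
    i1.add (integrable_finsetSum _ fun j _ => i2 j)
  rw [← integral_add i4 (integrable_finsetSum _ fun i _ => integrable_finsetSum _ fun j _ => i3 i j)]
  congr 1
  funext x
  unfold src
  simp only [Fin.sum_univ_three, Subalgebra.coe_mul, Pi.mul_apply]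
  ring

lemma src_le (hb : Bornology.IsBounded Ω) (b : Sm) (a : Fin 3 → Sm) (c : Fin 3 → Fin 3 → Sm) :
    ∃ M : ℝ, 0 ≤ M ∧ ∀ (p : E3 → ℂ) (dp : Fin 3 → E3 → ℂ) (du : Fin 3 → Fin 3 → E3 → ℂ),
      ∀ x ∈ Ω, ‖src p dp du b a c x‖ ^ 2 ≤ M * dens p dp du x := by
  have hc : Continuous (fun x => ‖(b : E3 → ℂ) x‖ ^ 2 + (∑ j, ‖(a j : E3 → ℂ) x‖ ^ 2)
      + ∑ i, ∑ j, ‖(c i j : E3 → ℂ) x‖ ^ 2) := by
    have hbc := sm_cont b
    have hac := fun j => sm_cont (a j)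
    have hcc := fun i j => sm_cont (c i j)
    fun_prop
  obtain ⟨M, hM⟩ := hb.isCompact_closure.exists_bound_of_continuousOn hc.continuousOn
  refine ⟨|M|, abs_nonneg _, fun p dp du x hx => ?_⟩
  have h1 := hM x (subset_closure hx)
  have h2 : ‖(b : E3 → ℂ) x‖ ^ 2 + (∑ j, ‖(a j : E3 → ℂ) x‖ ^ 2)
      + (∑ i, ∑ j, ‖(c i j : E3 → ℂ) x‖ ^ 2) ≤ |M| :=
    (le_abs_self _).trans (h1.trans (le_abs_self _))
  -- Cauchy-Schwarz over the index type Unit ⊕ Fin 3 ⊕ Fin 3 × Fin 3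
  have h3 : ‖src p dp du b a c x‖ ≤ ‖(b : E3 → ℂ) x‖ * ‖p x‖
      + (∑ j, ‖(a j : E3 → ℂ) x‖ * ‖dp j x‖)
      + ∑ i, ∑ j, ‖(c i j : E3 → ℂ) x‖ * ‖du i j x‖ := by
    unfold src
    refine (norm_add_le _ _).trans ?_
    refine add_le_add ((norm_add_le _ _).trans (add_le_add (norm_mul_le _ _) ?_)) ?_
    · refine (norm_sum_le _ _).trans (Finset.sum_le_sum fun j _ => norm_mul_le _ _)
    · refine (norm_sum_le _ _).trans (Finset.sum_le_sum fun i _ => ?_)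
      exact (norm_sum_le _ _).trans (Finset.sum_le_sum fun j _ => norm_mul_le _ _)
  set X : Option (Fin 3 ⊕ (Fin 3 × Fin 3)) → ℝ := fun q => match q with
    | none => ‖(b : E3 → ℂ) x‖
    | some (Sum.inl j) => ‖(a j : E3 → ℂ) x‖
    | some (Sum.inr (i, j)) => ‖(c i j : E3 → ℂ) x‖ with hX
  set Y : Option (Fin 3 ⊕ (Fin 3 × Fin 3)) → ℝ := fun q => match q with
    | none => ‖p x‖
    | some (Sum.inl j) => ‖dp j x‖
    | some (Sum.inr (i, j)) => ‖du i j x‖ with hY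
  have h4 : ‖(b : E3 → ℂ) x‖ * ‖p x‖
      + (∑ j, ‖(a j : E3 → ℂ) x‖ * ‖dp j x‖)
      + (∑ i, ∑ j, ‖(c i j : E3 → ℂ) x‖ * ‖du i j x‖) = ∑ q, X q * Y q := by
    rw [Fintype.sum_option, Fintype.sum_sum_type, Fintype.sum_prod_type, ← add_assoc]
  have h5 : ‖(b : E3 → ℂ) x‖ ^ 2 + (∑ j, ‖(a j : E3 → ℂ) x‖ ^ 2)
      + (∑ i, ∑ j, ‖(c i j : E3 → ℂ) x‖ ^ 2) = ∑ q, X q ^ 2 := by
    rw [Fintype.sum_option, Fintype.sum_sum_type, Fintype.sum_prod_type, ← add_assoc]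
  have h6 : dens p dp du x = ∑ q, Y q ^ 2 := by
    unfold dens
    rw [Fintype.sum_option, Fintype.sum_sum_type, Fintype.sum_prod_type, ← add_assoc]
  have h7 := Finset.sum_mul_sq_le_sq_mul_sq Finset.univ X Y
  rw [← h4, ← h5, ← h6] at h7
  have h8 : 0 ≤ dens p dp du x := by
    unfold dens
    (clear * -; positivity)
  calc ‖src p dp du b a c x‖ ^ 2 ≤ (‖(b : E3 → ℂ) x‖ * ‖p x‖
      + (∑ j, ‖(a j : E3 → ℂ) x‖ * ‖dp j x‖)
      + (∑ i, ∑ j, ‖(c i j : E3 → ℂ) x‖ * ‖du i j x‖)) ^ 2 := by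
        gcongr
    _ ≤ _ := h7
    _ ≤ |M| * dens p dp du x := by gcongr

end src

lemma Tm_add_fun {Ω : Set E3} (hb : Bornology.IsBounded Ω) {w w' : E3 → ℂ}
    (hw : MemLp w 2 (volume.restrict Ω)) (hw' : MemLp w' 2 (volume.restrict Ω))
    (h : MemLp (fun x => w x + w' x) 2 (volume.restrict Ω)) (g : Sm) :
    Tm Ω hb (fun x => w x + w' x) h g = Tm Ω hb w hw g + Tm Ω hb w' hw' g := by
  simp only [Tm_apply]
  rw [← integral_add (tm_int hb hw g) (tm_int hb hw' g)]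
  congr 1
  funext x
  ring

lemma Cf_add_fun {A B C : Fin 3 → Fin 3 → (Sm →ₗ[ℂ] ℂ)} (h : ∀ i j g, C i j g = A i j g + B i j g)
    (l m : Sm) (g : Fin 3 → Sm) : Cf C l m g = Cf A l m g + Cf B l m g := by
  unfold Cf
  simp only [h, Finset.sum_add_distrib]
  ring

lemma Cf_sub_coef (A : Fin 3 → Fin 3 → (Sm →ₗ[ℂ] ℂ)) (l l' m m' : Sm) (g : Fin 3 → Sm) :
    Cf A (l - l') (m - m') g = Cf A l m g - Cf A l' m' g := by
  unfold Cf
  simp only [sub_mul, map_sub, Finset.sum_sub_distrib]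
  ring

section geom

variable {Ω : Set E3} {mu₁ mu₂ : E3 → ℝ} (h1 : ContDiff ℝ ∞ mu₁) (h2 : ContDiff ℝ ∞ mu₂)

lemma ofR_sub_mem (h : ∀ x ∈ frontier Ω, mu₁ x = mu₂ x) :
    ofR mu₁ h1 - ofR mu₂ h2 ∈ TL.IO Ω := by
  rw [mem_IO]
  intro x hx
  simp only [AddSubgroupClass.coe_sub, Pi.sub_apply, ofR_apply]
  rw [h x hx, sub_self]

lemma P_ofR_apply (i : Fin 3) (x : E3) : (P i (ofR mu₁ h1) : E3 → ℂ) x = ((pd i mu₁ x : ℝ) : ℂ) := by
  rw [P_apply, ofR_coe]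
  exact pd_ofReal ((h1.differentiable (by simp)) x) i

lemma P_ofR_sub_mem (h : ∀ x ∈ frontier Ω, fderiv ℝ mu₁ x = fderiv ℝ mu₂ x) (i : Fin 3) :
    P i (ofR mu₁ h1 - ofR mu₂ h2) ∈ TL.IO Ω := by
  rw [mem_IO]
  intro x hx
  rw [map_sub]
  simp only [AddSubgroupClass.coe_sub, Pi.sub_apply, P_ofR_apply]
  unfold pd
  rw [h x hx, sub_self]

end geom

lemma int_indicator_mul {Ω : Set E3} (ho : IsOpen Ω) (G h : E3 → ℂ) :
    ∫ x, Ω.indicator G x * h x = ∫ x in Ω, G x * h x := by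
  rw [← integral_indicator ho.measurableSet]
  congr 1
  funext x
  by_cases hx : x ∈ Ω
  · simp [hx]
  · simp [hx]

lemma ofR_P (ψ : E3 → ℝ) (h : ContDiff ℝ ∞ ψ) (j : Fin 3) :
    P j (ofR ψ h) = ofR (pd j ψ) (pd_contDiff_infty h j) := by
  apply Subtype.ext
  funext x
  exact P_ofR_apply h j x

lemma ofR_LL (ψ : E3 → ℝ) (h : ContDiff ℝ ∞ ψ) (x : E3) :
    (LL (ofR ψ h) : E3 → ℂ) x = ((lap ψ x : ℝ) : ℂ) := by
  rw [LL_apply]
  simp only [ofR_P, Fin.sum_univ_three, Subalgebra.coe_add, Pi.add_apply, ofR_apply, lap]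
  push_cast
  ring

/-- weighted bound for a source term. -/
lemma src_wbound {Ω : Set E3} (ho : IsOpen Ω) (hb : Bornology.IsBounded Ω) {p : E3 → ℂ}
    {dp : Fin 3 → E3 → ℂ} {du : Fin 3 → Fin 3 → E3 → ℂ} (hp : MemLp p 2 (volume.restrict Ω))
    (hdp : ∀ j, MemLp (dp j) 2 (volume.restrict Ω))
    (hdu : ∀ i j, MemLp (du i j) 2 (volume.restrict Ω))
    (b : Sm) (a : Fin 3 → Sm) (c : Fin 3 → Fin 3 → Sm) {M : ℝ}
    (hM : ∀ x ∈ Ω, ‖src p dp du b a c x‖ ^ 2 ≤ M * dens p dp du x) (α : E3) :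
    ∫ x, Real.exp (2 * ⟪α, x⟫_ℝ) * ‖Ω.indicator (src p dp du b a c) x‖ ^ 2
      ≤ M * ((∫ x in Ω, Real.exp (2 * ⟪α, x⟫_ℝ) * ‖p x‖ ^ 2)
          + (∑ i, ∫ x in Ω, Real.exp (2 * ⟪α, x⟫_ℝ) * ‖dp i x‖ ^ 2)
          + ∑ i, ∑ j, ∫ x in Ω, Real.exp (2 * ⟪α, x⟫_ℝ) * ‖du i j x‖ ^ 2) := by
  have hw := exp_lin_continuous α
  obtain ⟨K0, hK0⟩ := hb.isCompact_closure.exists_bound_of_continuousOn hw.continuousOn
  have key : ∀ {f : E3 → ℂ}, MemLp f 2 (volume.restrict Ω) →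
      Integrable (fun x => Real.exp (2 * ⟪α, x⟫_ℝ) * ‖f x‖ ^ 2) (volume.restrict Ω) := by
    intro f hf
    refine Integrable.mono' (hf.norm.integrable_sq.const_mul K0)
      (hw.aestronglyMeasurable.mul (hf.norm.1.pow 2)) ?_
    filter_upwards [ae_restrict_mem ho.measurableSet] with x hx
    rw [norm_mul, Real.norm_eq_abs (‖f x‖ ^ 2), abs_of_nonneg (sq_nonneg _)]
    have := hK0 x (subset_closure hx)
    gcongr
  have e1 : ∫ x, Real.exp (2 * ⟪α, x⟫_ℝ) * ‖Ω.indicator (src p dp du b a c) x‖ ^ 2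
      = ∫ x in Ω, Real.exp (2 * ⟪α, x⟫_ℝ) * ‖src p dp du b a c x‖ ^ 2 := by
    rw [← integral_indicator ho.measurableSet]
    congr 1
    funext x
    by_cases hx : x ∈ Ω
    · simp [hx]
    · simp [hx]
  have hsum1 : Integrable (fun x => ∑ j, Real.exp (2 * ⟪α, x⟫_ℝ) * ‖dp j x‖ ^ 2)
      (volume.restrict Ω) := integrable_finsetSum _ fun j _ => key (hdp j)
  have hsum2 : Integrable (fun x => ∑ i, ∑ j, Real.exp (2 * ⟪α, x⟫_ℝ) * ‖du i j x‖ ^ 2)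
      (volume.restrict Ω) :=
    integrable_finsetSum _ fun i _ => integrable_finsetSum _ fun j _ => key (hdu i j)
  have e2 : ((∫ x in Ω, Real.exp (2 * ⟪α, x⟫_ℝ) * ‖p x‖ ^ 2)
          + (∑ i, ∫ x in Ω, Real.exp (2 * ⟪α, x⟫_ℝ) * ‖dp i x‖ ^ 2)
          + ∑ i, ∑ j, ∫ x in Ω, Real.exp (2 * ⟪α, x⟫_ℝ) * ‖du i j x‖ ^ 2)
      = ∫ x in Ω, Real.exp (2 * ⟪α, x⟫_ℝ) * dens p dp du x := by
    have e3 : ∀ i : Fin 3, (∑ j, ∫ x in Ω, Real.exp (2 * ⟪α, x⟫_ℝ) * ‖du i j x‖ ^ 2)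
        = ∫ x in Ω, ∑ j, Real.exp (2 * ⟪α, x⟫_ℝ) * ‖du i j x‖ ^ 2 := fun i =>
      (integral_finsetSum _ fun j _ => key (hdu i j)).symm
    simp only [e3]
    rw [← integral_finsetSum _ fun j _ => key (hdp j),
      ← integral_finsetSum _ fun i _ => integrable_finsetSum _ fun j _ => key (hdu i j),
      ← integral_add (key hp) hsum1]
    have h4 : Integrable (fun x => Real.exp (2 * ⟪α, x⟫_ℝ) * ‖p x‖ ^ 2
        + ∑ j, Real.exp (2 * ⟪α, x⟫_ℝ) * ‖dp j x‖ ^ 2) (volume.restrict Ω) :=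
      (key hp).add hsum1
    rw [← integral_add h4 hsum2]
    congr 1
    funext x
    unfold dens
    simp only [Fin.sum_univ_three]
    ring
  rw [e1, e2, ← integral_const_mul]
  have hdens : Integrable (fun x => Real.exp (2 * ⟪α, x⟫_ℝ) * dens p dp du x)
      (volume.restrict Ω) := by
    refine (((key hp).add hsum1).add hsum2).congr (Eventually.of_forall fun x => ?_)
    unfold dens
    simp only [Fin.sum_univ_three, Pi.add_apply]
    ring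
  apply setIntegral_mono_on (key (src_memLp hb hp hdp hdu b a c)) (hdens.const_mul M)
    ho.measurableSet
  intro x hx
  calc Real.exp (2 * ⟪α, x⟫_ℝ) * ‖src p dp du b a c x‖ ^ 2
      ≤ Real.exp (2 * ⟪α, x⟫_ℝ) * (M * dens p dp du x) :=
        mul_le_mul_of_nonneg_left (hM x hx) (Real.exp_pos _).le
    _ = _ := by ring

/-- coefficients of the source `F_j`. -/
noncomputable def Fa (l l1 f0 : Sm) (j : Fin 3) (k : Fin 3) : Sm :=
  if k = j then l - l1 * f0 else 0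

noncomputable def Fb (l l1 f0 : Sm) (j : Fin 3) : Sm := P j l - f0 * P j l1

noncomputable def Fc (m1 f0 : Sm) (j : Fin 3) (a b : Fin 3) : Sm :=
  (if b = j then m1 * P a f0 else 0) + (if a = j then m1 * P b f0 else 0)

/-- coefficients of the source `f`. -/
noncomputable def ga (m l1 ρ : Sm) (j : Fin 3) : Sm :=
  K (-2) * P j m + K (-2) * ((l1 * ρ + 1) * P j m)

noncomputable def gb (m l1 ρ : Sm) : Sm :=
  ∑ j, (K (-2) * P j (P j m) + K (-2) * (P j l1 * ρ * P j m))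

noncomputable def gc (m m1 ρ : Sm) (i j : Fin 3) : Sm :=
  K 2 * P i (P j m) + K 2 * (m1 * P i ρ * P j m) + K 2 * (m1 * P j ρ * P i m)

lemma F_fun {T' : Fin 3 → Fin 3 → (Sm →ₗ[ℂ] ℂ)} {Tp : Sm →ₗ[ℂ] ℂ}
    {Tdp : Fin 3 → (Sm →ₗ[ℂ] ℂ)} (l l1 m1 f0 g : Sm) (j : Fin 3) :
    Tp (Fb l l1 f0 j * g) + (∑ k, Tdp k (Fa l l1 f0 j k * g))
      + (∑ a, ∑ b, T' a b (Fc m1 f0 j a b * g))
      = Tdp j ((l - l1 * f0) * g) + Tp ((P j l - f0 * P j l1) * g)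
      + ∑ i, (T' i j (m1 * P i f0 * g) + T' j i (m1 * P i f0 * g)) := by
  unfold Fb Fa Fc
  fin_cases j <;> simp [Fin.sum_univ_three, add_mul] <;> ring

lemma f_fun {T' : Fin 3 → Fin 3 → (Sm →ₗ[ℂ] ℂ)} {Tp : Sm →ₗ[ℂ] ℂ}
    {Tdp : Fin 3 → (Sm →ₗ[ℂ] ℂ)} (m l1 m1 ρ φ : Sm) :
    Tp (gb m l1 ρ * φ) + (∑ j, Tdp j (ga m l1 ρ j * φ))
      + (∑ i, ∑ j, T' i j (gc m m1 ρ i j * φ))
      = - 2 * (∑ j, (Tdp j (P j m * φ) + Tp (P j (P j m) * φ)))
      - 2 * (∑ j, (Tdp j ((l1 * ρ + 1) * (P j m * φ)) + Tp (P j l1 * ρ * (P j m * φ))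
        - ∑ i, (T' i j (m1 * P i ρ * (P j m * φ)) + T' j i (m1 * P i ρ * (P j m * φ)))))
      + 2 * ∑ i, ∑ j, T' i j (P i (P j m) * φ) := by
  have e1 : ∀ j, Tdp j (ga m l1 ρ j * φ) = -2 * Tdp j (P j m * φ)
      + -2 * Tdp j ((l1 * ρ + 1) * (P j m * φ)) := by
    intro j
    have : ga m l1 ρ j * φ = K (-2) * (P j m * φ) + K (-2) * ((l1 * ρ + 1) * (P j m * φ)) := by
      unfold ga
      ring
    rw [this, map_add, lin_K, lin_K]
  have e2 : Tp (gb m l1 ρ * φ) = ∑ j, (-2 * Tp (P j (P j m) * φ)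
      + -2 * Tp (P j l1 * ρ * (P j m * φ))) := by
    have : gb m l1 ρ * φ = ∑ j, (K (-2) * (P j (P j m) * φ)
        + K (-2) * (P j l1 * ρ * (P j m * φ))) := by
      unfold gb
      rw [Finset.sum_mul]
      apply Finset.sum_congr rfl
      intro j _
      ring
    rw [this, map_sum]
    apply Finset.sum_congr rfl
    intro j _
    rw [map_add, lin_K, lin_K]
  have e3 : ∀ i j, T' i j (gc m m1 ρ i j * φ) = 2 * T' i j (P i (P j m) * φ)
      + 2 * T' i j (m1 * P i ρ * (P j m * φ)) + 2 * T' i j (m1 * P j ρ * (P i m * φ)) := by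
    intro i j
    have : gc m m1 ρ i j * φ = K 2 * (P i (P j m) * φ) + K 2 * (m1 * P i ρ * (P j m * φ))
        + K 2 * (m1 * P j ρ * (P i m * φ)) := by
      unfold gc
      ring
    rw [this, map_add, map_add, lin_K, lin_K, lin_K]
  simp only [e1, e2, e3, Fin.sum_univ_three]
  ring

lemma s_fun {T' : Fin 3 → Fin 3 → (Sm →ₗ[ℂ] ℂ)} {Tp : Sm →ₗ[ℂ] ℂ}
    {Tdp : Fin 3 → (Sm →ₗ[ℂ] ℂ)} (κ φ : Sm) :
    Tp (κ * φ) + (∑ j : Fin 3, Tdp j ((0 : Sm) * φ)) + (∑ i, ∑ j, T' i j ((0 : Sm) * φ))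
      = Tp (κ * φ) := by
  simp

lemma ds_fun {T' : Fin 3 → Fin 3 → (Sm →ₗ[ℂ] ℂ)} {Tp : Sm →ₗ[ℂ] ℂ}
    {Tdp : Fin 3 → (Sm →ₗ[ℂ] ℂ)} (κ φ : Sm) (i : Fin 3) :
    Tp (P i κ * φ) + (∑ j : Fin 3, Tdp j ((if j = i then κ else 0) * φ))
      + (∑ a, ∑ b, T' a b ((0 : Sm) * φ)) = Tp (P i κ * φ) + Tdp i (κ * φ) := by
  fin_cases i <;> simp [Fin.sum_univ_three]

end Vale.Agent.P136.TLBB

namespace Vale.Agent.P136

open TLBB TL

/-- The weighted bound of the transferred difference. -/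
theorem TLB : TLB_statement := by
  intro Ω lam₁ mu₁ lam₂ mu₂ R ho hb hl1 hm1 hl2 hm2 p1 q1 p2 q2 hbd hR
  have hs : Ω ⊆ Metric.ball (0 : E3) R := subset_closure.trans hR
  -- coefficients
  have hρc : ContDiff ℝ ∞ (fun x => (mu₁ x)⁻¹) := hm1.inv fun x => (p1 x).ne'
  set L1 := ofR lam₁ hl1 with hL1
  set L2 := ofR lam₂ hl2 with hL2
  set M1 := ofR mu₁ hm1 with hM1
  set M2 := ofR mu₂ hm2 with hM2
  set ρ := ofR (fun x => (mu₁ x)⁻¹) hρc with hρdef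
  have hρ : M1 * ρ = 1 := by
    apply Subtype.ext
    funext x
    simp only [hM1, hρdef, Subalgebra.coe_mul, Pi.mul_apply, ofR_apply, Subalgebra.coe_one,
      Pi.one_apply]
    rw [← Complex.ofReal_mul, mul_inv_cancel₀ (p1 x).ne', Complex.ofReal_one]
  set m := M1 - M2 with hmdef
  set l := L1 - L2 with hldef
  have hmS : m ∈ TL.IO Ω := ofR_sub_mem hm1 hm2 fun x hx => (hbd x hx).1
  have hlS : l ∈ TL.IO Ω := ofR_sub_mem hl1 hl2 fun x hx => (hbd x hx).2.1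
  have hPm : ∀ i, P i m ∈ TL.IO Ω := fun i =>
    P_ofR_sub_mem hm1 hm2 (fun x hx => (hbd x hx).2.2.1) i
  have hPl : ∀ i, P i l ∈ TL.IO Ω := fun i =>
    P_ofR_sub_mem hl1 hl2 (fun x hx => (hbd x hx).2.2.2) i
  set f0 := m * ρ with hf0def
  have hf0 : f0 ∈ TL.IO Ω := (TL.IO Ω).mul_mem_right _ hmS
  have hmf : m = f0 * M1 := by
    rw [hf0def]
    linear_combination (-m) * hρ
  set κ := l + 2 * m with hκdef
  have hκ : κ ∈ TL.IO Ω := (TL.IO Ω).add_mem hlS ((TL.IO Ω).mul_mem_left _ hmS)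
  -- constants
  obtain ⟨C, τ₀, hC, hτ₀, hmain⟩ := tl_bound_s hb hl2 hm2 p2 (fun x => by
    have := p2 x; have := q2 x; linarith)
  choose KF hKF0 hKF using fun j : Fin 3 => src_le hb (Fb l L1 f0 j) (Fa l L1 f0 j) (Fc M1 f0 j)
  obtain ⟨Kf, hKf0, hKf⟩ := src_le hb (gb m L1 ρ) (ga m L1 ρ) (gc m M1 ρ)
  choose Kd hKd0 hKd using fun i : Fin 3 => src_le hb (P i κ) (fun j => if j = i then κ else 0)
    (fun _ _ => 0)
  refine ⟨C * (Kf + (∑ j, KF j) + ∑ j, Kd j) + 1, τ₀, ?_, hτ₀, ?_⟩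
  · have h1 : 0 ≤ ∑ j, KF j := Finset.sum_nonneg fun j _ => hKF0 j
    have h2 : 0 ≤ ∑ j, Kd j := Finset.sum_nonneg fun j _ => hKd0 j
    (clear * - hC hKf0 h1 h2; positivity)
  intro α hα u du p dp v dv hu hsol hp hdp hpw hpe hv hid
  have rs : ∀ {w : E3 → ℂ}, MemLp w 2 (volume.restrict (Metric.ball (0 : E3) R)) →
      MemLp w 2 (volume.restrict Ω) := fun hw => hw.mono_measure (Measure.restrict_mono hs le_rfl)
  have hu' : ∀ j, MemLp (u j) 2 (volume.restrict Ω) := fun j => rs (hu.val_mem j)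
  have hdu' : ∀ i j, MemLp (du i j) 2 (volume.restrict Ω) := fun i j => rs (hu.der_mem i j)
  have hp' : MemLp p 2 (volume.restrict Ω) := rs hp
  have hdp' : ∀ j, MemLp (dp j) 2 (volume.restrict Ω) := fun j => rs (hdp j)
  have hdv' : ∀ i j, MemLp (dv i j) 2 (volume.restrict Ω) := fun i j =>
    ((hv j).der_mem i).restrict _
  set T : Fin 3 → (Sm →ₗ[ℂ] ℂ) := fun j => Tm Ω hb (u j) (hu' j) with hT
  set T' : Fin 3 → Fin 3 → (Sm →ₗ[ℂ] ℂ) := fun i j => Tm Ω hb (du i j) (hdu' i j) with hT'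
  set Tp : Sm →ₗ[ℂ] ℂ := Tm Ω hb p hp' with hTp
  set Tdp : Fin 3 → (Sm →ₗ[ℂ] ℂ) := fun i => Tm Ω hb (dp i) (hdp' i) with hTdp
  -- the abstract facts
  have aI : IBP T T' (TL.IO Ω) := fun i j η hη =>
    ibp_IO ho hb hR (hu.val_mem j) (hu.der_mem i j) (hu.weak i j) η hη
  have ap : ∀ η, Tp η = ∑ i, T' i i η := by
    intro η
    simp only [hTp, hT', Tm_apply]
    rw [← integral_finsetSum _ fun i _ => tm_int hb (hdu' i i) η]
    apply integral_congr_ae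
    have h1 : ∀ᵐ x ∂(volume.restrict Ω), p x = ∑ i, du i i x :=
      ae_mono (Measure.restrict_mono hs le_rfl) hpe
    filter_upwards [h1] with x hx
    rw [hx, Finset.sum_mul]
  have adp : ∀ i, ∀ η ∈ TL.IO Ω, Tp (P i η) = - Tdp i η := fun i η hη =>
    ibp_IO ho hb hR hp (hdp i) (hpw i) η hη
  have a3 : ∀ i j k, ∀ η ∈ TL.IO Ω, T' k j (P i η) = T' i j (P k η) := fun i j k η hη =>
    mixed_IO ho hb hR (hu.der_mem i j) (hu.der_mem k j) (hu.weak i j) (hu.weak k j) η hη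
  have aE : ∀ η : Fin 3 → Sm, (∀ j, η j ∈ TL.IO Ω) → Cf T' L1 M1 η = 0 := by
    intro η hη
    rw [hT', hL1, hM1, ← cform_Cf hb hl1 hm1 hdu' η]
    exact csol_IO ho hb hR hl1.continuous hm1.continuous hu.der_mem hsol η hη
  -- the equation for v
  have eV : ∀ g : Fin 3 → Sm, cform Ω lam₂ mu₂ dv (fun i j => (P i (g j) : E3 → ℂ))
      = Cf T' l m g := by
    intro g
    have h1 := hid (fun j => (g j : E3 → ℂ)) (fun j => sm_cd (g j))
    have h2 : (fun i j => pd i (g j : E3 → ℂ)) = fun i j => (P i (g j) : E3 → ℂ) := rfl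
    rw [h2, cform_Cf hb hl1 hm1 hdu' g,
      cform_Cf hb hl2 hm2 (G := fun i j x => du i j x + dv i j x)
        (fun i j => (hdu' i j).add (hdv' i j)) g] at h1
    have h3 := Cf_add_fun (A := T') (B := fun i j => Tm Ω hb (dv i j) (hdv' i j))
      (C := fun i j => Tm Ω hb (fun x => du i j x + dv i j x) ((hdu' i j).add (hdv' i j)))
      (fun i j g => Tm_add_fun hb (hdu' i j) (hdv' i j) _ g) L2 M2 g
    rw [cform_Cf hb hl2 hm2 hdv' g]
    rw [hldef, hmdef, Cf_sub_coef]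
    rw [← hL2, ← hM2] at h1 ⊢
    rw [h3] at h1
    rw [← hL1, ← hM1] at h1
    linear_combination h1
  -- the sources
  set FF : Fin 3 → E3 → ℂ := fun j => Ω.indicator (src p dp du (Fb l L1 f0 j) (Fa l L1 f0 j)
    (Fc M1 f0 j)) with hFF
  set ff : E3 → ℂ := Ω.indicator (src p dp du (gb m L1 ρ) (ga m L1 ρ) (gc m M1 ρ)) with hff
  set ss : E3 → ℂ := Ω.indicator (src p dp du κ (fun _ => 0) (fun _ _ => 0)) with hss
  set dd : Fin 3 → E3 → ℂ := fun i => Ω.indicator (src p dp du (P i κ)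
    (fun j => if j = i then κ else 0) (fun _ _ => 0)) with hdd
  have mi : ∀ b a c, MemLp (Ω.indicator (src p dp du b a c)) 2 := fun b a c =>
    (memLp_indicator_iff_restrict ho.measurableSet).mpr (src_memLp hb hp' hdp' hdu' b a c)
  have pF : ∀ j (g : Sm), ∫ x, FF j x * (g : E3 → ℂ) x
      = Tdp j ((l - L1 * f0) * g) + Tp ((P j l - f0 * P j L1) * g)
      + ∑ i, (T' i j (M1 * P i f0 * g) + T' j i (M1 * P i f0 * g)) := by
    intro j g
    rw [hFF]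
    simp only
    rw [int_indicator_mul ho, src_pair hb hp' hdp' hdu']
    exact F_fun l L1 M1 f0 g j
  have pf : ∀ (g : Sm), ∫ x, ff x * (g : E3 → ℂ) x
      = - 2 * (∑ j, (Tdp j (P j m * g) + Tp (P j (P j m) * g)))
      - 2 * (∑ j, (Tdp j ((L1 * ρ + 1) * (P j m * g)) + Tp (P j L1 * ρ * (P j m * g))
        - ∑ i, (T' i j (M1 * P i ρ * (P j m * g)) + T' j i (M1 * P i ρ * (P j m * g)))))
      + 2 * ∑ i, ∑ j, T' i j (P i (P j m) * g) := by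
    intro g
    rw [hff, int_indicator_mul ho, src_pair hb hp' hdp' hdu']
    exact f_fun m L1 M1 ρ g
  have ps : ∀ (g : Sm), ∫ x, ss x * (g : E3 → ℂ) x = Tp (κ * g) := by
    intro g
    rw [hss, int_indicator_mul ho, src_pair hb hp' hdp' hdu']
    exact s_fun κ g
  have pd' : ∀ i (g : Sm), ∫ x, dd i x * (g : E3 → ℂ) x = Tp (P i κ * g) + Tdp i (κ * g) := by
    intro i g
    rw [hdd]
    simp only
    rw [int_indicator_mul ho, src_pair hb hp' hdp' hdu']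
    exact ds_fun κ g i
  have hfin := hmain α hα v dv FF ff ss dd hv (fun j => mi _ _ _) (mi _ _ _) (mi _ _ _)
    (fun j => mi _ _ _) (fun x hx => Set.indicator_of_notMem hx _) ?_ ?_ ?_
  · refine hfin.trans ?_
    set RR := ((∫ x in Ω, Real.exp (2 * ⟪α, x⟫_ℝ) * ‖p x‖ ^ 2)
          + (∑ i, ∫ x in Ω, Real.exp (2 * ⟪α, x⟫_ℝ) * ‖dp i x‖ ^ 2)
          + ∑ i, ∑ j, ∫ x in Ω, Real.exp (2 * ⟪α, x⟫_ℝ) * ‖du i j x‖ ^ 2) with hRR
    have hRR0 : 0 ≤ RR := by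
      have nn : ∀ w : E3 → ℂ, 0 ≤ ∫ x in Ω, Real.exp (2 * ⟪α, x⟫_ℝ) * ‖w x‖ ^ 2 := fun w =>
        integral_nonneg fun x => by (clear * -; positivity)
      rw [hRR]
      refine add_nonneg (add_nonneg (nn _) (Finset.sum_nonneg fun i _ => nn _)) ?_
      exact Finset.sum_nonneg fun i _ => Finset.sum_nonneg fun j _ => nn _
    have b1 : ∫ x, Real.exp (2 * ⟪α, x⟫_ℝ) * ‖ff x‖ ^ 2 ≤ Kf * RR :=
      src_wbound ho hb hp' hdp' hdu' _ _ _ (hKf p dp du) α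
    have b2 : ∀ j, ∫ x, Real.exp (2 * ⟪α, x⟫_ℝ) * ‖FF j x‖ ^ 2 ≤ KF j * RR := fun j =>
      src_wbound ho hb hp' hdp' hdu' _ _ _ (hKF j p dp du) α
    have b3 : ∀ j, ∫ x, Real.exp (2 * ⟪α, x⟫_ℝ) * ‖dd j x‖ ^ 2 ≤ Kd j * RR := fun j =>
      src_wbound ho hb hp' hdp' hdu' _ _ _ (hKd j p dp du) α
    have b2' : ∑ j, ∫ x, Real.exp (2 * ⟪α, x⟫_ℝ) * ‖FF j x‖ ^ 2 ≤ (∑ j, KF j) * RR := by
      rw [Finset.sum_mul]
      exact Finset.sum_le_sum fun j _ => b2 j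
    have b3' : ∑ j, ∫ x, Real.exp (2 * ⟪α, x⟫_ℝ) * ‖dd j x‖ ^ 2 ≤ (∑ j, Kd j) * RR := by
      rw [Finset.sum_mul]
      exact Finset.sum_le_sum fun j _ => b3 j
    calc _ ≤ C * (Kf * RR + (∑ j, KF j) * RR + (∑ j, Kd j) * RR) := by gcongr
      _ = C * (Kf + (∑ j, KF j) + ∑ j, Kd j) * RR := by ring
      _ ≤ (C * (Kf + (∑ j, KF j) + ∑ j, Kd j) + 1) * RR := by linarith only [hRR0]
  · -- weak derivative of s
    intro k ψ h1 h2
    have e1 : ∀ x, ((pd k ψ x : ℝ) : ℂ) = (P k (ofR ψ h1) : E3 → ℂ) x := fun x =>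
      (P_ofR_apply h1 k x).symm
    have e2 : ∀ x, ((ψ x : ℝ) : ℂ) = (ofR ψ h1 : E3 → ℂ) x := fun x => (ofR_apply ψ h1 x).symm
    simp only [e1, e2]
    rw [ps, pd' k]
    have h3 := adp k (κ * ofR ψ h1) ((TL.IO Ω).mul_mem_right _ hκ)
    rw [P_mul, map_add] at h3
    linear_combination h3
  · -- divergence of F
    intro ψ h1 h2
    have e1 : ∀ j x, ((pd j ψ x : ℝ) : ℂ) = (P j (ofR ψ h1) : E3 → ℂ) x := fun j x =>
      (P_ofR_apply h1 j x).symm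
    have e2 : ∀ x, ((ψ x : ℝ) : ℂ) = (ofR ψ h1 : E3 → ℂ) x := fun x => (ofR_apply ψ h1 x).symm
    have e3 : ∀ x, ((lap ψ x : ℝ) : ℂ) = (LL (ofR ψ h1) : E3 → ℂ) x := fun x =>
      (ofR_LL ψ h1 x).symm
    simp only [e1, e2, e3]
    rw [ps, pf]
    simp only [pF]
    have h4 := source_eq ap adp aE hf0 hlS hmf (fun j => P j (ofR ψ h1))
    have h5 := div_source aI ap adp a3 aE hρ hmS hPm (l := l) (ofR ψ h1)
    rw [h5] at h4
    rw [← hκdef] at h4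
    linear_combination h4
  · -- the equation
    intro g h1 h2
    have h3 := eV (fun j => ⟨g j, h1 j⟩)
    have h4 : (fun i j => pd i (g j)) = fun i j => (P i (⟨g j, h1 j⟩ : Sm) : E3 → ℂ) := rfl
    rw [h4, h3, source_eq ap adp aE hf0 hlS hmf]
    congr 1
    apply Finset.sum_congr rfl
    intro j _
    exact (pF j ⟨g j, h1 j⟩).symm

end Vale.Agent.P136
end
end

section

section

open MeasureTheory Filter Topology
open scoped ContDiff InnerProductSpace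

namespace Vale.Agent.P136.TL

/-- the pairing functional of a smooth function over `Ω`. -/
noncomputable def om (Ω : Set E3) (hb : Bornology.IsBounded Ω) : Sm →ₗ[ℂ] ℂ :=
  Tm Ω hb (fun _ => 1) (cont_memLp_restrict hb continuous_const)

/-- leading amplitude `U = g ζ + c ζ'`, `g = G / μ₁`, `c = h / √μ₁`. -/
noncomputable def ampU (ζ ζ' : Fin 3 → ℂ) (mu₁ : E3 → ℝ) (h G : E3 → ℂ) (j : Fin 3)
    (x : E3) : ℂ :=
  G x / (mu₁ x : ℂ) * ζ j + h x / ((√(mu₁ x) : ℝ) : ℂ) * ζ' j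

/-- leading amplitude of the divergence, `d = μ₁ z / ν₁`. -/
noncomputable def ampd (lam₁ mu₁ : E3 → ℝ) (z : E3 → ℂ) (x : E3) : ℂ :=
  (mu₁ x : ℂ) * z x / ((lam₁ x + 2 * mu₁ x : ℝ) : ℂ)

/-- TLfin: from the weak limit relations (T1), (T2) for the pair `(V, Q)` (limits of
`e^{-tζ·x} v_t`, `e^{-tζ·x} div v_t`) to the conclusion of `TLS`. -/
def TLfin_statement : Prop :=
  ∀ (Ω : Set E3) (hb : Bornology.IsBounded Ω) (lam₁ mu₁ lam₂ mu₂ : E3 → ℝ)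
    (hl₁ : ContDiff ℝ ∞ lam₁) (hm₁ : ContDiff ℝ ∞ mu₁) (hl₂ : ContDiff ℝ ∞ lam₂)
    (hm₂ : ContDiff ℝ ∞ mu₂), IsOpen Ω →
    (∀ x, 0 < mu₁ x) → (∀ x, 0 < lam₁ x + mu₁ x) →
    (∀ x, 0 < mu₂ x) → (∀ x, 0 < lam₂ x + mu₂ x) →
    (∀ x ∈ frontier Ω, mu₁ x = mu₂ x ∧ lam₁ x = lam₂ x ∧
      fderiv ℝ mu₁ x = fderiv ℝ mu₂ x ∧ fderiv ℝ lam₁ x = fderiv ℝ lam₂ x) →
    ∀ (ζ ζ' : Fin 3 → ℂ) (R : ℝ), dot ζ ζ = 0 → dot ζ ζ' = 0 → dot ζ' ζ' ≠ 0 → ζ ≠ 0 →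
    closure Ω ⊆ Metric.ball 0 R → ∀ (h G z : E3 → ℂ), ContDiff ℝ ∞ h → ContDiff ℝ ∞ G →
    ContDiff ℝ ∞ z →
    Ssol ζ ζ' mu₁ (fun x => 2 * (lam₁ x + 2 * mu₁ x) / (mu₁ x * (lam₁ x + mu₁ x))) R h G z →
    ∀ (V : Fin 3 → E3 → ℂ) (Q : E3 → ℂ)
      (hV : ∀ j, MemLp (V j) 2 (volume.restrict Ω)) (hQ : MemLp Q 2 (volume.restrict Ω))
      (U : Fin 3 → Sm) (d : Sm),
    (∀ j, (U j : E3 → ℂ) = ampU ζ ζ' mu₁ h G j) → (d : E3 → ℂ) = ampd lam₁ mu₁ z →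
    (∀ η : Sm, ∑ j, ζ j * Tm Ω hb (V j) (hV j) η = 0) →
    (∀ ψ : Fin 3 → Sm,
      (∑ j, Tm Ω hb (V j) (hV j) (2 * ofR mu₂ hm₂ * DD ζ (ψ j) + DD ζ (ofR mu₂ hm₂) * ψ j
          - P j (ofR mu₂ hm₂) * ∑ k, K (ζ k) * ψ k))
        - Tm Ω hb Q hQ ((ofR lam₂ hl₂ + ofR mu₂ hm₂) * ∑ k, K (ζ k) * ψ k) =
      (∑ j, om Ω hb (U j * (2 * (ofR mu₁ hm₁ - ofR mu₂ hm₂) * DD ζ (ψ j)
          + DD ζ (ofR mu₁ hm₁ - ofR mu₂ hm₂) * ψ j
          - P j (ofR mu₁ hm₁ - ofR mu₂ hm₂) * ∑ k, K (ζ k) * ψ k)))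
        - om Ω hb (d * ((ofR lam₁ hl₁ - ofR lam₂ hl₂ + (ofR mu₁ hm₁ - ofR mu₂ hm₂))
          * ∑ k, K (ζ k) * ψ k))) →
    (∀ χ : Sm,
      Tm Ω hb Q hQ (2 * (ofR lam₂ hl₂ + 2 * ofR mu₂ hm₂) * DD ζ χ + 2 * DD ζ (ofR mu₂ hm₂) * χ)
        + (∑ j, Tm Ω hb (V j) (hV j) (2 * (DD ζ (P j (ofR mu₂ hm₂)) * χ
          + 2 * P j (ofR mu₂ hm₂) * DD ζ χ))) =
      om Ω hb (d * (2 * (ofR lam₁ hl₁ - ofR lam₂ hl₂ + 2 * (ofR mu₁ hm₁ - ofR mu₂ hm₂)) * DD ζ χ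
          + 2 * DD ζ (ofR mu₁ hm₁ - ofR mu₂ hm₂) * χ))
        + (∑ j, om Ω hb (U j * (2 * (DD ζ (P j (ofR mu₁ hm₁ - ofR mu₂ hm₂)) * χ
          + 2 * P j (ofR mu₁ hm₁ - ofR mu₂ hm₂) * DD ζ χ))))) →
    ∃ XG Xz : E3 → ℂ, MemLp XG 2 (volume : Measure E3) ∧ MemLp Xz 2 (volume : Measure E3) ∧
      (∀ x, x ∉ Ω → XG x = 0) ∧ (∀ x, x ∉ Ω → Xz x = 0) ∧
      (∀ ψ : E3 → ℂ, ContDiff ℝ ∞ ψ → (∫ x, XG x * Dz ζ ψ x) =
        (∫ x, Xz x / ((2 * (lam₂ x + 2 * mu₂ x) / (mu₂ x * (lam₂ x + mu₂ x)) : ℝ) : ℂ) * ψ x) +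
        (∫ x in Ω, (z x / ((2 * (lam₂ x + 2 * mu₂ x) / (mu₂ x * (lam₂ x + mu₂ x)) : ℝ) : ℂ)
          - z x / ((2 * (lam₁ x + 2 * mu₁ x) / (mu₁ x * (lam₁ x + mu₁ x)) : ℝ) : ℂ)
          + h x * Dz ζ' (cc fun y => √(mu₂ y)) x
          - h x * Dz ζ' (cc fun y => √(mu₁ y)) x) * ψ x)) ∧
      (∀ ψ : E3 → ℂ, ContDiff ℝ ∞ ψ → (∫ x, Xz x * Dz ζ ψ x) =
        - (∫ x, Dz ζ (Dz ζ (cc fun y => (mu₂ y)⁻¹)) x * XG x * ψ x) -
        (∫ x in Ω, ((Dz ζ (Dz ζ (cc fun y => (mu₂ y)⁻¹)) x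
            - Dz ζ (Dz ζ (cc fun y => (mu₁ y)⁻¹)) x) * G x
          + h x * (√(mu₂ x) * Dz ζ (Dz ζ' (cc fun y => (mu₂ y)⁻¹)) x
            - √(mu₁ x) * Dz ζ (Dz ζ' (cc fun y => (mu₁ y)⁻¹)) x)) * ψ x))

end Vale.Agent.P136.TL
end
end

section

section

open MeasureTheory Filter Topology
open scoped ContDiff InnerProductSpace

namespace Vale.Agent.P136.TL

/-- STEP 3 of `TLfin` in abstract form: `sᵢ = √μᵢ`, `rᵢ = 1/√μᵢ`, `lᵢ = λᵢ`, `w₁ = 1/ν₁`,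
`om` = integration over `Ω`, `GG, CC, QQ` = pairings with the weak limits. -/
def TLfin3_statement : Prop :=
  ∀ (Ω : Set E3) (ζ ζ' : Fin 3 → ℂ) (om GG CC QQ : Sm →ₗ[ℂ] ℂ)
    (s₁ s₂ r₁ r₂ l₁ l₂ w₁ h G z : Sm),
    (∀ f ∈ IO Ω, om (DD ζ f) = 0) →
    (∀ f g : Sm, (∀ x ∈ Ω, (f : E3 → ℂ) x = (g : E3 → ℂ) x) → om f = om g) →
    s₁ * r₁ = 1 → s₂ * r₂ = 1 → (l₁ + 2 * (s₁ * s₁)) * w₁ = 1 →
    (∀ x ∈ frontier Ω, (s₁ : E3 → ℂ) x = (s₂ : E3 → ℂ) x) →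
    (∀ x ∈ frontier Ω, (l₁ : E3 → ℂ) x = (l₂ : E3 → ℂ) x) →
    (∀ x ∈ frontier Ω, ∀ ξ : Fin 3 → ℂ, (DD ξ s₁ : E3 → ℂ) x = (DD ξ s₂ : E3 → ℂ) x) →
    (∀ x ∈ Ω, (DD ζ h : E3 → ℂ) x = 0) →
    (∀ x ∈ Ω, (DD ζ G : E3 → ℂ) x =
      - ((z : E3 → ℂ) x * ((s₁ : E3 → ℂ) x * (s₁ : E3 → ℂ) x *
        ((l₁ : E3 → ℂ) x + (s₁ : E3 → ℂ) x * (s₁ : E3 → ℂ) x) * (w₁ : E3 → ℂ) x / 2))
      - (h : E3 → ℂ) x * (DD ζ' s₁ : E3 → ℂ) x) →
    (∀ x ∈ Ω, (DD ζ z : E3 → ℂ) x =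
      (DD ζ (DD ζ (r₁ * r₁)) : E3 → ℂ) x * (G : E3 → ℂ) x +
        (s₁ : E3 → ℂ) x * (h : E3 → ℂ) x * (DD ζ (DD ζ' (r₁ * r₁)) : E3 → ℂ) x) →
    (∀ η : Sm, CC η = om (h * (r₂ - r₁) * η)) →
    -- (E1)
    (∀ χ : Sm, GG (2 * (s₂ * s₂) * DD ζ χ)
        - om (2 * (r₁ * r₁ * G) * (s₁ * s₁ - s₂ * s₂) * DD ζ χ) =
      CC (DD ζ' (s₂ * s₂) * χ) + QQ ((l₂ + s₂ * s₂) * χ)
        - om (r₁ * h * DD ζ' (s₁ * s₁ - s₂ * s₂) * χ)
        - om (s₁ * s₁ * w₁ * z * (l₁ - l₂ + (s₁ * s₁ - s₂ * s₂)) * χ)) →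
    -- (E2)
    (∀ χ : Sm, QQ ((l₂ + 2 * (s₂ * s₂)) * DD ζ χ + DD ζ (s₂ * s₂) * χ)
        + GG (DD ζ (DD ζ (s₂ * s₂)) * χ + 2 * DD ζ (s₂ * s₂) * DD ζ χ)
        + CC (DD ζ (DD ζ' (s₂ * s₂)) * χ + 2 * DD ζ' (s₂ * s₂) * DD ζ χ) =
      om (s₁ * s₁ * w₁ * z * ((l₁ - l₂ + 2 * (s₁ * s₁ - s₂ * s₂)) * DD ζ χ
          + DD ζ (s₁ * s₁ - s₂ * s₂) * χ))
        + om (r₁ * r₁ * G * (DD ζ (DD ζ (s₁ * s₁ - s₂ * s₂)) * χ
          + 2 * DD ζ (s₁ * s₁ - s₂ * s₂) * DD ζ χ))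
        + om (r₁ * h * (DD ζ (DD ζ' (s₁ * s₁ - s₂ * s₂)) * χ
          + 2 * DD ζ' (s₁ * s₁ - s₂ * s₂) * DD ζ χ))) →
    ∀ ψ : Sm, QQ ((l₂ + 2 * (s₂ * s₂)) * (r₂ * r₂) * DD ζ ψ)
        + om (((l₂ + 2 * (s₂ * s₂)) * (r₂ * r₂) * (s₁ * s₁ * w₁ * z) - z) * DD ζ ψ) =
      - (GG (s₂ * s₂ * DD ζ (DD ζ (r₂ * r₂)) * ψ)
          - om ((s₁ * s₁ - s₂ * s₂) * (r₁ * r₁ * G) * DD ζ (DD ζ (r₂ * r₂)) * ψ))
        - om (((DD ζ (DD ζ (r₂ * r₂)) - DD ζ (DD ζ (r₁ * r₁))) * G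
          + h * (s₂ * DD ζ (DD ζ' (r₂ * r₂)) - s₁ * DD ζ (DD ζ' (r₁ * r₁)))) * ψ)

end Vale.Agent.P136.TL
end
end

section

section

open MeasureTheory Filter Topology
open scoped ContDiff InnerProductSpace

namespace Vale.Agent.P136.TLF

open Vale.Agent.P136.TL

lemma om_apply {Ω : Set E3} (hb : Bornology.IsBounded Ω) (f : Sm) :
    om Ω hb f = ∫ x in Ω, (f : E3 → ℂ) x := by
  unfold om
  rw [Tm_apply]
  simp only [one_mul]

lemma om_congr {Ω : Set E3} (hm : MeasurableSet Ω) (hb : Bornology.IsBounded Ω) (f g : Sm)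
    (h : ∀ x ∈ Ω, (f : E3 → ℂ) x = (g : E3 → ℂ) x) : om Ω hb f = om Ω hb g := by
  rw [om_apply, om_apply]
  exact setIntegral_congr_fun hm h

lemma om_DD {Ω : Set E3} (ho : IsOpen Ω) (hb : Bornology.IsBounded Ω) (ζ : Fin 3 → ℂ) (f : Sm)
    (hf : f ∈ TL.IO Ω) : om Ω hb (DD ζ f) = 0 := by
  have h1 : ∀ i, om Ω hb (P i f) = 0 := by
    intro i
    rw [om_apply]
    have := ZERO Ω (f : E3 → ℂ) ho hb ((sm_cd f).of_le (by norm_cast)) (mem_IO.1 hf) i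
      (fun _ => 1) contDiff_const
    have e : ∀ x : E3, pd i (fun _ => (1 : ℂ)) x = 0 := by
      intro x
      simp [pd]
    simp only [e, mul_zero, integral_zero, mul_one] at this
    exact neg_eq_zero.1 this.symm
  rw [DD_apply, map_sum]
  apply Finset.sum_eq_zero
  intro i _
  rw [map_smul, h1, smul_zero]

lemma mul_cont_memLp {B : Set E3} (hb : Bornology.IsBounded B) {c w : E3 → ℂ}
    (hc : Continuous c) (hw : MemLp w 2 (volume.restrict B)) :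
    MemLp (fun x => c x * w x) 2 (volume.restrict B) := by
  obtain ⟨M, hM⟩ := hb.isCompact_closure.exists_bound_of_continuousOn hc.continuousOn
  have hm : ∀ᵐ x ∂(volume.restrict B), ‖c x‖ ≤ M := by
    refine ae_mono (Measure.restrict_mono subset_closure le_rfl) ?_
    filter_upwards [ae_restrict_mem isClosed_closure.measurableSet] with x hx using hM x hx
  refine MemLp.of_le_mul (c := M) hw (hc.aestronglyMeasurable.mul hw.1) ?_
  filter_upwards [hm] with x hx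
  rw [norm_mul]
  gcongr

/-- functions of the form `1_Ω (a w + b)`. -/
noncomputable def ind (Ω : Set E3) (w : E3 → ℂ) (a b : Sm) : E3 → ℂ :=
  Ω.indicator (fun y => (a : E3 → ℂ) y * w y + (b : E3 → ℂ) y)

lemma ind_memLp {Ω : Set E3} (hm : MeasurableSet Ω) (hb : Bornology.IsBounded Ω) {w : E3 → ℂ}
    (hw : MemLp w 2 (volume.restrict Ω)) (a b : Sm) :
    MemLp (ind Ω w a b) 2 (volume : Measure E3) := by
  unfold ind
  rw [memLp_indicator_iff_restrict hm]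
  exact (mul_cont_memLp hb (sm_cont a) hw).add (cont_memLp_restrict hb (sm_cont b))

lemma ind_zero {Ω : Set E3} {w : E3 → ℂ} (a b : Sm) (x : E3) (hx : x ∉ Ω) :
    ind Ω w a b x = 0 := Set.indicator_of_notMem hx _

lemma pair_ind {Ω : Set E3} (hm : MeasurableSet Ω) (hb : Bornology.IsBounded Ω) {w : E3 → ℂ}
    (hw : MemLp w 2 (volume.restrict Ω)) (a b f : Sm) :
    ∫ x, ind Ω w a b x * (f : E3 → ℂ) x = Tm Ω hb w hw (a * f) + om Ω hb (b * f) := by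
  have e : (fun x => ind Ω w a b x * (f : E3 → ℂ) x) =
      Ω.indicator (fun x => w x * ((a * f : Sm) : E3 → ℂ) x + ((b * f : Sm) : E3 → ℂ) x) := by
    funext x
    unfold ind
    by_cases hx : x ∈ Ω
    · rw [Set.indicator_of_mem hx, Set.indicator_of_mem hx]
      simp only [Subalgebra.coe_mul, Pi.mul_apply]
      ring
    · rw [Set.indicator_of_notMem hx, Set.indicator_of_notMem hx, zero_mul]
  rw [e, integral_indicator hm, integral_add (tm_int hb hw _)]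
  · rw [om_apply, Tm_apply]
  · have := tm_int hb (cont_memLp_restrict hb continuous_const : MemLp (fun _ => (1 : ℂ)) 2 _)
      (b * f)
    simpa only [one_mul] using this

lemma Tm_sum {Ω : Set E3} (hb : Bornology.IsBounded Ω) {V : Fin 3 → E3 → ℂ}
    (hV : ∀ j, MemLp (V j) 2 (volume.restrict Ω)) (b : Fin 3 → ℂ)
    (h : MemLp (fun x => ∑ j, b j * V j x) 2 (volume.restrict Ω)) (η : Sm) :
    Tm Ω hb (fun x => ∑ j, b j * V j x) h η = ∑ j, b j * Tm Ω hb (V j) (hV j) η := by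
  simp only [Tm_apply]
  have e : ∀ x, (∑ j, b j * V j x) * (η : E3 → ℂ) x = ∑ j, b j * (V j x * (η : E3 → ℂ) x) := by
    intro x
    rw [Finset.sum_mul]
    exact Finset.sum_congr rfl fun j _ => by ring
  simp only [e]
  rw [integral_finsetSum]
  · simp only [integral_const_mul]
  · intro j _
    exact (tm_int hb (hV j) η).const_mul _

lemma sum_memLp {Ω : Set E3} {V : Fin 3 → E3 → ℂ}
    (hV : ∀ j, MemLp (V j) 2 (volume.restrict Ω)) (b : Fin 3 → ℂ) :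
    MemLp (fun x => ∑ j, b j * V j x) 2 (volume.restrict Ω) :=
  memLp_finsetSum _ fun j _ => (hV j).const_mul (b j)

lemma exists_b {ζ ζ' : Fin 3 → ℂ} (h0 : dot ζ ζ = 0) (h1 : dot ζ ζ' = 0) (h2 : dot ζ' ζ' ≠ 0)
    (hne : ζ ≠ 0) :
    ∃ b : Fin 3 → ℂ, dot ζ b = 1 ∧ dot ζ' b = 0 ∧
      ∀ v : Fin 3 → ℂ, dot ζ v = 0 → ∀ j, v j = ζ j * (∑ k, b k * v k)
        + ζ' j * (∑ k, (ζ' k / dot ζ' ζ') * v k) := by
  set n2 : ℂ := ∑ i, ζ i * (starRingEnd ℂ) (ζ i) with hn2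
  have hn : n2 ≠ 0 := by
    have e : n2 = ((∑ i, ‖ζ i‖ ^ 2 : ℝ) : ℂ) := by
      rw [hn2, Complex.ofReal_sum]
      apply Finset.sum_congr rfl
      intro i _
      rw [Complex.mul_conj, Complex.normSq_eq_norm_sq]
    rw [e]
    intro h
    have h' : (∑ i, ‖ζ i‖ ^ 2 : ℝ) = 0 := by exact_mod_cast h
    apply hne
    funext i
    have := (Finset.sum_eq_zero_iff_of_nonneg (fun i _ => sq_nonneg ‖ζ i‖)).1 h' i
      (Finset.mem_univ i)
    simpa using this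
  set N := dot ζ' ζ' with hN
  set q : ℂ := ∑ i, ζ' i * (starRingEnd ℂ) (ζ i) with hq
  set b : Fin 3 → ℂ := fun i => (starRingEnd ℂ) (ζ i) / n2 - q / (N * n2) * ζ' i with hbdef
  have hb1 : dot ζ b = 1 := by
    have : dot ζ b = (∑ i, ζ i * (starRingEnd ℂ) (ζ i)) / n2 - q / (N * n2) * dot ζ ζ' := by
      simp only [dot, hbdef, Fin.sum_univ_three]
      ring
    rw [this, ← hn2, h1, div_self hn]
    ring
  have hb2 : dot ζ' b = 0 := by
    have : dot ζ' b = q / n2 - q / (N * n2) * dot ζ' ζ' := by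
      simp only [dot, hbdef, hq, Fin.sum_univ_three]
      ring
    rw [this, ← hN]
    field_simp
    ring
  refine ⟨b, hb1, hb2, ?_⟩
  intro v hv
  -- the difference vector
  set α : ℂ := ∑ k, b k * v k with hα
  set β : ℂ := ∑ k, (ζ' k / N) * v k with hβ
  have hβ' : N * β = dot ζ' v := by
    rw [hβ, Finset.mul_sum]
    unfold dot
    apply Finset.sum_congr rfl
    intro k _
    field_simp
  set w : Fin 3 → ℂ := fun j => v j - (ζ j * α + ζ' j * β) with hw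
  have w1 : dot ζ w = 0 := by
    have : dot ζ w = dot ζ v - (dot ζ ζ * α + dot ζ ζ' * β) := by
      simp only [dot, hw, Fin.sum_univ_three]
      ring
    rw [this, hv, h0, h1]
    ring
  have w2 : dot ζ' w = 0 := by
    have : dot ζ' w = dot ζ' v - (dot ζ ζ' * α + dot ζ' ζ' * β) := by
      simp only [dot, hw, Fin.sum_univ_three]
      ring
    rw [this, h1, ← hN, ← hβ']
    ring
  have w3 : dot b w = 0 := by
    have : dot b w = α - (dot ζ b * α + dot ζ' b * β) := by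
      simp only [dot, hw, hα, Fin.sum_univ_three]
      ring
    rw [this, hb1, hb2]
    ring
  have hdet : (Matrix.of ![ζ, ζ', b]).det ≠ 0 := by
    have hsq : (Matrix.of ![ζ, ζ', b]).det ^ 2 = - N := by
      have e : (Matrix.of ![ζ, ζ', b]).det ^ 2 =
          dot ζ ζ * (dot ζ' ζ' * dot b b - dot ζ' b ^ 2)
          - dot ζ ζ' * (dot ζ ζ' * dot b b - dot ζ' b * dot ζ b)
          + dot ζ b * (dot ζ ζ' * dot ζ' b - dot ζ' ζ' * dot ζ b) := by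
        rw [Matrix.det_fin_three]
        simp [dot, Fin.sum_univ_three]
        ring
      rw [e, h0, h1, hb1, hb2, ← hN]
      ring
    intro h
    rw [h] at hsq
    apply h2
    rw [← neg_eq_zero, ← hsq]
    ring
  have hwz : w = 0 := by
    apply Matrix.eq_zero_of_mulVec_eq_zero hdet
    funext i
    fin_cases i
    · simpa [Matrix.mulVec, dotProduct, dot] using w1
    · simpa [Matrix.mulVec, dotProduct, dot] using w2
    · simpa [Matrix.mulVec, dotProduct, dot] using w3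
  intro j
  have := congrFun hwz j
  simp only [hw, Pi.zero_apply] at this
  exact sub_eq_zero.1 this

end Vale.Agent.P136.TLF
end
end

section

section

open MeasureTheory Filter Topology
open scoped ContDiff InnerProductSpace

namespace Vale.Agent.P136.TLF

open Vale.Agent.P136.TL

lemma DD_Km (ζ : Fin 3 → ℂ) (c : ℂ) (f : Sm) : DD ζ (K c * f) = K c * DD ζ f := by
  rw [← smul_eq_K, map_smul, smul_eq_K]

lemma K_dot (a b : Fin 3 → ℂ) :
    K (dot a b) = K (a 0) * K (b 0) + K (a 1) * K (b 1) + K (a 2) * K (b 2) := by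
  simp only [dot, Fin.sum_univ_three, K_add, K_mul]

/-- test vector 0. -/
noncomputable def F0 (ζ ζ' : Fin 3 → ℂ) (m χ : Sm) (j : Fin 3) : Sm :=
  2 * m * DD ζ (K (ζ' j) * χ) + DD ζ m * (K (ζ' j) * χ)
    - P j m * ∑ k, K (ζ k) * (K (ζ' k) * χ)

lemma F0_zeta {ζ ζ' : Fin 3 → ℂ} (h1 : dot ζ ζ' = 0) (m χ : Sm) :
    ∑ j, K (ζ j) * F0 ζ ζ' m χ j = 0 := by
  have k1 : K (ζ 0) * K (ζ' 0) + K (ζ 1) * K (ζ' 1) + K (ζ 2) * K (ζ' 2) = 0 := by
    rw [← K_dot, h1, K_zero]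
  simp only [F0, DD_Km, Fin.sum_univ_three]
  linear_combination (2 * m * DD ζ χ + DD ζ m * χ
    - (K (ζ 0) * P 0 m + K (ζ 1) * P 1 m + K (ζ 2) * P 2 m) * χ) * k1

lemma F0_zeta' {ζ ζ' : Fin 3 → ℂ} (h1 : dot ζ ζ' = 0) (m χ : Sm) :
    ∑ j, K (ζ' j) * F0 ζ ζ' m χ j =
      K (dot ζ' ζ') * (2 * m * DD ζ χ + DD ζ m * χ) := by
  have k1 : K (ζ 0) * K (ζ' 0) + K (ζ 1) * K (ζ' 1) + K (ζ 2) * K (ζ' 2) = 0 := by
    rw [← K_dot, h1, K_zero]
  rw [K_dot]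
  simp only [F0, DD_Km, Fin.sum_univ_three]
  linear_combination (- (K (ζ' 0) * P 0 m + K (ζ' 1) * P 1 m + K (ζ' 2) * P 2 m) * χ) * k1

/-- test vector 1. -/
noncomputable def F1 (ζ b : Fin 3 → ℂ) (m χ : Sm) (j : Fin 3) : Sm :=
  2 * m * DD ζ (K (b j) * χ) + DD ζ m * (K (b j) * χ)
    - P j m * ∑ k, K (ζ k) * (K (b k) * χ)

lemma F1_sum {ζ b : Fin 3 → ℂ} (h1 : dot ζ b = 1) (χ : Sm) :
    ∑ k, K (ζ k) * (K (b k) * χ) = χ := by
  have k1 : K (ζ 0) * K (b 0) + K (ζ 1) * K (b 1) + K (ζ 2) * K (b 2) = 1 := by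
    rw [← K_dot, h1, K_one]
  simp only [Fin.sum_univ_three]
  linear_combination χ * k1

lemma F1_zeta {ζ b : Fin 3 → ℂ} (h1 : dot ζ b = 1) (m χ : Sm) :
    ∑ j, K (ζ j) * F1 ζ b m χ j = 2 * m * DD ζ χ := by
  have k1 : K (ζ 0) * K (b 0) + K (ζ 1) * K (b 1) + K (ζ 2) * K (b 2) = 1 := by
    rw [← K_dot, h1, K_one]
  have k2 : DD ζ m = K (ζ 0) * P 0 m + K (ζ 1) * P 1 m + K (ζ 2) * P 2 m := by
    rw [DD_K, Fin.sum_univ_three]
  simp only [F1, DD_Km, F1_sum h1]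
  simp only [Fin.sum_univ_three]
  linear_combination (2 * m * DD ζ χ + DD ζ m * χ) * k1 + χ * k2

lemma F1_zeta' {ζ ζ' b : Fin 3 → ℂ} (h1 : dot ζ b = 1) (h2 : dot ζ' b = 0) (m χ : Sm) :
    ∑ j, K (ζ' j) * F1 ζ b m χ j = - (DD ζ' m * χ) := by
  have k1 : K (ζ' 0) * K (b 0) + K (ζ' 1) * K (b 1) + K (ζ' 2) * K (b 2) = 0 := by
    rw [← K_dot, h2, K_zero]
  have k2 : DD ζ' m = K (ζ' 0) * P 0 m + K (ζ' 1) * P 1 m + K (ζ' 2) * P 2 m := by
    rw [DD_K, Fin.sum_univ_three]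
  simp only [F1, DD_Km, F1_sum h1]
  simp only [Fin.sum_univ_three]
  linear_combination (2 * m * DD ζ χ + DD ζ m * χ) * k1 + χ * k2

/-- test vector 2. -/
noncomputable def F2 (ζ : Fin 3 → ℂ) (m χ : Sm) (j : Fin 3) : Sm :=
  2 * (DD ζ (P j m) * χ + 2 * P j m * DD ζ χ)

lemma F2_sum (ζ ξ : Fin 3 → ℂ) (m χ : Sm) :
    ∑ j, K (ξ j) * F2 ζ m χ j = 2 * (DD ζ (DD ξ m) * χ + 2 * DD ξ m * DD ζ χ) := by
  have k2 : DD ξ m = K (ξ 0) * P 0 m + K (ξ 1) * P 1 m + K (ξ 2) * P 2 m := by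
    rw [DD_K, Fin.sum_univ_three]
  have k3 : DD ζ (DD ξ m) = K (ξ 0) * DD ζ (P 0 m) + K (ξ 1) * DD ζ (P 1 m)
      + K (ξ 2) * DD ζ (P 2 m) := by
    rw [k2, map_add, map_add, DD_Km, DD_Km, DD_Km]
  simp only [F2, Fin.sum_univ_three]
  rw [k3, k2]
  ring

section fun_sum

variable {T : Fin 3 → (Sm →ₗ[ℂ] ℂ)} {GG CC : Sm →ₗ[ℂ] ℂ} {ζ ζ' : Fin 3 → ℂ}

lemma T_sum (hT : ∀ j f, T j f = ζ j * GG f + ζ' j * CC f) (F : Fin 3 → Sm) :
    ∑ j, T j (F j) = GG (∑ j, K (ζ j) * F j) + CC (∑ j, K (ζ' j) * F j) := by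
  simp only [hT, map_sum, lin_K, Finset.sum_add_distrib]

lemma U_sum {U : Fin 3 → Sm} {g c : Sm} (hU : ∀ j, U j = g * K (ζ j) + c * K (ζ' j))
    (om : Sm →ₗ[ℂ] ℂ) (F : Fin 3 → Sm) :
    ∑ j, om (U j * F j) = om (g * ∑ j, K (ζ j) * F j) + om (c * ∑ j, K (ζ' j) * F j) := by
  rw [← map_sum, ← map_add]
  congr 1
  simp only [hU, Finset.mul_sum, ← Finset.sum_add_distrib]
  exact Finset.sum_congr rfl fun j _ => by ring

end fun_sum

/-- The three consequences (E0), (E1), (E2) of the limit relations. -/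
lemma E_of {ζ ζ' b : Fin 3 → ℂ} (h1 : dot ζ ζ' = 0) (hN : dot ζ' ζ' ≠ 0)
    (hb1 : dot ζ b = 1) (hb2 : dot ζ' b = 0)
    {T : Fin 3 → (Sm →ₗ[ℂ] ℂ)} {QQ om GG CC : Sm →ₗ[ℂ] ℂ}
    (hT : ∀ j f, T j f = ζ j * GG f + ζ' j * CC f)
    {U : Fin 3 → Sm} {d g c : Sm} (hU : ∀ j, U j = g * K (ζ j) + c * K (ζ' j))
    {l m dl dm : Sm}
    (T1 : ∀ ψ : Fin 3 → Sm,
      (∑ j, T j (2 * m * DD ζ (ψ j) + DD ζ m * ψ j - P j m * ∑ k, K (ζ k) * ψ k))
        - QQ ((l + m) * ∑ k, K (ζ k) * ψ k) =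
      (∑ j, om (U j * (2 * dm * DD ζ (ψ j) + DD ζ dm * ψ j - P j dm * ∑ k, K (ζ k) * ψ k)))
        - om (d * ((dl + dm) * ∑ k, K (ζ k) * ψ k)))
    (T2 : ∀ χ : Sm,
      QQ (2 * (l + 2 * m) * DD ζ χ + 2 * DD ζ m * χ)
        + (∑ j, T j (2 * (DD ζ (P j m) * χ + 2 * P j m * DD ζ χ))) =
      om (d * (2 * (dl + 2 * dm) * DD ζ χ + 2 * DD ζ dm * χ))
        + (∑ j, om (U j * (2 * (DD ζ (P j dm) * χ + 2 * P j dm * DD ζ χ))))) :
    (∀ χ, CC (2 * m * DD ζ χ + DD ζ m * χ) = om (c * (2 * dm * DD ζ χ + DD ζ dm * χ))) ∧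
    (∀ χ, GG (2 * m * DD ζ χ) - om (2 * g * dm * DD ζ χ) =
      CC (DD ζ' m * χ) + QQ ((l + m) * χ) - om (c * DD ζ' dm * χ)
        - om (d * (dl + dm) * χ)) ∧
    (∀ χ, QQ ((l + 2 * m) * DD ζ χ + DD ζ m * χ)
        + GG (DD ζ (DD ζ m) * χ + 2 * DD ζ m * DD ζ χ)
        + CC (DD ζ (DD ζ' m) * χ + 2 * DD ζ' m * DD ζ χ) =
      om (d * ((dl + 2 * dm) * DD ζ χ + DD ζ dm * χ))
        + om (g * (DD ζ (DD ζ dm) * χ + 2 * DD ζ dm * DD ζ χ))
        + om (c * (DD ζ (DD ζ' dm) * χ + 2 * DD ζ' dm * DD ζ χ))) := by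
  refine ⟨?_, ?_, ?_⟩
  · intro χ
    have key := T1 (fun j => K (ζ' j) * χ)
    have s0 : ∑ k, K (ζ k) * (K (ζ' k) * χ) = 0 := by
      have k1 : K (ζ 0) * K (ζ' 0) + K (ζ 1) * K (ζ' 1) + K (ζ 2) * K (ζ' 2) = 0 := by
        rw [← K_dot, h1, K_zero]
      simp only [Fin.sum_univ_three]
      linear_combination χ * k1
    change (∑ j, T j (F0 ζ ζ' m χ j)) - _ = (∑ j, om (U j * F0 ζ ζ' dm χ j)) - _ at key
    rw [T_sum hT, U_sum hU, F0_zeta h1, F0_zeta h1, F0_zeta' h1, F0_zeta' h1] at key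
    simp only [s0, mul_zero, map_zero, zero_add, sub_zero, lin_K] at key
    have e : c * (K (dot ζ' ζ') * (2 * dm * DD ζ χ + DD ζ dm * χ)) =
        K (dot ζ' ζ') * (c * (2 * dm * DD ζ χ + DD ζ dm * χ)) := by ring
    rw [e, lin_K] at key
    exact mul_left_cancel₀ hN key
  · intro χ
    have key := T1 (fun j => K (b j) * χ)
    change (∑ j, T j (F1 ζ b m χ j)) - _ = (∑ j, om (U j * F1 ζ b dm χ j)) - _ at key
    rw [T_sum hT, U_sum hU, F1_zeta hb1, F1_zeta hb1, F1_zeta' hb1 hb2, F1_zeta' hb1 hb2] at key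
    simp only [F1_sum hb1] at key
    have e1 : g * (2 * dm * DD ζ χ) = 2 * g * dm * DD ζ χ := by ring
    have e2 : c * -(DD ζ' dm * χ) = - (c * DD ζ' dm * χ) := by ring
    have e3 : d * ((dl + dm) * χ) = d * (dl + dm) * χ := by ring
    rw [e1, e2, e3, map_neg, map_neg] at key
    linear_combination key
  · intro χ
    have key := T2 χ
    change _ + (∑ j, T j (F2 ζ m χ j)) = _ + (∑ j, om (U j * F2 ζ dm χ j)) at key
    rw [T_sum hT, U_sum hU, F2_sum, F2_sum, F2_sum, F2_sum] at key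
    have two : ∀ (L : Sm →ₗ[ℂ] ℂ) (f : Sm), L (2 * f) = 2 * L f := by
      intro L f
      have : (2 : Sm) * f = K 2 * f := by
        rw [show (2 : Sm) = K 2 from by rw [K, map_ofNat]]
      rw [this, lin_K]
    have e1 : (2 : Sm) * (l + 2 * m) * DD ζ χ + 2 * DD ζ m * χ =
        2 * ((l + 2 * m) * DD ζ χ + DD ζ m * χ) := by ring
    have e2 : d * (2 * (dl + 2 * dm) * DD ζ χ + 2 * DD ζ dm * χ) =
        2 * (d * ((dl + 2 * dm) * DD ζ χ + DD ζ dm * χ)) := by ring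
    have e3 : g * (2 * (DD ζ (DD ζ dm) * χ + 2 * DD ζ dm * DD ζ χ)) =
        2 * (g * (DD ζ (DD ζ dm) * χ + 2 * DD ζ dm * DD ζ χ)) := by ring
    have e4 : c * (2 * (DD ζ (DD ζ' dm) * χ + 2 * DD ζ' dm * DD ζ χ)) =
        2 * (c * (DD ζ (DD ζ' dm) * χ + 2 * DD ζ' dm * DD ζ χ)) := by ring
    rw [e1, e2, e3, e4] at key
    simp only [two] at key
    linear_combination key / 2

end Vale.Agent.P136.TLF
end
end

section

section

open MeasureTheory Filter Topology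
open scoped ContDiff InnerProductSpace

namespace Vale.Agent.P136.TLF

open Vale.Agent.P136.TL

lemma two_eq_K : (2 : Sm) = K 2 := by rw [K, map_ofNat]

lemma lin_two (L : Sm →ₗ[ℂ] ℂ) (f : Sm) : L (2 * f) = 2 * L f := by
  rw [two_eq_K, lin_K]

lemma two_half : (2 : Sm) * K (1 / 2) = 1 := by
  rw [two_eq_K, ← K_mul, ← K_one]
  norm_num

lemma DD_one (ζ : Fin 3 → ℂ) : DD ζ (1 : Sm) = 0 := by
  rw [DD_apply]
  simp [P_one]

lemma DD_inv_rel (ζ : Fin 3 → ℂ) {s r : Sm} (h : s * r = 1) :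
    DD ζ s * r + s * DD ζ r = 0 := by
  rw [← DD_mul, h, DD_one]

lemma sm_ext {f g : Sm} (h : ∀ x, (f : E3 → ℂ) x = (g : E3 → ℂ) x) : f = g :=
  Subtype.ext (funext h)

/-- the formula for `CC`, step 1. -/
lemma CC_formula (hU : UNIQ_statement) {Ω : Set E3} (ho : IsOpen Ω) (hb : Bornology.IsBounded Ω)
    {ζ : Fin 3 → ℂ} (h00 : dot ζ ζ = 0) (hne : ζ ≠ 0)
    {w : E3 → ℂ} (hw : MemLp w 2 (volume.restrict Ω)) {s₁ s₂ r₁ r₂ h : Sm}
    (e₁ : s₁ * r₁ = 1) (e₂ : s₂ * r₂ = 1)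
    (hbd : ∀ x ∈ frontier Ω, (s₁ : E3 → ℂ) x = (s₂ : E3 → ℂ) x)
    (hh : ∀ x ∈ Ω, (DD ζ h : E3 → ℂ) x = 0)
    (E0 : ∀ χ : Sm, Tm Ω hb w hw (2 * (s₂ * s₂) * DD ζ χ + DD ζ (s₂ * s₂) * χ) =
      om Ω hb (r₁ * h * (2 * (s₁ * s₁ - s₂ * s₂) * DD ζ χ
        + DD ζ (s₁ * s₁ - s₂ * s₂) * χ))) (η : Sm) :
    Tm Ω hb w hw η = om Ω hb (h * (r₂ - r₁) * η) := by
  have hm : MeasurableSet Ω := ho.measurableSet
  have d₂ := DD_inv_rel ζ e₂
  have hDh : ∀ f : Sm, om Ω hb (f * DD ζ h) = 0 := by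
    intro f
    rw [← map_zero (om Ω hb)]
    apply om_congr hm hb
    intro x hx
    simp [hh x hx]
  set X : E3 → ℂ := ind Ω w s₂ ((s₂ - s₁) * (r₁ * h)) with hX
  have hXD : ∀ ψ : E3 → ℂ, ContDiff ℝ ∞ ψ → ∫ x, X x * Dz ζ ψ x = 0 := by
    intro ψ' hψ
    set ψ : Sm := ⟨ψ', hψ⟩ with hψd
    have e : Dz ζ ψ' = (DD ζ ψ : E3 → ℂ) := (DD_coe ζ ψ).symm
    rw [e, hX, pair_ind hm hb hw]
    have k0 := E0 (r₂ * ψ)
    have a1 : 2 * (s₂ * s₂) * DD ζ (r₂ * ψ) + DD ζ (s₂ * s₂) * (r₂ * ψ) = 2 * (s₂ * DD ζ ψ) := by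
      rw [DD_mul, DD_mul]
      linear_combination (2 * s₂ * ψ) * d₂ + 2 * s₂ * DD ζ ψ * e₂
    rw [a1, lin_two] at k0
    have a2 : r₁ * h * (2 * (s₁ * s₁ - s₂ * s₂) * DD ζ (r₂ * ψ)
        + DD ζ (s₁ * s₁ - s₂ * s₂) * (r₂ * ψ)) =
        2 * DD ζ (h * (s₁ * r₂ - 1) * ψ) - 2 * ((s₁ * r₂ - 1) * ψ * DD ζ h)
          - 2 * ((s₂ - s₁) * (r₁ * h) * DD ζ ψ) := by
      simp only [DD_mul, map_sub, DD_one]
      linear_combination (2 * h * DD ζ ψ * (s₁ * r₂ - 1)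
          + 2 * h * ψ * (s₁ * DD ζ r₂ + DD ζ s₁ * r₂)) * e₁
        + (-2 * h * r₁ * s₂ * DD ζ ψ) * e₂
        + (-2 * r₁ * h * ψ * s₂) * d₂
    rw [a2, map_sub, map_sub, lin_two, lin_two, lin_two, hDh] at k0
    have k1 : om Ω hb (DD ζ (h * (s₁ * r₂ - 1) * ψ)) = 0 := by
      apply om_DD ho
      rw [mem_IO]
      intro x hx
      have : (s₁ : E3 → ℂ) x * (r₂ : E3 → ℂ) x = 1 := by
        rw [hbd x hx]
        have := congrArg (fun f : Sm => (f : E3 → ℂ) x) e₂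
        simpa using this
      simp [this]
    rw [k1] at k0
    linear_combination k0 / 2
  have hX0 := hU ζ h00 hne 1 (fun _ _ _ => 0) Ω (fun _ => X) hb hm
    (fun _ _ => contDiff_const) (fun _ => ind_memLp hm hb hw _ _)
    (fun _ x hx => ind_zero _ _ x hx)
    (by
      intro _ ψ hψ
      simp [hXD ψ hψ])
    0
  have hall : ∫ x, X x * ((r₂ * η : Sm) : E3 → ℂ) x = 0 := by
    rw [← integral_zero E3 ℂ]
    apply integral_congr_ae
    filter_upwards [hX0] with x hx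
    rw [hx]
    simp
  rw [hX, pair_ind hm hb hw] at hall
  have b1 : s₂ * (r₂ * η) = η := by linear_combination η * e₂
  have b2 : (s₂ - s₁) * (r₁ * h) * (r₂ * η) = - (h * (r₂ - r₁) * η) := by
    linear_combination (r₁ * h * η) * e₂ - (r₂ * h * η) * e₁
  rw [b1, b2, map_neg] at hall
  linear_combination hall

lemma exists_med (lam mu : E3 → ℝ) (hl : ContDiff ℝ ∞ lam) (hm : ContDiff ℝ ∞ mu)
    (hpm : ∀ x, 0 < mu x) (hpl : ∀ x, 0 < lam x + mu x) :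
    ∃ s r w : Sm, s * r = 1 ∧ ofR mu hm = s * s ∧ (ofR lam hl + 2 * (s * s)) * w = 1 ∧
      ((s : E3 → ℂ) = cc fun y => √(mu y)) ∧ (((r * r : Sm) : E3 → ℂ) = cc fun y => (mu y)⁻¹) ∧
      (∀ x, (r : E3 → ℂ) x = (((√(mu x) : ℝ) : ℂ))⁻¹) ∧
      (∀ x, (w : E3 → ℂ) x = ((lam x + 2 * mu x : ℝ) : ℂ)⁻¹) := by
  have hs : ContDiff ℝ ∞ (fun x => √(mu x)) := hm.sqrt fun x => (hpm x).ne'
  have hs0 : ∀ x, √(mu x) ≠ 0 := fun x => (Real.sqrt_pos.2 (hpm x)).ne'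
  have hn0 : ∀ x, lam x + 2 * mu x ≠ 0 := fun x => by
    have := hpm x
    have := hpl x
    linarith
  refine ⟨ofR _ hs, ofR (fun x => (√(mu x))⁻¹) (hs.inv hs0), ofR (fun x => (lam x + 2 * mu x)⁻¹)
    ((hl.add (contDiff_const.mul hm)).inv hn0), ?_, ?_, ?_, rfl, ?_, ?_, ?_⟩
  · apply sm_ext
    intro x
    simp only [Subalgebra.coe_mul, Pi.mul_apply, ofR_apply, Subalgebra.coe_one, Pi.one_apply]
    rw [← Complex.ofReal_mul, mul_inv_cancel₀ (hs0 x), Complex.ofReal_one]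
  · apply sm_ext
    intro x
    simp only [Subalgebra.coe_mul, Pi.mul_apply, ofR_apply]
    rw [← Complex.ofReal_mul, Real.mul_self_sqrt (hpm x).le]
  · apply sm_ext
    intro x
    have e2 : ((2 : Sm) : E3 → ℂ) x = 2 := by rw [two_eq_K]; rfl
    simp only [Subalgebra.coe_mul, Pi.mul_apply, Subalgebra.coe_add, Pi.add_apply, ofR_apply,
      Subalgebra.coe_one, Pi.one_apply, e2]
    rw [← Complex.ofReal_mul, Real.mul_self_sqrt (hpm x).le]
    have : ((lam x : ℂ) + 2 * (mu x : ℂ)) = ((lam x + 2 * mu x : ℝ) : ℂ) := by push_cast; ring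
    rw [this, ← Complex.ofReal_mul, mul_inv_cancel₀ (hn0 x), Complex.ofReal_one]
  · funext x
    simp only [Subalgebra.coe_mul, Pi.mul_apply, ofR_apply, cc]
    rw [← Complex.ofReal_mul, ← mul_inv, Real.mul_self_sqrt (hpm x).le]
  · intro x
    rw [ofR_apply, Complex.ofReal_inv]
  · intro x
    rw [ofR_apply, Complex.ofReal_inv]

/-- smooth functions with equal first derivatives at a point. -/
lemma DD_sqrt_eq {mu₁ mu₂ : E3 → ℝ} (hm₁ : ContDiff ℝ ∞ mu₁) (hm₂ : ContDiff ℝ ∞ mu₂)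
    {s₁ s₂ r₂ : Sm} (e₁ : ofR mu₁ hm₁ = s₁ * s₁) (e₂ : ofR mu₂ hm₂ = s₂ * s₂) (e₃ : s₂ * r₂ = 1)
    {x : E3} (hs : (s₁ : E3 → ℂ) x = (s₂ : E3 → ℂ) x) (hd : fderiv ℝ mu₁ x = fderiv ℝ mu₂ x)
    (ξ : Fin 3 → ℂ) : (DD ξ s₁ : E3 → ℂ) x = (DD ξ s₂ : E3 → ℂ) x := by
  have h1 : (DD ξ (ofR mu₁ hm₁) : E3 → ℂ) x = (DD ξ (ofR mu₂ hm₂) : E3 → ℂ) x := by
    rw [DD_coe, DD_coe]
    have key : ∀ (mu : E3 → ℝ) (hm : ContDiff ℝ ∞ mu) (i : Fin 3),
        pd i (ofR mu hm : E3 → ℂ) x = ((pd i mu x : ℝ) : ℂ) := by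
      intro mu hm i
      have hd : HasFDerivAt (cc mu) (Complex.ofRealCLM.comp (fderiv ℝ mu x)) x :=
        Complex.ofRealCLM.hasFDerivAt.comp x ((hm.differentiable (by simp)) x).hasFDerivAt
      rw [ofR_coe]
      simp only [pd]
      rw [hd.fderiv]
      simp
    unfold Dz
    apply Finset.sum_congr rfl
    intro i _
    rw [key, key]
    simp only [pd, hd]
  rw [e₁, e₂, DD_mul, DD_mul] at h1
  have h3 : (s₂ : E3 → ℂ) x * (r₂ : E3 → ℂ) x = 1 := by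
    have := congrArg (fun f : Sm => (f : E3 → ℂ) x) e₃
    simpa using this
  simp only [Subalgebra.coe_add, Subalgebra.coe_mul, Pi.add_apply, Pi.mul_apply, hs] at h1
  have h4 : 2 * (s₂ : E3 → ℂ) x * (DD ξ s₁ : E3 → ℂ) x = 2 * (s₂ : E3 → ℂ) x *
      (DD ξ s₂ : E3 → ℂ) x := by linear_combination h1
  have h5 : 2 * (s₂ : E3 → ℂ) x ≠ 0 := by
    apply mul_ne_zero two_ne_zero
    intro h0
    rw [h0, zero_mul] at h3
    exact zero_ne_one h3
  exact mul_left_cancel₀ h5 h4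

theorem _root_.Vale.Agent.P136.TL.TLfin_of (h3 : TLfin3_statement) (hU : UNIQ_statement) :
    TLfin_statement := by
  intro Ω hb lam₁ mu₁ lam₂ mu₂ hl₁ hm₁ hl₂ hm₂ ho pm₁ pl₁ pm₂ pl₂ hbd ζ ζ' R h00 h01 hN hne hR
    h' G' z' hh hG hz hS V Q hV hQ U d hUe hde T0 T1 T2
  have hmΩ : MeasurableSet Ω := ho.measurableSet
  have hΩR : ∀ x ∈ Ω, ‖x‖ < R := fun x hx => by
    have := hR (subset_closure hx)
    simpa using this
  obtain ⟨s₁, r₁, w₁, e₁, em₁, ew₁, cs₁, cn₁, cr₁, cw₁⟩ := exists_med lam₁ mu₁ hl₁ hm₁ pm₁ pl₁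
  obtain ⟨s₂, r₂, w₂, e₂, em₂, ew₂, cs₂, cn₂, cr₂, cw₂⟩ := exists_med lam₂ mu₂ hl₂ hm₂ pm₂ pl₂
  set l₁ : Sm := ofR lam₁ hl₁ with hl₁d
  set l₂ : Sm := ofR lam₂ hl₂ with hl₂d
  set h : Sm := ⟨h', hh⟩ with hhd
  set G : Sm := ⟨G', hG⟩ with hGd
  set z : Sm := ⟨z', hz⟩ with hzd
  obtain ⟨b, hb1, hb2, hb3⟩ := exists_b h00 h01 hN hne
  -- functionals
  set gV : E3 → ℂ := fun x => ∑ j, b j * V j x with hgV
  have mgV : MemLp gV 2 (volume.restrict Ω) := sum_memLp hV b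
  set cV : E3 → ℂ := fun x => ∑ j, (ζ' j / dot ζ' ζ') * V j x with hcV
  have mcV : MemLp cV 2 (volume.restrict Ω) := sum_memLp hV _
  have hT : ∀ j f, Tm Ω hb (V j) (hV j) f = ζ j * Tm Ω hb gV mgV f + ζ' j * Tm Ω hb cV mcV f := by
    intro j f
    have t1 : Tm Ω hb gV mgV f = ∑ k, b k * Tm Ω hb (V k) (hV k) f := Tm_sum hb hV b mgV f
    have t2 : Tm Ω hb cV mcV f = ∑ k, (ζ' k / dot ζ' ζ') * Tm Ω hb (V k) (hV k) f :=
      Tm_sum hb hV _ mcV f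
    rw [t1, t2]
    exact hb3 (fun j => Tm Ω hb (V j) (hV j) f) (T0 f) j
  have hUs : ∀ j, U j = (r₁ * r₁ * G) * K (ζ j) + (r₁ * h) * K (ζ' j) := by
    intro j
    apply sm_ext
    intro x
    have c1 := congrFun cn₁ x
    rw [hUe j]
    simp only [Subalgebra.coe_mul, Pi.mul_apply, Subalgebra.coe_add, Pi.add_apply, cc] at c1 ⊢
    rw [c1, cr₁, K_apply, K_apply]
    unfold ampU
    simp only [hGd, hhd]
    push_cast
    field_simp
  have hds : d = s₁ * s₁ * w₁ * z := by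
    apply sm_ext
    intro x
    rw [hde, ← em₁]
    simp only [Subalgebra.coe_mul, Pi.mul_apply, ofR_apply, cw₁]
    unfold ampd
    simp only [hzd]
    field_simp
  obtain ⟨E0, E1, E2⟩ := E_of (T := fun j => Tm Ω hb (V j) (hV j)) h01 hN hb1 hb2 hT hUs T1 T2
  rw [em₁, em₂] at E0 E1 E2
  rw [hds] at E1 E2
  -- boundary values
  have bs : ∀ x ∈ frontier Ω, (s₁ : E3 → ℂ) x = (s₂ : E3 → ℂ) x := by
    intro x hx
    rw [cs₁, cs₂]
    simp only [cc, (hbd x hx).1]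
  have bl : ∀ x ∈ frontier Ω, (l₁ : E3 → ℂ) x = (l₂ : E3 → ℂ) x := by
    intro x hx
    rw [hl₁d, hl₂d, ofR_apply, ofR_apply, (hbd x hx).2.1]
  have bd : ∀ x ∈ frontier Ω, ∀ ξ : Fin 3 → ℂ,
      (DD ξ s₁ : E3 → ℂ) x = (DD ξ s₂ : E3 → ℂ) x := by
    intro x hx ξ
    exact DD_sqrt_eq hm₁ hm₂ em₁ em₂ e₂ (bs x hx) (hbd x hx).2.2.1 ξ
  -- the amplitude equations
  have cz : (z : E3 → ℂ) = z' := rfl
  have cG : (G : E3 → ℂ) = G' := rfl
  have ch : (h : E3 → ℂ) = h' := rfl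
  have ia : ∀ (lam mu : E3 → ℝ) (hl : ContDiff ℝ ∞ lam) (hm : ContDiff ℝ ∞ mu) (s w : Sm),
      (∀ x, 0 < mu x) → (∀ x, 0 < lam x + mu x) → ofR mu hm = s * s →
      (∀ x, (w : E3 → ℂ) x = ((lam x + 2 * mu x : ℝ) : ℂ)⁻¹) → ∀ x (a : ℂ),
      a / ((2 * (lam x + 2 * mu x) / (mu x * (lam x + mu x)) : ℝ) : ℂ) =
        a * (((s * s * (ofR lam hl + s * s) * w * K (1 / 2) : Sm) : E3 → ℂ) x) := by
    intro lam mu hl hm s w p1 p2 e c x a
    rw [← e]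
    simp only [Subalgebra.coe_mul, Pi.mul_apply, Subalgebra.coe_add, Pi.add_apply, ofR_apply, c,
      K_apply]
    have q1 : (mu x : ℂ) ≠ 0 := by exact_mod_cast (p1 x).ne'
    have q2 : (lam x : ℂ) + (mu x : ℂ) ≠ 0 := by exact_mod_cast (p2 x).ne'
    have q3 : (lam x : ℂ) + 2 * (mu x : ℂ) ≠ 0 := by
      have : lam x + 2 * mu x ≠ 0 := by
        have := p1 x
        have := p2 x
        linarith
      exact_mod_cast this
    push_cast
    field_simp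
  have ia₁ := ia lam₁ mu₁ hl₁ hm₁ s₁ w₁ pm₁ pl₁ em₁ cw₁
  have ia₂ := ia lam₂ mu₂ hl₂ hm₂ s₂ w₂ pm₂ pl₂ em₂ cw₂
  have q1 : ∀ x ∈ Ω, (DD ζ h : E3 → ℂ) x = 0 := by
    intro x hx
    rw [DD_coe]
    exact (hS x (hΩR x hx)).1
  have q2 : ∀ x ∈ Ω, (DD ζ G : E3 → ℂ) x =
      - ((z : E3 → ℂ) x * ((s₁ : E3 → ℂ) x * (s₁ : E3 → ℂ) x *
        ((l₁ : E3 → ℂ) x + (s₁ : E3 → ℂ) x * (s₁ : E3 → ℂ) x) * (w₁ : E3 → ℂ) x / 2))
      - (h : E3 → ℂ) x * (DD ζ' s₁ : E3 → ℂ) x := by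
    intro x hx
    have := (hS x (hΩR x hx)).2.1
    rw [DD_coe, DD_coe, cs₁, cG, ch, cz, this, ia₁]
    simp only [Subalgebra.coe_mul, Pi.mul_apply, Subalgebra.coe_add, Pi.add_apply, K_apply, cs₁]
    ring
  have q3 : ∀ x ∈ Ω, (DD ζ z : E3 → ℂ) x =
      (DD ζ (DD ζ (r₁ * r₁)) : E3 → ℂ) x * (G : E3 → ℂ) x +
        (s₁ : E3 → ℂ) x * (h : E3 → ℂ) x * (DD ζ (DD ζ' (r₁ * r₁)) : E3 → ℂ) x := by
    intro x hx
    have := (hS x (hΩR x hx)).2.2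
    rw [DD_coe, DD_coe, DD_coe, DD_coe, DD_coe, cn₁, cs₁, cG, ch, cz, this]
    rfl
  have hCC := CC_formula hU ho hb h00 hne mcV e₁ e₂ bs q1 E0
  have key3 := h3 Ω ζ ζ' (om Ω hb) (Tm Ω hb gV mgV) (Tm Ω hb cV mcV) (Tm Ω hb Q hQ)
    s₁ s₂ r₁ r₂ l₁ l₂ w₁ h G z (om_DD ho hb ζ) (om_congr hmΩ hb) e₁ e₂ ew₁ bs bl bd q1 q2 q3
    hCC E1 E2
  refine ⟨ind Ω gV (s₂ * s₂) (-((s₁ * s₁ - s₂ * s₂) * (r₁ * r₁ * G))),
    ind Ω Q ((l₂ + 2 * (s₂ * s₂)) * (r₂ * r₂))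
      ((l₂ + 2 * (s₂ * s₂)) * (r₂ * r₂) * (s₁ * s₁ * w₁ * z) - z),
    ind_memLp hmΩ hb mgV _ _, ind_memLp hmΩ hb hQ _ _, fun x hx => ind_zero _ _ x hx,
    fun x hx => ind_zero _ _ x hx, ?_, ?_⟩
  · intro ψ' hψ
    set ψ : Sm := ⟨ψ', hψ⟩ with hψd
    have cψ : (ψ : E3 → ℂ) = ψ' := rfl
    have L : ∫ x, ind Ω gV (s₂ * s₂) (-((s₁ * s₁ - s₂ * s₂) * (r₁ * r₁ * G))) x * Dz ζ ψ' x =
        Tm Ω hb gV mgV (s₂ * s₂ * DD ζ ψ)
          + om Ω hb (-((s₁ * s₁ - s₂ * s₂) * (r₁ * r₁ * G)) * DD ζ ψ) := by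
      rw [← cψ, ← DD_coe, pair_ind hmΩ hb mgV]
    have M : ∫ x, ind Ω Q ((l₂ + 2 * (s₂ * s₂)) * (r₂ * r₂))
          ((l₂ + 2 * (s₂ * s₂)) * (r₂ * r₂) * (s₁ * s₁ * w₁ * z) - z) x
          / ((2 * (lam₂ x + 2 * mu₂ x) / (mu₂ x * (lam₂ x + mu₂ x)) : ℝ) : ℂ) * ψ' x =
        Tm Ω hb Q hQ ((l₂ + 2 * (s₂ * s₂)) * (r₂ * r₂)
            * (s₂ * s₂ * (l₂ + s₂ * s₂) * w₂ * K (1 / 2) * ψ))
          + om Ω hb (((l₂ + 2 * (s₂ * s₂)) * (r₂ * r₂) * (s₁ * s₁ * w₁ * z) - z)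
            * (s₂ * s₂ * (l₂ + s₂ * s₂) * w₂ * K (1 / 2) * ψ)) := by
      rw [← pair_ind hmΩ hb hQ]
      congr 1
      funext x
      rw [ia₂]
      simp only [Subalgebra.coe_mul, Pi.mul_apply, cψ, hl₂d]
      ring
    have N' : (∫ x in Ω, (z' x / ((2 * (lam₂ x + 2 * mu₂ x) / (mu₂ x * (lam₂ x + mu₂ x)) : ℝ) : ℂ)
          - z' x / ((2 * (lam₁ x + 2 * mu₁ x) / (mu₁ x * (lam₁ x + mu₁ x)) : ℝ) : ℂ)
          + h' x * Dz ζ' (cc fun y => √(mu₂ y)) x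
          - h' x * Dz ζ' (cc fun y => √(mu₁ y)) x) * ψ' x) =
        om Ω hb ((z * (s₂ * s₂ * (l₂ + s₂ * s₂) * w₂ * K (1 / 2))
          - z * (s₁ * s₁ * (l₁ + s₁ * s₁) * w₁ * K (1 / 2))
          + h * DD ζ' s₂ - h * DD ζ' s₁) * ψ) := by
      rw [om_apply]
      congr 1
      funext x
      rw [ia₂, ia₁, ← cs₁, ← cs₂, ← DD_coe, ← DD_coe]
      rfl
    rw [L, M, N']
    have k1 := E1 ψ
    rw [hCC] at k1
    have a1 : (2 : Sm) * (s₂ * s₂) * DD ζ ψ = 2 * (s₂ * s₂ * DD ζ ψ) := by ring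
    have a2 : 2 * (r₁ * r₁ * G) * (s₁ * s₁ - s₂ * s₂) * DD ζ ψ =
        - (2 * (-((s₁ * s₁ - s₂ * s₂) * (r₁ * r₁ * G)) * DD ζ ψ)) := by ring
    have a3 : (l₂ + s₂ * s₂) * ψ = 2 * ((l₂ + 2 * (s₂ * s₂)) * (r₂ * r₂)
            * (s₂ * s₂ * (l₂ + s₂ * s₂) * w₂ * K (1 / 2) * ψ)) := by
      linear_combination (-(l₂ + s₂ * s₂) * ψ) * two_half
        - (2 * K (1 / 2) * (l₂ + s₂ * s₂) * ψ) * ew₂
        - (2 * K (1 / 2) * (l₂ + s₂ * s₂) * ψ * (l₂ + 2 * (s₂ * s₂)) * w₂ * (s₂ * r₂ + 1)) * e₂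
    have a4 : h * (r₂ - r₁) * (DD ζ' (s₂ * s₂) * ψ) =
        2 * (((l₂ + 2 * (s₂ * s₂)) * (r₂ * r₂) * (s₁ * s₁ * w₁ * z) - z)
            * (s₂ * s₂ * (l₂ + s₂ * s₂) * w₂ * K (1 / 2) * ψ))
        + 2 * ((z * (s₂ * s₂ * (l₂ + s₂ * s₂) * w₂ * K (1 / 2))
          - z * (s₁ * s₁ * (l₁ + s₁ * s₁) * w₁ * K (1 / 2))
          + h * DD ζ' s₂ - h * DD ζ' s₁) * ψ)
        + r₁ * h * DD ζ' (s₁ * s₁ - s₂ * s₂) * ψ
        + s₁ * s₁ * w₁ * z * (l₁ - l₂ + (s₁ * s₁ - s₂ * s₂)) * ψ := by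
      simp only [map_sub, DD_mul]
      linear_combination (2 * h * DD ζ' s₂ * ψ) * e₂ - (2 * h * DD ζ' s₁ * ψ) * e₁
        - (s₁ * s₁ * w₁ * z * (l₂ + s₂ * s₂) * ψ) * two_half
        + (z * (s₁ * s₁ * (l₁ + s₁ * s₁) * w₁) * ψ) * two_half
        - (2 * K (1 / 2) * s₁ * s₁ * w₁ * z * (l₂ + s₂ * s₂) * ψ) * ew₂
        - (2 * K (1 / 2) * s₁ * s₁ * w₁ * z * (l₂ + s₂ * s₂) * ψ * (l₂ + 2 * (s₂ * s₂)) * w₂
          * (s₂ * r₂ + 1)) * e₂
    rw [a1, a2, a3, a4] at k1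
    simp only [map_add, map_neg, lin_two] at k1
    linear_combination k1 / 2
  · intro ψ' hψ
    set ψ : Sm := ⟨ψ', hψ⟩ with hψd
    have cψ : (ψ : E3 → ℂ) = ψ' := rfl
    have L : ∫ x, ind Ω Q ((l₂ + 2 * (s₂ * s₂)) * (r₂ * r₂))
          ((l₂ + 2 * (s₂ * s₂)) * (r₂ * r₂) * (s₁ * s₁ * w₁ * z) - z) x * Dz ζ ψ' x =
        Tm Ω hb Q hQ ((l₂ + 2 * (s₂ * s₂)) * (r₂ * r₂) * DD ζ ψ)
          + om Ω hb (((l₂ + 2 * (s₂ * s₂)) * (r₂ * r₂) * (s₁ * s₁ * w₁ * z) - z) * DD ζ ψ) := by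
      rw [← cψ, ← DD_coe, pair_ind hmΩ hb hQ]
    have M : ∫ x, Dz ζ (Dz ζ (cc fun y => (mu₂ y)⁻¹)) x
          * ind Ω gV (s₂ * s₂) (-((s₁ * s₁ - s₂ * s₂) * (r₁ * r₁ * G))) x * ψ' x =
        Tm Ω hb gV mgV (s₂ * s₂ * (DD ζ (DD ζ (r₂ * r₂)) * ψ))
          + om Ω hb (-((s₁ * s₁ - s₂ * s₂) * (r₁ * r₁ * G))
            * (DD ζ (DD ζ (r₂ * r₂)) * ψ)) := by
      rw [← pair_ind hmΩ hb mgV]
      congr 1
      funext x
      rw [← cn₂, ← DD_coe, ← DD_coe]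
      simp only [Subalgebra.coe_mul, Pi.mul_apply, cψ]
      ring
    have N' : (∫ x in Ω, ((Dz ζ (Dz ζ (cc fun y => (mu₂ y)⁻¹)) x
            - Dz ζ (Dz ζ (cc fun y => (mu₁ y)⁻¹)) x) * G' x
          + h' x * (√(mu₂ x) * Dz ζ (Dz ζ' (cc fun y => (mu₂ y)⁻¹)) x
            - √(mu₁ x) * Dz ζ (Dz ζ' (cc fun y => (mu₁ y)⁻¹)) x)) * ψ' x) =
        om Ω hb (((DD ζ (DD ζ (r₂ * r₂)) - DD ζ (DD ζ (r₁ * r₁))) * G
          + h * (s₂ * DD ζ (DD ζ' (r₂ * r₂)) - s₁ * DD ζ (DD ζ' (r₁ * r₁)))) * ψ) := by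
      rw [om_apply]
      congr 1
      funext x
      have c1 : ((√(mu₁ x) : ℝ) : ℂ) = (s₁ : E3 → ℂ) x := by rw [cs₁]; rfl
      have c2 : ((√(mu₂ x) : ℝ) : ℂ) = (s₂ : E3 → ℂ) x := by rw [cs₂]; rfl
      rw [c1, c2, ← cn₂, ← cn₁, ← DD_coe, ← DD_coe, ← DD_coe, ← DD_coe, ← DD_coe, ← DD_coe,
        ← DD_coe, ← DD_coe]
      rfl
    rw [L, M, N', key3 ψ]
    have a1 : s₂ * s₂ * DD ζ (DD ζ (r₂ * r₂)) * ψ = s₂ * s₂ * (DD ζ (DD ζ (r₂ * r₂)) * ψ) := by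
      ring
    have a2 : (s₁ * s₁ - s₂ * s₂) * (r₁ * r₁ * G) * DD ζ (DD ζ (r₂ * r₂)) * ψ =
        - (-((s₁ * s₁ - s₂ * s₂) * (r₁ * r₁ * G)) * (DD ζ (DD ζ (r₂ * r₂)) * ψ)) := by ring
    rw [a1, a2, map_neg]
    ring

end Vale.Agent.P136.TLF
end
end

section

section

open MeasureTheory Filter Topology
open scoped ContDiff InnerProductSpace

namespace Vale.Agent.P136.TL.F3

lemma D_one (ζ : Fin 3 → ℂ) : DD ζ (1 : Sm) = 0 := by
  rw [DD_apply]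
  simp [P_one]

lemma D_two (ζ : Fin 3 → ℂ) : DD ζ (2 : Sm) = 0 := by
  rw [DD_apply]
  simp [P_two]

lemma P_four (i : Fin 3) : P i (4 : Sm) = 0 := P_algebraMap i 4

lemma D_four (ζ : Fin 3 → ℂ) : DD ζ (4 : Sm) = 0 := by
  rw [DD_apply]
  simp [P_four]

/-- derivative of the inverse. -/
lemma D_inv (ζ : Fin 3 → ℂ) {s r : Sm} (h : s * r = 1) : DD ζ r = -(r * r * DD ζ s) := by
  have h1 := congrArg (DD ζ) h
  rw [DD_mul, D_one] at h1
  linear_combination r * h1 - DD ζ r * h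

/-- the pointwise identity of STEP 3. -/
lemma key_alg (ζ ζ' : Fin 3 → ℂ) (s1 r1 s2 r2 w1 l1 h G z : Sm) (h1 : s1 * r1 = 1)
    (h2 : s2 * r2 = 1) (hw : w1 * (l1 + 2 * (s1 * s1)) = 1) :
    (s1 * s1 * z * w1) * DD ζ ((s1 * s1 - s2 * s2) * (r2 * r2))
      + (r1 * r1 * G) * DD ζ (DD ζ ((s1 * s1 - s2 * s2) * (r2 * r2)))
      + h * (r1 * DD ζ (r2 * r2 * DD ζ' (s1 * s1)) - r2 * DD ζ (r2 * r2 * DD ζ' (s2 * s2)))
      + (DD ζ (DD ζ (r2 * r2)) - DD ζ (DD ζ (r1 * r1))) * G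
      + h * (s2 * DD ζ (DD ζ' (r2 * r2)) - s1 * DD ζ (DD ζ' (r1 * r1)))
      - DD ζ (z * ((s1 * s1 - s2 * s2) * (r2 * r2))
        + 2 * (r1 * r1 * G) * DD ζ ((s1 * s1 - s2 * s2) * (r2 * r2))
        + 4 * (r2 * r2) * h * (DD ζ' s1 - DD ζ' s2))
    = -(4 * (r2 * r2) * (DD ζ' s1 - DD ζ' s2) * DD ζ h)
      - (s1 * s1 - s2 * s2) * (r2 * r2) * (DD ζ z - DD ζ (DD ζ (r1 * r1)) * G
          - s1 * h * DD ζ (DD ζ' (r1 * r1)))
      - r1 * r1 * DD ζ ((s1 * s1 - s2 * s2) * (r2 * r2)) * (2 * DD ζ G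
          + z * (s1 * s1) * (l1 + s1 * s1) * w1 + 2 * h * DD ζ' s1) := by
  simp only [DD_mul, map_add, map_sub, map_neg, D_inv ζ h1, D_inv ζ h2, D_inv ζ' h1, D_inv ζ' h2,
    D_two, D_four]
  apply Subtype.ext
  funext x
  have e1 : (s1 : E3 → ℂ) x * (r1 : E3 → ℂ) x = 1 := congrFun (congrArg Subtype.val h1) x
  have e2 : (s2 : E3 → ℂ) x * (r2 : E3 → ℂ) x = 1 := congrFun (congrArg Subtype.val h2) x
  have e3 : (w1 : E3 → ℂ) x * ((l1 : E3 → ℂ) x + 2 * ((s1 : E3 → ℂ) x * (s1 : E3 → ℂ) x)) = 1 :=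
    congrFun (congrArg Subtype.val hw) x
  have c2 : ((2 : Sm) : E3 → ℂ) x = 2 := rfl
  have c4 : ((4 : Sm) : E3 → ℂ) x = 4 := rfl
  simp only [Subalgebra.coe_mul, Subalgebra.coe_add, Subalgebra.coe_sub, Subalgebra.coe_neg,
    Subalgebra.coe_zero, Pi.mul_apply, Pi.add_apply, Pi.sub_apply, Pi.neg_apply, Pi.zero_apply,
    c2, c4]
  generalize (s1 : E3 → ℂ) x = a1 at *
  generalize (s2 : E3 → ℂ) x = a2 at *
  generalize (r1 : E3 → ℂ) x = b1 at *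
  generalize (r2 : E3 → ℂ) x = b2 at *
  generalize (w1 : E3 → ℂ) x = w at *
  generalize (l1 : E3 → ℂ) x = l at *
  generalize (h : E3 → ℂ) x = H at *
  generalize (G : E3 → ℂ) x = G0 at *
  generalize (z : E3 → ℂ) x = z0 at *
  generalize ((DD ζ h : Sm) : E3 → ℂ) x = DH at *
  generalize ((DD ζ G : Sm) : E3 → ℂ) x = DG at *
  generalize ((DD ζ z : Sm) : E3 → ℂ) x = Dz0 at *
  generalize ((DD ζ s1 : Sm) : E3 → ℂ) x = p1 at *
  generalize ((DD ζ s2 : Sm) : E3 → ℂ) x = p2 at *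
  generalize ((DD ζ' s1 : Sm) : E3 → ℂ) x = q1 at *
  generalize ((DD ζ' s2 : Sm) : E3 → ℂ) x = q2 at *
  generalize ((DD ζ (DD ζ s1) : Sm) : E3 → ℂ) x = pp1 at *
  generalize ((DD ζ (DD ζ s2) : Sm) : E3 → ℂ) x = pp2 at *
  generalize ((DD ζ (DD ζ' s1) : Sm) : E3 → ℂ) x = pq1 at *
  generalize ((DD ζ (DD ζ' s2) : Sm) : E3 → ℂ) x = pq2 at *
  have ha1 : a1 ≠ 0 := left_ne_zero_of_mul_eq_one e1
  have ha2 : a2 ≠ 0 := left_ne_zero_of_mul_eq_one e2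
  have hw0 : w ≠ 0 := left_ne_zero_of_mul_eq_one e3
  have f1 : b1 = a1⁻¹ := eq_inv_of_mul_eq_one_right e1
  have f2 : b2 = a2⁻¹ := eq_inv_of_mul_eq_one_right e2
  have f3 : l = w⁻¹ - 2 * (a1 * a1) := by
    rw [← eq_inv_of_mul_eq_one_right e3]
    ring
  subst f1 f2 f3
  field_simp
  ring

/-- coefficients of `D ψ` and `ψ` in the difference of the two sides of (E2). -/
lemma key_alg2 (ζ ζ' : Fin 3 → ℂ) (s1 r1 s2 r2 w1 l1 l2 h G z ψ : Sm) (h1 : s1 * r1 = 1)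
    (h2 : s2 * r2 = 1) (hw : w1 * (l1 + 2 * (s1 * s1)) = 1) :
    (s1 * s1 * z * w1) * ((l1 - l2 + 2 * (s1 * s1 - s2 * s2)) * DD ζ (r2 * r2 * ψ)
        + DD ζ (s1 * s1 - s2 * s2) * (r2 * r2 * ψ))
    + (r1 * r1 * G) * (DD ζ (DD ζ (s1 * s1 - s2 * s2)) * (r2 * r2 * ψ)
        + 2 * DD ζ (s1 * s1 - s2 * s2) * DD ζ (r2 * r2 * ψ))
    + (r1 * h) * (DD ζ (DD ζ' (s1 * s1 - s2 * s2)) * (r2 * r2 * ψ)
        + 2 * DD ζ' (s1 * s1 - s2 * s2) * DD ζ (r2 * r2 * ψ))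
    - 2 * (r1 * r1 * G) * (s1 * s1 - s2 * s2) * DD ζ (r2 * r2 * (r2 * r2) * DD ζ (s2 * s2) * ψ)
    - h * (r2 - r1) * (DD ζ' (s2 * s2) * (r2 * r2 * (r2 * r2) * DD ζ (s2 * s2) * ψ))
    - h * (r2 - r1) * (DD ζ (DD ζ' (s2 * s2)) * (r2 * r2 * ψ)
        + 2 * DD ζ' (s2 * s2) * DD ζ (r2 * r2 * ψ))
    + (r1 * h) * DD ζ' (s1 * s1 - s2 * s2) * (r2 * r2 * (r2 * r2) * DD ζ (s2 * s2) * ψ)
    + (s1 * s1 * z * w1) * ((l1 - l2) + (s1 * s1 - s2 * s2)) *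
        (r2 * r2 * (r2 * r2) * DD ζ (s2 * s2) * ψ)
    + ((l2 + 2 * (s2 * s2)) * (r2 * r2) * (s1 * s1 * z * w1) - z) * DD ζ ψ
    - (s1 * s1 - s2 * s2) * (r1 * r1 * G) * DD ζ (DD ζ (r2 * r2)) * ψ
    + ((DD ζ (DD ζ (r2 * r2)) - DD ζ (DD ζ (r1 * r1))) * G * ψ
        + h * (s2 * DD ζ (DD ζ' (r2 * r2)) - s1 * DD ζ (DD ζ' (r1 * r1))) * ψ)
    = (z * ((s1 * s1 - s2 * s2) * (r2 * r2))
        + 2 * (r1 * r1 * G) * DD ζ ((s1 * s1 - s2 * s2) * (r2 * r2))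
        + 4 * (r2 * r2) * h * (DD ζ' s1 - DD ζ' s2)) * DD ζ ψ
    + ((s1 * s1 * z * w1) * DD ζ ((s1 * s1 - s2 * s2) * (r2 * r2))
      + (r1 * r1 * G) * DD ζ (DD ζ ((s1 * s1 - s2 * s2) * (r2 * r2)))
      + h * (r1 * DD ζ (r2 * r2 * DD ζ' (s1 * s1)) - r2 * DD ζ (r2 * r2 * DD ζ' (s2 * s2)))
      + (DD ζ (DD ζ (r2 * r2)) - DD ζ (DD ζ (r1 * r1))) * G
      + h * (s2 * DD ζ (DD ζ' (r2 * r2)) - s1 * DD ζ (DD ζ' (r1 * r1)))) * ψ := by
  simp only [DD_mul, map_add, map_sub, map_neg, D_inv ζ h1, D_inv ζ h2, D_inv ζ' h1, D_inv ζ' h2]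
  apply Subtype.ext
  funext x
  have e1 : (s1 : E3 → ℂ) x * (r1 : E3 → ℂ) x = 1 := congrFun (congrArg Subtype.val h1) x
  have e2 : (s2 : E3 → ℂ) x * (r2 : E3 → ℂ) x = 1 := congrFun (congrArg Subtype.val h2) x
  have e3 : (w1 : E3 → ℂ) x * ((l1 : E3 → ℂ) x + 2 * ((s1 : E3 → ℂ) x * (s1 : E3 → ℂ) x)) = 1 :=
    congrFun (congrArg Subtype.val hw) x
  have c2 : ((2 : Sm) : E3 → ℂ) x = 2 := rfl
  have c4 : ((4 : Sm) : E3 → ℂ) x = 4 := rfl
  simp only [Subalgebra.coe_mul, Subalgebra.coe_add, Subalgebra.coe_sub, Subalgebra.coe_neg,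
    Pi.mul_apply, Pi.add_apply, Pi.sub_apply, Pi.neg_apply, c2, c4]
  generalize (s1 : E3 → ℂ) x = a1 at *
  generalize (s2 : E3 → ℂ) x = a2 at *
  generalize (r1 : E3 → ℂ) x = b1 at *
  generalize (r2 : E3 → ℂ) x = b2 at *
  generalize (w1 : E3 → ℂ) x = w at *
  generalize (l1 : E3 → ℂ) x = l at *
  generalize (l2 : E3 → ℂ) x = l' at *
  generalize (h : E3 → ℂ) x = H at *
  generalize (G : E3 → ℂ) x = G0 at *
  generalize (z : E3 → ℂ) x = z0 at *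
  generalize (ψ : E3 → ℂ) x = ψ0 at *
  generalize ((DD ζ ψ : Sm) : E3 → ℂ) x = Dψ at *
  generalize ((DD ζ s1 : Sm) : E3 → ℂ) x = p1 at *
  generalize ((DD ζ s2 : Sm) : E3 → ℂ) x = p2 at *
  generalize ((DD ζ' s1 : Sm) : E3 → ℂ) x = q1 at *
  generalize ((DD ζ' s2 : Sm) : E3 → ℂ) x = q2 at *
  generalize ((DD ζ (DD ζ s1) : Sm) : E3 → ℂ) x = pp1 at *
  generalize ((DD ζ (DD ζ s2) : Sm) : E3 → ℂ) x = pp2 at *
  generalize ((DD ζ (DD ζ' s1) : Sm) : E3 → ℂ) x = pq1 at *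
  generalize ((DD ζ (DD ζ' s2) : Sm) : E3 → ℂ) x = pq2 at *
  have ha1 : a1 ≠ 0 := left_ne_zero_of_mul_eq_one e1
  have ha2 : a2 ≠ 0 := left_ne_zero_of_mul_eq_one e2
  have hw0 : w ≠ 0 := left_ne_zero_of_mul_eq_one e3
  have f1 : b1 = a1⁻¹ := eq_inv_of_mul_eq_one_right e1
  have f2 : b2 = a2⁻¹ := eq_inv_of_mul_eq_one_right e2
  have f3 : l = w⁻¹ - 2 * (a1 * a1) := by
    rw [← eq_inv_of_mul_eq_one_right e3]
    ring
  subst f1 f2 f3
  field_simp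
  ring

lemma key_alg3 (ζ : Fin 3 → ℂ) (s2 r2 ψ : Sm) (h2 : s2 * r2 = 1) :
    DD ζ (DD ζ (s2 * s2)) * (r2 * r2 * ψ) + 2 * DD ζ (s2 * s2) * DD ζ (r2 * r2 * ψ) =
      2 * (s2 * s2) * DD ζ (r2 * r2 * (r2 * r2) * DD ζ (s2 * s2) * ψ)
        + s2 * s2 * DD ζ (DD ζ (r2 * r2)) * ψ := by
  simp only [DD_mul, map_add, map_neg, D_inv ζ h2]
  apply Subtype.ext
  funext x
  have e2 : (s2 : E3 → ℂ) x * (r2 : E3 → ℂ) x = 1 := congrFun (congrArg Subtype.val h2) x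
  have c2 : ((2 : Sm) : E3 → ℂ) x = 2 := rfl
  simp only [Subalgebra.coe_mul, Subalgebra.coe_add, Subalgebra.coe_neg,
    Pi.mul_apply, Pi.add_apply, Pi.neg_apply, c2]
  generalize (s2 : E3 → ℂ) x = a2 at *
  generalize (r2 : E3 → ℂ) x = b2 at *
  generalize (ψ : E3 → ℂ) x = ψ0 at *
  generalize ((DD ζ ψ : Sm) : E3 → ℂ) x = Dψ at *
  generalize ((DD ζ s2 : Sm) : E3 → ℂ) x = p2 at *
  generalize ((DD ζ (DD ζ s2) : Sm) : E3 → ℂ) x = pp2 at *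
  have ha2 : a2 ≠ 0 := left_ne_zero_of_mul_eq_one e2
  have f2 : b2 = a2⁻¹ := eq_inv_of_mul_eq_one_right e2
  subst f2
  field_simp
  ring

/-- STEP 3: the second equation (E2). -/
theorem E2 (ζ ζ' : Fin 3 → ℂ) (Ω : Set E3) (o GG CC QQ : Sm →ₗ[ℂ] ℂ)
    (ho1 : ∀ f ∈ IO Ω, o (DD ζ f) = 0)
    (ho2 : ∀ f : Sm, (∀ x ∈ Ω, (f : E3 → ℂ) x = 0) → o f = 0)
    (s1 r1 s2 r2 w1 l1 l2 h G z : Sm) (h1 : s1 * r1 = 1)
    (h2 : s2 * r2 = 1) (hw : w1 * (l1 + 2 * (s1 * s1)) = 1)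
    (hb : (s1 * s1 - s2 * s2) ∈ IO Ω) (hb1 : DD ζ (s1 * s1 - s2 * s2) ∈ IO Ω)
    (hb2 : DD ζ' s1 - DD ζ' s2 ∈ IO Ω)
    (hh : ∀ x ∈ Ω, (DD ζ h : E3 → ℂ) x = 0)
    (hG : ∀ x ∈ Ω, ((2 * DD ζ G + z * (s1 * s1) * (l1 + s1 * s1) * w1
      + 2 * h * DD ζ' s1 : Sm) : E3 → ℂ) x = 0)
    (hz : ∀ x ∈ Ω, ((DD ζ z - DD ζ (DD ζ (r1 * r1)) * G
      - s1 * h * DD ζ (DD ζ' (r1 * r1)) : Sm) : E3 → ℂ) x = 0)
    (hCC : ∀ η, CC η = o (h * (r2 - r1) * η))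
    (hE1 : ∀ χ, GG (2 * (s2 * s2) * DD ζ χ) - o (2 * (r1 * r1 * G) * (s1 * s1 - s2 * s2) * DD ζ χ)
      = CC (DD ζ' (s2 * s2) * χ) + QQ ((l2 + s2 * s2) * χ)
        - o ((r1 * h) * DD ζ' (s1 * s1 - s2 * s2) * χ)
        - o ((s1 * s1 * z * w1) * ((l1 - l2) + (s1 * s1 - s2 * s2)) * χ))
    (hT2 : ∀ χ, QQ ((l2 + 2 * (s2 * s2)) * DD ζ χ + DD ζ (s2 * s2) * χ)
        + GG (DD ζ (DD ζ (s2 * s2)) * χ + 2 * DD ζ (s2 * s2) * DD ζ χ)
        + CC (DD ζ (DD ζ' (s2 * s2)) * χ + 2 * DD ζ' (s2 * s2) * DD ζ χ)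
      = o ((s1 * s1 * z * w1) * ((l1 - l2 + 2 * (s1 * s1 - s2 * s2)) * DD ζ χ
            + DD ζ (s1 * s1 - s2 * s2) * χ))
        + o ((r1 * r1 * G) * (DD ζ (DD ζ (s1 * s1 - s2 * s2)) * χ
            + 2 * DD ζ (s1 * s1 - s2 * s2) * DD ζ χ))
        + o ((r1 * h) * (DD ζ (DD ζ' (s1 * s1 - s2 * s2)) * χ
            + 2 * DD ζ' (s1 * s1 - s2 * s2) * DD ζ χ))) (ψ : Sm) :
    QQ ((l2 + 2 * (s2 * s2)) * (r2 * r2) * DD ζ ψ)
      + o (((l2 + 2 * (s2 * s2)) * (r2 * r2) * (s1 * s1 * z * w1) - z) * DD ζ ψ) =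
      - GG (s2 * s2 * DD ζ (DD ζ (r2 * r2)) * ψ)
      + o ((s1 * s1 - s2 * s2) * (r1 * r1 * G) * DD ζ (DD ζ (r2 * r2)) * ψ)
      - o ((DD ζ (DD ζ (r2 * r2)) - DD ζ (DD ζ (r1 * r1))) * G * ψ
        + h * (s2 * DD ζ (DD ζ' (r2 * r2)) - s1 * DD ζ (DD ζ' (r1 * r1))) * ψ) := by
  have q1 : QQ ((l2 + 2 * (s2 * s2)) * DD ζ (r2 * r2 * ψ) + DD ζ (s2 * s2) * (r2 * r2 * ψ)) =
      QQ ((l2 + 2 * (s2 * s2)) * (r2 * r2) * DD ζ ψ)
        - QQ ((l2 + s2 * s2) * (r2 * r2 * (r2 * r2) * DD ζ (s2 * s2) * ψ)) := by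
    rw [← map_sub]
    congr 1
    simp only [DD_mul, D_inv ζ h2]
    linear_combination (2 * r2 * DD ζ s2 * ψ * (-(l2 * r2^2) - s2 * r2 )
      + (4 * l2 * r2 ^ 3 + 2 * s2 ^ 2 * r2 ^ 3) * DD ζ s2 * ψ) * h2
  have g1 : GG (DD ζ (DD ζ (s2 * s2)) * (r2 * r2 * ψ)
        + 2 * DD ζ (s2 * s2) * DD ζ (r2 * r2 * ψ)) =
      GG (2 * (s2 * s2) * DD ζ (r2 * r2 * (r2 * r2) * DD ζ (s2 * s2) * ψ))
        + GG (s2 * s2 * DD ζ (DD ζ (r2 * r2)) * ψ) := by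
    rw [← map_add]
    congr 1
    exact key_alg3 ζ s2 r2 ψ h2
  have key := key_alg2 ζ ζ' s1 r1 s2 r2 w1 l1 l2 h G z ψ h1 h2 hw
  have key' := key_alg ζ ζ' s1 r1 s2 r2 w1 l1 h G z h1 h2 hw
  set A : Sm := z * ((s1 * s1 - s2 * s2) * (r2 * r2))
        + 2 * (r1 * r1 * G) * DD ζ ((s1 * s1 - s2 * s2) * (r2 * r2))
        + 4 * (r2 * r2) * h * (DD ζ' s1 - DD ζ' s2) with hA
  set B : Sm := (s1 * s1 * z * w1) * DD ζ ((s1 * s1 - s2 * s2) * (r2 * r2))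
      + (r1 * r1 * G) * DD ζ (DD ζ ((s1 * s1 - s2 * s2) * (r2 * r2)))
      + h * (r1 * DD ζ (r2 * r2 * DD ζ' (s1 * s1)) - r2 * DD ζ (r2 * r2 * DD ζ' (s2 * s2)))
      + (DD ζ (DD ζ (r2 * r2)) - DD ζ (DD ζ (r1 * r1))) * G
      + h * (s2 * DD ζ (DD ζ' (r2 * r2)) - s1 * DD ζ (DD ζ' (r1 * r1))) with hB
  have hAI : A ∈ IO Ω := by
    rw [hA, DD_mul]
    refine (IO Ω).add_mem ((IO Ω).add_mem ?_ ?_) ?_
    · exact (IO Ω).mul_mem_left _ ((IO Ω).mul_mem_right _ hb)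
    · exact (IO Ω).mul_mem_left _ ((IO Ω).add_mem ((IO Ω).mul_mem_right _ hb1)
        ((IO Ω).mul_mem_right _ hb))
    · exact (IO Ω).mul_mem_left _ hb2
  have hE : ∀ x ∈ Ω, (((B - DD ζ A) * ψ : Sm) : E3 → ℂ) x = 0 := by
    intro x hx
    rw [key']
    have a1 := hh x hx
    have a2 := hG x hx
    have a3 := hz x hx
    rw [Subalgebra.coe_mul, Pi.mul_apply]
    simp only [Subalgebra.coe_mul, Subalgebra.coe_sub, Subalgebra.coe_neg,
      Pi.mul_apply, Pi.sub_apply, Pi.neg_apply] at a1 a2 a3 ⊢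
    rw [a1, a2, a3]
    ring
  have e0 : o (A * DD ζ ψ + B * ψ) = 0 := by
    have : A * DD ζ ψ + B * ψ = DD ζ (A * ψ) + (B - DD ζ A) * ψ := by
      rw [DD_mul]
      ring
    rw [this, map_add, ho1 _ ((IO Ω).mul_mem_right _ hAI), ho2 _ hE, add_zero]
  rw [← key] at e0
  have t2 := hT2 (r2 * r2 * ψ)
  have t1 := hE1 (r2 * r2 * (r2 * r2) * DD ζ (s2 * s2) * ψ)
  rw [hCC] at t2 t1
  rw [q1, g1] at t2
  generalize (s1 * s1 * z * w1) * ((l1 - l2 + 2 * (s1 * s1 - s2 * s2)) * DD ζ (r2 * r2 * ψ)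
        + DD ζ (s1 * s1 - s2 * s2) * (r2 * r2 * ψ)) = T1 at e0 t2
  generalize (r1 * r1 * G) * (DD ζ (DD ζ (s1 * s1 - s2 * s2)) * (r2 * r2 * ψ)
        + 2 * DD ζ (s1 * s1 - s2 * s2) * DD ζ (r2 * r2 * ψ)) = T2 at e0 t2
  generalize (r1 * h) * (DD ζ (DD ζ' (s1 * s1 - s2 * s2)) * (r2 * r2 * ψ)
        + 2 * DD ζ' (s1 * s1 - s2 * s2) * DD ζ (r2 * r2 * ψ)) = T3 at e0 t2
  generalize 2 * (r1 * r1 * G) * (s1 * s1 - s2 * s2) *
    DD ζ (r2 * r2 * (r2 * r2) * DD ζ (s2 * s2) * ψ) = T4 at e0 t1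
  generalize h * (r2 - r1) * (DD ζ' (s2 * s2) * (r2 * r2 * (r2 * r2) * DD ζ (s2 * s2) * ψ))
    = T5 at e0 t1
  generalize h * (r2 - r1) * (DD ζ (DD ζ' (s2 * s2)) * (r2 * r2 * ψ)
        + 2 * DD ζ' (s2 * s2) * DD ζ (r2 * r2 * ψ)) = T6 at e0 t2
  generalize (r1 * h) * DD ζ' (s1 * s1 - s2 * s2) *
    (r2 * r2 * (r2 * r2) * DD ζ (s2 * s2) * ψ) = T7 at e0 t1
  generalize (s1 * s1 * z * w1) * ((l1 - l2) + (s1 * s1 - s2 * s2)) *
        (r2 * r2 * (r2 * r2) * DD ζ (s2 * s2) * ψ) = T8 at e0 t1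
  generalize ((l2 + 2 * (s2 * s2)) * (r2 * r2) * (s1 * s1 * z * w1) - z) * DD ζ ψ = T9 at e0 ⊢
  generalize (s1 * s1 - s2 * s2) * (r1 * r1 * G) * DD ζ (DD ζ (r2 * r2)) * ψ = T10 at e0 ⊢
  generalize (DD ζ (DD ζ (r2 * r2)) - DD ζ (DD ζ (r1 * r1))) * G * ψ
        + h * (s2 * DD ζ (DD ζ' (r2 * r2)) - s1 * DD ζ (DD ζ' (r1 * r1))) * ψ = T11 at e0 ⊢
  simp only [map_add, map_sub] at e0
  linear_combination t2 - t1 + e0

end Vale.Agent.P136.TL.F3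

namespace Vale.Agent.P136.TL

/-- STEP 3 of `TLfin`. -/
theorem TLfin3 : TLfin3_statement := by
  intro Ω ζ ζ' om GG CC QQ s₁ s₂ r₁ r₂ l₁ l₂ w₁ h G z hom1 hom2 h1 h2 hw hs hl hds hh hG hz hCC
    hE1 hT2 ψ
  have hw' : w₁ * (l₁ + 2 * (s₁ * s₁)) = 1 := by rw [mul_comm]; exact hw
  have ez : s₁ * s₁ * w₁ * z = s₁ * s₁ * z * w₁ := by ring
  have hb : s₁ * s₁ - s₂ * s₂ ∈ IO Ω := by
    intro x hx
    simp only [Subalgebra.coe_sub, Subalgebra.coe_mul, Pi.sub_apply, Pi.mul_apply, hs x hx]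
    ring
  have hb1 : DD ζ (s₁ * s₁ - s₂ * s₂) ∈ IO Ω := by
    intro x hx
    simp only [map_sub, DD_mul, Subalgebra.coe_sub, Subalgebra.coe_mul, Subalgebra.coe_add,
      Pi.sub_apply, Pi.mul_apply, Pi.add_apply, hs x hx, hds x hx ζ]
    ring
  have hb2 : DD ζ' s₁ - DD ζ' s₂ ∈ IO Ω := by
    intro x hx
    simp only [Subalgebra.coe_sub, Pi.sub_apply, hds x hx ζ']
    ring
  have key := F3.E2 ζ ζ' Ω om GG CC QQ hom1 (fun f hf => by
      rw [hom2 f 0 (fun x hx => by rw [hf x hx]; rfl), map_zero]) s₁ r₁ s₂ r₂ w₁ l₁ l₂ h G z h1 h2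
      hw' hb hb1 hb2 hh (fun x hx => by
        have c2 : ((2 : Sm) : E3 → ℂ) x = 2 := rfl
        simp only [Subalgebra.coe_mul, Subalgebra.coe_add, Pi.mul_apply, Pi.add_apply, c2,
          hG x hx]
        ring) (fun x hx => by
        simp only [Subalgebra.coe_mul, Subalgebra.coe_sub, Pi.mul_apply, Pi.sub_apply, hz x hx]
        ring) hCC (fun χ => by rw [← ez]; exact hE1 χ) (fun χ => by rw [← ez]; exact hT2 χ) ψ
  rw [← ez] at key
  rw [key, add_mul]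
  ring

end Vale.Agent.P136.TL
end
end

section

section

open MeasureTheory Filter Topology
open scoped ContDiff InnerProductSpace

namespace Vale.Agent.P136.TL

section limits

variable {F : Filter ℕ} [F.NeBot] {t : ℕ → ℂ} {e : ℕ → Sm} {ζ : Fin 3 → ℂ}
  {Tv Tu : ℕ → Fin 3 → (Sm →ₗ[ℂ] ℂ)} {Tv' Tu' : ℕ → Fin 3 → Fin 3 → (Sm →ₗ[ℂ] ℂ)}
  {S : Ideal Sm} {l m dl dm : Sm} {Vv Vu : Fin 3 → (Sm →ₗ[ℂ] ℂ)} {Qv Qu : Sm →ₗ[ℂ] ℂ}

/-- the limit of the divergence relation. -/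
lemma lim_Z (ht : Tendsto (fun n => (t n)⁻¹) F (𝓝 0)) (ht0 : ∀ᶠ n in F, t n ≠ 0)
    (he : ∀ n i, P i (e n) = -(K (t n) * K (ζ i) * e n))
    (hv : ∀ n, IBP (Tv n) (Tv' n) ⊤)
    (hVv : ∀ j η, Tendsto (fun n => Tv n j (e n * η)) F (𝓝 (Vv j η)))
    (hQv : ∀ η, Tendsto (fun n => ∑ i, Tv' n i i (e n * η)) F (𝓝 (Qv η))) (η : Sm) :
    ∑ j, ζ j * Vv j η = 0 := by
  have h1 : Tendsto (fun n => ∑ j, ζ j * Tv n j (e n * η)) F (𝓝 (∑ j, ζ j * Vv j η)) :=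
    tendsto_finsetSum _ fun j _ => (hVv j η).const_mul (ζ j)
  have h2 : Tendsto (fun n => ∑ j, Tv n j (e n * P j η)) F (𝓝 (∑ j, Vv j (P j η))) :=
    tendsto_finsetSum _ fun j _ => hVv j (P j η)
  refine lim_aux (x := fun _ => (0 : ℂ)) (X := 0)
    (y := fun n => ∑ j, ζ j * Tv n j (e n * η))
    (x' := fun n => (∑ j, Tv' n j j (e n * η)) + ∑ j, Tv n j (e n * P j η))
    (y' := fun _ => 0) ht ht0 tendsto_const_nhds h1 ((hQv η).add h2) tendsto_const_nhds ?_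
  refine Filter.Eventually.of_forall fun n => ?_
  have := zdot (hv n) (e n) (t n) ζ (he n) η Submodule.mem_top
  simp only [mul_zero, add_zero, zero_add]
  exact this

/-- the first transport equation in the limit. -/
lemma lim_T1 (ht : Tendsto (fun n => (t n)⁻¹) F (𝓝 0)) (ht0 : ∀ᶠ n in F, t n ≠ 0)
    (hζ : dot ζ ζ = 0) (he : ∀ n i, P i (e n) = -(K (t n) * K (ζ i) * e n))
    (hv : ∀ n, IBP (Tv n) (Tv' n) ⊤) (hu : ∀ n, IBP (Tu n) (Tu' n) S)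
    (hC : ∀ n g, Cf (Tv' n) l m g = Cf (Tu' n) dl dm g) (hdm : dm ∈ S)
    (hVv : ∀ j η, Tendsto (fun n => Tv n j (e n * η)) F (𝓝 (Vv j η)))
    (hQv : ∀ η, Tendsto (fun n => ∑ i, Tv' n i i (e n * η)) F (𝓝 (Qv η)))
    (hVu : ∀ j η, Tendsto (fun n => Tu n j (e n * η)) F (𝓝 (Vu j η)))
    (hQu : ∀ η, Tendsto (fun n => ∑ i, Tu' n i i (e n * η)) F (𝓝 (Qu η))) (ψ : Fin 3 → Sm) :
    (∑ j, Vv j (2 * m * DD ζ (ψ j) + DD ζ m * ψ j - P j m * (∑ k, K (ζ k) * ψ k)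
            + K (ζ j) * ∑ k, P k (m * ψ k))) - Qv ((l + m) * ∑ k, K (ζ k) * ψ k) =
    (∑ j, Vu j (2 * dm * DD ζ (ψ j) + DD ζ dm * ψ j - P j dm * (∑ k, K (ζ k) * ψ k)
            + K (ζ j) * ∑ k, P k (dm * ψ k))) - Qu ((dl + dm) * ∑ k, K (ζ k) * ψ k) := by
  refine lim_aux
    (x := fun n => (∑ i, Tv' n i i (e n * (l * ∑ k, P k (ψ k))))
      - (∑ j, Tv n j (e n * (∑ i, P i m * (P i (ψ j) + P j (ψ i))
            + m * (LL (ψ j) + P j (∑ k, P k (ψ k)))))))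
    (y := fun n => (∑ j, Tv n j (e n * (2 * m * DD ζ (ψ j) + DD ζ m * ψ j
            - P j m * (∑ k, K (ζ k) * ψ k) + K (ζ j) * ∑ k, P k (m * ψ k))))
        - (∑ i, Tv' n i i (e n * ((l + m) * ∑ k, K (ζ k) * ψ k))))
    (x' := fun n => (∑ i, Tu' n i i (e n * (dl * ∑ k, P k (ψ k))))
      - (∑ j, Tu n j (e n * (∑ i, P i dm * (P i (ψ j) + P j (ψ i))
            + dm * (LL (ψ j) + P j (∑ k, P k (ψ k)))))))
    (y' := fun n => (∑ j, Tu n j (e n * (2 * dm * DD ζ (ψ j) + DD ζ dm * ψ j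
            - P j dm * (∑ k, K (ζ k) * ψ k) + K (ζ j) * ∑ k, P k (dm * ψ k))))
        - (∑ i, Tu' n i i (e n * ((dl + dm) * ∑ k, K (ζ k) * ψ k))))
    ht ht0
    ((hQv _).sub (tendsto_finsetSum _ fun j _ => hVv j _))
    ((tendsto_finsetSum _ fun j _ => hVv j _).sub (hQv _))
    ((hQu _).sub (tendsto_finsetSum _ fun j _ => hVu j _))
    ((tendsto_finsetSum _ fun j _ => hVu j _).sub (hQu _)) ?_
  refine Filter.Eventually.of_forall fun n => ?_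
  have h1 := Cf_exp (hv n) l m (e n) Submodule.mem_top (t n) ζ hζ (he n) ψ
  have h2 := Cf_exp (hu n) dl dm (e n) hdm (t n) ζ hζ (he n) ψ
  have h3 := hC n (fun j => e n * ψ j)
  rw [h1, h2] at h3
  linear_combination h3

/-- the second transport equation in the limit. -/
lemma lim_T2 (ht : Tendsto (fun n => (t n)⁻¹) F (𝓝 0)) (ht0 : ∀ᶠ n in F, t n ≠ 0)
    (hζ : dot ζ ζ = 0) (he : ∀ n i, P i (e n) = -(K (t n) * K (ζ i) * e n))
    (hv : ∀ n, IBP (Tv n) (Tv' n) ⊤) (hu : ∀ n, IBP (Tu n) (Tu' n) S)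
    (hC : ∀ n g, Cf (Tv' n) l m g = Cf (Tu' n) dl dm g) (hdm : dm ∈ S)
    (hPdm : ∀ i, P i dm ∈ S)
    (hVv : ∀ j η, Tendsto (fun n => Tv n j (e n * η)) F (𝓝 (Vv j η)))
    (hQv : ∀ η, Tendsto (fun n => ∑ i, Tv' n i i (e n * η)) F (𝓝 (Qv η)))
    (hVu : ∀ j η, Tendsto (fun n => Tu n j (e n * η)) F (𝓝 (Vu j η)))
    (hQu : ∀ η, Tendsto (fun n => ∑ i, Tu' n i i (e n * η)) F (𝓝 (Qu η))) (χ : Sm) :
    Qv (2 * (l + 2 * m) * DD ζ χ + 2 * DD ζ m * χ)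
      + (∑ j, Vv j (2 * (DD ζ (P j m) * χ + 2 * P j m * DD ζ χ))) =
    Qu (2 * (dl + 2 * dm) * DD ζ χ + 2 * DD ζ dm * χ)
      + (∑ j, Vu j (2 * (DD ζ (P j dm) * χ + 2 * P j dm * DD ζ χ))) := by
  refine lim_aux
    (x := fun n => - ((∑ i, Tv' n i i (e n * ((l + 2 * m) * LL χ + 2 * ∑ j, P j m * P j χ)))
      + (∑ j, Tv n j (e n * (2 * (∑ i, P i (P j m) * P i χ + P j m * LL χ))))))
    (y := fun n => (∑ i, Tv' n i i (e n * (2 * (l + 2 * m) * DD ζ χ + 2 * DD ζ m * χ)))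
        + ∑ j, Tv n j (e n * (2 * (DD ζ (P j m) * χ + 2 * P j m * DD ζ χ))))
    (x' := fun n => - ((∑ i, Tu' n i i (e n * ((dl + 2 * dm) * LL χ + 2 * ∑ j, P j dm * P j χ)))
      + (∑ j, Tu n j (e n * (2 * (∑ i, P i (P j dm) * P i χ + P j dm * LL χ))))))
    (y' := fun n => (∑ i, Tu' n i i (e n * (2 * (dl + 2 * dm) * DD ζ χ + 2 * DD ζ dm * χ)))
        + ∑ j, Tu n j (e n * (2 * (DD ζ (P j dm) * χ + 2 * P j dm * DD ζ χ))))
    ht ht0
    ((hQv _).add (tendsto_finsetSum _ fun j _ => hVv j _)).neg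
    ((hQv _).add (tendsto_finsetSum _ fun j _ => hVv j _))
    ((hQu _).add (tendsto_finsetSum _ fun j _ => hVu j _)).neg
    ((hQu _).add (tendsto_finsetSum _ fun j _ => hVu j _)) ?_
  refine Filter.Eventually.of_forall fun n => ?_
  have h1 := Cf_grad_exp (hv n) l m (e n) Submodule.mem_top (fun _ => Submodule.mem_top)
    (t n) ζ hζ (he n) χ
  have h2 := Cf_grad_exp (hu n) dl dm (e n) hdm hPdm (t n) ζ hζ (he n) χ
  have h3 := hC n (fun j => P j (e n * χ))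
  rw [h1, h2] at h3
  linear_combination - h3

end limits

end Vale.Agent.P136.TL
end
end

section

section

open MeasureTheory Filter Topology
open scoped InnerProductSpace ComplexConjugate

namespace Vale.Agent.P136.TL

/-- bounded sequences of a Hilbert space converge weakly along ultrafilters. -/
lemma weak_limit_hilbert {H : Type*} [NormedAddCommGroup H] [InnerProductSpace ℂ H]
    [CompleteSpace H] (F : Ultrafilter ℕ) (a : ℕ → H) (M : ℝ) (hM : ∀ n, ‖a n‖ ≤ M) :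
    ∃ b : H, ∀ y : H, Tendsto (fun n => ⟪a n, y⟫_ℂ) F (𝓝 ⟪b, y⟫_ℂ) := by
  have hM0 : 0 ≤ M := (norm_nonneg _).trans (hM 0)
  have h1 : ∀ y : H, ∃ l : ℂ, ‖l‖ ≤ M * ‖y‖ ∧ Tendsto (fun n => ⟪a n, y⟫_ℂ) F (𝓝 l) := by
    intro y
    have hb : ∀ n, ⟪a n, y⟫_ℂ ∈ Metric.closedBall (0 : ℂ) (M * ‖y‖) := by
      intro n
      rw [Metric.mem_closedBall, dist_zero_right]
      exact (norm_inner_le_norm _ _).trans (by gcongr; exact hM n)
    have hle : ((F.map fun n => ⟪a n, y⟫_ℂ : Ultrafilter ℂ) : Filter ℂ)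
        ≤ 𝓟 (Metric.closedBall (0 : ℂ) (M * ‖y‖)) := by
      rw [le_principal_iff]
      exact Filter.Eventually.of_forall (f := (F : Filter ℕ)) hb
    obtain ⟨l, hl, hle2⟩ := (isCompact_closedBall (0 : ℂ) (M * ‖y‖)).ultrafilter_le_nhds _ hle
    refine ⟨l, by simpa using hl, hle2⟩
  choose L hL1 hL2 using h1
  have hadd : ∀ x y, L (x + y) = L x + L y := by
    intro x y
    refine tendsto_nhds_unique (hL2 (x + y)) ?_
    have := (hL2 x).add (hL2 y)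
    refine this.congr fun n => ?_
    rw [inner_add_right]
  have hsmul : ∀ (c : ℂ) x, L (c • x) = c * L x := by
    intro c x
    refine tendsto_nhds_unique (hL2 (c • x)) ?_
    have := (hL2 x).const_mul c
    refine this.congr fun n => ?_
    rw [inner_smul_right]
  let Ll : H →ₗ[ℂ] ℂ :=
    { toFun := L
      map_add' := hadd
      map_smul' := fun c x => by simpa using hsmul c x }
  let Lc : H →L[ℂ] ℂ := Ll.mkContinuous M hL1
  refine ⟨(InnerProductSpace.toDual ℂ H).symm Lc, fun y => ?_⟩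
  rw [InnerProductSpace.toDual_symm_apply]
  exact hL2 y

lemma norm_toLp_sq {X : Type*} [MeasurableSpace X] {μ : Measure X} {f : X → ℂ}
    (hf : MemLp f 2 μ) : ‖hf.toLp f‖ ^ 2 = ∫ x, ‖f x‖ ^ 2 ∂μ := by
  have h1 := L2.inner_def (𝕜 := ℂ) (hf.toLp f) (hf.toLp f)
  rw [inner_self_eq_norm_sq_to_K] at h1
  have h2 : ∫ x, ⟪(hf.toLp f) x, (hf.toLp f) x⟫_ℂ ∂μ = ((∫ x, ‖f x‖ ^ 2 ∂μ : ℝ) : ℂ) := by
    rw [← integral_complex_ofReal]
    apply integral_congr_ae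
    filter_upwards [hf.coeFn_toLp] with x hx
    rw [hx, inner_self_eq_norm_sq_to_K]
    push_cast
    rfl
  rw [h2] at h1
  apply Complex.ofReal_injective
  rw [← h1]
  push_cast
  rfl

lemma inner_toLp {X : Type*} [MeasurableSpace X] {μ : Measure X} {f g : X → ℂ}
    (hf : MemLp f 2 μ) (hg : MemLp g 2 μ) :
    ⟪hf.toLp f, hg.toLp g⟫_ℂ = ∫ x, conj (f x) * g x ∂μ := by
  rw [L2.inner_def]
  apply integral_congr_ae
  filter_upwards [hf.coeFn_toLp, hg.coeFn_toLp] with x hx hy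
  rw [hx, hy, RCLike.inner_apply, mul_comm]

lemma memLp_conj {X : Type*} [MeasurableSpace X] {μ : Measure X} {f : X → ℂ}
    (hf : MemLp f 2 μ) : MemLp (fun x => conj (f x)) 2 μ := by
  refine MemLp.of_le hf (Complex.continuous_conj.comp_aestronglyMeasurable hf.1) ?_
  exact Filter.Eventually.of_forall fun x => by simp

/-- weak limits in `L²` along an ultrafilter. -/
theorem weak_limit_L2 {X : Type*} [MeasurableSpace X] {μ : Measure X} (F : Ultrafilter ℕ)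
    (f : ℕ → X → ℂ) (hf : ∀ n, MemLp (f n) 2 μ) (C : ℝ) (hC : ∀ n, ∫ x, ‖f n x‖ ^ 2 ∂μ ≤ C) :
    ∃ g : X → ℂ, MemLp g 2 μ ∧ ∀ η : X → ℂ, MemLp η 2 μ →
      Tendsto (fun n => ∫ x, f n x * η x ∂μ) F (𝓝 (∫ x, g x * η x ∂μ)) := by
  obtain ⟨b, hb⟩ := weak_limit_hilbert F (fun n => (memLp_conj (hf n)).toLp _) (√C) (by
    intro n
    apply Real.le_sqrt_of_sq_le
    rw [norm_toLp_sq]
    simpa using hC n)
  refine ⟨fun x => conj (b x), memLp_conj (Lp.memLp b), fun η hη => ?_⟩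
  have h := hb (hη.toLp η)
  have e1 : ∀ n, ⟪(memLp_conj (hf n)).toLp _, hη.toLp η⟫_ℂ = ∫ x, f n x * η x ∂μ := by
    intro n
    rw [inner_toLp]
    simp
  have e2 : ⟪b, hη.toLp η⟫_ℂ = ∫ x, conj (b x) * η x ∂μ := by
    rw [L2.inner_def]
    apply integral_congr_ae
    filter_upwards [hη.coeFn_toLp] with x hx
    rw [hx, RCLike.inner_apply, mul_comm]
  simp only [e1, e2] at h
  exact h

end Vale.Agent.P136.TL
end
end

section

section

open MeasureTheory Filter Topology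
open scoped ContDiff InnerProductSpace

namespace Vale.Agent.P136.TL

/-! ### exponentials -/

lemma zx_hasFDerivAt (ζ : Fin 3 → ℂ) (x : E3) :
    HasFDerivAt (zx ζ) (∑ i, ((EuclideanSpace.proj i : E3 →L[ℝ] ℝ).smulRight (ζ i))) x := by
  have h : zx ζ = fun y : E3 => ∑ i, (EuclideanSpace.proj i : E3 →L[ℝ] ℝ) y • ζ i := by
    funext y
    simp only [zx, PiLp.proj_apply, Complex.real_smul]
    exact Finset.sum_congr rfl fun i _ => mul_comm _ _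
  rw [h]
  apply HasFDerivAt.fun_sum
  intro i _
  exact ((EuclideanSpace.proj i : E3 →L[ℝ] ℝ).smulRight (ζ i)).hasFDerivAt

lemma zx_contDiff (ζ : Fin 3 → ℂ) : ContDiff ℝ ∞ (zx ζ) := by
  unfold zx
  apply ContDiff.sum
  intro i _
  apply contDiff_const.mul
  exact Complex.ofRealCLM.contDiff.comp (EuclideanSpace.proj i : E3 →L[ℝ] ℝ).contDiff

lemma pd_zx (ζ : Fin 3 → ℂ) (i : Fin 3) (x : E3) : pd i (zx ζ) x = ζ i := by
  unfold pd
  rw [(zx_hasFDerivAt ζ x).fderiv]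
  simp only [sum_apply, ContinuousLinearMap.smulRight_apply,
    PiLp.proj_apply]
  unfold bv
  rw [Finset.sum_eq_single i]
  · simp
  · intro j _ hj
    simp [hj]
  · simp

/-- the exponential `e^{-t ζ·x}`. -/
noncomputable def ex (ζ : Fin 3 → ℂ) (t : ℝ) : Sm :=
  ⟨fun x => Complex.exp (-(t * zx ζ x)),
    Complex.contDiff_exp.comp (contDiff_const.mul (zx_contDiff ζ)).neg⟩

lemma ex_apply (ζ : Fin 3 → ℂ) (t : ℝ) (x : E3) :
    (ex ζ t : E3 → ℂ) x = Complex.exp (-(t * zx ζ x)) := rfl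

lemma P_ex (ζ : Fin 3 → ℂ) (t : ℝ) (i : Fin 3) :
    P i (ex ζ t) = -(K (t : ℂ) * K (ζ i) * ex ζ t) := by
  apply Subtype.ext
  funext x
  have h1 : HasFDerivAt (fun y => -((t : ℂ) * zx ζ y)) (-((t : ℂ) • fderiv ℝ (zx ζ) x)) x :=
    ((((zx_contDiff ζ).differentiable (by simp)) x).hasFDerivAt.const_mul (t : ℂ)).neg
  have h2 := h1.cexp
  have h3 : pd i (ex ζ t : E3 → ℂ) x
      = Complex.exp (-(t * zx ζ x)) * (-((t : ℂ) * pd i (zx ζ) x)) := by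
    unfold pd
    have : (ex ζ t : E3 → ℂ) = fun y => Complex.exp (-((t : ℂ) * zx ζ y)) := rfl
    rw [this, h2.fderiv]
    simp
  rw [P_apply, h3, pd_zx]
  simp only [Subalgebra.coe_neg, Subalgebra.coe_mul, Pi.neg_apply, Pi.mul_apply, K_apply, ex_apply]
  ring

/-- the vector `Re ζ`. -/
noncomputable def reV (ζ : Fin 3 → ℂ) : E3 := WithLp.toLp 2 fun i => (ζ i).re

lemma zx_re (ζ : Fin 3 → ℂ) (x : E3) : (zx ζ x).re = ⟪reV ζ, x⟫_ℝ := by
  unfold zx reV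
  rw [Complex.re_sum, PiLp.inner_apply]
  apply Finset.sum_congr rfl
  intro i _
  simp [mul_comm]

lemma norm_ex_sq (ζ : Fin 3 → ℂ) (t : ℝ) (x : E3) :
    ‖(ex ζ t : E3 → ℂ) x‖ ^ 2 = Real.exp (2 * ⟪(-t) • reV ζ, x⟫_ℝ) := by
  rw [ex_apply, Complex.norm_exp, ← Real.exp_nat_mul]
  congr 1
  rw [real_inner_smul_left, ← zx_re]
  simp

lemma reV_ne_zero {ζ : Fin 3 → ℂ} (hζ : dot ζ ζ = 0) (h0 : ζ ≠ 0) : reV ζ ≠ 0 := by
  intro h
  apply h0
  have hr : ∀ i, (ζ i).re = 0 := by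
    intro i
    have := congrFun (congrArg (WithLp.ofLp) h) i
    simpa [reV] using this
  have h1 : ∑ i, (ζ i).im ^ 2 = 0 := by
    have := congrArg Complex.re hζ
    simp only [dot, Complex.re_sum, Complex.mul_re, hr, Complex.zero_re] at this
    have e : ∑ i, (ζ i).im ^ 2 = - ∑ i, (0 * 0 - (ζ i).im * (ζ i).im) := by
      rw [← Finset.sum_neg_distrib]
      exact Finset.sum_congr rfl fun i _ => by ring
    rw [e, this, neg_zero]
  have h2 : ∀ i, (ζ i).im = 0 := by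
    intro i
    have := (Finset.sum_eq_zero_iff_of_nonneg (fun i _ => sq_nonneg (ζ i).im)).mp h1 i
      (Finset.mem_univ i)
    exact pow_eq_zero_iff (by norm_num) |>.mp this
  funext i
  exact Complex.ext (hr i) (h2 i)

/-! ### integration by parts for `H¹₀` -/

lemma ch10_ibp {Ω : Set E3} (hb : Bornology.IsBounded Ω) {v : E3 → ℂ} {dv : Fin 3 → E3 → ℂ}
    (h : CH10 Ω v dv) (i : Fin 3) (η : Sm) :
    ∫ x in Ω, v x * (P i η : E3 → ℂ) x = - ∫ x in Ω, dv i x * (η : E3 → ℂ) x := by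
  obtain ⟨φ, h1, h2, h3⟩ := h.approx
  have mφ : ∀ n, MemLp (φ n) 2 := fun n =>
    (h1 n).1.continuous.memLp_of_hasCompactSupport (h1 n).2.1
  have mdφ : ∀ n, MemLp (pd i (φ n)) 2 := fun n =>
    (pd_contDiff_infty (h1 n).1 i).continuous.memLp_of_hasCompactSupport
      (pd_hasCompactSupport (h1 n).2.1 i)
  have t1 := tendstoC (μ := volume.restrict Ω) (memLp_cont hb (sm_cont (P i η)))
    (h.val_mem.restrict _) (fun n => (mφ n).restrict _)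
    (tendsto_restrict h.val_mem mφ h2)
  have t2 := (tendstoC (μ := volume.restrict Ω) (memLp_cont hb (sm_cont η))
    ((h.der_mem i).restrict _) (fun n => (mdφ n).restrict _)
    (tendsto_restrict (h.der_mem i) mdφ (h3 i))).neg
  have e : ∀ n, ∫ x in Ω, (P i η : E3 → ℂ) x * φ n x
      = - ∫ x in Ω, (η : E3 → ℂ) x * pd i (φ n) x := by
    intro n
    have hs : ∀ x, x ∉ Ω → φ n x = 0 := fun x hx => by
      by_contra hne
      exact hx ((h1 n).2.2 (subset_tsupport _ hne))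
    have hs' : ∀ x, x ∉ Ω → pd i (φ n) x = 0 := fun x hx => by
      by_contra hne
      have h5 : x ∈ tsupport (fderiv ℝ (φ n)) := by
        apply subset_tsupport
        intro h6
        apply hne
        unfold pd
        rw [h6]
        rfl
      exact hx ((h1 n).2.2 (tsupport_fderiv_subset ℝ h5))
    rw [setIntegral_eq_integral_of_forall_compl_eq_zero (fun x hx => by simp [hs x hx]),
      setIntegral_eq_integral_of_forall_compl_eq_zero (fun x hx => by simp [hs' x hx])]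
    have h4 := int_pd_zero (((sm_cd η).mul (h1 n).1).of_le (by norm_cast) :
      ContDiff ℝ 1 (fun x => (η : E3 → ℂ) x * φ n x)) (h1 n).2.1.mul_left i
    rw [pd_mulC ((sm_cd η).differentiable (by simp)) ((h1 n).1.differentiable (by simp)) i] at h4
    rw [integral_add] at h4
    · exact eq_neg_of_add_eq_zero_left h4
    · exact ((sm_cont (P i η)).mul (h1 n).1.continuous).integrable_of_hasCompactSupport
        (h1 n).2.1.mul_left
    · exact ((sm_cont η).mul (pd_contDiff_infty (h1 n).1 i).continuous).integrable_of_hasCompactSupport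
        (pd_hasCompactSupport (h1 n).2.1 i).mul_left
  simp only [e] at t1
  have h5 := tendsto_nhds_unique t1 t2
  rw [integral_congr_ae (Eventually.of_forall fun x => mul_comm (v x) ((P i η : E3 → ℂ) x)), h5]
  congr 1
  exact integral_congr_ae (Eventually.of_forall fun x => mul_comm _ _)

/-! ### restriction to a smaller set -/

lemma ctest_mono {A B : Set E3} (h : A ⊆ B) {φ : E3 → ℂ} (hφ : CTest A φ) : CTest B φ :=
  ⟨hφ.1, hφ.2.1, hφ.2.2.trans h⟩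

lemma ctest_zero {A : Set E3} {φ : E3 → ℂ} (hφ : CTest A φ) {x : E3} (hx : x ∉ A) : φ x = 0 := by
  by_contra hne
  exact hx (hφ.2.2 (subset_tsupport _ hne))

lemma ctest_pd_zero {A : Set E3} {φ : E3 → ℂ} (hφ : CTest A φ) (i : Fin 3) {x : E3}
    (hx : x ∉ A) : pd i φ x = 0 := by
  by_contra hne
  have h5 : x ∈ tsupport (fderiv ℝ φ) := by
    apply subset_tsupport
    intro h6
    apply hne
    unfold pd
    rw [h6]
    rfl
  exact hx (hφ.2.2 (tsupport_fderiv_subset ℝ h5))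

lemma setInt_mono_eq {A B : Set E3} (hAB : A ⊆ B)
    {f : E3 → ℂ} (h : ∀ x, x ∉ A → f x = 0) : ∫ x in A, f x = ∫ x in B, f x := by
  rw [setIntegral_eq_integral_of_forall_compl_eq_zero h,
    setIntegral_eq_integral_of_forall_compl_eq_zero (fun x hx => h x (fun hxA => hx (hAB hxA)))]

lemma wdc_mono {A B : Set E3} (hAB : A ⊆ B)
    {i : Fin 3} {f g : E3 → ℂ} (h : WDc B i f g) : WDc A i f g := by
  intro φ hφ
  rw [setInt_mono_eq hAB (fun x hx => by simp [ctest_pd_zero hφ i hx]),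
    setInt_mono_eq hAB (fun x hx => by simp [ctest_zero hφ hx])]
  exact h φ (ctest_mono hAB hφ)

lemma ch1_mono {A B : Set E3} (hAB : A ⊆ B)
    {u : Fin 3 → E3 → ℂ} {du : Fin 3 → Fin 3 → E3 → ℂ} (h : CH1 B u du) : CH1 A u du where
  val_mem j := (h.val_mem j).mono_measure (Measure.restrict_mono hAB le_rfl)
  der_mem i j := (h.der_mem i j).mono_measure (Measure.restrict_mono hAB le_rfl)
  weak i j := wdc_mono hAB (h.weak i j)

lemma csol_mono {A B : Set E3} (hAB : A ⊆ B)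
    {lam mu : E3 → ℝ} {du : Fin 3 → Fin 3 → E3 → ℂ} (h : CSol B lam mu du) :
    CSol A lam mu du := by
  intro φ hφ
  rw [← h φ (fun j => ctest_mono hAB (hφ j))]
  unfold cform
  apply setInt_mono_eq hAB
  intro x hx
  have : ∀ i j, pd i (φ j) x = 0 := fun i j => ctest_pd_zero (hφ j) i hx
  simp [this]

end Vale.Agent.P136.TL
end
end

section

section

open MeasureTheory Filter Topology
open scoped ContDiff InnerProductSpace

namespace Vale.Agent.P136.TL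

lemma sq_int_mu {μ : Measure E3} {u : E3 → ℂ} (hu : MemLp u 2 μ) :
    Integrable (fun x => ‖u x‖ ^ 2) μ := by
  have := hu.integrable_norm_pow (by norm_num)
  simpa using this

lemma sq_bound {μ : Measure E3} {a b : E3 → ℂ} (ha : MemLp a 2 μ) (hb : MemLp b 2 μ) :
    ∫ x, ‖a x‖ ^ 2 ∂μ ≤ 2 * (∫ x, ‖a x - b x‖ ^ 2 ∂μ) + 2 * ∫ x, ‖b x‖ ^ 2 ∂μ := by
  have i1 : Integrable (fun x => 2 * ‖a x - b x‖ ^ 2) μ :=
    (sq_int_mu (u := fun x => a x - b x) (ha.sub hb)).const_mul 2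
  have i2 : Integrable (fun x => 2 * ‖b x‖ ^ 2) μ := (sq_int_mu hb).const_mul 2
  rw [← integral_const_mul, ← integral_const_mul, ← integral_add i1 i2]
  apply integral_mono (sq_int_mu ha) (i1.add i2)
  intro x
  simp only [Pi.add_apply]
  have h1 : ‖a x‖ ≤ ‖a x - b x‖ + ‖b x‖ := by
    have := norm_add_le (a x - b x) (b x)
    simpa using this
  have h2 := norm_nonneg (a x)
  have h3 := norm_nonneg (a x - b x)
  have h4 := norm_nonneg (b x)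
  linarith only [mul_nonneg (sub_nonneg.2 h1) (sub_nonneg.2 h4), mul_nonneg (sub_nonneg.2 h1) (sub_nonneg.2 h3), mul_nonneg (sub_nonneg.2 h1) (sub_nonneg.2 h2), sq_nonneg (‖a x - b x‖ - ‖b x‖)]

lemma sq_mono_set {A B : Set E3} (hAB : A ⊆ B) {a : E3 → ℂ}
    (ha : MemLp a 2 (volume.restrict B)) :
    ∫ x in A, ‖a x‖ ^ 2 ≤ ∫ x in B, ‖a x‖ ^ 2 :=
  setIntegral_mono_set (sq_int_mu ha) (Eventually.of_forall fun _ => by positivity)
    (Eventually.of_forall hAB)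

/-- the data for one large parameter `t`. -/
structure Dt (Ω : Set E3) (lam₁ mu₁ lam₂ mu₂ : E3 → ℝ) (ζ : Fin 3 → ℂ) (U : Fin 3 → Sm) (d : Sm)
    (M t : ℝ) (u : Fin 3 → E3 → ℂ) (du : Fin 3 → Fin 3 → E3 → ℂ) (p : E3 → ℂ)
    (v : Fin 3 → E3 → ℂ) (dv : Fin 3 → Fin 3 → E3 → ℂ) : Prop where
  mu : ∀ j, MemLp (u j) 2 (volume.restrict Ω)
  mdu : ∀ i j, MemLp (du i j) 2 (volume.restrict Ω)
  mp : MemLp p 2 (volume.restrict Ω)
  ibpu : ∀ i j, ∀ η ∈ IO Ω, ∫ x in Ω, u j x * (P i η : E3 → ℂ) x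
    = - ∫ x in Ω, du i j x * (η : E3 → ℂ) x
  div : ∀ᵐ x ∂(volume.restrict Ω), p x = ∑ i, du i i x
  hv : ∀ j, CH10 Ω (v j) (fun i => dv i j)
  tr : ∀ g : Fin 3 → E3 → ℂ, (∀ j, ContDiff ℝ ∞ (g j)) →
          cform Ω lam₂ mu₂ (fun i j x => du i j x + dv i j x) (fun i j => pd i (g j)) =
          cform Ω lam₁ mu₁ du (fun i j => pd i (g j))
  cu : ∀ j, ∫ x in Ω, ‖(ex ζ t : E3 → ℂ) x * u j x - (U j : E3 → ℂ) x‖ ^ 2 ≤ M / t ^ 2
  cp : ∫ x in Ω, ‖(ex ζ t : E3 → ℂ) x * p x - (d : E3 → ℂ) x‖ ^ 2 ≤ M / t ^ 2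
  cv : ∀ j, ∫ x in Ω, ‖(ex ζ t : E3 → ℂ) x * v j x‖ ^ 2 ≤ M
  cq : ∫ x in Ω, ‖(ex ζ t : E3 → ℂ) x * ∑ i, dv i i x‖ ^ 2 ≤ M

lemma weight_eq (ζ : Fin 3 → ℂ) (t : ℝ) (f : E3 → ℂ) (x : E3) :
    Real.exp (2 * ⟪(-t) • reV ζ, x⟫_ℝ) * ‖f x‖ ^ 2 = ‖(ex ζ t : E3 → ℂ) x * f x‖ ^ 2 := by
  rw [norm_mul, mul_pow, norm_ex_sq]

lemma bd_conj {Ω B : Set E3} (hB : Bornology.IsBounded B) (hs : Ω ⊆ B) (ζ : Fin 3 → ℂ) (t : ℝ)
    {f : E3 → ℂ} (hf : MemLp f 2 (volume.restrict B)) (g : Sm) (c : ℂ) {C D : ℝ}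
    (h : ∫ x in B, ‖(ex ζ t : E3 → ℂ) x * f x - c * (g : E3 → ℂ) x‖ ^ 2 ≤ C)
    (hD : D = ∫ x in B, ‖(g : E3 → ℂ) x‖ ^ 2) :
    ∫ x in Ω, ‖(ex ζ t : E3 → ℂ) x * f x‖ ^ 2 ≤ 2 * C + 2 * (‖c‖ ^ 2 * D) := by
  have m1 : MemLp (fun x => (ex ζ t : E3 → ℂ) x * f x) 2 (volume.restrict B) :=
    memLp_mul_cont hB (sm_cont _) hf
  have m2 : MemLp (fun x => c * (g : E3 → ℂ) x) 2 (volume.restrict B) :=
    (memLp_cont hB (sm_cont g)).const_mul _
  refine (sq_mono_set hs m1).trans ((sq_bound m1 m2).trans ?_)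
  have e1 : ∫ x in B, ‖c * (g : E3 → ℂ) x‖ ^ 2 = ‖c‖ ^ 2 * D := by
    rw [hD, ← integral_const_mul]
    congr 1
    funext x
    rw [norm_mul]
    ring
  rw [e1]
  linarith

lemma num_bd {t C D c : ℝ} (ht : 1 ≤ t) (hC : 0 ≤ C) :
    2 * C + 2 * ((t * c) ^ 2 * D) ≤ t ^ 2 * (2 * C + 2 * (c ^ 2 * D)) := by
  have h1 : 1 ≤ t ^ 2 := by nlinarith
  have h2 : 2 * C ≤ t ^ 2 * (2 * C) := by linarith only [mul_nonneg (sub_nonneg.2 hC) (sub_nonneg.2 h1)]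
  calc 2 * C + 2 * ((t * c) ^ 2 * D) ≤ t ^ 2 * (2 * C) + 2 * ((t * c) ^ 2 * D) := by linarith
    _ = _ := by ring

lemma num_bd1 {t C D : ℝ} (ht : 1 ≤ t) (hC : 0 ≤ C) (hD : 0 ≤ D) :
    2 * C + 2 * D ≤ t ^ 2 * (2 * C + 2 * D) := by
  have h1 : 1 ≤ t ^ 2 := by nlinarith
  linarith only [mul_nonneg (sub_nonneg.2 hD) (sub_nonneg.2 h1), mul_nonneg (sub_nonneg.2 hC) (sub_nonneg.2 h1)]

/-- the bound for the transferred difference. -/
lemma bound_v {ζ : Fin 3 → ℂ} {t CB W : ℝ} (ht : 0 < t) (hre : 0 < ‖reV ζ‖)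
    (hCB : 0 < CB) {A B X : ℝ}
    (key : ‖(-t) • reV ζ‖ ^ 2 * (A + B) ≤ CB * X) (hX : X ≤ t ^ 2 * W) :
    A + B ≤ CB * W / ‖reV ζ‖ ^ 2 := by
  have hnorm : ‖(-t) • reV ζ‖ = t * ‖reV ζ‖ := by
    rw [norm_smul, Real.norm_eq_abs, abs_neg, abs_of_pos ht]
  rw [le_div_iff₀ (by positivity)]
  have h1 := key.trans (mul_le_mul_of_nonneg_left hX hCB.le)
  rw [hnorm] at h1
  have ht2p : 0 < t ^ 2 := by positivity
  have h2 : t ^ 2 * ((A + B) * ‖reV ζ‖ ^ 2) ≤ t ^ 2 * (CB * W) := by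
    calc t ^ 2 * ((A + B) * ‖reV ζ‖ ^ 2) = (t * ‖reV ζ‖) ^ 2 * (A + B) := by ring
      _ ≤ CB * (t ^ 2 * W) := h1
      _ = t ^ 2 * (CB * W) := by ring
  exact le_of_mul_le_mul_left h2 ht2p

theorem exists_data (hTLB : TLB_statement) (hCGO : CGO1_statement) {Ω : Set E3}
    (ho : IsOpen Ω) (hb : Bornology.IsBounded Ω) {lam₁ mu₁ lam₂ mu₂ : E3 → ℝ}
    (hA1 : Admissible Ω lam₁ mu₁) (hA2 : Admissible Ω lam₂ mu₂)
    (p1 : ∀ x, 0 < mu₁ x) (q1 : ∀ x, 0 < lam₁ x + mu₁ x)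
    (p2 : ∀ x, 0 < mu₂ x) (q2 : ∀ x, 0 < lam₂ x + mu₂ x)
    (hDN : SameDN Ω lam₁ mu₁ lam₂ mu₂)
    (hbd : ∀ x ∈ frontier Ω, mu₁ x = mu₂ x ∧ lam₁ x = lam₂ x ∧
      fderiv ℝ mu₁ x = fderiv ℝ mu₂ x ∧ fderiv ℝ lam₁ x = fderiv ℝ lam₂ x)
    {ζ : Fin 3 → ℂ} (hζ : dot ζ ζ = 0) (hζ0 : ζ ≠ 0) {R : ℝ} (hR : 0 < R)
    (hcl : closure Ω ⊆ Metric.ball 0 R) (U : Fin 3 → Sm) (d : Sm)
    (hTr : Transport ζ lam₁ mu₁ (4 * R) (fun j => (U j : E3 → ℂ)) d) :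
    ∃ M T : ℝ, ∀ t : ℝ, T ≤ t → 0 < t ∧
      ∃ u du p v dv, Dt Ω lam₁ mu₁ lam₂ mu₂ ζ U d M t u du p v dv := by
  obtain ⟨C, T, hC⟩ := hCGO lam₁ mu₁ hA1.lam_smooth hA1.mu_smooth p1 q1 R hR ζ hζ hζ0
    (fun j => (U j : E3 → ℂ)) d (fun j => sm_cd (U j)) (sm_cd d) hTr
  obtain ⟨CB, τ₀, hCB, hτ₀, hTB⟩ := hTLB Ω lam₁ mu₁ lam₂ mu₂ R ho hb hA1.lam_smooth
    hA1.mu_smooth hA2.lam_smooth hA2.mu_smooth p1 q1 p2 q2 hbd hcl
  have hs : Ω ⊆ Metric.ball (0 : E3) R := subset_closure.trans hcl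
  have hB : Bornology.IsBounded (Metric.ball (0 : E3) R) := Metric.isBounded_ball
  have hre : 0 < ‖reV ζ‖ := norm_pos_iff.mpr (reV_ne_zero hζ hζ0)
  obtain ⟨C', hC'0, hC'⟩ : ∃ C' : ℝ, 0 ≤ C' ∧ C ≤ C' := ⟨max C 0, le_max_right _ _, le_max_left _ _⟩
  obtain ⟨D, hD⟩ : ∃ D : ℝ, D = ∫ x in Metric.ball (0 : E3) R, ‖(d : E3 → ℂ) x‖ ^ 2 := ⟨_, rfl⟩
  obtain ⟨DU, hDU⟩ : ∃ DU : Fin 3 → ℝ, ∀ j, DU j = ∫ x in Metric.ball (0 : E3) R,
    ‖(U j : E3 → ℂ) x‖ ^ 2 := ⟨_, fun j => rfl⟩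
  have hD0 : 0 ≤ D := by rw [hD]; exact integral_nonneg fun _ => by positivity
  have hDU0 : ∀ j, 0 ≤ DU j := fun j => by rw [hDU]; exact integral_nonneg fun _ => by positivity
  obtain ⟨W, hW⟩ : ∃ W : ℝ, W = (2 * C' + 2 * D) + (∑ i, (2 * C' + 2 * (‖ζ i‖ ^ 2 * D)))
    + ∑ i, ∑ j, (2 * C' + 2 * (‖ζ i‖ ^ 2 * DU j)) := ⟨_, rfl⟩
  have hW0 : 0 ≤ W := by
    rw [hW]
    refine add_nonneg (add_nonneg (by (clear * - hC'0 hD0; positivity)) (Finset.sum_nonneg fun i _ => by (clear * - hC'0 hD0; positivity)))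
      (Finset.sum_nonneg fun i _ => Finset.sum_nonneg fun j _ => ?_)
    have := hDU0 j
    (clear * - hC'0 this; positivity)
  have hWp : 0 ≤ CB * W / ‖reV ζ‖ ^ 2 := by (clear * - hCB hW0 hre; positivity)
  refine ⟨C' + CB * W / ‖reV ζ‖ ^ 2, max T (max 1 (τ₀ / ‖reV ζ‖)), fun t ht => ?_⟩
  have ht1 : T ≤ t := (le_max_left _ _).trans ht
  have ht2 : 1 ≤ t := ((le_max_left _ _).trans (le_max_right _ _)).trans ht
  have ht3 : τ₀ / ‖reV ζ‖ ≤ t := ((le_max_right _ _).trans (le_max_right _ _)).trans ht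
  have htp : 0 < t := by linarith
  refine ⟨htp, ?_⟩
  obtain ⟨u, du, p, dp, hu, hsol, hp, hdp, hwp, hdiv, b1, b2, b3, b4⟩ := hC t ht1
  have hu' := ch1_mono hs hu
  have hsol' := csol_mono hs hsol
  obtain ⟨v, dv, hv, htr⟩ := TR Ω lam₁ mu₁ lam₂ mu₂ ho hb hA1 hA2 hDN u du hu' hsol'
  have hbig : τ₀ ≤ ‖(-t) • reV ζ‖ := by
    rw [norm_smul, Real.norm_eq_abs, abs_neg, abs_of_pos htp]
    rwa [div_le_iff₀ hre] at ht3
  have key := hTB ((-t) • reV ζ) hbig u du p dp v dv hu hsol hp hdp hwp hdiv hv htr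
  have ew : ∀ x, Real.exp (2 * ⟪(-t) • reV ζ, x⟫_ℝ) * ‖∑ i, dv i i x‖ ^ 2
      = ‖(ex ζ t : E3 → ℂ) x * ∑ i, dv i i x‖ ^ 2 := fun x =>
    weight_eq ζ t (fun x => ∑ i, dv i i x) x
  simp only [weight_eq, ew] at key
  have c1 : ∫ x in Ω, ‖(ex ζ t : E3 → ℂ) x * p x‖ ^ 2 ≤ t ^ 2 * (2 * C' + 2 * D) := by
    have b3' : ∫ x in Metric.ball (0 : E3) R, ‖(ex ζ t : E3 → ℂ) x * p x
        - (1 : ℂ) * (d : E3 → ℂ) x‖ ^ 2 ≤ C' := by
      simp only [one_mul]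
      refine b3.trans ?_
      rw [div_le_iff₀ (by positivity)]
      have : 1 ≤ t ^ 2 := by (by_contra nlg; linarith only [nlg, mul_nonneg (sub_nonneg.2 ht2) (le_of_lt (sub_pos.2 htp)), mul_pos (sub_pos.2 (not_le.1 nlg)) (sub_pos.2 htp), mul_nonneg (sq_nonneg (t : ℝ)) (sub_nonneg.2 ht2)])
      linarith only [mul_nonneg (sub_nonneg.2 hC'0) (sub_nonneg.2 this), hC']
    refine (bd_conj hB hs ζ t hp d 1 b3' hD).trans ?_
    simp only [norm_one, one_pow, one_mul]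
    exact num_bd1 ht2 hC'0 hD0
  have c2 : ∀ i, ∫ x in Ω, ‖(ex ζ t : E3 → ℂ) x * dp i x‖ ^ 2
      ≤ t ^ 2 * (2 * C' + 2 * (‖ζ i‖ ^ 2 * D)) := by
    intro i
    refine (bd_conj hB hs ζ t (hdp i) d (t * ζ i) ((b4 i).trans hC') hD).trans ?_
    rw [norm_mul, Complex.norm_real, Real.norm_eq_abs, abs_of_pos htp]
    exact num_bd ht2 hC'0
  have c3 : ∀ i j, ∫ x in Ω, ‖(ex ζ t : E3 → ℂ) x * du i j x‖ ^ 2
      ≤ t ^ 2 * (2 * C' + 2 * (‖ζ i‖ ^ 2 * DU j)) := by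
    intro i j
    refine (bd_conj hB hs ζ t (hu.der_mem i j) (U j) (t * ζ i) ((b2 i j).trans hC')
      (hDU j)).trans ?_
    rw [norm_mul, Complex.norm_real, Real.norm_eq_abs, abs_of_pos htp]
    exact num_bd ht2 hC'0
  have c4 : (∫ x in Ω, ‖(ex ζ t : E3 → ℂ) x * p x‖ ^ 2)
        + (∑ i, ∫ x in Ω, ‖(ex ζ t : E3 → ℂ) x * dp i x‖ ^ 2)
        + ∑ i, ∑ j, ∫ x in Ω, ‖(ex ζ t : E3 → ℂ) x * du i j x‖ ^ 2 ≤ t ^ 2 * W := by
    rw [hW, mul_add, mul_add, Finset.mul_sum, Finset.mul_sum]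
    refine add_le_add (add_le_add c1 (Finset.sum_le_sum fun i _ => c2 i))
      (Finset.sum_le_sum fun i _ => ?_)
    rw [Finset.mul_sum]
    exact Finset.sum_le_sum fun j _ => c3 i j
  have c5 := bound_v htp hre hCB key c4
  have n1 : ∀ j, 0 ≤ ∫ x, ‖(ex ζ t : E3 → ℂ) x * v j x‖ ^ 2 := fun j =>
    integral_nonneg fun _ => by (clear * -; positivity)
  have n2 : 0 ≤ ∫ x, ‖(ex ζ t : E3 → ℂ) x * ∑ i, dv i i x‖ ^ 2 :=
    integral_nonneg fun _ => by (clear * -; positivity)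
  have mm : ∀ {f : E3 → ℂ}, MemLp f 2 (volume.restrict (Metric.ball (0 : E3) R)) →
      MemLp (fun x => (ex ζ t : E3 → ℂ) x * f x) 2
        (volume.restrict (Metric.ball (0 : E3) R)) := fun hf =>
    memLp_mul_cont hB (sm_cont _) hf
  have mS : ∀ f : Sm, MemLp (f : E3 → ℂ) 2 (volume.restrict (Metric.ball (0 : E3) R)) :=
    fun f => memLp_cont hB (sm_cont f)
  have hMt : C / t ^ 2 ≤ (C' + CB * W / ‖reV ζ‖ ^ 2) / t ^ 2 := by
    gcongr
    linarith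
  refine ⟨u, du, p, v, dv, ⟨hu'.val_mem, hu'.der_mem,
    hp.mono_measure (Measure.restrict_mono hs le_rfl), ?_, ?_, hv, htr, ?_, ?_, ?_, ?_⟩⟩
  · intro i j η hη
    exact ibp_IO ho hb hcl (hu.val_mem j) (hu.der_mem i j) (hu.weak i j) η hη
  · exact ae_mono (Measure.restrict_mono hs le_rfl) hdiv
  · intro j
    exact le_trans (sq_mono_set hs ((mm (hu.val_mem j)).sub (mS (U j)))) ((b1 j).trans hMt)
  · exact le_trans (sq_mono_set hs ((mm hp).sub (mS d))) (b3.trans hMt)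
  · intro j
    rw [setIntegral_eq_integral_of_forall_compl_eq_zero (fun x hx => by
      simp [(hv j).val_zero x hx])]
    have : ∫ x, ‖(ex ζ t : E3 → ℂ) x * v j x‖ ^ 2
        ≤ ∑ j, ∫ x, ‖(ex ζ t : E3 → ℂ) x * v j x‖ ^ 2 :=
      Finset.single_le_sum (f := fun j => ∫ x, ‖(ex ζ t : E3 → ℂ) x * v j x‖ ^ 2)
        (fun j _ => n1 j) (Finset.mem_univ j)
    linarith only [this, n2, c5, hC'0]
  · rw [setIntegral_eq_integral_of_forall_compl_eq_zero (fun x hx => by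
      simp [(hv _).der_zero _ x hx])]
    have : 0 ≤ ∑ j, ∫ x, ‖(ex ζ t : E3 → ℂ) x * v j x‖ ^ 2 := Finset.sum_nonneg fun j _ => n1 j
    linarith only [this, c5, hC'0]

end Vale.Agent.P136.TL
end
end

section

section

open MeasureTheory Filter Topology
open scoped ContDiff InnerProductSpace

namespace Vale.Agent.P136.TL

lemma DD_Kmul (ζ : Fin 3 → ℂ) (c : ℂ) (f : Sm) : DD ζ (K c * f) = K c * DD ζ f := by
  rw [← smul_eq_K, map_smul, smul_eq_K]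

lemma DD_one (ζ : Fin 3 → ℂ) : DD ζ (1 : Sm) = 0 := by
  rw [DD_K]
  simp [P_one]

/-- basic smooth functions attached to the first medium. -/
structure Med (lam mu : E3 → ℝ) (l m n s r nn : Sm) : Prop where
  hl : (l : E3 → ℂ) = cc lam
  hm : (m : E3 → ℂ) = cc mu
  hn : (n : E3 → ℂ) = cc fun y => (mu y)⁻¹
  hs : (s : E3 → ℂ) = cc fun y => √(mu y)
  mn : m * n = 1
  ss : s * s = m
  sr : s * r = 1
  nu : nn * (l + 2 * m) = 1

lemma exists_Med {lam mu : E3 → ℝ} (hl : ContDiff ℝ ∞ lam) (hm : ContDiff ℝ ∞ mu)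
    (p : ∀ x, 0 < mu x) (q : ∀ x, 0 < lam x + mu x) :
    ∃ n s r nn : Sm, Med lam mu (ofR lam hl) (ofR mu hm) n s r nn := by
  have h1 : ContDiff ℝ ∞ (fun y => (mu y)⁻¹) := hm.inv fun x => (p x).ne'
  have h2 : ContDiff ℝ ∞ (fun y => √(mu y)) := hm.sqrt fun x => (p x).ne'
  have h3 : ∀ x, √(mu x) ≠ 0 := fun x => (Real.sqrt_pos.mpr (p x)).ne'
  have h4 : ContDiff ℝ ∞ (fun y => (√(mu y))⁻¹) := h2.inv h3
  have q' : ∀ x, lam x + 2 * mu x ≠ 0 := fun x => by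
    have := p x
    have := q x
    linarith
  have h5 : ContDiff ℝ ∞ (fun y => (lam y + 2 * mu y)⁻¹) :=
    (hl.add (contDiff_const.mul hm)).inv q'
  refine ⟨ofR _ h1, ofR _ h2, ofR _ h4, ofR _ h5, ⟨rfl, rfl, rfl, rfl, ?_, ?_, ?_, ?_⟩⟩
  · apply Subtype.ext
    funext x
    simp only [Subalgebra.coe_mul, Pi.mul_apply, ofR_apply, Subalgebra.coe_one, Pi.one_apply]
    rw [← Complex.ofReal_mul, mul_inv_cancel₀ (p x).ne', Complex.ofReal_one]
  · apply Subtype.ext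
    funext x
    simp only [Subalgebra.coe_mul, Pi.mul_apply, ofR_apply]
    rw [← Complex.ofReal_mul, Real.mul_self_sqrt (p x).le]
  · apply Subtype.ext
    funext x
    simp only [Subalgebra.coe_mul, Pi.mul_apply, ofR_apply, Subalgebra.coe_one, Pi.one_apply]
    rw [← Complex.ofReal_mul, mul_inv_cancel₀ (h3 x), Complex.ofReal_one]
  · apply Subtype.ext
    funext x
    have e2 : ((2 : Sm) : E3 → ℂ) x = 2 := rfl
    simp only [Subalgebra.coe_mul, Pi.mul_apply, Subalgebra.coe_add, Pi.add_apply, ofR_apply,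
      Subalgebra.coe_one, Pi.one_apply, e2]
    rw [← Complex.ofReal_ofNat, ← Complex.ofReal_mul, ← Complex.ofReal_add, ← Complex.ofReal_mul,
      inv_mul_cancel₀ (q' x), Complex.ofReal_one]

section Med

variable {lam mu : E3 → ℝ} {l m n s r nn : Sm}

lemma Med.dmn (H : Med lam mu l m n s r nn) (ζ : Fin 3 → ℂ) :
    DD ζ m * n + m * DD ζ n = 0 := by
  rw [← DD_mul, H.mn, DD_one]

lemma Med.dss (H : Med lam mu l m n s r nn) (ζ : Fin 3 → ℂ) :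
    DD ζ s * s + s * DD ζ s = DD ζ m := by
  rw [← DD_mul, H.ss]

lemma Med.dsr (H : Med lam mu l m n s r nn) (ζ : Fin 3 → ℂ) :
    DD ζ s * r + s * DD ζ r = 0 := by
  rw [← DD_mul, H.sr, DD_one]

lemma ev_eq {f g : Sm} (h : f = g) (x : E3) : (f : E3 → ℂ) x = (g : E3 → ℂ) x := by rw [h]

lemma ev_mul (f g : Sm) (x : E3) :
    ((f * g : Sm) : E3 → ℂ) x = (f : E3 → ℂ) x * (g : E3 → ℂ) x := rfl
lemma ev_add (f g : Sm) (x : E3) :
    ((f + g : Sm) : E3 → ℂ) x = (f : E3 → ℂ) x + (g : E3 → ℂ) x := rfl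
lemma ev_one (x : E3) : ((1 : Sm) : E3 → ℂ) x = 1 := rfl
lemma ev_zero (x : E3) : ((0 : Sm) : E3 → ℂ) x = 0 := rfl
lemma ev_two (x : E3) : ((2 : Sm) : E3 → ℂ) x = 2 := rfl
/-- the amplitude `U` in `Sm`. -/
noncomputable def aU (ζ ζ' : Fin 3 → ℂ) (n r h G : Sm) (j : Fin 3) : Sm :=
  K (ζ j) * (n * G) + K (ζ' j) * (r * h)

/-- the amplitude system gives the transport equations. -/
lemma transport_of (hpos : ∀ x, 0 < mu x) (q : ∀ x, 0 < lam x + mu x)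
    (H : Med lam mu l m n s r nn) {ζ ζ' : Fin 3 → ℂ} (hζ : dot ζ ζ = 0) (hζζ' : dot ζ ζ' = 0)
    {R : ℝ} (h G z : Sm)
    (hS : Ssol ζ ζ' mu (fun x => 2 * (lam x + 2 * mu x) / (mu x * (lam x + mu x))) R h G z) :
    Transport ζ lam mu R (fun j => (aU ζ ζ' n r h G j : E3 → ℂ)) ((m * z * nn : Sm) : E3 → ℂ) := by
  intro x hx
  obtain ⟨s1, s2, s3⟩ := hS x hx
  have hmx : (m : E3 → ℂ) x = (mu x : ℂ) := congrFun H.hm x
  have hlx : (l : E3 → ℂ) x = (lam x : ℂ) := congrFun H.hl x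
  have hsx : (s : E3 → ℂ) x = ((√(mu x) : ℝ) : ℂ) := congrFun H.hs x
  have r1 := ev_eq H.mn x
  have r2 := ev_eq H.ss x
  have r3 := ev_eq H.sr x
  have r4 := ev_eq H.nu x
  have r5 := ev_eq (H.dmn ζ) x
  have r6 := ev_eq (H.dss ζ) x
  have r7 := ev_eq (H.dsr ζ) x
  have r8 := ev_eq (H.dss ζ') x
  simp only [ev_mul, ev_add, ev_one, ev_zero, ev_two] at r1 r2 r3 r4 r5 r6 r7 r8
  have e1 : Dz ζ (h : E3 → ℂ) x = (DD ζ h : E3 → ℂ) x := by rw [DD_coe]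
  have e2 : Dz ζ (G : E3 → ℂ) x = (DD ζ G : E3 → ℂ) x := by rw [DD_coe]
  have e3 : Dz ζ (z : E3 → ℂ) x = (DD ζ z : E3 → ℂ) x := by rw [DD_coe]
  have e4 : ∀ ξ, Dz ξ (cc fun y => √(mu y)) x = (DD ξ s : E3 → ℂ) x := by
    intro ξ; rw [DD_coe, H.hs]
  have e5 : ∀ ξ ξ', Dz ξ (Dz ξ' (cc fun y => (mu y)⁻¹)) x = (DD ξ (DD ξ' n) : E3 → ℂ) x := by
    intro ξ ξ'; rw [DD_coe, DD_coe, H.hn]
  have e6 : ∀ ξ, Dz ξ (cc mu) x = (DD ξ m : E3 → ℂ) x := by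
    intro ξ; rw [DD_coe, H.hm]
  rw [e1] at s1
  rw [e2, e4] at s2
  rw [e3, e5, e5] at s3
  have hνx : ∀ y, ((lam y + 2 * mu y : ℝ) : ℂ) ≠ 0 := fun y => by
    have h1 := hpos y
    have h2 := q y
    have : lam y + 2 * mu y ≠ 0 := by linarith
    exact_mod_cast this
  have hμx : ∀ y, ((mu y : ℝ) : ℂ) ≠ 0 := fun y => by exact_mod_cast (hpos y).ne'
  have hlmx : ((lam x + mu x : ℝ) : ℂ) ≠ 0 := by exact_mod_cast (q x).ne'
  have nnx : ∀ y, (nn : E3 → ℂ) y = (((lam y + 2 * mu y : ℝ) : ℂ))⁻¹ := by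
    intro y
    have h4 := ev_eq H.nu y
    simp only [ev_mul, ev_add, ev_one, ev_two] at h4
    have hmy : (m : E3 → ℂ) y = (mu y : ℂ) := congrFun H.hm y
    have hly : (l : E3 → ℂ) y = (lam y : ℂ) := congrFun H.hl y
    rw [hmy, hly] at h4
    apply eq_inv_of_mul_eq_one_left
    rw [← h4]
    push_cast
    ring
  have ha : (z : E3 → ℂ) x / ((2 * (lam x + 2 * mu x) / (mu x * (lam x + mu x)) : ℝ) : ℂ)
      = (z : E3 → ℂ) x * (m : E3 → ℂ) x * ((l : E3 → ℂ) x + (m : E3 → ℂ) x)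
        * (nn : E3 → ℂ) x / 2 := by
    rw [nnx, hmx, hlx]
    have h1 := hνx x
    have h2 := hμx x
    have h3 := hlmx
    push_cast at h1 h2 h3 ⊢
    field_simp
  rw [ha] at s2
  have hU : ∀ j, (aU ζ ζ' n r h G j : E3 → ℂ) x
      = ζ j * ((n : E3 → ℂ) x * (G : E3 → ℂ) x) + ζ' j * ((r : E3 → ℂ) x * (h : E3 → ℂ) x) :=
    fun j => rfl
  refine ⟨?_, ?_, ?_⟩
  · simp only [hU]
    simp only [dot, Fin.sum_univ_three] at hζ hζζ' ⊢
    linear_combination ((n : E3 → ℂ) x * (G : E3 → ℂ) x) * hζ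
      + ((r : E3 → ℂ) x * (h : E3 → ℂ) x) * hζζ'
  · intro j
    have h1 : Dz ζ (aU ζ ζ' n r h G j : E3 → ℂ) x
        = ζ j * ((DD ζ n : E3 → ℂ) x * (G : E3 → ℂ) x + (n : E3 → ℂ) x * (DD ζ G : E3 → ℂ) x)
        + ζ' j * ((DD ζ r : E3 → ℂ) x * (h : E3 → ℂ) x
          + (r : E3 → ℂ) x * (DD ζ h : E3 → ℂ) x) := by
      rw [← DD_coe]
      unfold aU
      rw [map_add, DD_Kmul, DD_Kmul, DD_mul, DD_mul]
      rfl
    have h2 : ∑ i, (aU ζ ζ' n r h G i : E3 → ℂ) x * pd i (cc mu) x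
        = (n : E3 → ℂ) x * (G : E3 → ℂ) x * (DD ζ m : E3 → ℂ) x
          + (r : E3 → ℂ) x * (h : E3 → ℂ) x * (DD ζ' m : E3 → ℂ) x := by
      rw [DD_coe, DD_coe, H.hm]
      simp only [hU, Dz, Fin.sum_univ_three]
      ring
    have h3 : ((m * z * nn : Sm) : E3 → ℂ) x
        = (m : E3 → ℂ) x * (z : E3 → ℂ) x * (nn : E3 → ℂ) x := rfl
    beta_reduce
    rw [h1, h2, h3, e6, hU, ← hmx, Complex.ofReal_add, ← hlx, ← hmx, s1, s2]
    linear_combination ζ j * (2 * (G : E3 → ℂ) x * r5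
      - (z : E3 → ℂ) x * (m : E3 → ℂ) x * ((l : E3 → ℂ) x + (m : E3 → ℂ) x)
        * (nn : E3 → ℂ) x * r1
      - 2 * (h : E3 → ℂ) x * (DD ζ' s : E3 → ℂ) x * r1
      + 2 * (h : E3 → ℂ) x * (DD ζ' s : E3 → ℂ) x * r3
      - (r : E3 → ℂ) x * (h : E3 → ℂ) x * r8)
      + ζ' j * (h : E3 → ℂ) x * (2 * (s : E3 → ℂ) x * r7 - 2 * (DD ζ r : E3 → ℂ) x * r2
        - (r : E3 → ℂ) x * r6)
  · have h1 : (fun y => (((lam y + 2 * mu y) / mu y : ℝ) : ℂ) * ((m * z * nn : Sm) : E3 → ℂ) y)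
        = (z : E3 → ℂ) := by
      funext y
      have hmy : (m : E3 → ℂ) y = (mu y : ℂ) := congrFun H.hm y
      have h2 : ((m * z * nn : Sm) : E3 → ℂ) y
        = (m : E3 → ℂ) y * (z : E3 → ℂ) y * (nn : E3 → ℂ) y := rfl
      rw [h2, nnx, hmy]
      have h3 := hνx y
      have h4 := hμx y
      rw [Complex.ofReal_div]
      field_simp
    rw [h1, e3, s3]
    have h5 : ∑ j, Dz ζ (pd j (cc fun y => (mu y)⁻¹)) x * (aU ζ ζ' n r h G j : E3 → ℂ) x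
        = (DD ζ (DD ζ n) : E3 → ℂ) x * ((n : E3 → ℂ) x * (G : E3 → ℂ) x)
          + (DD ζ (DD ζ' n) : E3 → ℂ) x * ((r : E3 → ℂ) x * (h : E3 → ℂ) x) := by
      have h6 : ∀ j, Dz ζ (pd j (cc fun y => (mu y)⁻¹)) x = (DD ζ (P j n) : E3 → ℂ) x := by
        intro j
        rw [DD_coe, P_coe, H.hn]
      have h7 : ∀ ξ, (DD ζ (DD ξ n) : E3 → ℂ) x = ∑ j, ξ j * (DD ζ (P j n) : E3 → ℂ) x := by
        intro ξ
        rw [DD_K ξ, map_sum]
        simp only [DD_Kmul, Fin.sum_univ_three, ev_add, ev_mul, K_apply]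
      simp only [h6, hU, h7, Fin.sum_univ_three]
      ring
    rw [h5, ← hmx, ← hsx]
    linear_combination - (DD ζ (DD ζ n) : E3 → ℂ) x * (G : E3 → ℂ) x * r1
      + (DD ζ (DD ζ' n) : E3 → ℂ) x * (h : E3 → ℂ) x * (-(s : E3 → ℂ) x * r3
        + (r : E3 → ℂ) x * r2)

end Med

end Vale.Agent.P136.TL
end
end

section

section

open MeasureTheory Filter Topology
open scoped ContDiff InnerProductSpace

namespace Vale.Agent.P136.TL

section functional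

variable {Ω : Set E3} (hb : Bornology.IsBounded Ω)

lemma Tm_add {a b : E3 → ℂ} (ha : MemLp a 2 (volume.restrict Ω))
    (hb' : MemLp b 2 (volume.restrict Ω))
    (hab : MemLp (fun x => a x + b x) 2 (volume.restrict Ω)) :
    Tm Ω hb (fun x => a x + b x) hab = Tm Ω hb a ha + Tm Ω hb b hb' := by
  apply LinearMap.ext
  intro f
  rw [LinearMap.add_apply, Tm_apply, Tm_apply, Tm_apply, ← integral_add (tm_int hb ha f)
    (tm_int hb hb' f)]
  congr 1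
  funext x
  ring

lemma Cf_add_left (S T : Fin 3 → Fin 3 → (Sm →ₗ[ℂ] ℂ)) (l m : Sm) (g : Fin 3 → Sm) :
    Cf (fun i j => S i j + T i j) l m g = Cf S l m g + Cf T l m g := by
  unfold Cf
  simp only [LinearMap.add_apply, Finset.sum_add_distrib]
  ring

lemma Cf_sub_coef (T : Fin 3 → Fin 3 → (Sm →ₗ[ℂ] ℂ)) (l₁ m₁ l₂ m₂ : Sm) (g : Fin 3 → Sm) :
    Cf T (l₁ - l₂) (m₁ - m₂) g = Cf T l₁ m₁ g - Cf T l₂ m₂ g := by
  unfold Cf
  simp only [sub_mul, map_sub, Finset.sum_sub_distrib]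
  ring

/-- the identity of the transferred difference in functional form. -/
lemma hC_of {lam₁ mu₁ lam₂ mu₂ : E3 → ℝ} (hl₁ : ContDiff ℝ ∞ lam₁) (hm₁ : ContDiff ℝ ∞ mu₁)
    (hl₂ : ContDiff ℝ ∞ lam₂) (hm₂ : ContDiff ℝ ∞ mu₂) {du dv : Fin 3 → Fin 3 → E3 → ℂ}
    (hdu : ∀ i j, MemLp (du i j) 2 (volume.restrict Ω))
    (hdv : ∀ i j, MemLp (dv i j) 2 (volume.restrict Ω))
    (htr : ∀ g : Fin 3 → E3 → ℂ, (∀ j, ContDiff ℝ ∞ (g j)) →
          cform Ω lam₂ mu₂ (fun i j x => du i j x + dv i j x) (fun i j => pd i (g j)) =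
          cform Ω lam₁ mu₁ du (fun i j => pd i (g j))) (g : Fin 3 → Sm) :
    Cf (fun i j => Tm Ω hb (dv i j) (hdv i j)) (ofR lam₂ hl₂) (ofR mu₂ hm₂) g =
      Cf (fun i j => Tm Ω hb (du i j) (hdu i j)) (ofR lam₁ hl₁ - ofR lam₂ hl₂)
        (ofR mu₁ hm₁ - ofR mu₂ hm₂) g := by
  have h := htr (fun j => (g j : E3 → ℂ)) (fun j => sm_cd (g j))
  have hs : ∀ i j, MemLp (fun x => du i j x + dv i j x) 2 (volume.restrict Ω) := fun i j =>
    (hdu i j).add (hdv i j)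
  have h1 := cform_Cf hb hl₂ hm₂ (G := fun i j x => du i j x + dv i j x) hs g
  have h2 := cform_Cf hb hl₁ hm₁ hdu g
  have h' : cform Ω lam₂ mu₂ (fun i j x => du i j x + dv i j x)
      (fun i j => (P i (g j) : E3 → ℂ)) =
      cform Ω lam₁ mu₁ du (fun i j => (P i (g j) : E3 → ℂ)) := h
  rw [h1, h2] at h'
  have h3 : (fun i j => Tm Ω hb (fun x => du i j x + dv i j x) (hs i j)) =
      fun i j => Tm Ω hb (du i j) (hdu i j) + Tm Ω hb (dv i j) (hdv i j) := by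
    funext i j
    exact Tm_add hb (hdu i j) (hdv i j) (hs i j)
  rw [h3, Cf_add_left] at h'
  rw [Cf_sub_coef]
  linear_combination h'

lemma IO_of_bd {lam₁ lam₂ : E3 → ℝ} (hl₁ : ContDiff ℝ ∞ lam₁) (hl₂ : ContDiff ℝ ∞ lam₂)
    (h : ∀ x ∈ frontier Ω, lam₁ x = lam₂ x) : ofR lam₁ hl₁ - ofR lam₂ hl₂ ∈ IO Ω := by
  intro x hx
  show (ofR lam₁ hl₁ : E3 → ℂ) x - (ofR lam₂ hl₂ : E3 → ℂ) x = 0
  rw [ofR_apply, ofR_apply, h x hx, sub_self]

lemma P_IO_of_bd {lam₁ lam₂ : E3 → ℝ} (hl₁ : ContDiff ℝ ∞ lam₁) (hl₂ : ContDiff ℝ ∞ lam₂)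
    (h : ∀ x ∈ frontier Ω, fderiv ℝ lam₁ x = fderiv ℝ lam₂ x) (i : Fin 3) :
    P i (ofR lam₁ hl₁ - ofR lam₂ hl₂) ∈ IO Ω := by
  intro x hx
  rw [map_sub]
  show pd i (fun y => ((lam₁ y : ℝ) : ℂ)) x - pd i (fun y => ((lam₂ y : ℝ) : ℂ)) x = 0
  rw [pd_ofReal ((hl₁.differentiable (by simp)) x), pd_ofReal ((hl₂.differentiable (by simp)) x)]
  unfold pd
  rw [h x hx, sub_self]

/-- strong convergence of the pairings. -/
lemma strong_lim {F : Filter ℕ} {w : ℕ → E3 → ℂ} {e : ℕ → Sm} {U : Sm} {c : ℕ → ℝ}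
    (hw : ∀ n, MemLp (w n) 2 (volume.restrict Ω))
    (hc : Tendsto c F (𝓝 0))
    (h : ∀ n, ∫ x in Ω, ‖(e n : E3 → ℂ) x * w n x - (U : E3 → ℂ) x‖ ^ 2 ≤ c n) (η : Sm) :
    Tendsto (fun n => Tm Ω hb (w n) (hw n) (e n * η)) F (𝓝 (om Ω hb (U * η))) := by
  rw [tendsto_iff_norm_sub_tendsto_zero]
  have h0 : Tendsto (fun n => Real.sqrt (c n * ∫ x in Ω, ‖(η : E3 → ℂ) x‖ ^ 2)) F (𝓝 0) := by
    have := (hc.mul_const (∫ x in Ω, ‖(η : E3 → ℂ) x‖ ^ 2)).sqrt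
    simpa using this
  refine squeeze_zero (fun _ => norm_nonneg _) (fun n => ?_) h0
  apply Real.le_sqrt_of_sq_le
  have m1 : MemLp (fun x => (e n : E3 → ℂ) x * w n x - (U : E3 → ℂ) x) 2 (volume.restrict Ω) :=
    (memLp_mul_cont hb (sm_cont (e n)) (hw n)).sub (memLp_cont hb (sm_cont U))
  have m2 : MemLp (η : E3 → ℂ) 2 (volume.restrict Ω) := memLp_cont hb (sm_cont η)
  have e1 : Tm Ω hb (w n) (hw n) (e n * η) - om Ω hb (U * η)
      = ∫ x in Ω, ((e n : E3 → ℂ) x * w n x - (U : E3 → ℂ) x) * (η : E3 → ℂ) x := by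
    unfold om
    rw [Tm_apply, Tm_apply, ← integral_sub (tm_int hb (hw n) _)
      (tm_int hb (cont_memLp_restrict hb continuous_const) _)]
    congr 1
    funext x
    simp only [ev_mul]
    ring
  rw [e1]
  refine (csC m1 m2).trans ?_
  exact mul_le_mul_of_nonneg_right (h n) (integral_nonneg fun _ => by positivity)

lemma weak_lim {F : Filter ℕ} {w : ℕ → E3 → ℂ} {e : ℕ → Sm} {V : E3 → ℂ}
    (hw : ∀ n, MemLp (w n) 2 (volume.restrict Ω)) (hV : MemLp V 2 (volume.restrict Ω))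
    (h : ∀ η : E3 → ℂ, MemLp η 2 (volume.restrict Ω) →
      Tendsto (fun n => ∫ x in Ω, ((e n : E3 → ℂ) x * w n x) * η x) F
        (𝓝 (∫ x in Ω, V x * η x))) (η : Sm) :
    Tendsto (fun n => Tm Ω hb (w n) (hw n) (e n * η)) F (𝓝 (Tm Ω hb V hV η)) := by
  refine (h η (memLp_cont hb (sm_cont η))).congr fun n => ?_
  rw [Tm_apply]
  congr 1
  funext x
  simp only [ev_mul]
  ring

lemma sum_Tm {dw : Fin 3 → Fin 3 → E3 → ℂ} (hdw : ∀ i j, MemLp (dw i j) 2 (volume.restrict Ω))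
    {q : E3 → ℂ} (hq : MemLp q 2 (volume.restrict Ω))
    (h : ∀ᵐ x ∂(volume.restrict Ω), q x = ∑ i, dw i i x) (η : Sm) :
    ∑ i, Tm Ω hb (dw i i) (hdw i i) η = Tm Ω hb q hq η := by
  simp only [Tm_apply]
  rw [← integral_finsetSum _ fun i _ => tm_int hb (hdw i i) η]
  apply integral_congr_ae
  filter_upwards [h] with x hx
  rw [hx, Finset.sum_mul]

end functional

lemma aU_coe {lam mu : E3 → ℝ} {l m n s r nn : Sm}
    (H : Med lam mu l m n s r nn) (ζ ζ' : Fin 3 → ℂ) (h G : Sm) (j : Fin 3) :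
    (aU ζ ζ' n r h G j : E3 → ℂ) = ampU ζ ζ' mu h G j := by
  funext x
  have h1 : (aU ζ ζ' n r h G j : E3 → ℂ) x
      = ζ j * ((n : E3 → ℂ) x * (G : E3 → ℂ) x) + ζ' j * ((r : E3 → ℂ) x * (h : E3 → ℂ) x) :=
    rfl
  have h2 : (n : E3 → ℂ) x = ((mu x : ℝ) : ℂ)⁻¹ := by
    rw [H.hn]
    show (((mu x)⁻¹ : ℝ) : ℂ) = _
    rw [Complex.ofReal_inv]
  have h3 : (r : E3 → ℂ) x = ((√(mu x) : ℝ) : ℂ)⁻¹ := by
    have h4 := ev_eq H.sr x
    simp only [ev_mul, ev_one] at h4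
    rw [H.hs] at h4
    exact eq_inv_of_mul_eq_one_right h4
  rw [h1, h2, h3]
  unfold ampU
  ring

lemma ad_coe {lam mu : E3 → ℝ} {l m n s r nn : Sm}
    (H : Med lam mu l m n s r nn) (z : Sm) :
    ((m * z * nn : Sm) : E3 → ℂ) = ampd lam mu z := by
  funext x
  have h1 : ((m * z * nn : Sm) : E3 → ℂ) x
    = (m : E3 → ℂ) x * (z : E3 → ℂ) x * (nn : E3 → ℂ) x := rfl
  have nnx : (nn : E3 → ℂ) x = (((lam x + 2 * mu x : ℝ) : ℂ))⁻¹ := by
    have h4 := ev_eq H.nu x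
    simp only [ev_mul, ev_add, ev_one, ev_two] at h4
    have hmy : (m : E3 → ℂ) x = (mu x : ℂ) := congrFun H.hm x
    have hly : (l : E3 → ℂ) x = (lam x : ℂ) := congrFun H.hl x
    rw [hmy, hly] at h4
    apply eq_inv_of_mul_eq_one_left
    rw [← h4]
    push_cast
    ring
  have hmx : (m : E3 → ℂ) x = (mu x : ℂ) := congrFun H.hm x
  rw [h1, nnx, hmx]
  unfold ampd
  ring

/-- removal of the terms which vanish by the divergence relation. -/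
lemma T1_simp {ζ ζ' : Fin 3 → ℂ} (hζ : dot ζ ζ = 0) (hζζ' : dot ζ ζ' = 0) (n r h G : Sm)
    (V : Fin 3 → (Sm →ₗ[ℂ] ℂ)) (o : Sm →ₗ[ℂ] ℂ) (m dm : Sm) (X Y : ℂ) (ψ : Fin 3 → Sm)
    (hZ : ∀ η, ∑ j, ζ j * V j η = 0)
    (h1 : (∑ j, V j (2 * m * DD ζ (ψ j) + DD ζ m * ψ j - P j m * (∑ k, K (ζ k) * ψ k)
            + K (ζ j) * ∑ k, P k (m * ψ k))) - X =
    (∑ j, o (aU ζ ζ' n r h G j * (2 * dm * DD ζ (ψ j) + DD ζ dm * ψ j
            - P j dm * (∑ k, K (ζ k) * ψ k) + K (ζ j) * ∑ k, P k (dm * ψ k)))) - Y) :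
    (∑ j, V j (2 * m * DD ζ (ψ j) + DD ζ m * ψ j - P j m * (∑ k, K (ζ k) * ψ k))) - X =
    (∑ j, o (aU ζ ζ' n r h G j * (2 * dm * DD ζ (ψ j) + DD ζ dm * ψ j
            - P j dm * (∑ k, K (ζ k) * ψ k)))) - Y := by
  have e1 : ∑ j, K (ζ j) * aU ζ ζ' n r h G j = 0 := by
    have a1 := congrArg K hζ
    have a2 := congrArg K hζζ'
    simp only [dot, Fin.sum_univ_three, K_add, K_mul, K_zero] at a1 a2
    simp only [Fin.sum_univ_three, aU]
    linear_combination (n * G) * a1 + (r * h) * a2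
  have e2 : ∑ j, o (aU ζ ζ' n r h G j * (K (ζ j) * ∑ k, P k (dm * ψ k))) = 0 := by
    rw [← map_sum]
    have : ∑ j, aU ζ ζ' n r h G j * (K (ζ j) * ∑ k, P k (dm * ψ k))
        = (∑ j, K (ζ j) * aU ζ ζ' n r h G j) * ∑ k, P k (dm * ψ k) := by
      rw [Finset.sum_mul]
      exact Finset.sum_congr rfl fun j _ => by ring
    rw [this, e1, zero_mul, map_zero]
  have e3 : ∑ j, V j (K (ζ j) * ∑ k, P k (m * ψ k)) = 0 := by
    simp only [lin_K]
    exact hZ _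
  have e4 : ∀ j, V j (2 * m * DD ζ (ψ j) + DD ζ m * ψ j - P j m * (∑ k, K (ζ k) * ψ k)
            + K (ζ j) * ∑ k, P k (m * ψ k)) =
      V j (2 * m * DD ζ (ψ j) + DD ζ m * ψ j - P j m * (∑ k, K (ζ k) * ψ k))
        + V j (K (ζ j) * ∑ k, P k (m * ψ k)) := fun j => map_add _ _ _
  have e5 : ∀ j, o (aU ζ ζ' n r h G j * (2 * dm * DD ζ (ψ j) + DD ζ dm * ψ j
            - P j dm * (∑ k, K (ζ k) * ψ k) + K (ζ j) * ∑ k, P k (dm * ψ k))) =
      o (aU ζ ζ' n r h G j * (2 * dm * DD ζ (ψ j) + DD ζ dm * ψ j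
            - P j dm * (∑ k, K (ζ k) * ψ k)))
        + o (aU ζ ζ' n r h G j * (K (ζ j) * ∑ k, P k (dm * ψ k))) := fun j => by
    rw [← map_add, ← mul_add]
  simp only [e4, e5] at h1
  rw [Finset.sum_add_distrib, Finset.sum_add_distrib, e2, e3, add_zero, add_zero] at h1
  exact h1

/-- the conclusion of `TLS` for one amplitude. -/
def Concl (Ω : Set E3) (mu₁ a₁ mu₂ a₂ : E3 → ℝ) (ζ ζ' : Fin 3 → ℂ) (h G z : E3 → ℂ) : Prop :=
  ∃ XG Xz : E3 → ℂ, MemLp XG 2 (volume : Measure E3) ∧ MemLp Xz 2 (volume : Measure E3) ∧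
      (∀ x, x ∉ Ω → XG x = 0) ∧ (∀ x, x ∉ Ω → Xz x = 0) ∧
      (∀ ψ : E3 → ℂ, ContDiff ℝ ∞ ψ → (∫ x, XG x * Dz ζ ψ x) =
        (∫ x, Xz x / a₂ x * ψ x) +
        (∫ x in Ω, (z x / a₂ x - z x / a₁ x + h x * Dz ζ' (cc fun y => √(mu₂ y)) x
          - h x * Dz ζ' (cc fun y => √(mu₁ y)) x) * ψ x)) ∧
      (∀ ψ : E3 → ℂ, ContDiff ℝ ∞ ψ → (∫ x, Xz x * Dz ζ ψ x) =
        - (∫ x, Dz ζ (Dz ζ (cc fun y => (mu₂ y)⁻¹)) x * XG x * ψ x) -
        (∫ x in Ω, ((Dz ζ (Dz ζ (cc fun y => (mu₂ y)⁻¹)) x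
            - Dz ζ (Dz ζ (cc fun y => (mu₁ y)⁻¹)) x) * G x
          + h x * (√(mu₂ x) * Dz ζ (Dz ζ' (cc fun y => (mu₂ y)⁻¹)) x
            - √(mu₁ x) * Dz ζ (Dz ζ' (cc fun y => (mu₁ y)⁻¹)) x)) * ψ x))

theorem TL_main (hTLB : TLB_statement) (hCGO : CGO1_statement) (hfin : TLfin_statement)
    {Ω : Set E3} (ho : IsOpen Ω) (hb : Bornology.IsBounded Ω) {lam₁ mu₁ lam₂ mu₂ : E3 → ℝ}
    (hA1 : Admissible Ω lam₁ mu₁) (hA2 : Admissible Ω lam₂ mu₂)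
    (p1 : ∀ x, 0 < mu₁ x) (q1 : ∀ x, 0 < lam₁ x + mu₁ x)
    (p2 : ∀ x, 0 < mu₂ x) (q2 : ∀ x, 0 < lam₂ x + mu₂ x)
    (hDN : SameDN Ω lam₁ mu₁ lam₂ mu₂)
    (hbd : ∀ x ∈ frontier Ω, mu₁ x = mu₂ x ∧ lam₁ x = lam₂ x ∧
      fderiv ℝ mu₁ x = fderiv ℝ mu₂ x ∧ fderiv ℝ lam₁ x = fderiv ℝ lam₂ x)
    {ζ ζ' : Fin 3 → ℂ} (hζ : dot ζ ζ = 0) (hζζ' : dot ζ ζ' = 0) (hζ' : dot ζ' ζ' ≠ 0)
    (hζ0 : ζ ≠ 0) {R : ℝ} (hR : 0 < R)
    (hcl : closure Ω ⊆ Metric.ball 0 R) (h G z : Sm)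
    (hS : Ssol ζ ζ' mu₁ (fun x => 2 * (lam₁ x + 2 * mu₁ x) / (mu₁ x * (lam₁ x + mu₁ x)))
      (4 * R) h G z) :
    Concl Ω mu₁ (fun x => 2 * (lam₁ x + 2 * mu₁ x) / (mu₁ x * (lam₁ x + mu₁ x)))
      mu₂ (fun x => 2 * (lam₂ x + 2 * mu₂ x) / (mu₂ x * (lam₂ x + mu₂ x))) ζ ζ' h G z := by
  obtain ⟨n, s, r, nn, H⟩ := exists_Med hA1.lam_smooth hA1.mu_smooth p1 q1
  obtain ⟨l₁, hl₁⟩ : ∃ l₁, l₁ = ofR lam₁ hA1.lam_smooth := ⟨_, rfl⟩
  obtain ⟨m₁, hm₁⟩ : ∃ m₁, m₁ = ofR mu₁ hA1.mu_smooth := ⟨_, rfl⟩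
  have hTr := transport_of p1 q1 H hζ hζζ' h G z hS
  obtain ⟨M, T, hdata⟩ := exists_data hTLB hCGO ho hb hA1 hA2 p1 q1 p2 q2 hDN hbd hζ hζ0 hR hcl
    (fun j => aU ζ ζ' n r h G j) (ofR mu₁ hA1.mu_smooth * z * nn) hTr
  obtain ⟨t, ht⟩ : ∃ t : ℕ → ℝ, ∀ k, t k = max T 0 + k := ⟨_, fun k => rfl⟩
  have htT : ∀ k, T ≤ t k := fun k => by
    rw [ht]
    have h1 := le_max_left T 0
    have h2 : (0 : ℝ) ≤ k := Nat.cast_nonneg k
    linarith
  have htp : ∀ k, 0 < t k := fun k => (hdata (t k) (htT k)).1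
  choose u du p v dv hD using fun k => (hdata (t k) (htT k)).2
  obtain ⟨F, hF⟩ : ∃ F : Ultrafilter ℕ, (F : Filter ℕ) ≤ atTop :=
    ⟨Ultrafilter.of atTop, Ultrafilter.of_le _⟩
  have mv : ∀ k j, MemLp (v k j) 2 (volume.restrict Ω) := fun k j =>
    ((hD k).hv j).val_mem.restrict _
  have mdv : ∀ k i j, MemLp (dv k i j) 2 (volume.restrict Ω) := fun k i j =>
    (((hD k).hv j).der_mem i).restrict _
  have mq : ∀ k, MemLp (fun x => ∑ i, dv k i i x) 2 (volume.restrict Ω) := fun k =>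
    memLp_finsetSum _ fun i _ => mdv k i i
  choose V hV hVl using fun j => weak_limit_L2 (μ := volume.restrict Ω) F
    (fun k x => (ex ζ (t k) : E3 → ℂ) x * v k j x)
    (fun k => memLp_mul_cont hb (sm_cont _) (mv k j)) M (fun k => (hD k).cv j)
  obtain ⟨Q, hQ, hQl⟩ := weak_limit_L2 (μ := volume.restrict Ω) F
    (fun k x => (ex ζ (t k) : E3 → ℂ) x * ∑ i, dv k i i x)
    (fun k => memLp_mul_cont hb (sm_cont _) (mq k)) M (fun k => (hD k).cq)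
  have htlim : Tendsto t atTop atTop := by
    have : t = fun k : ℕ => max T 0 + (k : ℝ) := funext ht
    rw [this]
    exact tendsto_atTop_add_const_left _ _ tendsto_natCast_atTop_atTop
  have hinv : Tendsto (fun k => ((t k : ℝ) : ℂ)⁻¹) F (𝓝 0) := by
    have h1 : Tendsto (fun k => (t k)⁻¹) atTop (𝓝 0) := tendsto_inv_atTop_zero.comp htlim
    have h2 : Tendsto (fun k => (((t k)⁻¹ : ℝ) : ℂ)) atTop (𝓝 ((0 : ℝ) : ℂ)) :=
      (Complex.continuous_ofReal.tendsto 0).comp h1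
    simp only [Complex.ofReal_inv, Complex.ofReal_zero] at h2
    exact h2.mono_left hF
  have hne : ∀ᶠ k in (F : Filter ℕ), ((t k : ℝ) : ℂ) ≠ 0 :=
    Eventually.of_forall fun k => by exact_mod_cast (htp k).ne'
  have hsq : Tendsto (fun k => M / (t k) ^ 2) F (𝓝 0) := by
    have h1 : Tendsto (fun k => (t k)⁻¹) atTop (𝓝 0) := tendsto_inv_atTop_zero.comp htlim
    have h2 := (h1.pow 2).const_mul M
    simp only [ne_eq, OfNat.ofNat_ne_zero, not_false_eq_true, zero_pow, mul_zero] at h2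
    refine (h2.congr fun k => ?_).mono_left hF
    rw [div_eq_mul_inv, inv_pow]
  have hVv : ∀ j η, Tendsto (fun k => Tm Ω hb (v k j) (mv k j) (ex ζ (t k) * η)) F
      (𝓝 (Tm Ω hb (V j) (hV j) η)) := fun j η =>
    weak_lim hb (fun k => mv k j) (hV j) (hVl j) η
  have hQv : ∀ η, Tendsto (fun k => ∑ i, Tm Ω hb (dv k i i) (mdv k i i) (ex ζ (t k) * η)) F
      (𝓝 (Tm Ω hb Q hQ η)) := by
    intro η
    have h1 := weak_lim hb (w := fun k x => ∑ i, dv k i i x) mq hQ hQl η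
    refine h1.congr fun k => ?_
    exact (sum_Tm hb (mdv k) (mq k) (Eventually.of_forall fun x => rfl) _).symm
  have hVu : ∀ j η, Tendsto (fun k => Tm Ω hb (u k j) ((hD k).mu j) (ex ζ (t k) * η)) F
      (𝓝 (om Ω hb (aU ζ ζ' n r h G j * η))) := fun j η =>
    strong_lim hb (fun k => (hD k).mu j) hsq (fun k => (hD k).cu j) η
  have hQu : ∀ η, Tendsto (fun k => ∑ i, Tm Ω hb (du k i i) ((hD k).mdu i i) (ex ζ (t k) * η)) F
      (𝓝 (om Ω hb ((ofR mu₁ hA1.mu_smooth * z * nn) * η))) := by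
    intro η
    have h1 := strong_lim hb (fun k => (hD k).mp) hsq (fun k => (hD k).cp) η
    refine h1.congr fun k => ?_
    exact (sum_Tm hb (hD k).mdu (hD k).mp (hD k).div _).symm
  have hIv : ∀ k, IBP (fun j => Tm Ω hb (v k j) (mv k j))
      (fun i j => Tm Ω hb (dv k i j) (mdv k i j)) ⊤ := by
    intro k i j η _
    exact ch10_ibp hb ((hD k).hv j) i η
  have hIu : ∀ k, IBP (fun j => Tm Ω hb (u k j) ((hD k).mu j))
      (fun i j => Tm Ω hb (du k i j) ((hD k).mdu i j)) (IO Ω) := by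
    intro k i j η hη
    exact (hD k).ibpu i j η hη
  have hCC : ∀ k g, Cf (fun i j => Tm Ω hb (dv k i j) (mdv k i j)) (ofR lam₂ hA2.lam_smooth)
      (ofR mu₂ hA2.mu_smooth) g = Cf (fun i j => Tm Ω hb (du k i j) ((hD k).mdu i j))
      (ofR lam₁ hA1.lam_smooth - ofR lam₂ hA2.lam_smooth)
      (ofR mu₁ hA1.mu_smooth - ofR mu₂ hA2.mu_smooth) g := fun k g =>
    hC_of hb hA1.lam_smooth hA1.mu_smooth hA2.lam_smooth hA2.mu_smooth (hD k).mdu (mdv k)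
      (hD k).tr g
  have hdm := IO_of_bd (Ω := Ω) hA1.mu_smooth hA2.mu_smooth (fun x hx => (hbd x hx).1)
  have hPdm := P_IO_of_bd (Ω := Ω) hA1.mu_smooth hA2.mu_smooth (fun x hx => (hbd x hx).2.2.1)
  have hee : ∀ k i, P i (ex ζ (t k)) = -(K ((t k : ℝ) : ℂ) * K (ζ i) * ex ζ (t k)) := fun k i =>
    P_ex ζ (t k) i
  have hZ : ∀ η, ∑ j, ζ j * Tm Ω hb (V j) (hV j) η = 0 := fun η =>
    lim_Z (F := F) (Tv := fun k j => Tm Ω hb (v k j) (mv k j))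
      (Tv' := fun k i j => Tm Ω hb (dv k i j) (mdv k i j))
      (Vv := fun j => Tm Ω hb (V j) (hV j)) hinv hne hee hIv hVv hQv η
  have hT1 := lim_T1 (F := F) (Tv := fun k j => Tm Ω hb (v k j) (mv k j))
      (Tv' := fun k i j => Tm Ω hb (dv k i j) (mdv k i j))
      (Tu := fun k j => Tm Ω hb (u k j) ((hD k).mu j))
      (Tu' := fun k i j => Tm Ω hb (du k i j) ((hD k).mdu i j))
      (Vv := fun j => Tm Ω hb (V j) (hV j))
      (Vu := fun j => (om Ω hb).comp (LinearMap.mulLeft ℂ (aU ζ ζ' n r h G j)))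
      (Qu := (om Ω hb).comp (LinearMap.mulLeft ℂ (ofR mu₁ hA1.mu_smooth * z * nn)))
      hinv hne hζ hee hIv hIu hCC hdm hVv hQv hVu hQu
  have hT2 := lim_T2 (F := F) (Tv := fun k j => Tm Ω hb (v k j) (mv k j))
      (Tv' := fun k i j => Tm Ω hb (dv k i j) (mdv k i j))
      (Tu := fun k j => Tm Ω hb (u k j) ((hD k).mu j))
      (Tu' := fun k i j => Tm Ω hb (du k i j) ((hD k).mdu i j))
      (Vv := fun j => Tm Ω hb (V j) (hV j))
      (Vu := fun j => (om Ω hb).comp (LinearMap.mulLeft ℂ (aU ζ ζ' n r h G j)))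
      (Qu := (om Ω hb).comp (LinearMap.mulLeft ℂ (ofR mu₁ hA1.mu_smooth * z * nn)))
      hinv hne hζ hee hIv hIu hCC hdm hPdm hVv hQv hVu hQu
  simp only [LinearMap.comp_apply, LinearMap.mulLeft_apply] at hT1 hT2
  have hcl4 : closure Ω ⊆ Metric.ball 0 (4 * R) :=
    hcl.trans (Metric.ball_subset_ball (by linarith))
  refine hfin Ω hb lam₁ mu₁ lam₂ mu₂ hA1.lam_smooth hA1.mu_smooth hA2.lam_smooth
    hA2.mu_smooth ho p1 q1 p2 q2 hbd ζ ζ' (4 * R) hζ hζζ' hζ' hζ0 hcl4 h G z (sm_cd h) (sm_cd G)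
    (sm_cd z) hS V Q hV hQ (fun j => aU ζ ζ' n r h G j) (ofR mu₁ hA1.mu_smooth * z * nn)
    (fun j => aU_coe H ζ ζ' h G j) (ad_coe H z) hZ ?_ ?_
  · intro ψ
    exact T1_simp hζ hζζ' n r h G _ _ _ _ _ _ ψ hZ (hT1 ψ)
  · intro χ
    exact hT2 χ

end Vale.Agent.P136.TL
end
end

section

section

open MeasureTheory Filter Topology
open scoped ContDiff InnerProductSpace

namespace Vale.Agent.P136.TL

lemma concl_empty {mu₁ a₁ mu₂ a₂ : E3 → ℝ} {ζ ζ' : Fin 3 → ℂ} {h G z : E3 → ℂ} :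
    Concl ∅ mu₁ a₁ mu₂ a₂ ζ ζ' h G z := by
  refine ⟨fun _ => 0, fun _ => 0, MemLp.zero, MemLp.zero, fun _ _ => rfl, fun _ _ => rfl, ?_, ?_⟩
  · intro ψ _
    simp
  · intro ψ _
    simp

lemma Dz_zero (f : E3 → ℂ) : Dz 0 f = fun _ => 0 := by
  funext x
  simp [Dz]

lemma concl_zero {Ω : Set E3} (ho : IsOpen Ω) (hb : Bornology.IsBounded Ω)
    {mu₁ a₁ mu₂ a₂ : E3 → ℝ} {ζ' : Fin 3 → ℂ} {h G z : E3 → ℂ} (ha1 : Continuous a₁)
    (ha2 : Continuous a₂) (h1 : ∀ x, a₁ x ≠ 0) (h2 : ∀ x, a₂ x ≠ 0)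
    (m1 : ContDiff ℝ ∞ fun y => √(mu₁ y)) (m2 : ContDiff ℝ ∞ fun y => √(mu₂ y))
    (hh : Continuous h) (hz : Continuous z) :
    Concl Ω mu₁ a₁ mu₂ a₂ 0 ζ' h G z := by
  have d1 : ∀ {f : E3 → ℝ}, ContDiff ℝ ∞ f → Continuous (Dz ζ' (cc f)) := by
    intro f hf
    have : Dz ζ' (cc f) = (DD ζ' (ofR f hf) : E3 → ℂ) := by rw [DD_coe]; rfl
    rw [this]
    exact sm_cont _
  have c1 : Continuous fun x => ((a₁ x : ℝ) : ℂ) := Complex.continuous_ofReal.comp ha1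
  have c2 : Continuous fun x => ((a₂ x : ℝ) : ℂ) := Complex.continuous_ofReal.comp ha2
  have n1 : ∀ x, ((a₁ x : ℝ) : ℂ) ≠ 0 := fun x => by exact_mod_cast h1 x
  have n2 : ∀ x, ((a₂ x : ℝ) : ℂ) ≠ 0 := fun x => by exact_mod_cast h2 x
  obtain ⟨g, hg⟩ : ∃ g : E3 → ℂ, g = fun x => z x / a₂ x - z x / a₁ x
      + h x * Dz ζ' (cc fun y => √(mu₂ y)) x - h x * Dz ζ' (cc fun y => √(mu₁ y)) x := ⟨_, rfl⟩
  have hgc : Continuous g := by
    rw [hg]
    exact (((hz.div c2 n2).sub (hz.div c1 n1)).add (hh.mul (d1 m2))).sub (hh.mul (d1 m1))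
  have hcont : Continuous fun x => -(((a₂ x : ℝ) : ℂ) * g x) := (c2.mul hgc).neg
  refine ⟨fun _ => 0, Ω.indicator fun x => -(((a₂ x : ℝ) : ℂ) * g x), MemLp.zero,
    (memLp_indicator_iff_restrict ho.measurableSet).mpr (memLp_cont hb hcont),
    fun _ _ => rfl, fun x hx => Set.indicator_of_notMem hx _, ?_, ?_⟩
  · intro ψ _
    simp only [zero_mul, integral_zero]
    have e1 : ∀ x, Ω.indicator (fun x => -(((a₂ x : ℝ) : ℂ) * g x)) x / ((a₂ x : ℝ) : ℂ) * ψ x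
        = Ω.indicator (fun x => -(g x * ψ x)) x := by
      intro x
      by_cases hx : x ∈ Ω
      · simp only [Set.indicator_of_mem hx]
        have := n2 x
        field_simp
      · simp only [Set.indicator_of_notMem hx]
        simp
    simp only [e1]
    rw [integral_indicator ho.measurableSet, integral_neg]
    have e2 : ∀ x, (z x / ((a₂ x : ℝ) : ℂ) - z x / ((a₁ x : ℝ) : ℂ)
        + h x * Dz ζ' (cc fun y => √(mu₂ y)) x
        - h x * Dz ζ' (cc fun y => √(mu₁ y)) x) * ψ x = g x * ψ x := by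
      intro x
      rw [hg]
    simp only [e2]
    ring
  · intro ψ _
    simp only [Dz_zero]
    simp

/-- the final statement of this part: everything reduces to the three inputs. -/
theorem TL_of (hTLB : TLB_statement) (hCGO : CGO1_statement) (hfin : TLfin_statement) :
    TL_statement := by
  intro Ω lam₁ mu₁ lam₂ mu₂ ho hb hA1 hA2 p1 q1 p2 q2 hDN hbd ζ ζ' R hζ hζζ' hζ' hcl h G z
    hh hG hz hS
  have key : Concl Ω mu₁ (fun x => 2 * (lam₁ x + 2 * mu₁ x) / (mu₁ x * (lam₁ x + mu₁ x)))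
      mu₂ (fun x => 2 * (lam₂ x + 2 * mu₂ x) / (mu₂ x * (lam₂ x + mu₂ x))) ζ ζ' h G z := by
    rcases Ω.eq_empty_or_nonempty with hΩ | hΩ
    · subst hΩ
      exact concl_empty
    by_cases hζ0 : ζ = 0
    · subst hζ0
      have pos : ∀ {l m : E3 → ℝ}, (∀ x, 0 < m x) → (∀ x, 0 < l x + m x) →
          ∀ x, 2 * (l x + 2 * m x) / (m x * (l x + m x)) ≠ 0 := by
        intro l m hm hl x
        have h1 := hm x
        have h2 := hl x
        have h3 : 0 < l x + 2 * m x := by linarith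
        (clear * - h3 h1 h2; positivity)
      have cont : ∀ {l m : E3 → ℝ}, ContDiff ℝ ∞ l → ContDiff ℝ ∞ m → (∀ x, 0 < m x) →
          (∀ x, 0 < l x + m x) →
          Continuous fun x => 2 * (l x + 2 * m x) / (m x * (l x + m x)) := by
        intro l m hl hm h1 h2
        refine Continuous.div ?_ ?_ fun x => (mul_pos (h1 x) (h2 x)).ne'
        · exact continuous_const.mul (hl.continuous.add (continuous_const.mul hm.continuous))
        · exact hm.continuous.mul (hl.continuous.add hm.continuous)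
      exact concl_zero ho hb (cont hA1.lam_smooth hA1.mu_smooth p1 q1)
        (cont hA2.lam_smooth hA2.mu_smooth p2 q2) (pos p1 q1) (pos p2 q2)
        (hA1.mu_smooth.sqrt fun x => (p1 x).ne') (hA2.mu_smooth.sqrt fun x => (p2 x).ne')
        hh.continuous hz.continuous
    · have hR : 0 < R := by
        obtain ⟨x, hx⟩ := hΩ
        have h1 := hcl (subset_closure hx)
        rw [Metric.mem_ball] at h1
        have := dist_nonneg (x := x) (y := (0 : E3))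
        linarith
      have hS' : Ssol ζ ζ' mu₁
          (fun x => 2 * (lam₁ x + 2 * mu₁ x) / (mu₁ x * (lam₁ x + mu₁ x))) (4 * (R / 4))
          ((⟨h, hh⟩ : Sm) : E3 → ℂ) ((⟨G, hG⟩ : Sm) : E3 → ℂ) ((⟨z, hz⟩ : Sm) : E3 → ℂ) := by
        rw [show 4 * (R / 4) = R by ring]
        exact hS
      exact TL_main hTLB hCGO hfin ho hb hA1 hA2 p1 q1 p2 q2 hDN hbd hζ hζζ' hζ' hζ0
        (R := R / 4) (by linarith)
        (hcl.trans (Metric.ball_subset_ball (by linarith))) ⟨h, hh⟩ ⟨G, hG⟩ ⟨z, hz⟩ hS'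
  exact key

end Vale.Agent.P136.TL
end
end

section

section

open MeasureTheory Filter Topology
open scoped ContDiff InnerProductSpace

namespace Vale.Agent.P136

theorem TLfull : TL_statement := TL.TL_of TLB CGO1 (TL.TLfin_of TL.TLfin3 UNIQ)

/-- Global uniqueness for the isotropic elasticity system in three dimensions. -/
theorem global_uniqueness (Ω : Set E3) (hΩ : SmoothDomain Ω) (lam₁ mu₁ lam₂ mu₂ : E3 → ℝ)
    (hA₁ : Admissible Ω lam₁ mu₁) (hA₂ : Admissible Ω lam₂ mu₂)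
    (hDN : SameDN Ω lam₁ mu₁ lam₂ mu₂) :
    ∀ x ∈ Ω, lam₁ x = lam₂ x ∧ mu₁ x = mu₂ x :=
  final_of TLfull Ω hΩ lam₁ mu₁ lam₂ mu₂ hA₁ hA₂ hDN

end Vale.Agent.P136
end
end

section

section

open MeasureTheory Filter Topology
open scoped ContDiff

namespace Vale.Agent.P136.Bridge

variable {Ω : Set E3}

lemma smoothDomain (h : Elasticity.SmoothDomain Ω) : SmoothDomain Ω where
  isOpen := h.isOpen
  isBounded := h.isBounded
  isConnected := h.isConnected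
  smooth_boundary := by
    intro x hx
    obtain ⟨U, hU, ρ, hρ, ⟨i, hi⟩, hy⟩ := h.smooth_boundary x hx
    obtain ⟨V, hVU, hV, hxV⟩ := mem_nhds_iff.1 hU
    refine ⟨V, ρ, hV, hxV, hρ, ?_, ?_⟩
    · intro h0
      apply hi
      unfold Elasticity.pd
      rw [h0]
      rfl
    · ext y
      constructor
      · rintro ⟨h1, h2⟩
        exact ⟨h2, (hy y (hVU h2)).1 h1⟩
      · rintro ⟨h1, h2⟩
        exact ⟨(hy y (hVU h1)).2 h2, h1⟩

lemma admissible {lam mu : E3 → ℝ} (h : Elasticity.Admissible Ω lam mu) :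
    Admissible Ω lam mu where
  lam_smooth := h.1
  mu_smooth := h.2.1
  mu_pos := fun x hx => (h.2.2 x hx).1
  bulk_pos := fun x hx => (h.2.2 x hx).2

/-- identification of the two presentations of `H¹(Ω; ℝ³)`. -/
noncomputable def toH1 (u : Elasticity.H1 Ω) : H1 Ω :=
  ⟨u.val, u.der, u.val_mem, u.der_mem, fun i j φ hφ => u.weak i j φ hφ⟩

/-- identification of the two presentations of `H¹(Ω; ℝ³)`. -/
noncomputable def ofH1 (u : H1 Ω) : Elasticity.H1 Ω :=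
  ⟨u.val, u.der, u.val_mem, u.der_mem, fun i j φ hφ => u.weak i j φ hφ⟩

lemma sameTrace_iff (u f : Elasticity.H1 Ω) :
    Elasticity.SameTrace u f ↔ SameTrace (toH1 u) (toH1 f) := by
  constructor
  · intro h
    have h' : ∀ n : ℕ, ∃ φ : Fin 3 → E3 → ℝ, (∀ j, IsTest Ω (φ j)) ∧
        (∀ j, (∫ x in Ω, (u.val j x - f.val j x - φ j x) ^ 2) < 1 / ((n : ℝ) + 1)) ∧
        (∀ i j, (∫ x in Ω, (u.der i j x - f.der i j x - pd i (φ j) x) ^ 2) <
          1 / ((n : ℝ) + 1)) := fun n => h (1 / ((n : ℝ) + 1)) (by positivity)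
    choose φ h1 h2 h3 using h'
    have hz : Tendsto (fun n : ℕ => 1 / ((n : ℝ) + 1)) atTop (𝓝 0) :=
      tendsto_one_div_add_atTop_nhds_zero_nat
    refine ⟨φ, h1, fun j => ?_, fun i j => ?_⟩
    · exact squeeze_zero (fun n => integral_nonneg fun x => sq_nonneg _)
        (fun n => (h2 n j).le) hz
    · exact squeeze_zero (fun n => integral_nonneg fun x => sq_nonneg _)
        (fun n => (h3 n i j).le) hz
  · rintro ⟨φ, h1, h2, h3⟩ ε hε
    have e2 : ∀ᶠ n in atTop, ∀ j, (∫ x in Ω, ((toH1 u).val j x - (toH1 f).val j x -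
        φ n j x) ^ 2) < ε := by
      rw [eventually_all]
      exact fun j => (h2 j).eventually (gt_mem_nhds hε)
    have e3 : ∀ᶠ n in atTop, ∀ i j, (∫ x in Ω, ((toH1 u).der i j x - (toH1 f).der i j x -
        pd i (φ n j) x) ^ 2) < ε := by
      rw [eventually_all]
      intro i
      rw [eventually_all]
      exact fun j => (h3 i j).eventually (gt_mem_nhds hε)
    obtain ⟨n, hn2, hn3⟩ := (e2.and e3).exists
    exact ⟨φ n, h1 n, hn2, hn3⟩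

lemma DN_iff (lam mu : E3 → ℝ) (f g : Elasticity.H1 Ω) (r : ℝ) :
    Elasticity.DN Ω lam mu f g r ↔ DN Ω lam mu (toH1 f) (toH1 g) r := by
  constructor
  · rintro ⟨u, h1, h2, h3⟩
    exact ⟨toH1 u, (sameTrace_iff u f).1 h1, h2, h3⟩
  · rintro ⟨u, h1, h2, h3⟩
    exact ⟨ofH1 u, (sameTrace_iff (ofH1 u) f).2 h1, h2, h3⟩

lemma sameDN {lam₁ mu₁ lam₂ mu₂ : E3 → ℝ} (h : Elasticity.SameDN Ω lam₁ mu₁ lam₂ mu₂) :
    SameDN Ω lam₁ mu₁ lam₂ mu₂ := by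
  intro f g r
  have := h (ofH1 f) (ofH1 g) r
  rw [DN_iff, DN_iff] at this
  exact this

end Vale.Agent.P136.Bridge
end
end
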